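import Crest.Agent.R338.Bar_Defs

/-! # Stage B: numerical inequalities.  Prefix helper lemmas with `bnum_`.
Throughout `1 ≤ B`, `10^7 B^8 ≤ r`, so `c * B^k ≤ r` for `c ≤ 10^7`, `k ≤ 8` (`pow_le_pow_right₀`), and `r^k ≤ r^l` for `k ≤ l`. -/

set_option autoImplicit false
set_option linter.dupNamespace false
set_option linter.unusedVariables false

noncomputable section

namespace Crest.Agent.R338

open Crest.Agent.Lib.PT Matrix Finset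

section field

variable {𝕜 : Type} [Field 𝕜] [LinearOrder 𝕜] [IsStrictOrderedRing 𝕜]

theorem bnum_le {B r : 𝕜} (hB : 1 ≤ B) (hr : 10 ^ 7 * B ^ 8 ≤ r) (c : 𝕜) (k : ℕ)
    (hc : c ≤ 10 ^ 7 := by norm_num) (hk : k ≤ 8 := by norm_num) : c * B ^ k ≤ r :=
  (mul_le_mul hc (pow_le_pow_right₀ hB hk) (by positivity) (by positivity)).trans hr

theorem bnum_one {B r : 𝕜} (hB : 1 ≤ B) (hr : 10 ^ 7 * B ^ 8 ≤ r) : 1 ≤ r := by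
  simpa using bnum_le hB hr 1 0

theorem bnum_pow {B r : 𝕜} (hB : 1 ≤ B) (hr : 10 ^ 7 * B ^ 8 ≤ r) (k l : ℕ)
    (h : k ≤ l := by norm_num) : r ^ k ≤ r ^ l :=
  pow_le_pow_right₀ (bnum_one hB hr) h

theorem par_std {n : ℕ} {B r : 𝕜} (hB : 1 ≤ B) (hr : 10 ^ 7 * B ^ 8 ≤ r) (hn : (n : 𝕜) ≤ B)
    {t : ℕ → ℕ → 𝕜} {ε : ℕ → 𝕜} (ht : ∀ i j, 0 ≤ t i j ∧ t i j ≤ B) (hε : ∀ u, |ε u| ≤ B) :
    Par (r ^ 6) (r ^ 7) (4 * n * r ^ 2) (r ^ 3) (sκ r t) (sε n r ε) := by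
  have r1 := bnum_one hB hr
  have r0 : 0 < r := by linarith
  have n0 : (0 : 𝕜) ≤ n := Nat.cast_nonneg n
  have h36 := bnum_pow hB hr 3 6
  have h26 := bnum_pow hB hr 2 6
  have h6 := bnum_le hB hr 6 1
  rw [pow_one] at h6
  refine ⟨by positivity, ?_, by positivity, ?_, by positivity, h36, fun i j => ?_, fun i j => ?_,
    fun u => ?_⟩
  · have h1 := bnum_le hB hr 2 0
    have h2 := bnum_pow hB hr 1 7
    rw [pow_one] at h2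
    rw [pow_zero, mul_one] at h1
    exact h1.trans h2
  · calc 4 * n * r ^ 2 ≤ r * r ^ 2 := by gcongr; linarith
      _ = r ^ 3 := by ring
      _ ≤ _ := h36
  · have := (ht i j).1
    unfold sκ
    positivity
  · have := (ht i j).2
    calc 2 * t i j * r ^ 2 ≤ r * r ^ 2 := by gcongr; linarith
      _ = r ^ 3 := by ring
      _ ≤ _ := h36
  · have h1 := abs_le.1 (hε u)
    have h2 : n * r ≤ B * r := by gcongr
    have h3 : B * 1 ≤ B * r := by gcongr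
    have h4 : 6 * B * r ≤ r * r := by gcongr
    have h5 : 0 ≤ n * r := by positivity
    unfold sε
    rw [abs_le]
    constructor <;> nlinarith [h1.1, h1.2]

end field

variable {n N N' B r : ℝ}

theorem num_rho (hB : 1 ≤ B) (hr : 10 ^ 7 * B ^ 8 ≤ r) (hn0 : 0 ≤ n) (hn : n ≤ B) : 9 * n ^ 2 ≤ r ^ 7 := by
  have h2 := bnum_pow hB hr 1 7
  rw [pow_one] at h2
  calc 9 * n ^ 2 ≤ 9 * B ^ 2 := by gcongr
    _ ≤ r := bnum_le hB hr 9 2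
    _ ≤ _ := h2

theorem num_eta (hB : 1 ≤ B) (hr : 10 ^ 7 * B ^ 8 ≤ r) (hn0 : 0 ≤ n) (hn : n ≤ B) (hN0 : 0 ≤ N)
    (hN : N ≤ B) : N * (r⁻¹ ^ 2 * (4 * n)) ≤ 1 := by
  have r1 := bnum_one hB hr
  have r0 : 0 < r := by linarith
  have h2 := bnum_pow hB hr 1 2
  rw [pow_one] at h2
  have h3 := bnum_le hB hr 4 2
  have e : N * (r⁻¹ ^ 2 * (4 * n)) = 4 * (N * n) / r ^ 2 := by field_simp
  rw [e, div_le_one (by positivity)]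
  calc 4 * (N * n) ≤ 4 * (B * B) := by gcongr
    _ ≤ _ := by nlinarith

theorem num_yes (hB : 1 ≤ B) (hr : 10 ^ 7 * B ^ 8 ≤ r) (hn0 : 0 ≤ n) (hn : n ≤ B) (hN0 : 0 ≤ N)
    (hN : N ≤ B) : 8 * N ^ 2 * (r⁻¹ ^ 2 * (4 * n)) * (4 * B ^ 2) ≤ 1 / 4 := by
  have r1 := bnum_one hB hr
  have r0 : 0 < r := by linarith
  have h2 := bnum_pow hB hr 1 2
  rw [pow_one] at h2
  have h3 := bnum_le hB hr 512 5
  have e : 8 * N ^ 2 * (r⁻¹ ^ 2 * (4 * n)) * (4 * B ^ 2) = 128 * (N ^ 2 * n * B ^ 2) / r ^ 2 := by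
    field_simp
    ring
  rw [e, div_le_iff₀ (by positivity)]
  calc 128 * (N ^ 2 * n * B ^ 2) ≤ 128 * (B ^ 2 * B * B ^ 2) := by gcongr
    _ ≤ _ := by nlinarith

/-- `swErr = 10 (324 n⁴ + 729 n⁶) / r`. -/
theorem num_sw (hB : 1 ≤ B) (hr : 10 ^ 7 * B ^ 8 ≤ r) (hn0 : 0 ≤ n) (hn : n ≤ B) (hN0 : 0 ≤ N')
    (hN : N' ≤ 19 * B ^ 2) :
    N' * swErr (9 * n ^ 2) (4 * r ^ 6) (r ^ 6 * r ^ 7) (r ^ 6 * (r ^ 7) ^ 2) ≤ 1 / 4 := by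
  have r1 := bnum_one hB hr
  have r0 : 0 < r := by linarith
  have h3 := bnum_le hB hr 800280 8
  have h4 : B ^ 4 ≤ B ^ 6 := pow_le_pow_right₀ hB (by norm_num)
  have e : N' * swErr (9 * n ^ 2) (4 * r ^ 6) (r ^ 6 * r ^ 7) (r ^ 6 * (r ^ 7) ^ 2) =
      N' * (10 * (324 * n ^ 4 + 729 * n ^ 6)) / r := by
    unfold swErr
    field_simp
    ring
  rw [e, div_le_iff₀ r0]
  calc N' * (10 * (324 * n ^ 4 + 729 * n ^ 6))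
      ≤ 19 * B ^ 2 * (10 * (324 * B ^ 4 + 729 * B ^ 6)) := by gcongr
    _ ≤ 19 * B ^ 2 * (10 * (324 * B ^ 6 + 729 * B ^ 6)) := by gcongr
    _ ≤ _ := by nlinarith

theorem num_big (hB : 1 ≤ B) (hr : 10 ^ 7 * B ^ 8 ≤ r) (hn0 : 0 ≤ n) (hn : n ≤ B) :
    8 * n ^ 2 * (2 * B * r ^ 2) + 2 * (6 * B ^ 3) ≤ 3 / 4 * r ^ 3 := by
  have r1 := bnum_one hB hr
  have r0 : 0 < r := by linarith
  have h2 := bnum_pow hB hr 0 2
  rw [pow_zero] at h2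
  have h3 := bnum_le hB hr 40 3
  calc 8 * n ^ 2 * (2 * B * r ^ 2) + 2 * (6 * B ^ 3 )
      ≤ 8 * B ^ 2 * (2 * B * r ^ 2) + 2 * (6 * B ^ 3) * r ^ 2 := by
        have : 2 * (6 * B ^ 3) * 1 ≤ 2 * (6 * B ^ 3) * r ^ 2 := by gcongr
        rw [mul_one] at this
        gcongr
    _ = 7 / 10 * (40 * B ^ 3) * r ^ 2 := by ring
    _ ≤ 3 / 4 * r * r ^ 2 := mul_le_mul_of_nonneg_right (by linarith) (by positivity)
    _ = _ := by ring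

/-- `busErr = 256 n⁵ / r² + 4096 n⁵ B² / r + 48 B³ n / r²`. -/
theorem num_bus (hB : 1 ≤ B) (hr : 10 ^ 7 * B ^ 8 ≤ r) (hn0 : 1 ≤ n) (hn : n ≤ B) (hN0 : 0 ≤ N)
    (hN : N ≤ B) :
    N * busErr (4 * n * r ^ 2) (64 * n ^ 4) (4 * n) (r ^ 6) (8 * n ^ 2 * (2 * B * r ^ 2)) r⁻¹ (r ^ 3)
      (6 * B ^ 3) ≤ 1 / 4 := by
  have r1 := bnum_one hB hr
  have r0 : 0 < r := by linarith
  have n0 : 0 < n := by linarith
  have h3 := bnum_le hB hr 17600 8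
  have h5 : B ^ 5 ≤ B ^ 7 := pow_le_pow_right₀ hB (by norm_num)
  have h4 : B ^ 4 ≤ B ^ 7 := pow_le_pow_right₀ hB (by norm_num)
  have e : N * busErr (4 * n * r ^ 2) (64 * n ^ 4) (4 * n) (r ^ 6) (8 * n ^ 2 * (2 * B * r ^ 2)) r⁻¹
      (r ^ 3) (6 * B ^ 3) =
      N * (256 * n ^ 5 / r + 4096 * n ^ 5 * B ^ 2 + 48 * B ^ 3 * n / r) / r := by
    unfold busErr
    field_simp
    ring
  rw [e, div_le_iff₀ r0]
  calc N * (256 * n ^ 5 / r + 4096 * n ^ 5 * B ^ 2 + 48 * B ^ 3 * n / r)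
      ≤ B * (256 * B ^ 5 / 1 + 4096 * B ^ 5 * B ^ 2 + 48 * B ^ 3 * B / 1) := by gcongr
    _ = B * (256 * B ^ 5 + 4096 * B ^ 7 + 48 * B ^ 4) := by ring
    _ ≤ B * (256 * B ^ 7 + 4096 * B ^ 7 + 48 * B ^ 7) := by gcongr
    _ ≤ _ := by nlinarith

/-- The bracket is `(36 n² + 81 n⁴) r⁶`. -/
theorem num_gap (hB : 1 ≤ B) (hr : 10 ^ 7 * B ^ 8 ≤ r) (hn0 : 0 ≤ n) (hn : n ≤ B) (hN0 : 0 ≤ N')
    (hN : N' ≤ 19 * B ^ 2) :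
    (9 * n ^ 2 * (4 * r ^ 6) + (9 * n ^ 2 * (r ^ 6 * r ^ 7)) ^ 2 / (r ^ 6 * (r ^ 7) ^ 2)) * N' +
      (2 * B + 1) ≤ r ^ 6 * (r ^ 7) ^ 2 := by
  have r1 := bnum_one hB hr
  have r0 : 0 < r := by linarith
  have h3 := bnum_le hB hr 2226 6
  have h4 : B ^ 2 ≤ B ^ 4 := pow_le_pow_right₀ hB (by norm_num)
  have h5 : B ^ 1 ≤ B ^ 6 := pow_le_pow_right₀ hB (by norm_num)
  have h6 := bnum_pow hB hr 0 6
  have h7 := bnum_pow hB hr 7 20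
  rw [pow_one] at h5
  rw [pow_zero] at h6
  have e : 9 * n ^ 2 * (4 * r ^ 6) + (9 * n ^ 2 * (r ^ 6 * r ^ 7)) ^ 2 / (r ^ 6 * (r ^ 7) ^ 2) =
      (36 * n ^ 2 + 81 * n ^ 4) * r ^ 6 := by
    field_simp
    ring
  have h8 : 2 * B + 1 ≤ 3 * B ^ 6 * r ^ 6 :=
    calc 2 * B + 1 ≤ 3 * B ^ 6 * 1 := by linarith
      _ ≤ _ := by gcongr
  rw [e]
  calc (36 * n ^ 2 + 81 * n ^ 4) * r ^ 6 * N' + (2 * B + 1)
      ≤ (36 * B ^ 2 + 81 * B ^ 4) * r ^ 6 * (19 * B ^ 2) + 3 * B ^ 6 * r ^ 6 := by gcongr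
    _ ≤ (36 * B ^ 4 + 81 * B ^ 4) * r ^ 6 * (19 * B ^ 2) + 3 * B ^ 6 * r ^ 6 := by gcongr
    _ = 2226 * B ^ 6 * r ^ 6 := by ring
    _ ≤ r * r ^ 6 := by gcongr
    _ = r ^ 7 := by ring
    _ ≤ r ^ 20 := h7
    _ = _ := by ring

end Crest.Agent.R338
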