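import Crest.Agent.R338.Bar_Site
import Crest.Agent.R338.Bar_Num

/-! # Stage B: the map is polynomial time and produces valid instances.  Prefix helper lemmas with `bpt_`. -/

set_option autoImplicit false
set_option linter.dupNamespace false
set_option linter.unusedVariables false

noncomputable section

namespace Crest.Agent.R338

open Crest.Agent.Lib.PT Matrix Finset

section pt

variable {α : Type} [Enc α] {n x y K : α → ℕ} {r : α → ℚ} {t : α → List (List ℚ)} {e : α → List ℚ}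

theorem bpt_sH (hr : PT r) (ht : PT t) (hx : PT x) (hy : PT y) :
    PT fun a => sH (r a) (ent (t a)) (x a) (y a) := by
  unfold sH bH sκ; fun_prop

theorem bpt_sV (hn : PT n) (hr : PT r) (hx : PT x) (hy : PT y) :
    PT fun a => sV (n a) (r a) (x a) (y a) := by
  unfold sV bV; fun_prop

theorem bpt_home (hx : PT x) (hy : PT y) : PT fun a => bHome (x a) (y a) := by
  unfold bHome; fun_prop

theorem bpt_F (hx : PT x) (hy : PT y) : PT fun a => bF (x a) (y a) := by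
  unfold bF bHome; fun_prop

theorem bpt_sE (hn : PT n) (hr : PT r) (ht : PT t) (he : PT e) (hx : PT x) (hy : PT y) :
    PT fun a => sE (n a) (r a) (ent (t a)) (fun u => (e a).getD u 0) (x a) (y a) := by
  unfold sE bE sκ sε bHome; fun_prop

theorem bpt_rowSq {f g h : α → ℕ → ℕ → ℚ} (hK : PT K) (hf : PT fun p : α × ℕ × ℕ => f p.1 p.2.1 p.2.2)
    (hg : PT fun p : α × ℕ × ℕ => g p.1 p.2.1 p.2.2) (hh : PT fun p : α × ℕ × ℕ => h p.1 p.2.1 p.2.2)
    (hx : PT x) (hy : PT y) : PT fun a => rowSq (K a) (f a) (g a) (h a) (x a) (y a) := by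
  have f1 : PT fun a => f a (x a) (y a) := hf.comp (f := fun a => (a, x a, y a)) (by fun_prop)
  have f2 : PT fun a => f a (x a - 1) (y a) := hf.comp (f := fun a => (a, x a - 1, y a)) (by fun_prop)
  have g1 : PT fun a => g a (x a) (y a) := hg.comp (f := fun a => (a, x a, y a)) (by fun_prop)
  have g2 : PT fun a => g a (x a) (y a - 1) := hg.comp (f := fun a => (a, x a, y a - 1)) (by fun_prop)
  have h1 : PT fun a => h a (x a) (y a) := hh.comp (f := fun a => (a, x a, y a)) (by fun_prop)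
  unfold rowSq
  refine PT.rat_add (PT.rat_add (PT.rat_add (PT.rat_add ?_ ?_) ?_) ?_) ?_
  · exact PT.rat_pow h1 (by fun_prop) (by fun_prop)
  · exact PT.ite (by fun_prop) (PT.rat_pow f1 (by fun_prop) (by fun_prop)) (by fun_prop)
  · exact PT.ite (by fun_prop) (PT.rat_pow f2 (by fun_prop) (by fun_prop)) (by fun_prop)
  · exact PT.ite (by fun_prop) (PT.rat_pow g1 (by fun_prop) (by fun_prop)) (by fun_prop)
  · exact PT.ite (by fun_prop) (PT.rat_pow g2 (by fun_prop) (by fun_prop)) (by fun_prop)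

theorem bpt_shift (hn : PT n) (hb : PB n) (hr : PT r) (ht : PT t) (he : PT e) :
    PT fun a => shift (n a) (r a) (ent (t a)) (fun u => (e a).getD u 0) := by
  unfold shift
  refine PT.rat_mul (by fun_prop) ?_
  refine PT.sum_range (by fun_prop) (by fun_prop) (by fun_prop) ?_
  refine PT.sum_range (by fun_prop) (by fun_prop) (by fun_prop) ?_
  refine PT.ite (bpt_F (by fun_prop) (by fun_prop)) ?_ (by fun_prop)
  refine bpt_rowSq (by fun_prop) ?_ ?_ ?_ (by fun_prop) (by fun_prop)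
  · exact bpt_sH (by fun_prop) (by fun_prop) (by fun_prop) (by fun_prop)
  · exact bpt_sV (by fun_prop) (by fun_prop) (by fun_prop) (by fun_prop)
  · exact bpt_sE (by fun_prop) (by fun_prop) (by fun_prop) (by fun_prop) (by fun_prop) (by fun_prop)

theorem bpt_cntF (hK : PT K) (hb : PB K) : PT fun a => cntF (K a) := by
  unfold cntF
  refine PT.sum_range (by fun_prop) hK hb ?_
  refine PT.sum_range (by fun_prop) (by fun_prop) (by fun_prop) ?_
  exact PT.ite (bpt_F (by fun_prop) (by fun_prop)) (by fun_prop) (by fun_prop)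

theorem bpt_tabl {β : Type} [Enc β] {f : α → ℕ → ℕ → β} (hK : PT K) (hb : PB K)
    (hf : PT fun p : (α × ℕ) × ℕ => f p.1.1 p.1.2 p.2) : PT fun a => tabl (K a) (f a) := by
  unfold tabl
  refine PT.map (PT.range hK hb) ?_
  exact PT.map (PT.range (by fun_prop) (by fun_prop)) hf

end pt

theorem bpt_sH_cast (r : ℚ) (t : ℕ → ℕ → ℚ) (x y : ℕ) :
    ((sH r t x y : ℚ) : ℝ) = sH (r : ℝ) (fun i j => (t i j : ℝ)) x y := by
  unfold sH bH sκ; split_ifs <;> push_cast <;> rfl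

theorem bpt_sV_cast (n : ℕ) (r : ℚ) (x y : ℕ) : ((sV n r x y : ℚ) : ℝ) = sV n (r : ℝ) x y := by
  unfold sV bV; split_ifs <;> push_cast <;> rfl

theorem bpt_sE_cast (n : ℕ) (r : ℚ) (t : ℕ → ℕ → ℚ) (ε : ℕ → ℚ) (x y : ℕ) :
    ((sE n r t ε x y : ℚ) : ℝ) = sE n (r : ℝ) (fun i j => (t i j : ℝ)) (fun u => (ε u : ℝ)) x y := by
  unfold sE bE sκ sε; split_ifs <;> push_cast <;> rfl

theorem bpt_shift_mem {n : ℕ} {r : ℚ} {t : ℕ → ℕ → ℚ} {ε : ℕ → ℚ} (hr : 0 < r)
    (P : Par (r ^ 6) (r ^ 7) (4 * n * r ^ 2) (r ^ 3) (sκ r t) (sε n r ε)) :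
    0 ≤ shift n r t ε ∧ shift n r t ε ≤ 90 * n ^ 2 * r ^ 20 := by
  have h := fun x y => rowSq_mem P n (3 * n) x y
  have h0 : 0 ≤ ∑ x ∈ range (3 * n), ∑ y ∈ range (3 * n),
      if bF x y then rowSq (3 * n) (sH r t) (sV n r) (sE n r t ε) x y else 0 := by
    refine sum_nonneg fun x _ => sum_nonneg fun y _ => ?_
    split_ifs
    · exact (h x y).1
    · exact le_rfl
  have h1 : (∑ x ∈ range (3 * n), ∑ y ∈ range (3 * n),
      if bF x y then rowSq (3 * n) (sH r t) (sV n r) (sE n r t ε) x y else 0) ≤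
      ∑ x ∈ range (3 * n), ∑ y ∈ range (3 * n), 5 * (r ^ 6 * (r ^ 7) ^ 2) ^ 2 := by
    refine sum_le_sum fun x _ => sum_le_sum fun y _ => ?_
    split_ifs
    · exact (h x y).2
    · positivity
  simp only [sum_const, card_range, nsmul_eq_mul] at h1
  unfold shift
  refine ⟨by positivity, (mul_le_mul_of_nonneg_left h1 (by positivity)).trans (le_of_eq ?_)⟩
  push_cast
  field_simp
  ring

/-- Read the docstring of `Crest/Agent/Lib/PT/All.lean`.  Prove `@[fun_prop]` lemmas for `sH, sV, sE, rowSq, shift, cntF, tabl` at `𝕜 = ℚ` separately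
(`unfold …; fun_prop`, `ent_pt`); `PB` of `min x.2.1 x.1.n` by `PB.min_right`. -/
theorem barMap_pt : PT barMap := by
  have hn : PT fun x : HCI => min x.2.1 x.1.n := by fun_prop
  have hb : PB fun x : HCI => min x.2.1 x.1.n :=
    (show PB fun x : HCI => x.1.n by fun_prop).mono fun _ => min_le_right _ _
  have hK : PT fun x : HCI => 3 * min x.2.1 x.1.n := by fun_prop
  have hK' : PB fun x : HCI => 3 * min x.2.1 x.1.n := by fun_prop
  have hr : PT fun x : HCI => barR x.1.n := by unfold barR; fun_prop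
  have hr' : PB fun x : HCI => barR x.1.n := by unfold barR; fun_prop
  have hq : PT fun x : HCI => (barR x.1.n : ℚ) := PT.rat_natCast hr
  have hs : PT fun x : HCI => shift (min x.2.1 x.1.n) (barR x.1.n : ℚ) (ent x.2.2.2.1)
      (fun u => x.2.2.2.2.1.getD u 0) := bpt_shift hn hb hq (by fun_prop) (by fun_prop)
  have hn2 : PT fun p : (HCI × ℕ) × ℕ => min p.1.1.2.1 p.1.1.1.n := by fun_prop
  have hq2 : PT fun p : (HCI × ℕ) × ℕ => (barR p.1.1.1.n : ℚ) :=
    hq.comp (f := fun p : (HCI × ℕ) × ℕ => p.1.1) (by fun_prop)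
  unfold barMap barMapN
  refine PT.pair (PT.un_mk (by fun_prop) (by fun_prop)) (PT.pair hK (PT.pair ?_ (PT.pair
    (PT.pair ?_ (PT.pair ?_ (PT.pair ?_ ?_))) (PT.pair ?_ ?_))))
  · exact PT.nat_add (by fun_prop) (PT.nat_mul (by fun_prop) (bpt_cntF hK hK'))
  · exact bpt_tabl hK hK' (bpt_sH hq2 (by fun_prop) (by fun_prop) (by fun_prop))
  · exact bpt_tabl hK hK' (bpt_sV hn2 hq2 (by fun_prop) (by fun_prop))
  · exact bpt_tabl hK hK' (bpt_sE hn2 hq2 (by fun_prop) (by fun_prop) (by fun_prop) (by fun_prop))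
  · exact bpt_tabl hK hK' (PT.decide' (bpt_home (by fun_prop) (by fun_prop)))
  · exact PT.rat_add (PT.rat_sub (by fun_prop) hs) (by fun_prop)
  · exact PT.rat_sub (PT.rat_sub (by fun_prop) hs) (by fun_prop)

theorem ent_tabl (K : ℕ) (f : ℕ → ℕ → ℚ) (i j : ℕ) :
    ent (tabl K f) i j = if i < K ∧ j < K then f i j else 0 :=
  ent_table K K f i j

theorem flag_tabl (K : ℕ) (f : ℕ → ℕ → Bool) {i j : ℕ} (hi : i < K) (hj : j < K) :
    flag (tabl K f) i j = f i j := by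
  simp [flag, tabl, List.getD_eq_getElem?_getD, hi, hj]

/-- `par_std` over `ℚ`, `bH_mem`, `bV_mem`, `bE_le`, `rowSq_mem`, `cntF_le`: with `r = barR B`, entries are `≤ r^20`,
`0 ≤ shift ≤ 90 B² r^20`, `N' ≤ 19 B²`, all `≤ r^22`. -/
theorem barMap_valid {x : HCI} (h : ValidHC x) : ValidGR (barMapN x.2.1 x) := by
  obtain ⟨h1, h2, h3, h4, h5, h6, h7, h8, h9⟩ := h
  have hB : 1 ≤ x.1.n := h1.trans h2
  have hBq : (1 : ℚ) ≤ x.1.n := by exact_mod_cast hB
  have hnq : (x.2.1 : ℚ) ≤ x.1.n := by exact_mod_cast h2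
  have hrq : (10 : ℚ) ^ 7 * (x.1.n : ℚ) ^ 8 ≤ (barR x.1.n : ℚ) := by unfold barR; push_cast; norm_num
  have P := par_std (t := ent x.2.2.2.1) (ε := fun u => x.2.2.2.2.1.getD u 0) hBq hrq hnq h5 h6
  have hr2 : 100 * x.1.n ^ 2 ≤ barR x.1.n := by
    unfold barR
    have : x.1.n ^ 2 ≤ x.1.n ^ 8 := Nat.pow_le_pow_right hB (by norm_num)
    omega
  have hBB : x.1.n ≤ x.1.n ^ 2 := Nat.le_self_pow (by norm_num) _
  have hr1 : 1 ≤ barR x.1.n := by omega
  have hr22 : barR x.1.n ≤ barR x.1.n ^ 22 := Nat.le_self_pow (by norm_num) _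
  have hc := cntF_le (3 * x.2.1)
  have hc' : 3 * x.2.1 * (3 * x.2.1) ≤ 9 * x.1.n ^ 2 := by nlinarith
  have hrq1 : (1 : ℚ) ≤ barR x.1.n := by exact_mod_cast hr1
  have hr2q : (100 : ℚ) * (x.1.n : ℚ) ^ 2 ≤ barR x.1.n := by exact_mod_cast hr2
  have hBBq : (x.1.n : ℚ) ≤ (x.1.n : ℚ) ^ 2 := by exact_mod_cast hBB
  obtain ⟨s0, s1⟩ := bpt_shift_mem (by linarith) P
  have e13 : (barR x.1.n : ℚ) ^ 6 * (barR x.1.n : ℚ) ^ 7 ≤ (barR x.1.n : ℚ) ^ 22 := by
    rw [← pow_add]; exact pow_le_pow_right₀ hrq1 (by norm_num)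
  have e20 : (barR x.1.n : ℚ) ^ 6 * ((barR x.1.n : ℚ) ^ 7) ^ 2 ≤ (barR x.1.n : ℚ) ^ 22 := by
    rw [← pow_mul, ← pow_add]; exact pow_le_pow_right₀ hrq1 (by norm_num)
  have e0 : (0 : ℚ) ≤ (barR x.1.n : ℚ) ^ 22 := by positivity
  have eS : 2 * (x.1.n : ℚ) + 90 * (x.2.1 : ℚ) ^ 2 * (barR x.1.n : ℚ) ^ 20 + 1 / 2 ≤ (barR x.1.n : ℚ) ^ 22 := by
    have k0 : (1 : ℚ) ≤ (barR x.1.n : ℚ) ^ 20 := one_le_pow₀ hrq1
    have k1 : (x.2.1 : ℚ) ^ 2 ≤ (x.1.n : ℚ) ^ 2 := by gcongr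
    have k2 : (x.2.1 : ℚ) ^ 2 * (barR x.1.n : ℚ) ^ 20 ≤ (x.1.n : ℚ) ^ 2 * (barR x.1.n : ℚ) ^ 20 := by gcongr
    have k3 : (x.1.n : ℚ) ^ 2 ≤ (x.1.n : ℚ) ^ 2 * (barR x.1.n : ℚ) ^ 20 :=
      le_mul_of_one_le_right (by positivity) k0
    have k4 : (100 * (x.1.n : ℚ) ^ 2) * (barR x.1.n : ℚ) ^ 20 ≤ barR x.1.n * (barR x.1.n : ℚ) ^ 20 := by
      gcongr
    have k5 : barR x.1.n * (barR x.1.n : ℚ) ^ 20 ≤ (barR x.1.n : ℚ) ^ 22 := by
      rw [← pow_succ']; exact pow_le_pow_right₀ hrq1 (by norm_num)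
    linarith
  refine ⟨?_, ?_, ?_, ?_, fun i j => ?_, ?_, ?_, ?_⟩
  · show 1 ≤ 3 * x.2.1
    omega
  · show 3 * x.2.1 ≤ barR x.1.n ^ 22
    omega
  · show 1 ≤ x.2.2.1 + 2 * cntF (3 * x.2.1)
    omega
  · show x.2.2.1 + 2 * cntF (3 * x.2.1) ≤ barR x.1.n ^ 22
    omega
  · simp only [barMapN, ent_tabl, Nat.cast_pow]
    split_ifs
    · exact ⟨(bH_mem P i j).1, (bH_mem P i j).2.trans e13, (bV_mem P i j).1, (bV_mem P i j).2.trans e13,
        (bE_le P x.2.1 i j).trans e20⟩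
    · exact ⟨le_rfl, e0, le_rfl, e0, by rw [abs_zero]; exact e0⟩
  · simp only [barMapN, Nat.cast_pow]
    rw [abs_le] at h7 ⊢
    constructor <;> linarith [h7.1, h7.2]
  · simp only [barMapN, Nat.cast_pow]
    rw [abs_le] at h8 ⊢
    constructor <;> linarith [h8.1, h8.2]
  · simp only [barMapN]
    linarith

/-- `gridMat_congr`, `ent_tabl`; casts: `unfold; split_ifs; push_cast` (or `apply_ite`). -/
theorem barMap_mat (n : ℕ) (x : HCI) :
    (barMapN n x).mat = gridMat (3 * n) (sH (barR x.1.n : ℝ) fun i j => (ent x.2.2.2.1 i j : ℝ))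
      (sV n (barR x.1.n : ℝ))
      (sE n (barR x.1.n : ℝ) (fun i j => (ent x.2.2.2.1 i j : ℝ)) fun u => ((x.2.2.2.2.1.getD u 0 : ℚ) : ℝ)) := by
  refine gridMat_congr fun i j hi hj => ?_
  have hi' : i < 3 * n := hi
  have hj' : j < 3 * n := hj
  simp only [barMapN, ent_tabl, hi', hj', and_self, if_true, bpt_sH_cast, bpt_sV_cast, bpt_sE_cast,
    Rat.cast_natCast]

theorem barMap_hc (n : ℕ) (x : HCI) :
    (barMapN n x).hc = fun p : Fin (3 * n) × Fin (3 * n) => bHome p.1 p.2 := by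
  funext p
  have e : flag (tabl (3 * n) fun i j => decide (bHome i j)) p.1 p.2 = decide (bHome p.1 p.2) :=
    flag_tabl _ _ p.1.2 p.2.2
  exact propext ((iff_of_eq (congrArg (· = true) e)).trans decide_eq_true_iff)

theorem shift_cast (n : ℕ) (r : ℚ) (t : ℕ → ℕ → ℚ) (ε : ℕ → ℚ) :
    ((shift n r t ε : ℚ) : ℝ) = shift n (r : ℝ) (fun i j => (t i j : ℝ)) fun u => (ε u : ℝ) := by
  unfold shift rowSq
  push_cast [apply_ite (Rat.cast : ℚ → ℝ), bpt_sH_cast, bpt_sV_cast, bpt_sE_cast]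
  rfl

end Crest.Agent.R338
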