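import Crest.Agent.R338.Bar_Main
import Crest.Agent.R338.Bar_PT

/-! # Stage B: complete graph → square grid (crossbar)

Instance `(B, n, N, t, ε, a, b)`, `t' u v = t u v + t v u`.  Grid side `K = 3n`; site `(3i + r, 3j + r')`
is position `(r, r')` of block `(i, j)`: centre `(1,1)`, terminals `W = (0,1)`, `E = (2,1)`, `S = (1,0)`,
`Nn = (1,2)`, corners.  BUS `u` (`Mb = 4n+1` sites, a plus-shaped tree) = terminals `W, E` of the blocks
`(·, u)`, terminals `S, Nn` of the blocks `(u, ·)`, and the centre of `(u,u)`.  HOME `u` = corner `(2,2)` of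
block `(u,u)`, the only hard-core sites.  Scales (polynomials in `B`): `r ≪ T ≪ ΔF ≪ ΔM`,
`Δ = r³`, `τ = Mb r²`-ish, `T = ` large, `ΔF = T ρ²`, `τF = T ρ`, `ΔM = T ρ'²`, `τM = T ρ'`.
Edges (all hoppings `≥ 0`, matrix entries `-t`): `E(i,j)–W(i+1,j)` and `Nn(i,j)–S(i,j+1)`: `T`; diagonal
block: centre–terminals `T`, home–`E`: `τ`, the other three corners isolated with energy `ΔM`;
off-diagonal block: centre (energy `+ΔM`, EMPTY)–terminals `τM`; each corner (energy `-ΔF`, doubly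
FILLED) – its two neighbouring terminals `τF`, except corner `(2,2)`–`Nn`: `τF - κ' ρ` with
`κ' i j = Mb κ i j / 2`, `κ u v = t' u v Δ² Mb/τ²`.  `N' = N + 8 n (n-1)`.  Site energies of the bus sites
are chosen such that after B1, B2 the bus block is exactly `T Lap + Δ - K'`
(terminal: `T deg + Δ + T - ∑_{corners} τ_c²/ΔF` in an off-diagonal block); homes: `ε u + τ²/(Δ Mb)`.
All three steps are ONE-BODY inequalities followed by `FNo.of_form_le`, `FNo.sector`,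
`FYes.transfer`, `FYes.sector`, `f*_orth`, `f*_submatrix`; prove each as an abstract lemma on
`R ⊕ W` with `Matrix.fromBlocks`:
* B1 (empty sites, `h = [[hR, -C], [-Cᵀ, ΔM]]`): `h ≥ (hR - C Cᵀ/(ΔM - g)) ⊕ g`; upper: `L a = (a, Cᵀ a/ΔM)`
  gives `Lᵀ h L = hR - C Cᵀ/ΔM`, `η = ‖C‖²/ΔM²`.  Needs `ΔM ≫ g ‖C‖²/ΔM`, `g ≥ N' ‖hR - …‖ + |b|`.
* B2 (filled sites, `h = [[hR, -C], [-Cᵀ, -ΔF]]`, `C` vanishing on the hard-core rows): `X = C/ΔF`, skew
  `A = ± [[0, X/2], [-Xᵀ/2, 0]]`, Cayley transform `O = (1 + A)(1 - A)⁻¹` (orthogonal, fixes the homes,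
  `O = 1 + 2A + 2A² + 2A³(1-A)⁻¹`, `‖(1-A)⁻¹‖ ≤ 1`): `Oᵀ h O = (hR + C Cᵀ/ΔF) ⊕ (-ΔF - Cᵀ C/ΔF) + err`,
  `‖err‖ ≤ 20 (‖hR‖ x + ΔF x³)`, `x = ‖X‖ ≤ 1`.  Diagonalise the second block by the spectral theorem
  (eigenvalues `≤ -ΔF`, sum = trace `= -ΔF |F| - ∑ C²/ΔF`, rational), then `sector`.
* B3 (buses, `h = [[ε', -τ Eᵀ], [-τ E, T Lap + Δ - K']]`): dressing `D a = (τ/(Δ Mb)) a_u` on bus `u`;
  `(a, D a)` has energy exactly `a⬝(hcMat) a`; lower bound by completing the square with `c = D a + c'`: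
  `(hC - g) D a - τ E a = -τ (1 - Π) E a - K' D a - g D a` (`Π` = bus averages), Poincaré on a bus
  `|(1-Π)c'|² ≤ Mb² c'⬝Lap c'`; losses `τ² Mb²/T`, `4 (‖K'‖+g)² η/Δ`, `g η` with `η = τ²/(Δ² Mb)`.
Total error `≤ 1/4`; multiply by `2`.  Suggested: work on the site type
`(Fin n × Fin 3) × (Fin n × Fin 3)` (`finProdFinEquiv`) and explicit equivalences with the sum types;
prove matrix identities entrywise or as identities of quadratic forms.

The formal proof uses a simplified variant (B1 and B2 in one step, all blocks alike), see `Bar_Defs.lean`. -/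

set_option autoImplicit false
set_option linter.dupNamespace false
set_option linter.unusedVariables false

noncomputable section

namespace Crest.Agent.R338

open Crest.Agent.Lib.PT Matrix

theorem red_HC_GR : Red YesHC NoHC YesGR NoGR := by
  have cast : ∀ x : HCI, ValidHC x → barMap x = barMapN x.2.1 x ∧ (x.2.1 : ℝ) ≤ x.1.n ∧
      (x.2.2.1 : ℝ) ≤ x.1.n ∧
      (∀ i j, 0 ≤ (ent x.2.2.2.1 i j : ℝ) ∧ (ent x.2.2.2.1 i j : ℝ) ≤ x.1.n) ∧
      (∀ u, |((x.2.2.2.2.1.getD u 0 : ℚ) : ℝ)| ≤ x.1.n) ∧ |(x.2.2.2.2.2.1 : ℝ)| ≤ x.1.n ∧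
      |(x.2.2.2.2.2.2 : ℝ)| ≤ x.1.n ∧ 10 ^ 7 * (x.1.n : ℝ) ^ 8 ≤ barR x.1.n := by
    rintro x ⟨-, h2, -, h4, h5, h6, h7, h8, -⟩
    refine ⟨by rw [barMap, min_eq_left h2], by exact_mod_cast h2, by exact_mod_cast h4,
      fun i j => by exact_mod_cast h5 i j, fun u => by exact_mod_cast h6 u, by exact_mod_cast h7,
      by exact_mod_cast h8, ?_⟩
    unfold barR
    push_cast
    norm_num
  refine ⟨barMap, barMap_pt, fun x hx => ?_, fun x hx => ?_⟩
  · obtain ⟨e, h1, h2, h3, h4, h5, -, h7⟩ := cast x hx.1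
    rw [e]
    refine ⟨barMap_valid hx.1, ?_⟩
    rw [barMap_mat, barMap_hc]
    have := bar_yes hx.1.1 h1 h2 h3 h4 h5 h7 hx.2
    rw [← Rat.cast_natCast (α := ℝ), ← shift_cast, Rat.cast_natCast] at this
    refine this.mono (le_of_eq ?_)
    simp only [barMapN]
    push_cast
    rfl
  · obtain ⟨e, h1, h2, h3, h4, -, h6, h7⟩ := cast x hx.1
    rw [e]
    refine ⟨barMap_valid hx.1, ?_⟩
    rw [barMap_mat, barMap_hc]
    have := bar_no hx.1.1 h1 h2 h3 h4 h6 h7 hx.2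
    rw [← Rat.cast_natCast (α := ℝ), ← shift_cast, Rat.cast_natCast] at this
    refine this.mono (le_of_eq ?_)
    simp only [barMapN]
    push_cast
    rfl

end Crest.Agent.R338
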