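import Crest.Agent.R338.Bar_Defs

/-! # Stage B: block diagonal one-body matrices.  Prefix helper lemmas with `bblk_`.

Proof of `blk_yes`, `blk_no`: let `M = {v // j v = 1}`, `F' = {v // j v = -1}` and
`φ : R ⊕ (M ⊕ F') ≃ V` (`Equiv.ofBijective (Sum.elim e (Sum.elim (↑) (↑)))`).  Then
`G.submatrix φ φ = fromBlocks k 0 0 (fromBlocks GM 0 0 GF)`, `k = G.submatrix e e`.  Diagonalise `GM`, `GF` by `exists_diag`; with
`O = fromBlocks 1 0 0 (fromBlocks UM 0 0 UF)`, `Oᵀ * G.submatrix φ φ * O = fromBlocks k 0 0 (diagonal (Sum.elim eM eF))`.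
Apply `FYes.sector` / `FNo.sector` with the finset `univ.map inr` of `M ⊕ F'` (cardinality `F.card`, energy sum
`trace GF = ∑ w ∈ F, G w w`), then `fYes_orth` / `fNo_orth` (hard-core sites are `inl _`), `fYes_submatrix` / `fNo_submatrix`.
Eigenvalue bounds: extend the unit vector of `exists_diag` by zero.  It is best to prove one lemma producing
`W, en, F', φ, O` with all properties and use it twice. -/

set_option autoImplicit false
set_option linter.dupNamespace false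
set_option linter.unusedVariables false

noncomputable section

namespace Crest.Agent.R338

open Crest.Agent.Lib.PT Matrix Finset

/-- Spectral theorem (`Matrix.IsHermitian.spectral_theorem`, `eigenvectorUnitary`; the trace is invariant, and
`en w` is the value of the form on the column `w` of `U`). -/
theorem exists_diag {W : Type} [Fintype W] [DecidableEq W] (G : Matrix W W ℝ) (hG : Gᵀ = G) :
    ∃ (U : Matrix W W ℝ) (en : W → ℝ), Uᵀ * U = 1 ∧ U * Uᵀ = 1 ∧ Uᵀ * G * U = Matrix.diagonal en ∧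
      ∑ w, en w = ∑ w, G w w ∧ ∀ w, ∃ u : W → ℝ, u ⬝ᵥ u = 1 ∧ en w = u ⬝ᵥ G *ᵥ u := by
  have hH : G.IsHermitian := by
    rw [Matrix.IsHermitian, conjTranspose_eq_transpose_of_trivial, hG]
  have hs : ∀ M : Matrix W W ℝ, star M = Mᵀ := fun M => by
    rw [star_eq_conjTranspose, conjTranspose_eq_transpose_of_trivial]
  obtain ⟨U, hU⟩ : ∃ U : Matrix W W ℝ, U = (hH.eigenvectorUnitary : Matrix W W ℝ) := ⟨_, rfl⟩
  have h1 : Uᵀ * U = 1 := by
    rw [← hs, hU]; exact (Unitary.mem_iff.1 hH.eigenvectorUnitary.2).1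
  have h2 : U * Uᵀ = 1 := by
    rw [← hs, hU]; exact (Unitary.mem_iff.1 hH.eigenvectorUnitary.2).2
  have h3 : Uᵀ * G * U = Matrix.diagonal hH.eigenvalues := by
    have := hH.conjStarAlgAut_star_eigenvectorUnitary
    rw [Unitary.conjStarAlgAut_star_apply] at this
    rw [← hs, hU]
    simpa using this
  refine ⟨U, hH.eigenvalues, h1, h2, h3, ?_, fun w => ⟨fun v => U v w, ?_, ?_⟩⟩
  · have := congrArg Matrix.trace h3
    rw [Matrix.trace_mul_cycle, h2, Matrix.one_mul, Matrix.trace_diagonal] at this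
    exact this.symm
  · have := congrFun (congrFun h1 w) w
    simpa [Matrix.mul_apply, dotProduct] using this
  · have := congrFun (congrFun h3 w) w
    rw [Matrix.diagonal_apply_eq, Matrix.mul_assoc] at this
    rw [← this]
    simp [Matrix.mul_apply, dotProduct, Matrix.mulVec]

variable {ι ι' V R : Type} [Fintype ι] [DecidableEq ι] [Fintype ι'] [DecidableEq ι'] [Fintype V]
  [DecidableEq V] [Fintype R] [DecidableEq R]

omit [DecidableEq V] in
theorem bblk_ext (G : Matrix V V ℝ) (p : V → Prop) [DecidablePred p] (u : {v // p v} → ℝ) :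
    ∃ u' : V → ℝ, (∀ v, ¬ p v → u' v = 0) ∧ u' ⬝ᵥ u' = u ⬝ᵥ u ∧
      u' ⬝ᵥ G *ᵥ u' = u ⬝ᵥ G.submatrix Subtype.val Subtype.val *ᵥ u := by
  obtain ⟨u', hu'⟩ : ∃ u' : V → ℝ, u' = fun v => if h : p v then u ⟨v, h⟩ else 0 := ⟨_, rfl⟩
  have h0 : ∀ v, ¬ p v → u' v = 0 := fun v hv => by simp [hu', hv]
  have h1 : ∀ w : {v // p v}, u' w = u w := fun w => by simp [hu', w.2]
  have key : ∀ f : V → ℝ, u' ⬝ᵥ f = u ⬝ᵥ fun w => f w := fun f => by
    rw [dotProduct, ← Fintype.sum_subtype_add_sum_subtype p,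
      Finset.sum_eq_zero (s := (Finset.univ : Finset {v // ¬ p v})) fun w _ => by
        rw [h0 _ w.2, zero_mul], add_zero]
    simp only [h1, dotProduct]
  refine ⟨u', h0, ?_, ?_⟩
  · rw [key]; simp only [h1]
  · rw [key]
    congr 1
    funext w
    rw [Matrix.mulVec, dotProduct_comm, key, dotProduct_comm]
    rfl

theorem bblk_core {G : Matrix V V ℝ} {j : V → ℝ} {e : R → V} {F : Finset V}
    (hG : Gᵀ = G) (hj : ∀ v, j v = 0 ∨ j v = 1 ∨ j v = -1) (hblk : ∀ v w, j v ≠ j w → G v w = 0)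
    (he : Function.Injective e) (hr : ∀ v, j v = 0 ↔ v ∈ Set.range e)
    (hF : ∀ v, v ∈ F ↔ j v = -1) :
    ∃ (W : Type) (_ : Fintype W) (_ : DecidableEq W) (en : W → ℝ) (F' : Finset W) (φ : R ⊕ W ≃ V)
      (O : Matrix (R ⊕ W) (R ⊕ W) ℝ),
      (∀ r, φ (Sum.inl r) = e r) ∧ (∀ w, j (φ (Sum.inr w)) ≠ 0) ∧ F'.card = F.card ∧
      ∑ w ∈ F', en w = ∑ w ∈ F, G w w ∧ Oᵀ * O = 1 ∧ O * Oᵀ = 1 ∧
      (∀ r u, O (Sum.inl r) u = (if u = Sum.inl r then 1 else 0) ∧
        O u (Sum.inl r) = if u = Sum.inl r then 1 else 0) ∧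
      Oᵀ * G.submatrix φ φ * O = Matrix.fromBlocks (G.submatrix e e) 0 0 (Matrix.diagonal en) ∧
      (∀ w ∈ F', ∃ u : V → ℝ, (∀ v, j v ≠ -1 → u v = 0) ∧ u ⬝ᵥ u = 1 ∧ en w = u ⬝ᵥ G *ᵥ u) ∧
      ∀ w ∉ F', ∃ u : V → ℝ, (∀ v, j v ≠ 1 → u v = 0) ∧ u ⬝ᵥ u = 1 ∧ en w = u ⬝ᵥ G *ᵥ u := by
  classical
  have j0 : ∀ r, j (e r) = 0 := fun r => (hr _).2 ⟨r, rfl⟩
  obtain ⟨UM, eM, m1, m2, m3, -, m5⟩ := exists_diag
    (G.submatrix (Subtype.val : {v // j v = 1} → V) Subtype.val) (by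
      rw [Matrix.transpose_submatrix, hG])
  obtain ⟨UF, eF, f1, f2, f3, f4, f5⟩ := exists_diag
    (G.submatrix (Subtype.val : {v // j v = -1} → V) Subtype.val) (by
      rw [Matrix.transpose_submatrix, hG])
  let ψ : R ⊕ ({v // j v = 1} ⊕ {v // j v = -1}) → V :=
    Sum.elim e (Sum.elim Subtype.val Subtype.val)
  have hψ : Function.Bijective ψ := by
    constructor
    · rintro (r | m | f) (r' | m' | f') h <;> simp only [ψ, Sum.elim_inl, Sum.elim_inr] at h
      · rw [he h]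
      · have := m'.2; rw [← h, j0] at this; norm_num at this
      · have := f'.2; rw [← h, j0] at this; norm_num at this
      · have := m.2; rw [h, j0] at this; norm_num at this
      · rw [Subtype.ext h]
      · have := m.2; rw [h, f'.2] at this; norm_num at this
      · have := f.2; rw [h, j0] at this; norm_num at this
      · have := f.2; rw [h, m'.2] at this; norm_num at this
      · rw [Subtype.ext h]
    · intro v
      rcases hj v with h | h | h
      · obtain ⟨r, rfl⟩ := (hr v).1 h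
        exact ⟨Sum.inl r, rfl⟩
      · exact ⟨Sum.inr (Sum.inl ⟨v, h⟩), rfl⟩
      · exact ⟨Sum.inr (Sum.inr ⟨v, h⟩), rfl⟩
  have hsub : G.submatrix (Equiv.ofBijective ψ hψ) (Equiv.ofBijective ψ hψ) =
      Matrix.fromBlocks (G.submatrix e e) 0 0 (Matrix.fromBlocks
        (G.submatrix (Subtype.val : {v // j v = 1} → V) Subtype.val) 0 0
        (G.submatrix (Subtype.val : {v // j v = -1} → V) Subtype.val)) := by
    ext (r | m | f) (r' | m' | f')
    · rfl
    · exact hblk (e r) m' (by rw [j0, m'.2]; norm_num)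
    · exact hblk (e r) f' (by rw [j0, f'.2]; norm_num)
    · exact hblk m (e r') (by rw [j0, m.2]; norm_num)
    · rfl
    · exact hblk m f' (by rw [m.2, f'.2]; norm_num)
    · exact hblk f (e r') (by rw [j0, f.2]; norm_num)
    · exact hblk f m' (by rw [f.2, m'.2]; norm_num)
    · rfl
  refine ⟨{v // j v = 1} ⊕ {v // j v = -1}, inferInstance, inferInstance, Sum.elim eM eF,
    Finset.univ.map Function.Embedding.inr, Equiv.ofBijective ψ hψ,
    Matrix.fromBlocks 1 0 0 (Matrix.fromBlocks UM 0 0 UF), fun r => rfl, ?_, ?_, ?_, ?_, ?_, ?_,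
    ?_, ?_, ?_⟩
  · rintro (m | f)
    · change j m ≠ 0
      rw [m.2]; norm_num
    · change j f ≠ 0
      rw [f.2]; norm_num
  · rw [Finset.card_map, Finset.card_univ]
    exact Fintype.card_of_subtype F hF
  · rw [Finset.sum_map, Finset.sum_subtype F hF]
    exact f4
  · simp [Matrix.fromBlocks_transpose, Matrix.fromBlocks_multiply, m1, f1]
  · simp [Matrix.fromBlocks_transpose, Matrix.fromBlocks_multiply, m2, f2]
  · rintro r (r' | w)
    · simp [Matrix.one_apply, eq_comm]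
    · simp
  · rw [hsub]
    simp [Matrix.fromBlocks_transpose, Matrix.fromBlocks_multiply, m3, f3,
      Matrix.fromBlocks_diagonal]
  · intro w hw
    obtain ⟨f, -, rfl⟩ := Finset.mem_map.1 hw
    obtain ⟨u, u1, u2⟩ := f5 f
    obtain ⟨u', a1, a2, a3⟩ := bblk_ext G (fun v => j v = -1) u
    exact ⟨u', a1, a2.trans u1, u2.trans a3.symm⟩
  · rintro (m | f) hw
    · obtain ⟨u, u1, u2⟩ := m5 m
      obtain ⟨u', a1, a2, a3⟩ := bblk_ext G (fun v => j v = 1) u
      exact ⟨u', a1, a2.trans u1, u2.trans a3.symm⟩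
    · exact absurd (Finset.mem_map.2 ⟨f, Finset.mem_univ _, rfl⟩) hw

theorem blk_yes {G : Matrix V V ℝ} {j : V → ℝ} {hc : V → Prop} {e : R → V} {F : Finset V} {a : ℝ}
    (hG : Gᵀ = G) (hj : ∀ v, j v = 0 ∨ j v = 1 ∨ j v = -1) (hblk : ∀ v w, j v ≠ j w → G v w = 0)
    (he : Function.Injective e) (hr : ∀ v, j v = 0 ↔ v ∈ Set.range e) (hF : ∀ v, v ∈ F ↔ j v = -1)
    (hc0 : ∀ v, hc v → j v = 0) (hcard : Fintype.card ι' = Fintype.card ι + 2 * F.card)
    (H : FYes ι (fun r => hc (e r)) (G.submatrix e e) a) :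
    FYes ι' hc G (a + 2 * ∑ w ∈ F, G w w) := by
  obtain ⟨W, _, _, en, F', φ, O, a1, a2, a3, a4, a5, a6, a7, a8, -, -⟩ :=
    bblk_core hG hj hblk he hr hF
  have hO : ∀ v, hc (φ v) → ∀ u, O v u = (if u = v then 1 else 0) ∧
      O u v = if u = v then 1 else 0 := by
    rintro (r | w) hv u
    · exact a7 r u
    · exact absurd (hc0 _ hv) (a2 w)
  have := FYes.sector (ι' := ι') (hc' := fun v => hc (φ v)) en F' (fun r h => by rwa [a1] at h)
    (fun w _ h => a2 w (hc0 _ h)) (by rw [hcard, a3]) H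
  rwa [← a8, fYes_orth _ _ a5 a6 hO, fYes_submatrix, a4] at this

theorem blk_no {G : Matrix V V ℝ} {j : V → ℝ} {hc : V → Prop} {e : R → V} {F : Finset V} {b ν g : ℝ}
    (hG : Gᵀ = G) (hj : ∀ v, j v = 0 ∨ j v = 1 ∨ j v = -1) (hblk : ∀ v w, j v ≠ j w → G v w = 0)
    (he : Function.Injective e) (hr : ∀ v, j v = 0 ↔ v ∈ Set.range e) (hF : ∀ v, v ∈ F ↔ j v = -1)
    (hc0 : ∀ v, hc v → j v = 0) (hcard : Fintype.card ι' = Fintype.card ι + 2 * F.card)
    (hk : OpLe (G.submatrix e e) ν) (hν : 0 ≤ ν) (hg : ν * Fintype.card ι' + |b| ≤ g)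
    (hM : ∀ u : V → ℝ, (∀ v, j v ≠ 1 → u v = 0) → g * (u ⬝ᵥ u) ≤ u ⬝ᵥ G *ᵥ u)
    (hN : ∀ u : V → ℝ, (∀ v, j v ≠ -1 → u v = 0) → u ⬝ᵥ G *ᵥ u ≤ -g * (u ⬝ᵥ u))
    (H : FNo ι (fun r => hc (e r)) (G.submatrix e e) b) :
    FNo ι' hc G (b + 2 * ∑ w ∈ F, G w w) := by
  obtain ⟨W, _, _, en, F', φ, O, a1, a2, a3, a4, a5, a6, a7, a8, a9, a10⟩ :=
    bblk_core hG hj hblk he hr hF
  have hO : ∀ v, hc (φ v) → ∀ u, O v u = (if u = v then 1 else 0) ∧
      O u v = if u = v then 1 else 0 := by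
    rintro (r | w) hv u
    · exact a7 r u
    · exact absurd (hc0 _ hv) (a2 w)
  have := FNo.sector (ι' := ι') (hc' := fun v => hc (φ v)) en F' (fun r h => by rwa [a1])
    (by rw [hcard, a3]) hk hν hg (fun w hw => by
      obtain ⟨u, u1, u2, u3⟩ := a9 w hw
      have := hN u u1
      rwa [u2, mul_one, ← u3] at this) (fun w hw => by
      obtain ⟨u, u1, u2, u3⟩ := a10 w hw
      have := hM u u1
      rwa [u2, mul_one, ← u3] at this) H
  rwa [← a8, fNo_orth _ _ a5 a6 hO, fNo_submatrix, a4] at this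

end Crest.Agent.R338
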