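import Crest.Agent.R338.Bar_Defs

/-! # Stage B: removing the buses.  Prefix helper lemmas with `bbus_`. -/

set_option autoImplicit false
set_option linter.dupNamespace false
set_option linter.unusedVariables false

noncomputable section

namespace Crest.Agent.R338

open Crest.Agent.Lib.PT Matrix Finset

variable {ι H Bs : Type} [Fintype ι] [DecidableEq ι] [Fintype H] [DecidableEq H] [Fintype Bs]
  [DecidableEq Bs] {b : Bs → H} {p : H → Bs} {m P : ℝ} {Lap : (Bs → ℝ) → ℝ}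

theorem bbus_sq (D : BusData b p m Lap P) (a : H → ℝ) : (a ∘ b) ⬝ᵥ (a ∘ b) = m * (a ⬝ᵥ a) :=
  D.fib fun u => a u * a u

theorem bbus_sq' (D : BusData b p m Lap P) (s : ℝ) (a : H → ℝ) :
    (s • (a ∘ b)) ⬝ᵥ (s • (a ∘ b)) = s ^ 2 * m * (a ⬝ᵥ a) := by
  rw [smul_dotProduct, dotProduct_smul, bbus_sq D, smul_eq_mul, smul_eq_mul]
  ring

theorem bbus_lap (D : BusData b p m Lap P) (s : ℝ) (a : H → ℝ) (c : Bs → ℝ) :
    Lap (s • (a ∘ b) + c) = Lap c := by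
  rw [add_comm]
  exact D.inv c (s • a)

/-- On `c = s • a ∘ b`: `Lap c = 0` (`inv` with `c = 0`), `c ⬝ᵥ c = s² m |a|²` (`fib`), `c (p u) = s a u`, and
`-2 τ s + Δ s² m = -τ s`. -/
theorem busForm_dress (D : BusData b p m Lap P) (ε : H → ℝ) {s τ Δ : ℝ} (T : ℝ) (hτ : τ = s * Δ * m)
    (K : Matrix Bs Bs ℝ) (a : H → ℝ) :
    busForm ε p τ T Δ Lap K a (s • (a ∘ b)) =
      ∑ u, (ε u - τ * s) * a u ^ 2 - s ^ 2 * ((a ∘ b) ⬝ᵥ K *ᵥ (a ∘ b)) := by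
  have h1 : Lap (s • (a ∘ b)) = 0 := by
    have := bbus_lap D s a 0
    rwa [add_zero, D.zero] at this
  have h2 : ∑ u, a u * (s • (a ∘ b)) (p u) = s * (a ⬝ᵥ a) := by
    simp only [Pi.smul_apply, Function.comp_apply, D.port, smul_eq_mul, dotProduct, Finset.mul_sum]
    exact Finset.sum_congr rfl fun u _ => by ring
  have h3 : ∑ u, (ε u - τ * s) * a u ^ 2 = ∑ u, ε u * a u ^ 2 - τ * s * (a ⬝ᵥ a) := by
    simp only [dotProduct, Finset.mul_sum, ← Finset.sum_sub_distrib]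
    exact Finset.sum_congr rfl fun u _ => by ring
  rw [busForm, h1, h2, h3, bbus_sq' D, mulVec_smul, smul_dotProduct, dotProduct_smul, smul_eq_mul,
    smul_eq_mul, hτ]
  ring

/-- Put `d = s • a ∘ b`, `c = d + c'`, `η = s² m`, `|d|² = η |a|²`.  Then
`busForm a c = busForm a d + 2 (τ/m) ∑ x, a (b x) (c' x - c' (p (b x))) + T Lap c' + Δ |c'|² - d⬝K c' - c'⬝K d - c'⬝K c'`
(use `fib` for `f u = a u * c' (p u)` and `Δ s = τ / m`).  Young (`two_dot_le`) and `poin`: the second term is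
`≥ -(τ² P/(m T)) |a|² - T Lap c'`; `|d⬝K c'| + |c'⬝K d| ≤ (Δ/4)|c'|² + (4 κ²/Δ)|d|²` (`OpLe.two_dot_le`, `OpLe.transpose`);
`|c'⬝K c'| ≤ κ |c'|²`; `g |c|² ≤ 2 g |d|² + 2 g |c'|²`. -/
theorem busForm_lower (D : BusData b p m Lap P) (ε : H → ℝ) {s τ T Δ κ g : ℝ} (hτ : τ = s * Δ * m)
    (hm : 0 < m) (hP : 0 < P) (hT : 0 < T) (hΔ : 0 < Δ) {K : Matrix Bs Bs ℝ} (hK : OpLe K κ)
    (hκ : 0 ≤ κ) (hg : 0 ≤ g) (hbig : κ + 2 * g ≤ 3 / 4 * Δ) (a : H → ℝ) (c : Bs → ℝ) :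
    busForm ε p τ T Δ Lap K a (s • (a ∘ b)) + g * (c ⬝ᵥ c) ≤
      busForm ε p τ T Δ Lap K a c + busErr τ P m T κ s Δ g * (a ⬝ᵥ a) := by
  obtain ⟨c', rfl⟩ : ∃ c', c = s • (a ∘ b) + c' := ⟨c - s • (a ∘ b), by abel⟩
  have h1 : Lap (s • (a ∘ b)) = 0 := by
    have := bbus_lap D s a 0
    rwa [add_zero, D.zero] at this
  have h2 := bbus_lap D s a c'
  have hd := bbus_sq' D s a
  have hy := bbus_sq D a
  obtain ⟨z, hz⟩ : ∃ z : Bs → ℝ, z = fun x => c' x - c' (p (b x)) := ⟨_, rfl⟩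
  have hzz : z ⬝ᵥ z ≤ P * Lap c' := by
    have := D.poin c'
    simpa only [hz, dotProduct, sq] using this
  have hyz : (a ∘ b) ⬝ᵥ z = (a ∘ b) ⬝ᵥ c' - m * ∑ u, a u * c' (p u) := by
    rw [← D.fib fun u => a u * c' (p u), hz]
    simp only [dotProduct, ← Finset.sum_sub_distrib, Function.comp_apply]
    exact Finset.sum_congr rfl fun u _ => by ring
  have hdc : (s • (a ∘ b)) ⬝ᵥ c' = s * ((a ∘ b) ⬝ᵥ c') := by rw [smul_dotProduct, smul_eq_mul]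
  -- Young for the port term
  have y1 := two_dot_le ((s * Δ) • (a ∘ b)) z (t := P / T) (by positivity)
  rw [bbus_sq' D, smul_dotProduct, smul_eq_mul, hyz] at y1
  have y1' : z ⬝ᵥ z / (P / T) ≤ T * Lap c' := by
    rw [div_le_iff₀ (by positivity)]
    calc z ⬝ᵥ z ≤ P * Lap c' := hzz
      _ = T * Lap c' * (P / T) := by field_simp
  have y1'' := neg_abs_le (s * Δ * ((a ∘ b) ⬝ᵥ c' - m * ∑ u, a u * c' (p u)))
  have e1 : P / T * ((s * Δ) ^ 2 * m * (a ⬝ᵥ a)) = τ ^ 2 * P / (m * T) * (a ⬝ᵥ a) := by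
    rw [hτ]
    field_simp
  have h3 : ∑ u, a u * (s • (a ∘ b) + c') (p u) = ∑ u, a u * (s • (a ∘ b)) (p u) + ∑ u, a u * c' (p u) := by
    simp only [Pi.add_apply, mul_add, Finset.sum_add_distrib]
  unfold busForm busErr
  rw [h1, h2, h3]
  generalize s • (a ∘ b) = d at *
  have y2 := hK.two_dot_le c' d (t := Δ / 4) (by positivity)
  have y3 := hK.transpose.two_dot_le c' d (t := Δ / 4) (by positivity)
  have e2 : c' ⬝ᵥ Kᵀ *ᵥ d = d ⬝ᵥ K *ᵥ c' := by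
    rw [mulVec_transpose, dotProduct_comm, dotProduct_mulVec]
  rw [e2] at y3
  have y2' := le_abs_self (c' ⬝ᵥ K *ᵥ d)
  have y3' := le_abs_self (d ⬝ᵥ K *ᵥ c')
  have y4 := (le_abs_self _).trans (hK.form_le hκ c')
  have e3 : κ ^ 2 / (Δ / 4) * (d ⬝ᵥ d) = 4 * κ ^ 2 * (s ^ 2 * m) / Δ * (a ⬝ᵥ a) := by
    rw [hd]
    field_simp
  have y5 := two_dot_le d c' (t := 1) one_pos
  have y5' := le_abs_self (d ⬝ᵥ c')
  have y6 : 2 * (d ⬝ᵥ c') ≤ d ⬝ᵥ d + c' ⬝ᵥ c' := by linarith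
  have y7 := mul_le_mul_of_nonneg_left y6 hg
  have y8 := mul_le_mul_of_nonneg_right hbig (dot_self_nonneg c')
  have e4 : g * (d ⬝ᵥ d) = g * (s ^ 2 * m) * (a ⬝ᵥ a) := by
    rw [hd]
    ring
  have e5 : Δ * (d ⬝ᵥ c') = s * Δ * ((a ∘ b) ⬝ᵥ c') := by
    rw [hdc]
    ring
  have e6 : τ * ∑ u, a u * c' (p u) = s * Δ * (m * ∑ u, a u * c' (p u)) := by
    rw [hτ]
    ring
  simp only [mulVec_add, add_dotProduct, dotProduct_add, dotProduct_comm c' d]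
  linarith

/-- `FYes.transfer` with `L = Matrix.of (Sum.elim (1 : Matrix H H ℝ) fun x u => if u = b x then s else 0)`,
`L *ᵥ a = Sum.elim a (s • a ∘ b)`, `η = s² m`. -/
theorem bus_yes (D : BusData b p m Lap P) {ε : H → ℝ} {s τ T Δ ν a : ℝ} (hτ : τ = s * Δ * m)
    (hm : 0 ≤ m) {K : Matrix Bs Bs ℝ} {k0 : Matrix H H ℝ} {k : Matrix (H ⊕ Bs) (H ⊕ Bs) ℝ}
    (hk : ∀ u : H ⊕ Bs → ℝ, u ⬝ᵥ k *ᵥ u = busForm ε p τ T Δ Lap K (u ∘ Sum.inl) (u ∘ Sum.inr))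
    (hk0 : ∀ a : H → ℝ, a ⬝ᵥ k0 *ᵥ a =
      ∑ u, (ε u - τ * s) * a u ^ 2 - s ^ 2 * ((a ∘ b) ⬝ᵥ K *ᵥ (a ∘ b)))
    (hν : OpLe k0 ν) (hν0 : 0 ≤ ν) (ha : |a| ≤ ν) (hN : Fintype.card ι * (s ^ 2 * m) ≤ 1)
    {hc : H ⊕ Bs → Prop} (hhc : ∀ x, ¬ hc (Sum.inr x)) (Hy : FYes ι (fun _ => True) k0 a) :
    FYes ι hc k (a + 8 * (Fintype.card ι : ℝ) ^ 2 * (s ^ 2 * m) * ν) := by
  obtain ⟨L, hL⟩ : ∃ L : Matrix (H ⊕ Bs) H ℝ,
      L = Matrix.of (Sum.elim (1 : Matrix H H ℝ) fun x u => if u = b x then s else 0) := ⟨_, rfl⟩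
  have hLa : ∀ u : H → ℝ, L *ᵥ u = Sum.elim u (s • (u ∘ b)) := by
    intro u
    funext v
    rcases v with v | x
    · have := congrFun (one_mulVec u) v
      simpa [hL, mulVec, Matrix.row] using this
    · simp [hL, mulVec, dotProduct]
  refine FYes.transfer L (fun v' hv' => ?_) (by positivity) hN hν0 ha hν (fun u => ?_) (fun u => ?_) Hy
  · rcases v' with u | x
    · refine Or.inr ⟨u, trivial, fun v => ?_⟩
      simp only [hL, of_apply, Sum.elim_inl, one_apply, eq_comm]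
    · exact absurd hv' (hhc x)
  · rw [hLa, sumElim_dotProduct_sumElim, bbus_sq' D]
    have h1 : 0 ≤ s ^ 2 * m * (u ⬝ᵥ u) := mul_nonneg (by positivity) (dot_self_nonneg u)
    constructor
    · linarith
    · linarith
  · rw [hLa, hk, hk0, Sum.elim_comp_inl, Sum.elim_comp_inr, busForm_dress D ε T hτ]

/-- `FNo.sector` with `en = fun _ => g`, `F = ∅`, `ι' = ι`, then `FNo.of_form_le` with `busForm_lower`
(`busErr ≥ 0` and `|a|² ≤ |u|²`; `Matrix.fromBlocks_mulVec`, `sumElim_dotProduct_sumElim`). -/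
theorem bus_no (D : BusData b p m Lap P) {ε : H → ℝ} {s τ T Δ κ g ν b0 : ℝ} (hτ : τ = s * Δ * m)
    (hm : 0 < m) (hP : 0 < P) (hT : 0 < T) (hΔ : 0 < Δ) {K : Matrix Bs Bs ℝ} (hK : OpLe K κ)
    (hκ : 0 ≤ κ) (hbig : κ + 2 * g ≤ 3 / 4 * Δ) {k0 : Matrix H H ℝ}
    {k : Matrix (H ⊕ Bs) (H ⊕ Bs) ℝ}
    (hk : ∀ u : H ⊕ Bs → ℝ, u ⬝ᵥ k *ᵥ u = busForm ε p τ T Δ Lap K (u ∘ Sum.inl) (u ∘ Sum.inr))
    (hk0 : ∀ a : H → ℝ, a ⬝ᵥ k0 *ᵥ a =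
      ∑ u, (ε u - τ * s) * a u ^ 2 - s ^ 2 * ((a ∘ b) ⬝ᵥ K *ᵥ (a ∘ b)))
    (hν : OpLe k0 ν) (hν0 : 0 ≤ ν) (hg : ν * Fintype.card ι + |b0| ≤ g)
    {hc : H ⊕ Bs → Prop} (hhc : ∀ u, hc (Sum.inl u)) (Hn : FNo ι (fun _ => True) k0 b0) :
    FNo ι hc k (b0 - Fintype.card ι * busErr τ P m T κ s Δ g) := by
  have hg0 : 0 ≤ g := le_trans (by positivity) hg
  have h1 := FNo.sector (ι' := ι) (hc' := hc) (fun _ : Bs => g) ∅ (fun v _ => hhc v) (by simp) hν hν0 hg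
    (by simp) (fun _ _ => le_rfl) Hn
  rw [Finset.sum_empty, mul_zero, add_zero] at h1
  refine h1.of_form_le fun u => ?_
  have hE : 0 ≤ busErr τ P m T κ s Δ g := by
    unfold busErr
    positivity
  have h2 := busForm_lower D ε hτ hm hP hT hΔ hK hκ hg0 hbig (u ∘ Sum.inl) (u ∘ Sum.inr)
  rw [busForm_dress D ε T hτ, ← hk0, ← hk] at h2
  have h3 : u ⬝ᵥ u = (u ∘ Sum.inl) ⬝ᵥ (u ∘ Sum.inl) + (u ∘ Sum.inr) ⬝ᵥ (u ∘ Sum.inr) := by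
    rw [← sumElim_dotProduct_sumElim, Sum.elim_comp_inl_inr]
  have h4 : u ⬝ᵥ fromBlocks k0 0 0 (diagonal fun _ : Bs => g) *ᵥ u =
      (u ∘ Sum.inl) ⬝ᵥ k0 *ᵥ (u ∘ Sum.inl) + g * ((u ∘ Sum.inr) ⬝ᵥ (u ∘ Sum.inr)) := by
    rw [fromBlocks_mulVec, zero_mulVec, zero_mulVec, add_zero, zero_add]
    conv_lhs => rw [← Sum.elim_comp_inl_inr u]
    rw [Sum.elim_comp_inl, Sum.elim_comp_inr, sumElim_dotProduct_sumElim]
    congr 1
    simp only [dotProduct, mulVec_diagonal, Finset.mul_sum]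
    exact Finset.sum_congr rfl fun x _ => by ring
  have h5 := mul_nonneg hE (dot_self_nonneg (u ∘ Sum.inr))
  rw [h4, h3]
  linarith

end Crest.Agent.R338
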