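import Crest.Agent.R338.Bar_Defs

/-! # Stage B: Cayley transform and the second order expansion.  Prefix helper lemmas with `bcay_`. -/

set_option autoImplicit false
set_option linter.dupNamespace false
set_option linter.unusedVariables false

noncomputable section

namespace Crest.Agent.R338

open Crest.Agent.Lib.PT Matrix Finset

variable {V : Type} [Fintype V] [DecidableEq V]

/-- `A = S/2` is skew, `|(1 - A) u|² = |u|² + |A u|² ≥ |u|²`, so `1 - A` is invertible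
(`Matrix.mulVec_injective_iff_isUnit`) with `OpLe R 1`, `R = (1 - A)⁻¹`.  `O = (1 + A) R`;
`Oᵀ O = Rᵀ (1 - A)(1 + A) R = Rᵀ (1 + A)(1 - A) R = 1` because `(1 - A)ᵀ = 1 + A`; `mul_eq_one_comm`.
`O = 1 + S + S²/2 + (S³/4) R` (multiply by `1 - A`), `E = (S³/4) R`.  If the row `v` of `S` vanishes (so does the column), use
`O = 1 + S R = 1 + R S`. -/
theorem exists_cayley (S : Matrix V V ℝ) (hS : Sᵀ = -S) {x : ℝ} (hx : OpLe S x) (h0 : 0 ≤ x) :
    ∃ O E : Matrix V V ℝ, Oᵀ * O = 1 ∧ O * Oᵀ = 1 ∧ O = 1 + S + (1 / 2 : ℝ) • (S * S) + E ∧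
      OpLe E (x ^ 3 / 4) ∧
      ∀ v, (∀ u, S v u = 0) → ∀ u, O v u = (if u = v then 1 else 0) ∧ O u v = if u = v then 1 else 0 := by
  obtain ⟨A, hA⟩ : ∃ A : Matrix V V ℝ, A = (1 / 2 : ℝ) • S := ⟨_, rfl⟩
  have hSA : S = A + A := by rw [hA]; module
  have hAt : Aᵀ = -A := by rw [hA, Matrix.transpose_smul, hS, smul_neg]
  have h1 : ∀ u : V → ℝ, u ⬝ᵥ u ≤ ((1 - A) *ᵥ u) ⬝ᵥ ((1 - A) *ᵥ u) := fun u => by
    have e1 : u ⬝ᵥ A *ᵥ u = 0 := by
      have e2 : u ⬝ᵥ A *ᵥ u = u ⬝ᵥ Aᵀ *ᵥ u := by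
        rw [Matrix.dotProduct_mulVec, ← Matrix.mulVec_transpose, dotProduct_comm]
      rw [hAt, Matrix.neg_mulVec, dotProduct_neg] at e2
      linarith
    have e3 := dot_self_nonneg (A *ᵥ u)
    simp only [Matrix.sub_mulVec, Matrix.one_mulVec, sub_dotProduct, dotProduct_sub,
      dotProduct_comm (A *ᵥ u) u, e1]
    linarith
  have h2 : IsUnit (1 - A) := by
    rw [← Matrix.mulVec_injective_iff_isUnit]
    intro u w huw
    have e1 := h1 (u - w)
    rw [Matrix.mulVec_sub, huw, sub_self, dotProduct_zero] at e1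
    have e2 : (u - w) ⬝ᵥ (u - w) = 0 := le_antisymm e1 (dot_self_nonneg _)
    exact sub_eq_zero.1 (dotProduct_self_eq_zero.1 e2)
  obtain ⟨U, hU⟩ := h2
  obtain ⟨R, hR⟩ : ∃ R : Matrix V V ℝ, R = ↑U⁻¹ := ⟨_, rfl⟩
  have hR1 : (1 - A) * R = 1 := by rw [← hU, hR, Units.mul_inv]
  have hR2 : R * (1 - A) = 1 := by rw [← hU, hR, Units.inv_mul]
  have hR3 : Rᵀ * (1 + A) = 1 := by
    have := congrArg Matrix.transpose hR1
    rwa [Matrix.transpose_mul, Matrix.transpose_sub, Matrix.transpose_one, hAt,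
      sub_neg_eq_add] at this
  have nR : OpLe R 1 := fun u => by
    have := h1 (R *ᵥ u)
    rwa [Matrix.mulVec_mulVec, hR1, Matrix.one_mulVec, ← one_mul (u ⬝ᵥ u), ← one_pow 2] at this
  have hO : ((1 + A) * R)ᵀ * ((1 + A) * R) = 1 := by
    rw [Matrix.transpose_mul, Matrix.transpose_add, Matrix.transpose_one, hAt]
    calc Rᵀ * (1 + -A) * ((1 + A) * R) = (Rᵀ * (1 + A)) * ((1 - A) * R) := by noncomm_ring
      _ = 1 := by rw [hR1, hR3, mul_one]
  have e1 : (1 + A) * R = 1 + S * R := by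
    calc (1 + A) * R = (1 - A) * R + (A + A) * R := by noncomm_ring
      _ = _ := by rw [hR1, ← hSA]
  have hc : A * R = R * A := by
    have e : A * R = R - 1 := by rw [← hR1]; noncomm_ring
    have e' : R * A = R - 1 := by rw [← hR2]; noncomm_ring
    rw [e, e']
  have e2 : (1 + A) * R = 1 + R * S := by
    rw [e1, hSA, add_mul, mul_add, hc]
  refine ⟨(1 + A) * R, (1 / 4 : ℝ) • (S * S * S * R), hO, mul_eq_one_comm.1 hO, ?_, ?_, ?_⟩
  · have e3 : (1 / 2 : ℝ) • (S * S) = A * A + A * A := by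
      rw [hSA]
      simp only [mul_add, add_mul]
      module
    have e4 : (1 / 4 : ℝ) • (S * S * S * R) = A * A * A * R + A * A * A * R := by
      rw [hSA]
      simp only [mul_add, add_mul]
      module
    rw [e3, e4, hSA]
    calc (1 + A) * R = (1 + (A + A) + (A * A + A * A)) * ((1 - A) * R) +
          (A * A * A * R + A * A * A * R) := by noncomm_ring
      _ = _ := by rw [hR1, mul_one]
  · refine ((((hx.mul hx).mul hx).mul nR).smul (1 / 4 : ℝ)).mono (by positivity) (le_of_eq ?_)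
    rw [abs_of_pos (by norm_num)]
    ring
  · intro v hv u
    have hv' : ∀ u, S u v = 0 := fun u => by
      have := congrFun (congrFun hS v) u
      simp only [Matrix.transpose_apply, Matrix.neg_apply, hv, neg_zero] at this
      exact this
    constructor
    · rw [e1]
      simp [Matrix.mul_apply, hv, Matrix.one_apply, eq_comm]
    · rw [e2]
      simp [Matrix.mul_apply, hv', Matrix.one_apply]

/-- With `O = 1 + S + Q`, `Q = S²/2 + E`, `Oᵀ = 1 - S + Q'`, `Q' = S²/2 + Eᵀ` (`‖Q‖, ‖Q'‖ ≤ x²`, `‖O‖ ≤ 1`) the difference is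
`[(Oᵀ - 1) hR O + hR (O - 1)] + [W Q - S W (S + Q) + Q' W O] + [h0 E + Eᵀ h0 - S h0 Q + Q' h0 (S + Q)]`
(substitute `W = S h0 - h0 S`; `noncomm_ring` after clearing the `1/2`, or expand with `Matrix.mul_add`, `smul` lemmas and `module`),
of norm `≤ 4 ν x + 4 Δ x³ + 4 Δ x³` (`OpLe.add, .mul, .sub, .transpose, .smul, .mono`). -/
theorem sw_orth (h0 hR W S : Matrix V V ℝ) (hS : Sᵀ = -S) (hcomm : h0 * S - S * h0 = -W)
    {Δ ν x : ℝ} (hΔ : 0 ≤ Δ) (hν : 0 ≤ ν) (hx0 : 0 ≤ x) (hx1 : x ≤ 1) (n0 : OpLe h0 Δ) (nR : OpLe hR ν)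
    (nW : OpLe W (Δ * x)) (nS : OpLe S x) :
    ∃ O : Matrix V V ℝ, Oᵀ * O = 1 ∧ O * Oᵀ = 1 ∧
      (∀ v, (∀ u, S v u = 0) → ∀ u, O v u = (if u = v then 1 else 0) ∧ O u v = if u = v then 1 else 0) ∧
      OpLe (Oᵀ * (h0 + hR + W) * O - (h0 + hR + (1 / 2 : ℝ) • (W * S - S * W)))
        (10 * (ν * x + Δ * x ^ 3)) := by
  obtain ⟨O, E, h1, h2, h3, nE, h4⟩ := exists_cayley S hS nS hx0
  refine ⟨O, h1, h2, h4, ?_⟩
  have nO : OpLe O 1 := OpLe.of_orth h1
  have hx2 : x ^ 2 ≤ x := by nlinarith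
  have hx3 : x ^ 3 ≤ x ^ 2 := by nlinarith [sq_nonneg x]
  have hx4 : 0 ≤ x ^ 2 := by positivity
  have hx5 : 0 ≤ x ^ 3 := by positivity
  have nP : OpLe ((1 / 2 : ℝ) • (S * S)) (x ^ 2 / 2) := by
    refine ((nS.mul nS).smul (1 / 2 : ℝ)).mono (by positivity) (le_of_eq ?_)
    rw [abs_of_pos (by norm_num)]
    ring
  obtain ⟨Q, hQ⟩ : ∃ Q, Q = (1 / 2 : ℝ) • (S * S) + E := ⟨_, rfl⟩
  obtain ⟨Q', hQ'⟩ : ∃ Q', Q' = (1 / 2 : ℝ) • (S * S) + Eᵀ := ⟨_, rfl⟩
  have nQ : OpLe Q (x ^ 2) := by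
    rw [hQ]
    exact (nP.add nE (by positivity) (by positivity)).mono (by positivity) (by linarith)
  have nQ' : OpLe Q' (x ^ 2) := by
    rw [hQ']
    exact (nP.add nE.transpose (by positivity) (by positivity)).mono (by positivity) (by linarith)
  have nSQ : OpLe (S + Q) (2 * x) := (nS.add nQ hx0 hx4).mono (by positivity) (by linarith)
  have nSQ' : OpLe (Q' - S) (2 * x) := (nQ'.sub nS hx4 hx0).mono (by positivity) (by linarith)
  have hO : O = 1 + (S + Q) := by rw [h3, hQ]; abel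
  have hO' : Oᵀ = 1 + (Q' - S) := by
    rw [h3, hQ']
    simp only [Matrix.transpose_add, Matrix.transpose_one, Matrix.transpose_smul,
      Matrix.transpose_mul, hS, neg_mul_neg]
    abel
  have hW : W = S * h0 - h0 * S := by rw [← neg_sub, hcomm, neg_neg]
  have e : Oᵀ * (h0 + hR + W) * O - (h0 + hR + (1 / 2 : ℝ) • (W * S - S * W)) =
      ((Q' - S) * hR * O + hR * (S + Q)) + (W * Q - S * W * (S + Q) + Q' * W * O) +
        (h0 * E + Eᵀ * h0 - S * h0 * Q + Q' * h0 * (S + Q)) := by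
    rw [hO', hO, hQ, hQ', hW]
    simp only [mul_add, add_mul, mul_sub, sub_mul, smul_mul_assoc, mul_smul_comm, mul_assoc,
      one_mul, mul_one]
    module
  rw [e]
  have n1 := ((nSQ'.mul nR).mul nO).add (nR.mul nSQ) (by positivity) (by positivity)
  have n2 := ((nW.mul nQ).sub ((nS.mul nW).mul nSQ) (by positivity) (by positivity)).add
    ((nQ'.mul nW).mul nO) (by positivity) (by positivity)
  have n3 := (((n0.mul nE).add (nE.transpose.mul n0) (by positivity) (by positivity)).sub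
    ((nS.mul n0).mul nQ) (by positivity) (by positivity)).add ((nQ'.mul n0).mul nSQ)
    (by positivity) (by positivity)
  refine ((n1.add n2 (by positivity) (by positivity)).add n3 (by positivity)
    (by positivity)).mono (by positivity) ?_
  have a1 : 0 ≤ ν * x := by positivity
  have a2 : 0 ≤ Δ * x ^ 3 := by positivity
  nlinarith

end Crest.Agent.R338
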