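import Crest.Agent.R338.FBasic

/-! # Fermion models: decoupled filled and empty sites

Sites `V ⊕ W`, one-body matrix `fromBlocks k 0 0 (diagonal en)`.  The sites in `F` are to be doubly
filled, the other sites of `W` empty.

Decomposition used in both proofs: for `A : FSt ι' (V ⊕ W)`, a set `I` of particles and
`y : I → W × Fin 2`, let `A_{I,y} : FSt {i // i ∉ I} V` be the amplitude of the configurations in which
the particles of `I` sit at `y` and the others in `V`.  Then `|A|² = ∑ |A_{I,y}|²` and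
`A⬝fmat A = ∑_{I,y} (∑_{i∈I} en (y i)) |A_{I,y}|² + A_{I,y}⬝fmat k A_{I,y}`; `A_{I,y}` is antisymmetric and
hard-core, and vanishes unless `y` is injective (`Anti.eq_zero`).
Lower bound: for injective `y`, `∑ en (y i) ≥ 2∑_F en + g (#missing + #outside F)`; if nothing is
missing and nothing is outside `F` then `|I| = 2|F|`, so `{i ∉ I} ≃ ι` (`Fintype.equivOfCardEq`,
`fNo_equiv`); otherwise use `‖fmat k‖ ≤ ν card ι'`.
Upper bound: take `ι' = ι ⊕ (F × Fin 2)` (`fYes_equiv`), `B x = A (x ∘ inl)` if the particles of `ι` sit in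
`V` and particle `f` sits at `f`, else `0`, and `A' x = ∑ σ, sign σ * B (x ∘ σ)`.  Either use the
decomposition, or: `fmat` commutes with relabelling, `B ∘ σ ⊥ B` and `fmat (B ∘ σ) ⊥ B` unless `σ`
fixes every `inr f`, in which case `B ∘ σ = sign σ • B`; so `A'⬝H A' = N'! N! B⬝H B`, `|A'|² = N'! N! |B|²`. -/

set_option autoImplicit false
set_option linter.dupNamespace false
set_option linter.unusedVariables false

noncomputable section

namespace Crest.Agent.R338

open Crest.Agent.Lib.PT Matrix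

variable {ι ι' V W : Type} [Fintype ι] [DecidableEq ι] [Fintype ι'] [DecidableEq ι'] [Fintype V]
  [DecidableEq V] [Fintype W] [DecidableEq W]

/-- The configuration with the particles of `J` at `u` in `V` and those of `I` at `y` in `W`. -/
def fsE {J I V W : Type} (y : I → W × Fin 2) (u : J → V × Fin 2) : J ⊕ I → (V ⊕ W) × Fin 2 :=
  Sum.elim (fun j => (Sum.inl (u j).1, (u j).2)) fun m => (Sum.inr (y m).1, (y m).2)

theorem fsE_inj {J I V W : Type} {y y' : I → W × Fin 2} {u u' : J → V × Fin 2}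
    (h : fsE y u = fsE y' u') : y = y' ∧ u = u' := by
  refine ⟨funext fun m => ?_, funext fun j => ?_⟩
  · have := congrFun h (Sum.inr m)
    simp only [fsE, Sum.elim_inr, Prod.mk.injEq, Sum.inr.injEq] at this
    exact Prod.ext this.1 this.2
  · have := congrFun h (Sum.inl j)
    simp only [fsE, Sum.elim_inl, Prod.mk.injEq, Sum.inl.injEq] at this
    exact Prod.ext this.1 this.2

theorem fsE_surj {J I V W : Type} (z : J ⊕ I → (V ⊕ W) × Fin 2)
    (h1 : ∀ j, (z (Sum.inl j)).1.isLeft = true) (h2 : ∀ m, ¬ (z (Sum.inr m)).1.isLeft = true) :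
    ∃ y u, fsE y u = z := by
  choose v hv using fun j => Sum.isLeft_iff.1 (h1 j)
  choose w hw using fun m => Sum.isRight_iff.1 (Sum.not_isLeft.1 (h2 m))
  refine ⟨fun m => (w m, (z (Sum.inr m)).2), fun j => (v j, (z (Sum.inl j)).2), funext fun i => ?_⟩
  rcases i with j | m
  · exact Prod.ext (hv j).symm rfl
  · exact Prod.ext (hw m).symm rfl

theorem fsE_perm {J I V W : Type} (y : I → W × Fin 2) (u : J → V × Fin 2) (τ : Equiv.Perm J) :
    fsE y u ∘ (τ.sumCongr (1 : Equiv.Perm I)) = fsE y (u ∘ τ) :=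
  funext fun i => by rcases i with j | m <;> rfl

theorem fs_relabel (e : ι ≃ ι') (h : Matrix V V ℝ) (A : FSt ι V) (x : ι' → V × Fin 2) :
    (fmat ι h *ᵥ A) (x ∘ e) = (fmat ι' h *ᵥ fun z => A (z ∘ e)) x := by
  rw [fmat_mulVec, fmat_mulVec, ← e.sum_comp]
  refine Finset.sum_congr rfl fun i _ => Finset.sum_congr rfl fun v _ => ?_
  rw [Function.update_comp_eq_of_injective _ e.injective]
  rfl

omit [Fintype V] [DecidableEq V] in
theorem fs_anti (e : ι ≃ ι') {A : FSt ι V} (hA : Anti A) :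
    Anti (ι := ι') (V := V) fun z => A (z ∘ e) := fun σ x => by
  have := hA (e.symm.permCongr σ) (x ∘ e)
  rw [Equiv.Perm.sign_permCongr] at this
  refine (congrArg A (funext fun i => ?_)).trans this
  simp [Equiv.permCongr_apply]

theorem fs_key (k : Matrix V V ℝ) (en : W → ℝ) (A : FSt (ι ⊕ ι') (V ⊕ W)) (y : ι' → W × Fin 2)
    (u : ι → V × Fin 2) :
    (fmat (ι ⊕ ι') (Matrix.fromBlocks k 0 0 (Matrix.diagonal en)) *ᵥ A) (fsE y u) =
      (∑ m, en (y m).1) * A (fsE y u) + (fmat ι k *ᵥ fun u => A (fsE y u)) u := by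
  rw [fmat_mulVec, fmat_mulVec, Fintype.sum_sum_type, add_comm, Finset.sum_mul]
  congr 1
  · refine Finset.sum_congr rfl fun m _ => ?_
    have h : Function.update (fsE y u) (Sum.inr m) (Sum.inr (y m).1, (y m).2) = fsE y u :=
      Function.update_eq_self (Sum.inr m) (fsE y u)
    rw [Fintype.sum_sum_type]
    change ∑ v, (0 : ℝ) * _ + ∑ w, Matrix.diagonal en (y m).1 w *
      A (Function.update (fsE y u) (Sum.inr m) (Sum.inr w, (y m).2)) = _
    simp [Matrix.diagonal_apply, h]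
  · refine Finset.sum_congr rfl fun j _ => ?_
    rw [Fintype.sum_sum_type]
    change ∑ v, k (u j).1 v * A (Function.update (fsE y u) (Sum.inl j) (Sum.inl v, (u j).2)) +
      ∑ w, (0 : ℝ) * _ = _
    simp only [zero_mul, Finset.sum_const_zero, add_zero]
    refine Finset.sum_congr rfl fun v _ => congrArg (fun z => _ * A z) (funext fun i => ?_)
    rcases i with i | m
    · rcases eq_or_ne i j with rfl | h
      · simp [fsE]
      · simp [fsE, h]
    · simp [fsE]

omit [DecidableEq V] [DecidableEq W] in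
theorem fs_sum (f : (ι → (V ⊕ W) × Fin 2) → ℝ) :
    ∑ x, f x = ∑ S : Finset ι, ∑ y : {i // i ∉ S} → W × Fin 2, ∑ u : {i // i ∈ S} → V × Fin 2,
      f (fsE y u ∘ (Equiv.sumCompl (· ∈ S)).symm) := by
  classical
  rw [← Finset.sum_fiberwise Finset.univ
    (fun x : ι → (V ⊕ W) × Fin 2 => Finset.univ.filter fun i => (x i).1.isLeft = true)]
  refine Finset.sum_congr rfl fun S _ => ?_
  rw [← Fintype.sum_prod_type']
  symm
  refine Finset.sum_bij (fun p _ => fsE p.1 p.2 ∘ (Equiv.sumCompl (· ∈ S)).symm) (fun p _ => ?_)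
    (fun p _ q _ h => ?_) (fun x hx => ?_) fun _ _ => rfl
  · refine Finset.mem_filter.2 ⟨Finset.mem_univ _, Finset.ext fun i => ?_⟩
    obtain ⟨j | m, rfl⟩ := (Equiv.sumCompl (· ∈ S)).surjective i
    · rw [Finset.mem_filter, Function.comp_apply, Equiv.symm_apply_apply]
      exact ⟨fun _ => j.2, fun _ => ⟨Finset.mem_univ _, rfl⟩⟩
    · rw [Finset.mem_filter, Function.comp_apply, Equiv.symm_apply_apply]
      exact ⟨fun h => absurd h.2 Bool.false_ne_true, fun h => absurd h m.2⟩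
  · have := fsE_inj ((Equiv.sumCompl (· ∈ S)).symm.surjective.injective_comp_right h)
    exact Prod.ext this.1 this.2
  · have hS : ∀ i, i ∈ S ↔ (x i).1.isLeft = true := fun i => by
      rw [← (Finset.mem_filter.1 hx).2]
      simp
    obtain ⟨y, u, h⟩ := fsE_surj (x ∘ Equiv.sumCompl (· ∈ S)) (fun j => (hS _).1 j.2)
      fun m h => m.2 ((hS _).2 h)
    refine ⟨(y, u), Finset.mem_univ _, ?_⟩
    rw [h]
    exact funext fun i => congrArg x (Equiv.apply_symm_apply _ i)

omit [DecidableEq W] [Fintype W] in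
theorem fs_two (en : W → ℝ) (F : Finset W) :
    ∑ p ∈ F ×ˢ (Finset.univ : Finset (Fin 2)), en p.1 = 2 * ∑ w ∈ F, en w := by
  rw [Finset.sum_product, Finset.mul_sum]
  simp

omit [Fintype W] in
theorem fs_low {J I : Type} [Fintype J] [DecidableEq J] [Fintype I] [DecidableEq I]
    {hc : V → Prop} {hc' : V ⊕ W → Prop} {k : Matrix V V ℝ} (en : W → ℝ)
    (F : Finset W) {b ν g : ℝ} (hhc : ∀ v, hc v → hc' (Sum.inl v))
    (hcard : Fintype.card J + Fintype.card I = Fintype.card ι + 2 * F.card) (hk : OpLe k ν)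
    (hν : 0 ≤ ν) (hg : ν * Fintype.card J + |b| ≤ g) (hF : ∀ w ∈ F, en w ≤ -g)
    (hE : ∀ w ∉ F, g ≤ en w) (H : FNo ι hc k b) (A : FSt (J ⊕ I) (V ⊕ W)) (hA : Anti A)
    (hH : HCok hc' A) (y : I → W × Fin 2) (B : FSt J V) (hB : B = fun u => A (fsE y u)) :
    (b + 2 * ∑ w ∈ F, en w) * (B ⬝ᵥ B) ≤ (∑ m, en (y m).1) * (B ⬝ᵥ B) + B ⬝ᵥ fmat J k *ᵥ B := by
  by_cases hy : Function.Injective y
  swap
  · obtain ⟨m, m', h1, h2⟩ := Function.not_injective_iff.1 hy
    have : B = 0 := hB.trans (funext fun u => hA.eq_zero (i := Sum.inr m) (j := Sum.inr m')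
      (fun h => h2 (Sum.inr_injective h)) (by simp [fsE, h1]))
    simp [this]
  have h0 := dot_self_nonneg B
  rw [← Finset.sum_image (f := fun p : W × Fin 2 => en p.1) hy.injOn, ← fs_two]
  by_cases hT : Finset.univ.image y = F ×ˢ (Finset.univ : Finset (Fin 2))
  · have hc1 := congrArg Finset.card hT
    rw [Finset.card_image_of_injective _ hy, Finset.card_product, Finset.card_univ,
      Finset.card_univ, Fintype.card_fin] at hc1
    have h1 := (fNo_equiv (Fintype.equivOfCardEq (α := J) (β := ι) (by omega)) hc k b).2 H B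
      (fun τ u => by
        have := hA (τ.sumCongr 1) (fsE y u)
        rwa [fsE_perm, Equiv.Perm.sign_sumCongr, Equiv.Perm.sign_one, mul_one, ← congrFun hB,
          ← congrFun hB] at this)
      (fun u i j hij h1 h2 => hB ▸ hH (fsE y u) (Sum.inl i) (Sum.inl j)
        (fun h => hij (Sum.inl_injective h)) (congrArg Sum.inl h1) (hhc _ h2))
    rw [hT]
    linarith
  · have hb := le_abs_self b
    have hg0 : 0 ≤ g := le_trans (by positivity) hg
    have h1 := (abs_le.1 ((hk.fmat (ι := J) hν).form_le (by positivity) B)).1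
    have h2 := Finset.sum_sdiff_sub_sum_sdiff (s₁ := F ×ˢ (Finset.univ : Finset (Fin 2)))
      (s₂ := Finset.univ.image y) (f := fun p => en p.1)
    have h3 := Finset.card_nsmul_le_sum (Finset.univ.image y \ F ×ˢ (Finset.univ : Finset (Fin 2)))
      (fun p => en p.1) g fun p hp => hE _ fun h =>
        (Finset.mem_sdiff.1 hp).2 (Finset.mem_product.2 ⟨h, Finset.mem_univ _⟩)
    have h4 := Finset.sum_le_card_nsmul (F ×ˢ (Finset.univ : Finset (Fin 2)) \ Finset.univ.image y)
      (fun p => en p.1) (-g) fun p hp => hF _ (Finset.mem_product.1 (Finset.mem_sdiff.1 hp).1).1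
    have h5 : 1 ≤ (Finset.univ.image y \ F ×ˢ (Finset.univ : Finset (Fin 2))).card +
        (F ×ˢ (Finset.univ : Finset (Fin 2)) \ Finset.univ.image y).card := by
      by_contra h
      exact hT (Finset.Subset.antisymm
        (Finset.sdiff_eq_empty_iff_subset.1 (Finset.card_eq_zero.1 (by omega)))
        (Finset.sdiff_eq_empty_iff_subset.1 (Finset.card_eq_zero.1 (by omega))))
    have h6 := mul_le_mul_of_nonneg_right ((Nat.cast_le (α := ℝ)).2 h5) hg0
    rw [nsmul_eq_mul] at h3 h4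
    push_cast at h6
    have h7 : b + ∑ p ∈ F ×ˢ (Finset.univ : Finset (Fin 2)), en p.1 + Fintype.card J * ν ≤
      ∑ p ∈ Finset.univ.image y, en p.1 := by linarith
    have := mul_le_mul_of_nonneg_right h7 h0
    linarith

/-- Antisymmetrisation. -/
def fsAlt (B : FSt ι V) : FSt ι V :=
  fun x => ∑ σ : Equiv.Perm ι, ((Equiv.Perm.sign σ : ℤ) : ℝ) * B (x ∘ σ)

theorem fs_sign_sq (σ : Equiv.Perm ι) :
    ((Equiv.Perm.sign σ : ℤ) : ℝ) * ((Equiv.Perm.sign σ : ℤ) : ℝ) = 1 := by
  rw [← Int.cast_mul, ← Units.val_mul, Int.units_mul_self, Units.val_one, Int.cast_one]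

omit [Fintype V] [DecidableEq V] in
theorem fsAlt_anti (B : FSt ι V) : Anti (fsAlt B) := fun τ x => by
  unfold fsAlt
  rw [Finset.mul_sum, ← Equiv.sum_comp (Equiv.mulLeft τ) fun σ : Equiv.Perm ι => _ * (_ * B (x ∘ σ))]
  refine Finset.sum_congr rfl fun σ _ => ?_
  rw [Equiv.coe_mulLeft, Equiv.Perm.sign_mul, Units.val_mul, Int.cast_mul, ← mul_assoc,
    ← mul_assoc, fs_sign_sq, one_mul]
  rfl

omit [DecidableEq V] in
theorem fsAlt_dot (B : FSt ι V) {C : FSt ι V} (hC : Anti C) :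
    fsAlt B ⬝ᵥ C = Fintype.card (Equiv.Perm ι) * (B ⬝ᵥ C) := by
  simp only [dotProduct, fsAlt, Finset.sum_mul]
  rw [Finset.sum_comm, ← nsmul_eq_mul, ← Finset.card_univ, ← Finset.sum_const]
  refine Finset.sum_congr rfl fun σ _ => ?_
  rw [← (σ.symm.arrowCongr (Equiv.refl (V × Fin 2))).sum_comp fun x => B x * C x]
  refine Finset.sum_congr rfl fun x _ => ?_
  change _ = B (x ∘ σ) * C (x ∘ σ)
  rw [hC]
  ring

theorem fs_anti_fmat (h : Matrix V V ℝ) {C : FSt ι V} (hC : Anti C) :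
    Anti (ι := ι) (V := V) (fmat ι h *ᵥ C) := fun σ x => by
  rw [fs_relabel σ h C x, show (fun z => C (z ∘ σ)) = ((Equiv.Perm.sign σ : ℤ) : ℝ) • C from
    funext fun z => hC σ z, Matrix.mulVec_smul]
  rfl

theorem FNo.sector {hc : V → Prop} {hc' : V ⊕ W → Prop} {k : Matrix V V ℝ} (en : W → ℝ)
    (F : Finset W) {b ν g : ℝ} (hhc : ∀ v, hc v → hc' (Sum.inl v))
    (hcard : Fintype.card ι' = Fintype.card ι + 2 * F.card) (hk : OpLe k ν) (hν : 0 ≤ ν)
    (hg : ν * Fintype.card ι' + |b| ≤ g) (hF : ∀ w ∈ F, en w ≤ -g) (hE : ∀ w ∉ F, g ≤ en w)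
    (H : FNo ι hc k b) :
    FNo ι' hc' (Matrix.fromBlocks k 0 0 (Matrix.diagonal en)) (b + 2 * ∑ w ∈ F, en w) := by
  intro A hA hH
  unfold dotProduct
  rw [fs_sum, fs_sum fun x => A x * _, Finset.mul_sum]
  refine Finset.sum_le_sum fun S _ => ?_
  rw [Finset.mul_sum]
  refine Finset.sum_le_sum fun y _ => ?_
  have hc1 := Fintype.card_congr (Equiv.sumCompl (· ∈ S))
  rw [Fintype.card_sum] at hc1
  have hc2 : (Fintype.card {i // i ∈ S} : ℝ) ≤ Fintype.card ι' := by
    exact_mod_cast hc1 ▸ Nat.le_add_right _ _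
  refine (fs_low en F hhc (hc1.trans hcard) hk hν
    (le_trans (add_le_add_left (mul_le_mul_of_nonneg_left hc2 hν) _) hg) hF hE H _
    (fs_anti (Equiv.sumCompl (· ∈ S)).symm hA) (fun x i j hij h1 h2 => ?_) y _ rfl).trans
    (le_of_eq ?_)
  · refine hH _ (Equiv.sumCompl (· ∈ S) i) (Equiv.sumCompl (· ∈ S) j)
      (fun h => hij ((Equiv.sumCompl (· ∈ S)).injective h)) ?_ ?_ <;>
    simpa only [Function.comp_apply, Equiv.symm_apply_apply]
  · simp only [fs_relabel, fs_key, dotProduct, Finset.mul_sum, ← Finset.sum_add_distrib]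
    exact Finset.sum_congr rfl fun u _ => by ring

theorem FYes.sector {hc : V → Prop} {hc' : V ⊕ W → Prop} {k : Matrix V V ℝ} (en : W → ℝ)
    (F : Finset W) {a : ℝ} (hhc : ∀ v, hc' (Sum.inl v) → hc v)
    (hF : ∀ w ∈ F, ¬ hc' (Sum.inr w))
    (hcard : Fintype.card ι' = Fintype.card ι + 2 * F.card) (H : FYes ι hc k a) :
    FYes ι' hc' (Matrix.fromBlocks k 0 0 (Matrix.diagonal en)) (a + 2 * ∑ w ∈ F, en w) := by
  classical
  obtain ⟨A, hA, hH, hne, hle⟩ := H
  rw [fYes_equiv (Fintype.equivOfCardEq (α := ι') (β := ι ⊕ (F × Fin 2)) (by simp [hcard, mul_comm]))]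
  let y : F × Fin 2 → W × Fin 2 := fun m => (m.1.1, m.2)
  have hy : Function.Injective y := fun m m' h =>
    Prod.ext (Subtype.ext (congrArg Prod.fst h)) (congrArg Prod.snd h :)
  have hE : ∑ m, en (y m).1 = 2 * ∑ w ∈ F, en w := by
    rw [Fintype.sum_prod_type, ← Finset.sum_coe_sort F, Finset.mul_sum]
    simp [y]
  let B : FSt (ι ⊕ (F × Fin 2)) (V ⊕ W) := fun x => ∑ u, if x = fsE y u then A u else 0
  have hB1 : ∀ u, B (fsE y u) = A u := fun u =>
    (Finset.sum_eq_single u (fun u' _ h => if_neg fun h' => h (fsE_inj h').2.symm)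
      fun h => absurd (Finset.mem_univ _) h).trans (if_pos rfl)
  have hB0 : ∀ x, B x ≠ 0 → ∃ u, x = fsE y u := fun x hx => by
    obtain ⟨u, -, hu⟩ := Finset.exists_ne_zero_of_sum_ne_zero hx
    exact ⟨u, (ite_ne_right_iff.1 hu).1⟩
  have hdot : ∀ C, B ⬝ᵥ C = ∑ u, A u * C (fsE y u) := fun C => by
    simp only [dotProduct, B, Finset.sum_mul]
    rw [Finset.sum_comm]
    simp
  obtain ⟨c, hc0, hcA⟩ : ∃ c : ℝ, 0 < c ∧ ∀ u, fsAlt B (fsE y u) = c * A u := by
    refine ⟨(Finset.univ.filter fun σ : Equiv.Perm (ι ⊕ (F × Fin 2)) =>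
      ∃ τ : Equiv.Perm ι, σ = τ.sumCongr 1).card, Nat.cast_pos.2 (Finset.card_pos.2
        ⟨_, Finset.mem_filter.2 ⟨Finset.mem_univ _, 1, rfl⟩⟩), fun u => ?_⟩
    rw [← nsmul_eq_mul, ← Finset.sum_const, Finset.sum_filter]
    refine Finset.sum_congr rfl fun σ _ => ?_
    split_ifs with h
    · obtain ⟨τ, rfl⟩ := h
      rw [fsE_perm, hB1, hA, Equiv.Perm.sign_sumCongr, Equiv.Perm.sign_one, mul_one, ← mul_assoc,
        fs_sign_sq, one_mul]
    · refine mul_eq_zero_of_right _ (by_contra fun h0 => h ?_)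
      obtain ⟨u', hu⟩ := hB0 _ h0
      have hfix : ∀ m, σ (Sum.inr m) = Sum.inr m := fun m => by
        have := congrFun hu (Sum.inr m)
        rw [Function.comp_apply] at this
        rcases hσ : σ (Sum.inr m) with j | m' <;> rw [hσ] at this
        · exact absurd (congrArg Prod.fst this) Sum.inl_ne_inr
        · exact congrArg _ (hy (Prod.ext (Sum.inr_injective (congrArg Prod.fst this))
            (congrArg Prod.snd this :)))
      obtain ⟨⟨τ, ρ⟩, rfl⟩ := Equiv.Perm.mem_sumCongrHom_range_of_perm_mapsTo_inl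
        ((Equiv.Perm.perm_mapsTo_inl_iff_mapsTo_inr σ).2 (by
          rintro _ ⟨m, rfl⟩
          exact ⟨m, (hfix m).symm⟩))
      obtain rfl : ρ = 1 := Equiv.ext fun m => Sum.inr_injective (hfix m)
      exact ⟨τ, rfl⟩
  refine ⟨fsAlt B, fsAlt_anti B, fun x i j hij h1 h2 => Finset.sum_eq_zero fun σ _ =>
    mul_eq_zero_of_right _ (by_contra fun h0 => ?_), fun h0 => hne (funext fun u => ?_), ?_⟩
  · obtain ⟨u, hu⟩ := hB0 _ h0
    obtain ⟨i, rfl⟩ := σ.surjective i
    obtain ⟨j, rfl⟩ := σ.surjective j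
    rw [show x (σ i) = fsE y u i from congrFun hu i] at h1 h2
    rw [show x (σ j) = fsE y u j from congrFun hu j] at h1
    rw [hu, hB1] at h0
    rcases i with i | m
    · rcases j with j | m
      · exact h0 (hH u i j (fun h => hij (by rw [h])) (Sum.inl_injective h1) (hhc _ h2))
      · exact Sum.inl_ne_inr h1
    · exact hF _ m.1.2 h2
  · have := hcA u
    rw [h0] at this
    exact (mul_eq_zero.1 this.symm).resolve_left hc0.ne'
  · rw [fsAlt_dot B (fsAlt_anti B), fsAlt_dot B (fs_anti_fmat _ (fsAlt_anti B)), hdot, hdot,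
      mul_left_comm]
    refine mul_le_mul_of_nonneg_left ?_ (Nat.cast_nonneg _)
    have h1 : (fun u => c * A u) = c • A := rfl
    simp only [fs_key, hcA, hE, h1, Matrix.mulVec_smul, Pi.smul_apply, smul_eq_mul]
    have h2 := mul_le_mul_of_nonneg_left hle hc0.le
    simp only [dotProduct, Finset.mul_sum] at h2
    simp only [mul_add, add_mul, Finset.sum_add_distrib, Finset.mul_sum Finset.univ]
    rw [add_comm]
    refine add_le_add (le_of_eq_of_le ?_ (h2.trans_eq ?_)) (le_of_eq ?_) <;>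
    exact Finset.sum_congr rfl fun u _ => by ring

end Crest.Agent.R338
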