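import Crest.Agent.R338.Op

/-! # Words, `hamMat`, real gates -/

set_option autoImplicit false
set_option linter.dupNamespace false
set_option linter.unusedVariables false

noncomputable section

namespace Crest.Agent.R338

open Crest.Agent.Lib.PT Matrix

theorem pX_transpose : pXᵀ = pX := by
  ext a b
  cases a <;> cases b <;> simp [pX]
theorem pZ_transpose : pZᵀ = pZ := by
  ext a b
  cases a <;> cases b <;> simp [pZ]
theorem p1_transpose : p1ᵀ = p1 := by
  ext a b
  cases a <;> cases b <;> simp [p1]
theorem pX_mul_self : pX * pX = 1 := by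
  ext a b
  cases a <;> cases b <;> simp [pX, Matrix.mul_apply]
theorem pZ_mul_self : pZ * pZ = 1 := by
  ext a b
  cases a <;> cases b <;> simp [pZ, Matrix.mul_apply]
theorem p1_mul_self : p1 * p1 = p1 := by
  ext a b
  cases a <;> cases b <;> simp [p1, Matrix.mul_apply]
theorem p1_eq : p1 = (1 / 2 : ℝ) • (1 - pZ) := by
  ext a b
  cases a <;> cases b <;> simp [p1, pZ]
  norm_num
theorem pX_mul_pZ : pX * pZ = -(pZ * pX) := by
  ext a b
  cases a <;> cases b <;> simp [pX, pZ, Matrix.mul_apply]
theorem refl_transpose (k : ℕ) : (refl k)ᵀ = refl k := by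
  match k with
  | 0 => exact pX_transpose
  | 1 => exact pZ_transpose
  | k + 2 =>
    show ((Real.sqrt 2)⁻¹ • (pX + pZ))ᵀ = (Real.sqrt 2)⁻¹ • (pX + pZ)
    rw [Matrix.transpose_smul, Matrix.transpose_add, pX_transpose, pZ_transpose]
theorem refl_mul_self (k : ℕ) : refl k * refl k = 1 := by
  match k with
  | 0 => exact pX_mul_self
  | 1 => exact pZ_mul_self
  | k + 2 =>
    show ((Real.sqrt 2)⁻¹ • (pX + pZ)) * ((Real.sqrt 2)⁻¹ • (pX + pZ)) = 1
    have h2 : (Real.sqrt 2)⁻¹ * (Real.sqrt 2)⁻¹ = (1 / 2 : ℝ) := by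
      rw [← mul_inv, Real.mul_self_sqrt (by norm_num)]; norm_num
    have h3 : (pX + pZ) * (pX + pZ) = (2 : ℝ) • (1 : Matrix Bool Bool ℝ) := by
      rw [add_mul, mul_add, mul_add, pX_mul_self, pZ_mul_self, pX_mul_pZ, two_smul]
      abel
    rw [Matrix.smul_mul, Matrix.mul_smul, smul_smul, h2, h3, smul_smul]
    norm_num
theorem letter_transpose (o : Option Bool) : (letter o)ᵀ = letter o := by
  rcases o with _ | _ | _
  · exact Matrix.transpose_one
  · exact pZ_transpose
  · exact pX_transpose
theorem letter_mul_self (o : Option Bool) : letter o * letter o = 1 := by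
  rcases o with _ | _ | _
  · exact Matrix.mul_one _
  · exact pZ_mul_self
  · exact pX_mul_self

theorem wd_lookup_none {q : ℕ} {w : Word} (h : q ∉ w.map Prod.fst) : w.lookup q = none := by
  rw [List.lookup_eq_none_iff]
  intro p hp
  simp only [bne_iff_ne, ne_eq]
  rintro rfl
  exact h (List.mem_map_of_mem hp)

theorem wordMat_nil (n : ℕ) : wordMat n [] = 1 := by
  unfold wordMat
  exact tens_one

theorem wordMat_cons {n q : ℕ} (hq : q < n) (b : Bool) {w : Word} (h : q ∉ w.map Prod.fst) :
    wordMat n ((q, b) :: w) = loc (⟨q, hq⟩ : Fin n) (letter (some b)) * wordMat n w := by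
  unfold wordMat
  rw [loc_mul_tens]
  congr 1
  funext i
  by_cases hi : i = ⟨q, hq⟩
  · subst hi
    rw [Function.update_self, wd_lookup_none h]
    simp [letter]
  · rw [Function.update_of_ne hi]
    have hne : (i.val == q) = false := by
      simpa using fun h' => hi (Fin.ext h')
    simp [List.lookup_cons, hne]

theorem wordMat_single {n q : ℕ} (hq : q < n) (b : Bool) :
    wordMat n [(q, b)] = loc (⟨q, hq⟩ : Fin n) (letter (some b)) := by
  rw [wordMat_cons hq b (by simp), wordMat_nil, mul_one]

theorem wordMat_append (n : ℕ) {w w' : Word}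
    (h : ∀ q, q ∈ w.map Prod.fst → q ∉ w'.map Prod.fst) :
    wordMat n (w ++ w') = wordMat n w * wordMat n w' := by
  unfold wordMat
  rw [tens_mul]
  congr 1
  funext i
  rw [List.lookup_append]
  by_cases hi : i.val ∈ w.map Prod.fst
  · rw [wd_lookup_none (h _ hi)]
    simp [letter]
  · rw [wd_lookup_none hi]
    simp [letter]

theorem wordMat_comm (n : ℕ) {w w' : Word} (h : ∀ q, q ∈ w.map Prod.fst → q ∉ w'.map Prod.fst) :
    wordMat n w * wordMat n w' = wordMat n w' * wordMat n w := by
  unfold wordMat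
  rw [tens_mul, tens_mul]
  congr 1
  funext i
  by_cases hi : i.val ∈ w.map Prod.fst
  · rw [wd_lookup_none (h _ hi)]
    simp [letter]
  · rw [wd_lookup_none hi]
    simp [letter]

theorem loc_comm_wordMat {n : ℕ} (q : Fin n) (A : Matrix Bool Bool ℝ) {w : Word}
    (h : q.val ∉ w.map Prod.fst) : loc q A * wordMat n w = wordMat n w * loc q A := by
  unfold wordMat
  rw [loc_mul_tens, tens_mul_loc, wd_lookup_none h]
  simp [letter]

theorem wordMat_transpose (n : ℕ) (w : Word) : (wordMat n w)ᵀ = wordMat n w := by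
  unfold wordMat
  rw [tens_transpose]
  simp only [letter_transpose]

theorem wordMat_mul_self (n : ℕ) (w : Word) : wordMat n w * wordMat n w = 1 := by
  unfold wordMat
  rw [tens_mul]
  simp only [letter_mul_self]
  exact tens_one

theorem wordMat_opLe (n : ℕ) (w : Word) : OpLe (wordMat n w) 1 := by
  apply OpLe.of_orth
  rw [wordMat_transpose, wordMat_mul_self]

theorem hamMat_nil (n : ℕ) : hamMat n [] = 0 := by
  simp [hamMat]

theorem hamMat_cons (n : ℕ) (t : ℚ × Word) (ts : List (ℚ × Word)) :
    hamMat n (t :: ts) = (t.1 : ℝ) • wordMat n t.2 + hamMat n ts := by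
  simp [hamMat]

theorem hamMat_append (n : ℕ) (ts ts' : List (ℚ × Word)) :
    hamMat n (ts ++ ts') = hamMat n ts + hamMat n ts' := by
  simp [hamMat]

theorem hamMat_flatten (n : ℕ) (L : List (List (ℚ × Word))) :
    hamMat n L.flatten = (L.map (hamMat n)).sum := by
  induction L with
  | nil => simp [hamMat_nil]
  | cons l L ih => rw [List.flatten_cons, hamMat_append, ih, List.map_cons, List.sum_cons]

theorem hamMat_scale (n : ℕ) (c : ℚ) (ts : List (ℚ × Word)) :
    hamMat n (ts.map fun t => (c * t.1, t.2)) = (c : ℝ) • hamMat n ts := by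
  induction ts with
  | nil => simp [hamMat_nil]
  | cons t ts ih =>
    rw [List.map_cons, hamMat_cons, hamMat_cons, ih, smul_add, smul_smul]
    push_cast
    rfl

theorem hamMat_transpose (n : ℕ) (ts : List (ℚ × Word)) : (hamMat n ts)ᵀ = hamMat n ts := by
  induction ts with
  | nil => simp [hamMat_nil]
  | cons t ts ih =>
    rw [hamMat_cons, Matrix.transpose_add, Matrix.transpose_smul, wordMat_transpose, ih]

theorem hamMat_opLe (n : ℕ) (ts : List (ℚ × Word)) {c : ℝ} (h : ∀ t ∈ ts, |(t.1 : ℝ)| ≤ c) :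
    OpLe (hamMat n ts) (ts.length * c) := by
  have h1 := OpLe.listSum ts (M := fun t => (t.1 : ℝ) • wordMat n t.2) (v := fun _ => c)
    (fun t ht => ((wordMat_opLe n t.2).smul (t.1 : ℝ)).mono (by positivity)
      (by rw [mul_one]; exact h t ht))
    (fun t ht => (abs_nonneg _).trans (h t ht))
  have h2 : (ts.map fun _ => c).sum = ts.length * c := by simp
  rw [h2] at h1
  exact h1

/-- Product of two Pauli sums on disjoint qubits. -/
def pmul (ts ts' : List (ℚ × Word)) : List (ℚ × Word) :=
  (ts.map fun t => ts'.map fun t' => (t.1 * t'.1, t.2 ++ t'.2)).flatten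

theorem wd_ham_one (n : ℕ) (t : ℚ × Word) (ts' : List (ℚ × Word))
    (h : ∀ t' ∈ ts', ∀ q, q ∈ t.2.map Prod.fst → q ∉ t'.2.map Prod.fst) :
    hamMat n (ts'.map fun t' => (t.1 * t'.1, t.2 ++ t'.2)) =
      (t.1 : ℝ) • wordMat n t.2 * hamMat n ts' := by
  induction ts' with
  | nil => simp [hamMat_nil]
  | cons s ts ih =>
    rw [List.map_cons, hamMat_cons, hamMat_cons, ih fun s hs => h s (List.mem_cons_of_mem _ hs),
      mul_add, wordMat_append n (h s List.mem_cons_self), Matrix.smul_mul, Matrix.smul_mul,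
      Matrix.mul_smul, smul_smul]
    push_cast
    rfl

theorem hamMat_pmul (n : ℕ) {ts ts' : List (ℚ × Word)}
    (h : ∀ t ∈ ts, ∀ t' ∈ ts', ∀ q, q ∈ t.2.map Prod.fst → q ∉ t'.2.map Prod.fst) :
    hamMat n (pmul ts ts') = hamMat n ts * hamMat n ts' := by
  induction ts with
  | nil => simp [pmul, hamMat_nil]
  | cons t ts ih =>
    have e : pmul (t :: ts) ts' = (ts'.map fun t' => (t.1 * t'.1, t.2 ++ t'.2)) ++ pmul ts ts' := by
      simp [pmul]
    rw [e, hamMat_append, ih fun s hs => h s (List.mem_cons_of_mem _ hs), hamMat_cons, add_mul,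
      wd_ham_one n t ts' (h t List.mem_cons_self)]

@[fun_prop] theorem pmul_pt {α : Type} [Enc α] {f g : α → List (ℚ × Word)} (hf : PT f) (hg : PT g) :
    PT fun a => pmul (f a) (g a) := by
  unfold pmul
  fun_prop

@[fun_prop] theorem ent_pt {α : Type} [Enc α] {J : α → List (List ℚ)} {i j : α → ℕ} (hJ : PT J)
    (hi : PT i) (hj : PT j) : PT fun a => ent (J a) (i a) (j a) := by
  unfold ent
  fun_prop

/-- Entries of a table built with `List.range`. -/
theorem ent_table (m n : ℕ) (f : ℕ → ℕ → ℚ) (i j : ℕ) :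
    ent ((List.range m).map fun i => (List.range n).map fun j => f i j) i j =
      if i < m ∧ j < n then f i j else 0 := by
  unfold ent
  by_cases hi : i < m
  · by_cases hj : j < n
    · simp [List.getD_eq_getElem?_getD, hi, hj]
    · simp [List.getD_eq_getElem?_getD, hi, hj]
  · simp [List.getD_eq_getElem?_getD, hi]

theorem wd_ctrl_diag {n : ℕ} (c : List ℕ) (hc : ∀ q ∈ c, q < n) :
    tens (fun q : Fin n => if q.val ∈ c then p1 else 1) =
      Matrix.diagonal fun σ : Fin n → Bool => if ∀ q ∈ c, bit σ q = true then (1 : ℝ) else 0 := by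
  ext σ τ
  simp only [tens, Matrix.of_apply, Matrix.diagonal_apply]
  by_cases hst : σ = τ
  · subst hst
    rw [if_pos rfl]
    split_ifs with h
    · apply Finset.prod_eq_one
      intro i _
      split_ifs with hi
      · have := h _ hi
        simp only [bit, i.isLt, dif_pos] at this
        simp [p1, this]
      · simp
    · push Not at h
      obtain ⟨q, hq, hb⟩ := h
      apply Finset.prod_eq_zero (Finset.mem_univ (⟨q, hc q hq⟩ : Fin n))
      simp only [bit, hc q hq, dif_pos] at hb
      simp [hq, p1, hb]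
  · rw [if_neg hst]
    obtain ⟨i, hi⟩ := Function.ne_iff.mp hst
    apply Finset.prod_eq_zero (Finset.mem_univ i)
    split_ifs
    · revert hi
      cases σ i <;> cases τ i <;> simp [p1]
    · exact Matrix.one_apply_ne hi

/-- Action of a controlled reflection. -/
theorem rgate_mulVec {n : ℕ} (g : RGate) (ht : g.2.1 < n) (hc : ∀ q ∈ g.1, q < n)
    (hn : g.2.1 ∉ g.1) (ψ : (Fin n → Bool) → ℝ) (σ : Fin n → Bool) :
    (rgate n g *ᵥ ψ) σ =
      if ∀ q ∈ g.1, bit σ q = true then
        ∑ b : Bool, refl g.2.2 (σ ⟨g.2.1, ht⟩) b * ψ (Function.update σ ⟨g.2.1, ht⟩ b)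
      else ψ σ := by
  have hQ : tens (fun q : Fin n =>
      if q.val ∈ g.1 then p1 else if q.val = g.2.1 then refl g.2.2 else 1) =
      tens (fun q : Fin n => if q.val ∈ g.1 then p1 else 1) *
        loc (⟨g.2.1, ht⟩ : Fin n) (refl g.2.2) := by
    rw [tens_mul_loc]
    congr 1
    funext i
    by_cases hi : i = ⟨g.2.1, ht⟩
    · subst hi
      simp [hn]
    · rw [Function.update_of_ne hi]
      have : i.val ≠ g.2.1 := fun h' => hi (Fin.ext h')
      simp [this]
  unfold rgate
  rw [hQ, wd_ctrl_diag g.1 hc, Matrix.add_mulVec, Matrix.sub_mulVec, Matrix.one_mulVec,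
    ← Matrix.mulVec_mulVec]
  simp only [Pi.add_apply, Pi.sub_apply, Matrix.mulVec_diagonal, loc_mulVec]
  split_ifs <;> simp

theorem rgate_transpose (n : ℕ) (g : RGate) : (rgate n g)ᵀ = rgate n g := by
  unfold rgate
  rw [Matrix.transpose_add, Matrix.transpose_sub, Matrix.transpose_one, tens_transpose,
    tens_transpose]
  congr 3
  · funext q
    split_ifs
    · exact p1_transpose
    · exact Matrix.transpose_one
  · funext q
    split_ifs
    · exact p1_transpose
    · exact refl_transpose _
    · exact Matrix.transpose_one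

theorem rgate_mul_self (n : ℕ) (g : RGate) : rgate n g * rgate n g = 1 := by
  unfold rgate
  set P := tens (fun q : Fin n => if q.val ∈ g.1 then p1 else 1) with hP
  set Q := tens (fun q : Fin n =>
    if q.val ∈ g.1 then p1 else if q.val = g.2.1 then refl g.2.2 else 1) with hQ
  have hPP : P * P = P := by
    rw [hP, tens_mul]
    congr 1
    funext q
    split_ifs
    · exact p1_mul_self
    · exact Matrix.mul_one _
  have hPQ : P * Q = Q := by
    rw [hP, hQ, tens_mul]
    congr 1
    funext q
    split_ifs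
    · exact p1_mul_self
    · exact Matrix.one_mul _
    · exact Matrix.mul_one _
  have hQP : Q * P = Q := by
    rw [hP, hQ, tens_mul]
    congr 1
    funext q
    split_ifs
    · exact p1_mul_self
    · exact Matrix.mul_one _
    · exact Matrix.mul_one _
  have hQQ : Q * Q = P := by
    rw [hP, hQ, tens_mul]
    congr 1
    funext q
    split_ifs
    · exact p1_mul_self
    · exact refl_mul_self _
    · exact Matrix.mul_one _
  simp only [add_mul, mul_add, sub_mul, mul_sub, one_mul, mul_one, hPP, hPQ, hQP, hQQ]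
  abel

theorem wd_foldl (n : ℕ) (gs : List RGate) (M : Matrix (Fin n → Bool) (Fin n → Bool) ℝ) :
    gs.foldl (fun M g => rgate n g * M) M = gs.foldl (fun M g => rgate n g * M) 1 * M := by
  induction gs generalizing M with
  | nil => simp
  | cons g gs ih =>
    rw [List.foldl_cons, List.foldl_cons, ih (rgate n g * M), ih (rgate n g * 1), mul_one,
      Matrix.mul_assoc]

theorem rrun_nil (n : ℕ) : rrun n [] = 1 := by
  rfl

theorem rrun_cons (n : ℕ) (g : RGate) (gs : List RGate) :
    rrun n (g :: gs) = rrun n gs * rgate n g := by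
  unfold rrun
  rw [List.foldl_cons, wd_foldl, mul_one]

theorem rrun_append (n : ℕ) (gs gs' : List RGate) :
    rrun n (gs ++ gs') = rrun n gs' * rrun n gs := by
  unfold rrun
  rw [List.foldl_append, wd_foldl]

theorem rrun_orth (n : ℕ) (gs : List RGate) : (rrun n gs)ᵀ * rrun n gs = 1 := by
  induction gs with
  | nil => simp [rrun_nil]
  | cons g gs ih =>
    rw [rrun_cons, Matrix.transpose_mul, rgate_transpose, Matrix.mul_assoc,
      ← Matrix.mul_assoc (rrun n gs)ᵀ, ih, Matrix.one_mul, rgate_mul_self]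

end Crest.Agent.R338
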