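import Crest.Agent.R338.FTrans
import Crest.Agent.R338.FSector
import Crest.Agent.R338.Word

/-! # Stage B (crossbar), definitions.  Sub-lead helper25.  DO NOT EDIT (msg helper25).

Plan (a simplification of the header of `Bar.lean`): grid side `3 n`, site `(3 i + r, 3 j + s)` = position `(r, s)` of
the block `(i, j)`.  Terminals `W = (0,1)`, `E = (2,1)`, `S = (1,0)`, `N = (1,2)` (numbered `0,1,2,3`); centre `(1,1)`
(energy `+T ρ²`, empty, `bJ = 1`); corners (energy `-T ρ²`, doubly filled, `bJ = -1`) except the corner `(2,2)` of a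
diagonal block, which is the home.  One Schrieffer–Wolff step (`Bar_Cay`, `Bar_Blk`, `Bar_SW`) removes centres and
corners; the effective form (`swForm`) is the bus form (`Bar_Form`), and `Bar_Bus` removes the buses. -/

set_option autoImplicit false
set_option linter.dupNamespace false
set_option linter.unusedVariables false

noncomputable section

namespace Crest.Agent.R338

open Crest.Agent.Lib.PT Matrix Finset

/-! ### abstract Schrieffer–Wolff step -/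

section sw

variable {V : Type} [Fintype V] [DecidableEq V]

/-- Hypotheses of the Schrieffer–Wolff step: `j = 0` on the retained sites, `j = 1` on the empty and `j = -1` on the
filled sites. -/
structure SWData (h : Matrix V V ℝ) (j : V → ℝ) (hc : V → Prop) (Δ ν c : ℝ) : Prop where
  symm : hᵀ = h
  hj : ∀ v, j v = 0 ∨ j v = 1 ∨ j v = -1
  diag : ∀ v w, j v ≠ 0 → j w ≠ 0 → h v w = if v = w then Δ * j v else 0
  small : ∀ v w, j v = 0 → j w = 0 → |h v w| ≤ ν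
  coup : ∀ v w, j v = 0 → j w ≠ 0 → |h v w| ≤ c
  hc0 : ∀ v, hc v → j v = 0
  hc1 : ∀ v w, hc v → j w ≠ 0 → h v w = 0
  Δ_pos : 0 < Δ
  ν_nonneg : 0 ≤ ν
  c_nonneg : 0 ≤ c
  big : Fintype.card V * c ≤ Δ

open Classical in
/-- the coupling between retained and removed sites -/
def swV (h : Matrix V V ℝ) (j : V → ℝ) : Matrix V V ℝ :=
  Matrix.of fun v w => if (j v = 0 ↔ j w = 0) then 0 else h v w

/-- the generator of the rotation -/
def swS (h : Matrix V V ℝ) (j : V → ℝ) (Δ : ℝ) : Matrix V V ℝ :=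
  Matrix.of fun v w => -(swV h j v w * (j v - j w) / Δ)

/-- the block diagonal effective matrix -/
def swG (h : Matrix V V ℝ) (j : V → ℝ) (Δ : ℝ) : Matrix V V ℝ :=
  h - swV h j + (1 / 2 : ℝ) • (swV h j * swS h j Δ - swS h j Δ * swV h j)

/-- the effective form on vectors supported on the retained sites -/
def swForm (h : Matrix V V ℝ) (j : V → ℝ) (Δ : ℝ) (u : V → ℝ) : ℝ :=
  u ⬝ᵥ h *ᵥ u - Δ⁻¹ * ∑ w, j w * (h *ᵥ u) w ^ 2

/-- the error per particle (`m` = number of sites) -/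
def swErr (m ν c Δ : ℝ) : ℝ := 10 * (m * ν * (m * c / Δ) + Δ * (m * c / Δ) ^ 3)

end sw

/-! ### abstract bus step -/

section bus

variable {H Bs : Type} [Fintype H] [Fintype Bs]

/-- Buses: `b x` is the bus of the site `x`, `p u` the port of the bus `u`, all buses have `m` sites. -/
structure BusData (b : Bs → H) (p : H → Bs) (m : ℝ) (Lap : (Bs → ℝ) → ℝ) (P : ℝ) : Prop where
  fib : ∀ f : H → ℝ, ∑ x, f (b x) = m * ∑ u, f u
  port : ∀ u, b (p u) = u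
  inv : ∀ (c : Bs → ℝ) (a : H → ℝ), Lap (c + a ∘ b) = Lap c
  zero : Lap 0 = 0
  nonneg : ∀ c, 0 ≤ Lap c
  poin : ∀ c : Bs → ℝ, ∑ x, (c x - c (p (b x))) ^ 2 ≤ P * Lap c

/-- the quadratic form on homes ⊕ buses -/
def busForm (ε : H → ℝ) (p : H → Bs) (τ T Δ : ℝ) (Lap : (Bs → ℝ) → ℝ) (K : Matrix Bs Bs ℝ)
    (a : H → ℝ) (c : Bs → ℝ) : ℝ :=
  ∑ u, ε u * a u ^ 2 - 2 * τ * ∑ u, a u * c (p u) + T * Lap c + Δ * (c ⬝ᵥ c) - c ⬝ᵥ K *ᵥ c

/-- the error per particle in the lower bound -/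
def busErr (τ P m T κ s Δ g : ℝ) : ℝ :=
  τ ^ 2 * P / (m * T) + 4 * κ ^ 2 * (s ^ 2 * m) / Δ + 2 * g * (s ^ 2 * m)

end bus

/-! ### grid matrices in coordinates -/

/-- extension by zero -/
def ext0 {K : ℕ} (u : Fin K × Fin K → ℝ) (x y : ℕ) : ℝ :=
  if h : x < K ∧ y < K then u (⟨x, h.1⟩, ⟨y, h.2⟩) else 0

/-- action of a grid matrix -/
def act (tH tV ε U : ℕ → ℕ → ℝ) (x y : ℕ) : ℝ :=
  ε x y * U x y - tH x y * U (x + 1) y - (if 0 < x then tH (x - 1) y * U (x - 1) y else 0) -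
    tV x y * U x (y + 1) - (if 0 < y then tV x (y - 1) * U x (y - 1) else 0)

section field

variable {𝕜 : Type} [Field 𝕜]

/-- sum of the squares of a row of a grid matrix -/
def rowSq (K : ℕ) (tH tV ε : ℕ → ℕ → 𝕜) (x y : ℕ) : 𝕜 :=
  ε x y ^ 2 + (if x + 1 < K then tH x y ^ 2 else 0) + (if 0 < x then tH (x - 1) y ^ 2 else 0) +
    (if y + 1 < K then tV x y ^ 2 else 0) + (if 0 < y then tV x (y - 1) ^ 2 else 0)

/-- homes -/
abbrev bHome (x y : ℕ) : Prop := x % 3 = 2 ∧ y % 3 = 2 ∧ x / 3 = y / 3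

/-- filled sites -/
abbrev bF (x y : ℕ) : Prop := x % 3 ≠ 1 ∧ y % 3 ≠ 1 ∧ ¬ bHome x y

/-- the kind of a site -/
def bJ (x y : ℕ) : ℝ := if x % 3 = 1 ∧ y % 3 = 1 then 1 else if bF x y then -1 else 0

/-- horizontal hoppings -/
def bH (T ρ : 𝕜) (κ : ℕ → ℕ → 𝕜) (x y : ℕ) : 𝕜 :=
  if x % 3 = 2 then (if y % 3 = 1 then T else 0)
  else if x % 3 = 1 ∧ y % 3 = 2 then (if x / 3 = y / 3 then 0 else (T - κ (x / 3) (y / 3)) * ρ)
  else T * ρ

/-- vertical hoppings -/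
def bV (T ρ τ : 𝕜) (x y : ℕ) : 𝕜 :=
  if y % 3 = 2 then (if x % 3 = 1 then T else 0)
  else if x % 3 = 2 ∧ y % 3 = 1 ∧ x / 3 = y / 3 then τ
  else T * ρ

/-- site energies -/
def bE (n : ℕ) (T ρ Δ : 𝕜) (κ : ℕ → ℕ → 𝕜) (ε : ℕ → 𝕜) (x y : ℕ) : 𝕜 :=
  if x % 3 = 1 then
    (if y % 3 = 1 then T * ρ ^ 2
    else if y % 3 = 0 then Δ + (if 0 < y / 3 then T else 0)
    else Δ + (if y / 3 + 1 < n then T else 0) +
      (if x / 3 = y / 3 then 2 * T else T - (T - κ (x / 3) (y / 3)) ^ 2 / T))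
  else if y % 3 = 1 then
    (if x % 3 = 0 then Δ + (if 0 < x / 3 then T else 0)
    else Δ + (if x / 3 + 1 < n then T else 0) + (if x / 3 = y / 3 then 2 * T else 0))
  else if bHome x y then ε (x / 3) else -(T * ρ ^ 2)

/-- admissible parameters -/
structure Par [LinearOrder 𝕜] (T ρ τ Δ : 𝕜) (κ : ℕ → ℕ → 𝕜) (ε : ℕ → 𝕜) : Prop where
  T_pos : 0 < T
  ρ_ge : 2 ≤ ρ
  τ0 : 0 ≤ τ
  τT : τ ≤ T
  Δ0 : 0 ≤ Δ
  ΔT : Δ ≤ T
  κ0 : ∀ i j, 0 ≤ κ i j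
  κT : ∀ i j, κ i j ≤ T
  εT : ∀ u, |ε u| ≤ T

/-! the standard choice of the parameters -/

def sκ (r : 𝕜) (t : ℕ → ℕ → 𝕜) : ℕ → ℕ → 𝕜 := fun i j => 2 * t i j * r ^ 2

def sε (n : ℕ) (r : 𝕜) (ε : ℕ → 𝕜) : ℕ → 𝕜 := fun u => 2 * ε u + 4 * n * r

def sH (r : 𝕜) (t : ℕ → ℕ → 𝕜) : ℕ → ℕ → 𝕜 := bH (r ^ 6) (r ^ 7) (sκ r t)

def sV (n : ℕ) (r : 𝕜) : ℕ → ℕ → 𝕜 := bV (r ^ 6) (r ^ 7) (4 * n * r ^ 2)

def sE (n : ℕ) (r : 𝕜) (t : ℕ → ℕ → 𝕜) (ε : ℕ → 𝕜) : ℕ → ℕ → 𝕜 :=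
  bE n (r ^ 6) (r ^ 7) (r ^ 3) (sκ r t) (sε n r ε)

/-- minus the energy of the filled sea -/
def shift (n : ℕ) (r : 𝕜) (t : ℕ → ℕ → 𝕜) (ε : ℕ → 𝕜) : 𝕜 :=
  2 * (r ^ 6 * (r ^ 7) ^ 2)⁻¹ * ∑ x ∈ range (3 * n), ∑ y ∈ range (3 * n),
    if bF x y then rowSq (3 * n) (sH r t) (sV n r) (sE n r t ε) x y else 0

end field

/-- number of filled sites -/
def cntF (K : ℕ) : ℕ := ∑ x ∈ range K, ∑ y ∈ range K, if bF x y then 1 else 0

/-- the crossbar matrix -/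
def barMat (n : ℕ) (T ρ τ Δ : ℝ) (κ : ℕ → ℕ → ℝ) (ε : ℕ → ℝ) :
    Matrix (Fin (3 * n) × Fin (3 * n)) (Fin (3 * n) × Fin (3 * n)) ℝ :=
  gridMat (3 * n) (bH T ρ κ) (bV T ρ τ) (bE n T ρ Δ κ ε)

/-- the filled sites -/
def barF (K : ℕ) : Finset (Fin K × Fin K) := univ.filter fun p => bF p.1 p.2

/-! ### the buses -/

/-- bus sites: block and terminal -/
abbrev BSite (n : ℕ) : Type := Fin n × Fin n × Fin 4

def busOf {n : ℕ} (x : BSite n) : Fin n := if x.2.2.val < 2 then x.2.1 else x.1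

def port {n : ℕ} (u : Fin n) : BSite n := (u, u, 1)

def qx (q : Fin 4) : ℕ := ![0, 2, 1, 1] q

def qy (q : Fin 4) : ℕ := ![1, 1, 0, 2] q

theorem qx_lt (q : Fin 4) : qx q < 3 := by revert q; decide

theorem qy_lt (q : Fin 4) : qy q < 3 := by revert q; decide

/-- homes and terminals inside the grid -/
def emb (n : ℕ) : Fin n ⊕ BSite n → Fin (3 * n) × Fin (3 * n)
  | Sum.inl u => (⟨3 * u + 2, by omega⟩, ⟨3 * u + 2, by omega⟩)
  | Sum.inr x => (⟨3 * x.1 + qx x.2.2, by have := qx_lt x.2.2; omega⟩,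
      ⟨3 * x.2.1 + qy x.2.2, by have := qy_lt x.2.2; omega⟩)

/-- extension by zero -/
def extB {n : ℕ} (c : BSite n → ℝ) (i j : ℕ) (q : Fin 4) : ℝ :=
  if h : i < n ∧ j < n then c (⟨i, h.1⟩, ⟨j, h.2⟩, q) else 0

/-- the Laplacian form of the bus trees -/
def lapN (n : ℕ) (C : ℕ → ℕ → Fin 4 → ℝ) : ℝ :=
  ∑ i ∈ range n, ∑ j ∈ range n,
    ((C i j 0 - C i j 1) ^ 2 + (C i j 2 - C i j 3) ^ 2 + (if i = j then (C i j 1 - C i j 3) ^ 2 else 0) +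
      (if i + 1 < n then (C i j 1 - C (i + 1) j 0) ^ 2 else 0) +
      (if j + 1 < n then (C i j 3 - C i (j + 1) 2) ^ 2 else 0))

def lap {n : ℕ} (c : BSite n → ℝ) : ℝ := lapN n (extB c)

/-- the couplings between different buses -/
def kMat (n : ℕ) (κ : ℕ → ℕ → ℝ) : Matrix (BSite n) (BSite n) ℝ :=
  Matrix.of fun x y =>
    if x.1 = y.1 ∧ x.2.1 = y.2.1 ∧ x.2.2 = 1 ∧ y.2.2 = 3 ∧ x.1 ≠ x.2.1 then 2 * κ x.1 x.2.1 else 0

/-! ### the reduction -/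

/-- a square table -/
def tabl {α : Type} (K : ℕ) (f : ℕ → ℕ → α) : List (List α) :=
  (List.range K).map fun i => (List.range K).map fun j => f i j

/-- the scale -/
def barR (B : ℕ) : ℕ := 10 ^ 7 * B ^ 8

/-- the map, for `n` sites -/
def barMapN (n : ℕ) (x : HCI) : GRI :=
  (⟨barR x.1.n ^ 22⟩, 3 * n, x.2.2.1 + 2 * cntF (3 * n),
    (tabl (3 * n) (sH (barR x.1.n : ℚ) (ent x.2.2.2.1)), tabl (3 * n) (sV n (barR x.1.n : ℚ)),
      tabl (3 * n) (sE n (barR x.1.n : ℚ) (ent x.2.2.2.1) fun u => x.2.2.2.2.1.getD u 0),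
      tabl (3 * n) fun i j => decide (bHome i j)),
    2 * x.2.2.2.2.2.1 - shift n (barR x.1.n : ℚ) (ent x.2.2.2.1) (fun u => x.2.2.2.2.1.getD u 0) + 1 / 2,
    2 * x.2.2.2.2.2.2 - shift n (barR x.1.n : ℚ) (ent x.2.2.2.1) (fun u => x.2.2.2.2.1.getD u 0) - 1 / 2)

def barMap (x : HCI) : GRI := barMapN (min x.2.1 x.1.n) x

end Crest.Agent.R338
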