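import Crest.Agent.R338.Bar_Grid

/-! # Stage B: the effective form of the crossbar is the bus form.  Prefix helper lemmas with `bform_`. -/

set_option autoImplicit false
set_option linter.dupNamespace false
set_option linter.unusedVariables false

noncomputable section

namespace Crest.Agent.R338

open Crest.Agent.Lib.PT Matrix Finset

theorem bform_blocks (n : ℕ) (f : ℕ → ℕ → ℝ) :
    ∑ x ∈ range (3 * n), ∑ y ∈ range (3 * n), f x y = ∑ i ∈ range n, ∑ j ∈ range n,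
      (f (3 * i) (3 * j) + f (3 * i) (3 * j + 1) + f (3 * i) (3 * j + 2) +
        (f (3 * i + 1) (3 * j) + f (3 * i + 1) (3 * j + 1) + f (3 * i + 1) (3 * j + 2)) +
        (f (3 * i + 2) (3 * j) + f (3 * i + 2) (3 * j + 1) + f (3 * i + 2) (3 * j + 2))) := by
  simp only [sum_range_three, ← Finset.sum_add_distrib]

theorem bform_shift (n : ℕ) (f : ℕ → ℝ) :
    ∑ i ∈ range n, (if 0 < i then f i else 0) = ∑ i ∈ range n, if i + 1 < n then f (i + 1) else 0 := by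
  cases n with
  | zero => rfl
  | succ n =>
    rw [Finset.sum_range_succ', Finset.sum_range_succ, if_neg (lt_irrefl _), if_neg (lt_irrefl _)]
    refine congrArg (· + 0) (Finset.sum_congr rfl fun i hi => ?_)
    rw [if_pos (Nat.succ_pos i), if_pos (by simpa using hi)]

theorem bform_diag (n : ℕ) (f : ℕ → ℝ) :
    ∑ u ∈ range n, f u = ∑ i ∈ range n, ∑ j ∈ range n, if i = j then f i else 0 :=
  Finset.sum_congr rfl fun i hi => by rw [Finset.sum_ite_eq, if_pos hi]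

theorem bform_block (n : ℕ) {T ρ : ℝ} (τ Δ : ℝ) (hT : T ≠ 0) (hρ : ρ ≠ 0) (κ : ℕ → ℕ → ℝ) (ε : ℕ → ℝ)
    (U : ℕ → ℕ → ℝ) (h0 : ∀ x y, bJ x y ≠ 0 → U x y = 0)
    (hout : ∀ x y, 3 * n ≤ x ∨ 3 * n ≤ y → U x y = 0) {i j : ℕ} (hi : i < n) (hj : j < n)
    (f : ℕ → ℕ → ℝ := fun x y =>
      bE n T ρ Δ κ ε x y * U x y ^ 2 - 2 * bH T ρ κ x y * U x y * U (x + 1) y -
          2 * bV T ρ τ x y * U x y * U x (y + 1) -
        (T * ρ ^ 2)⁻¹ * (bJ x y * act (bH T ρ κ) (bV T ρ τ) (bE n T ρ Δ κ ε) U x y ^ 2))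
    (hf : f = fun x y =>
      bE n T ρ Δ κ ε x y * U x y ^ 2 - 2 * bH T ρ κ x y * U x y * U (x + 1) y -
          2 * bV T ρ τ x y * U x y * U x (y + 1) -
        (T * ρ ^ 2)⁻¹ * (bJ x y * act (bH T ρ κ) (bV T ρ τ) (bE n T ρ Δ κ ε) U x y ^ 2) := by rfl) :
    f (3 * i) (3 * j) + f (3 * i) (3 * j + 1) + f (3 * i) (3 * j + 2) +
        (f (3 * i + 1) (3 * j) + f (3 * i + 1) (3 * j + 1) + f (3 * i + 1) (3 * j + 2)) +
        (f (3 * i + 2) (3 * j) + f (3 * i + 2) (3 * j + 1) + f (3 * i + 2) (3 * j + 2)) =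
      (if i = j then ε i * U (3 * i + 2) (3 * i + 2) ^ 2 else 0) -
        2 * τ * (if i = j then U (3 * i + 2) (3 * i + 2) * U (3 * i + 2) (3 * i + 1) else 0) +
        T * ((U (3 * i + qx 0) (3 * j + qy 0) - U (3 * i + qx 1) (3 * j + qy 1)) ^ 2 +
          (U (3 * i + qx 2) (3 * j + qy 2) - U (3 * i + qx 3) (3 * j + qy 3)) ^ 2 +
          (if i = j then (U (3 * i + qx 1) (3 * j + qy 1) - U (3 * i + qx 3) (3 * j + qy 3)) ^ 2 else 0) +
          (if i + 1 < n then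
            (U (3 * i + qx 1) (3 * j + qy 1) - U (3 * (i + 1) + qx 0) (3 * j + qy 0)) ^ 2 else 0) +
          (if j + 1 < n then
            (U (3 * i + qx 3) (3 * j + qy 3) - U (3 * i + qx 2) (3 * (j + 1) + qy 2)) ^ 2 else 0)) +
        Δ * (U (3 * i) (3 * j + 1) ^ 2 + U (3 * i + 2) (3 * j + 1) ^ 2 +
          U (3 * i + 1) (3 * j) ^ 2 + U (3 * i + 1) (3 * j + 2) ^ 2) -
        (if i = j then 0 else 2 * κ i j * (U (3 * i + 2) (3 * j + 1) * U (3 * i + 1) (3 * j + 2))) +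
        ((if 0 < i then T * U (3 * i) (3 * j + 1) ^ 2 else 0) -
          if i + 1 < n then T * U (3 * (i + 1)) (3 * j + 1) ^ 2 else 0) +
        ((if 0 < j then T * U (3 * i + 1) (3 * j) ^ 2 else 0) -
          if j + 1 < n then T * U (3 * i + 1) (3 * (j + 1)) ^ 2 else 0) := by
  have m0 : ∀ k, 3 * k % 3 = 0 := fun k => by omega
  have m1 : ∀ k, (3 * k + 1) % 3 = 1 := fun k => by omega
  have m2 : ∀ k, (3 * k + 2) % 3 = 2 := fun k => by omega
  have d0 : ∀ k, 3 * k / 3 = k := fun k => by omega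
  have d1 : ∀ k, (3 * k + 1) / 3 = k := fun k => by omega
  have d2 : ∀ k, (3 * k + 2) / 3 = k := fun k => by omega
  have a1 : ∀ k, 3 * k + 1 + 1 = 3 * k + 2 := fun k => rfl
  have a2 : ∀ k, 3 * k + 2 + 1 = 3 * (k + 1) := fun k => rfl
  have b1 : ∀ k, 3 * k + 1 - 1 = 3 * k := fun k => rfl
  have b2 : ∀ k, 3 * k + 2 - 1 = 3 * k + 1 := fun k => rfl
  have p1 : ∀ k, 0 < 3 * k + 1 := fun k => by omega
  have p2 : ∀ k, 0 < 3 * k + 2 := fun k => by omega
  have c00 : U (3 * i) (3 * j) = 0 := h0 _ _ (by simp [bJ, m0])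
  have c02 : U (3 * i) (3 * j + 2) = 0 := h0 _ _ (by simp [bJ, m0, m2])
  have c20 : U (3 * i + 2) (3 * j) = 0 := h0 _ _ (by simp [bJ, m0, m2])
  have c11 : U (3 * i + 1) (3 * j + 1) = 0 := h0 _ _ (by simp [bJ, m1])
  have l0 : ∀ y, y % 3 ≠ 1 →
      (if 0 < 3 * i then bH T ρ κ (3 * i - 1) y * U (3 * i - 1) y else 0) = 0 := fun y hy => by
    split_ifs with h
    · rw [bH, if_pos (by omega), if_neg hy, zero_mul]
    · rfl
  have l1 : ∀ x, x % 3 ≠ 1 →
      (if 0 < 3 * j then bV T ρ τ x (3 * j - 1) * U x (3 * j - 1) else 0) = 0 := fun x hx => by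
    split_ifs with h
    · rw [bV, if_pos (by omega), if_neg hx, zero_mul]
    · rfl
  have o1 : ¬ i + 1 < n → U (3 * (i + 1)) (3 * j + 1) = 0 := fun h => hout _ _ (by omega)
  have o2 : ¬ j + 1 < n → U (3 * i + 1) (3 * (j + 1)) = 0 := fun h => hout _ _ (by omega)
  have q0 : qx 0 = 0 ∧ qx 1 = 2 ∧ qx 2 = 1 ∧ qx 3 = 1 ∧ qy 0 = 1 ∧ qy 1 = 1 ∧ qy 2 = 0 ∧ qy 3 = 2 := by
    decide
  subst hf
  simp only [act, l0 (3 * j) (by omega), l0 (3 * j + 2) (by omega), l1 (3 * i) (by omega),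
    l1 (3 * i + 2) (by omega), q0, add_zero, a1, a2, b1, b2, p1, p2, if_true, c00, c02, c20, c11]
  by_cases hij : i = j
  · subst hij
    simp only [bJ, bE, bH, bV, bF, bHome, m0, m1, m2, d0, d1, d2]
    norm_num
    split_ifs <;> (try simp only [*, not_false_eq_true]) <;> field_simp <;> ring
  · have c22 : U (3 * i + 2) (3 * j + 2) = 0 := h0 _ _ (by simp [bJ, m2, d2, hij])
    simp only [bJ, bE, bH, bV, bF, bHome, m0, m1, m2, d0, d1, d2, c22, hij]
    norm_num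
    split_ifs <;> (try simp only [*, not_false_eq_true]) <;> field_simp <;> ring

/-- Split both double sums with `sum_range_three` into sums over the blocks `(i, j)`.  In the block `(i,j)` put
`W = U (3i) (3j+1)`, `E = U (3i+2) (3j+1)`, `S = U (3i+1) (3j)`, `N = U (3i+1) (3j+2)`; `U` vanishes at the centre and at the corners
(`h0`) except the home (`i = j`).  First prove small lemmas evaluating `bH, bV, bE, bJ` at `(3i + r, 3j + s)` (`simp [bH, Nat.add_mod, Nat.add_div]`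
or `omega` facts `(3*i+2) % 3 = 2`, `(3*i+2) / 3 = i`, and `bH (3*i - 1) y = 0` for `0 < i`, `y % 3 ≠ 1`), then
`act` at the centre `= -T ρ (W + E + S + N)`, at the corners `-T ρ (W + S)`, `-T ρ (S + E)`, `-T ρ (W + N)`, and, for `i ≠ j`,
`-(T ρ E + (T - κ) ρ N)`.  The block identity is `field_simp; ring` (cases `i = j`, `i ≠ j`) up to the boundary terms:
`∑ i < n, (if 0 < i then T * W i j ^ 2 else 0) = ∑ i < n, if i + 1 < n then T * W (i+1) j ^ 2 else 0` (index shift; same for `S`), and the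
inter-block cross term `T * E i j * W (i+1) j` vanishes for `i + 1 = n` by `hout`.  Diagonal sums: `∑ u, f u = ∑ i, ∑ j, if i = j then f i else 0`. -/
theorem bar_form_nat (n : ℕ) {T ρ : ℝ} (τ Δ : ℝ) (hT : T ≠ 0) (hρ : ρ ≠ 0) (κ : ℕ → ℕ → ℝ) (ε : ℕ → ℝ)
    (U : ℕ → ℕ → ℝ) (h0 : ∀ x y, bJ x y ≠ 0 → U x y = 0)
    (hout : ∀ x y, 3 * n ≤ x ∨ 3 * n ≤ y → U x y = 0) :
    ∑ x ∈ range (3 * n), ∑ y ∈ range (3 * n),
        (bE n T ρ Δ κ ε x y * U x y ^ 2 - 2 * bH T ρ κ x y * U x y * U (x + 1) y -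
          2 * bV T ρ τ x y * U x y * U x (y + 1)) -
      (T * ρ ^ 2)⁻¹ * ∑ x ∈ range (3 * n), ∑ y ∈ range (3 * n),
        bJ x y * act (bH T ρ κ) (bV T ρ τ) (bE n T ρ Δ κ ε) U x y ^ 2 =
    ∑ u ∈ range n, ε u * U (3 * u + 2) (3 * u + 2) ^ 2 -
      2 * τ * ∑ u ∈ range n, U (3 * u + 2) (3 * u + 2) * U (3 * u + 2) (3 * u + 1) +
      T * lapN n (fun i j q => U (3 * i + qx q) (3 * j + qy q)) +
      Δ * ∑ i ∈ range n, ∑ j ∈ range n, (U (3 * i) (3 * j + 1) ^ 2 + U (3 * i + 2) (3 * j + 1) ^ 2 +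
        U (3 * i + 1) (3 * j) ^ 2 + U (3 * i + 1) (3 * j + 2) ^ 2) -
      ∑ i ∈ range n, ∑ j ∈ range n,
        if i = j then 0 else 2 * κ i j * (U (3 * i + 2) (3 * j + 1) * U (3 * i + 1) (3 * j + 2)) := by
  rw [Finset.mul_sum, ← Finset.sum_sub_distrib]
  simp only [Finset.mul_sum (range (3 * n)), ← Finset.sum_sub_distrib]
  rw [bform_blocks]
  have s1 : ∑ i ∈ range n, ∑ j ∈ range n, (if 0 < i then T * U (3 * i) (3 * j + 1) ^ 2 else 0) =
      ∑ i ∈ range n, ∑ j ∈ range n, if i + 1 < n then T * U (3 * (i + 1)) (3 * j + 1) ^ 2 else 0 := by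
    rw [Finset.sum_comm, Finset.sum_comm (s := range n)
      (f := fun i j => if i + 1 < n then T * U (3 * (i + 1)) (3 * j + 1) ^ 2 else 0)]
    exact Finset.sum_congr rfl fun j _ => bform_shift n fun i => T * U (3 * i) (3 * j + 1) ^ 2
  have s2 : ∑ i ∈ range n, ∑ j ∈ range n, (if 0 < j then T * U (3 * i + 1) (3 * j) ^ 2 else 0) =
      ∑ i ∈ range n, ∑ j ∈ range n, if j + 1 < n then T * U (3 * i + 1) (3 * (j + 1)) ^ 2 else 0 :=
    Finset.sum_congr rfl fun i _ => bform_shift n fun j => T * U (3 * i + 1) (3 * j) ^ 2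
  rw [Finset.sum_congr rfl fun i hi => Finset.sum_congr rfl fun j hj =>
    bform_block n τ Δ hT hρ κ ε U h0 hout (mem_range.1 hi) (mem_range.1 hj)]
  simp only [Finset.sum_add_distrib, Finset.sum_sub_distrib]
  rw [s1, s2, bform_diag n fun u => ε u * U (3 * u + 2) (3 * u + 2) ^ 2,
    bform_diag n fun u => U (3 * u + 2) (3 * u + 2) * U (3 * u + 2) (3 * u + 1)]
  simp only [← Finset.mul_sum]
  unfold lapN
  simp only [Finset.sum_add_distrib]
  ring

end Crest.Agent.R338
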