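import Crest.Agent.R338.Bar_Defs

/-! # Stage B: entries and forms of the effective matrix `swG`.  Prefix helper lemmas with `bg_`. -/

set_option autoImplicit false
set_option linter.dupNamespace false
set_option linter.unusedVariables false

noncomputable section

namespace Crest.Agent.R338

open Crest.Agent.Lib.PT Matrix Finset

variable {V R : Type} [Fintype V] [DecidableEq V] [Fintype R] [DecidableEq R]
  {h : Matrix V V ℝ} {j : V → ℝ} {hc : V → Prop} {Δ ν c : ℝ}

/-- `Matrix.mul_apply`, `Finset.sum_sub_distrib`, termwise `ring`. -/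
theorem swG_apply (h : Matrix V V ℝ) (j : V → ℝ) (Δ : ℝ) (v w : V) :
    swG h j Δ v w = h v w - swV h j v w +
      ∑ z, swV h j v z * swV h j z w * ((j v + j w) / 2 - j z) / Δ := by
  simp only [swG, swS, Matrix.add_apply, Matrix.sub_apply, Matrix.smul_apply, Matrix.mul_apply,
    Matrix.of_apply, smul_eq_mul, ← Finset.sum_sub_distrib, Finset.mul_sum]
  congr 1
  exact Finset.sum_congr rfl fun z _ => by ring

theorem bg_h (D : SWData h j hc Δ ν c) (v w : V) : h v w = h w v := by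
  have := congrFun (congrFun D.symm w) v
  rwa [Matrix.transpose_apply] at this

omit [Fintype V] [DecidableEq V] in
theorem bg_V0 {v w : V} (hvw : j v = 0 ↔ j w = 0) : swV h j v w = 0 := by
  simp only [swV, Matrix.of_apply, if_pos hvw]

omit [Fintype V] [DecidableEq V] in
theorem bg_V1 {v w : V} (hvw : ¬ (j v = 0 ↔ j w = 0)) : swV h j v w = h v w := by
  simp only [swV, Matrix.of_apply, if_neg hvw]

theorem bg_V (D : SWData h j hc Δ ν c) (v w : V) : swV h j v w = swV h j w v := by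
  by_cases hvw : j v = 0 ↔ j w = 0
  · rw [bg_V0 hvw, bg_V0 hvw.symm]
  · rw [bg_V1 hvw, bg_V1 fun h' => hvw h'.symm, bg_h D]

theorem swG_symm (D : SWData h j hc Δ ν c) : (swG h j Δ)ᵀ = swG h j Δ := by
  ext v w
  rw [Matrix.transpose_apply, swG_apply, swG_apply, bg_h D w v, bg_V D w v]
  congr 1
  exact Finset.sum_congr rfl fun z _ => by rw [bg_V D w z, bg_V D z v]; ring

/-- If exactly one of `j v, j w` vanishes every product `swV v z * swV z w` vanishes; if `j v = -j w ≠ 0` then only `j z = 0`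
contributes and the last factor is `0`. -/
theorem swG_blk (D : SWData h j hc Δ ν c) (v w : V) (hvw : j v ≠ j w) : swG h j Δ v w = 0 := by
  rw [swG_apply, Finset.sum_eq_zero, add_zero, sub_eq_zero]
  · by_cases h0 : j v = 0 ↔ j w = 0
    · have hv : j v ≠ 0 := fun h1 => hvw (h1.trans (h0.1 h1).symm)
      rw [bg_V0 h0, D.diag v w hv fun h1 => hv (h0.2 h1), if_neg fun h1 => hvw (by rw [h1])]
    · rw [bg_V1 h0]
  · intro z _
    by_cases h1 : j v = 0 ↔ j z = 0
    · simp [bg_V0 h1]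
    by_cases h2 : j z = 0 ↔ j w = 0
    · simp [bg_V0 h2]
    have : (j v + j w) / 2 - j z = 0 := by
      rcases D.hj v with a | a | a <;> rcases D.hj w with b | b | b <;> rcases D.hj z with e | e | e <;>
        simp_all
    simp [this]

/-- For `j v = j w = 0`: `swG v w = h v w - Δ⁻¹ ∑ z, j z * h v z * h z w`. -/
theorem swG_zero (D : SWData h j hc Δ ν c) {v w : V} (hv : j v = 0) (hw : j w = 0) :
    swG h j Δ v w = h v w - Δ⁻¹ * ∑ z, j z * (h z v * h z w) := by
  rw [swG_apply, bg_V0 (by simp [hv, hw]), sub_zero, Finset.mul_sum, sub_eq_add_neg,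
    ← Finset.sum_neg_distrib]
  congr 1
  refine Finset.sum_congr rfl fun z _ => ?_
  by_cases hz : j z = 0
  · simp [hv, hw, hz]
  · rw [bg_V1 (by simp [hv, hz]), bg_V1 (by simp [hw, hz]), hv, hw, bg_h D v z]
    ring

/-- For `j v = j w = σ = ±1`: `swG v w = σ (Δ δ + Δ⁻¹ ∑ z, swV z v * swV z w)`. -/
theorem swG_ne (D : SWData h j hc Δ ν c) {v w : V} (hv : j v ≠ 0) (hw : j w = j v) :
    swG h j Δ v w = j v * ((if v = w then Δ else 0) + Δ⁻¹ * ∑ z, swV h j z v * swV h j z w) := by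
  have hw0 : j w ≠ 0 := hw ▸ hv
  rw [swG_apply, bg_V0 (by simp [hv, hw0]), sub_zero, D.diag v w hv hw0, mul_add, Finset.mul_sum,
    Finset.mul_sum]
  congr 1
  · split_ifs <;> ring
  · refine Finset.sum_congr rfl fun z _ => ?_
    by_cases hz : j z = 0
    · rw [hw, hz, bg_V D v z]; ring
    · rw [bg_V D v z, bg_V0 (v := z) (w := v) (by simp [hv, hz])]; ring

/-- `∑ v, h w v ^ 2 = Δ² + ∑ z, swV z w ^ 2`. -/
theorem swG_diag (D : SWData h j hc Δ ν c) {w : V} (hw : j w = -1) :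
    swG h j Δ w w = -(Δ⁻¹ * ∑ v, h w v ^ 2) := by
  have hw0 : j w ≠ 0 := by rw [hw]; norm_num
  have e : ∑ v, h w v ^ 2 = ∑ v, ((if w = v then Δ ^ 2 else 0) + swV h j v w * swV h j v w) := by
    refine Finset.sum_congr rfl fun v _ => ?_
    by_cases hv : j v = 0
    · rw [if_neg fun h1 => hw0 (by rw [h1, hv]), bg_V1 (by simp [hv, hw0]), bg_h D v w]; ring
    · rw [bg_V0 (by simp [hv, hw0]), D.diag w v hw0 hv, hw]
      split_ifs <;> ring
  rw [swG_ne D hw0 rfl, if_pos rfl, hw, e, Finset.sum_add_distrib, Finset.sum_ite_eq,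
    if_pos (Finset.mem_univ _)]
  have := D.Δ_pos.ne'
  field_simp

omit [DecidableEq V] in
theorem bg_congr {M M' : Matrix V V ℝ} (u : V → ℝ) (H : ∀ v w, u v ≠ 0 → u w ≠ 0 → M v w = M' v w) :
    u ⬝ᵥ M *ᵥ u = u ⬝ᵥ M' *ᵥ u := by
  simp only [dotProduct, Matrix.mulVec, Finset.mul_sum]
  refine Finset.sum_congr rfl fun v _ => Finset.sum_congr rfl fun w _ => ?_
  by_cases hv : u v = 0
  · simp [hv]
  by_cases hw : u w = 0
  · simp [hw]
  rw [H v w hv hw]

theorem bg_form (D : SWData h j hc Δ ν c) {σ : ℝ} (hσ : σ ≠ 0) (u : V → ℝ)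
    (hu : ∀ v, j v ≠ σ → u v = 0) :
    u ⬝ᵥ swG h j Δ *ᵥ u = σ * (Δ * (u ⬝ᵥ u) + Δ⁻¹ * ((swV h j *ᵥ u) ⬝ᵥ (swV h j *ᵥ u))) := by
  rw [bg_congr (M' := σ • (Δ • (1 : Matrix V V ℝ) + Δ⁻¹ • ((swV h j)ᵀ * swV h j))) u fun v w hv hw => ?_]
  · rw [Matrix.smul_mulVec, dotProduct_smul, Matrix.add_mulVec, dotProduct_add, Matrix.smul_mulVec,
      Matrix.smul_mulVec, dotProduct_smul, dotProduct_smul, Matrix.one_mulVec, ← Matrix.mulVec_mulVec,
      Matrix.dotProduct_mulVec u (swV h j)ᵀ, Matrix.vecMul_transpose]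
    rfl
  · have hv' : j v = σ := not_not.1 fun h0 => hv (hu v h0)
    have hw' : j w = σ := not_not.1 fun h0 => hw (hu w h0)
    rw [swG_ne D (hv' ▸ hσ) (hw'.trans hv'.symm), hv']
    simp only [Matrix.smul_apply, Matrix.add_apply, Matrix.one_apply, Matrix.mul_apply,
      Matrix.transpose_apply, smul_eq_mul, mul_ite, mul_one, mul_zero]

/-- The form is `Δ |u|² + Δ⁻¹ |swV u|²`. -/
theorem swG_pos (D : SWData h j hc Δ ν c) (u : V → ℝ) (hu : ∀ v, j v ≠ 1 → u v = 0) :
    Δ * (u ⬝ᵥ u) ≤ u ⬝ᵥ swG h j Δ *ᵥ u := by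
  rw [bg_form D one_ne_zero u hu]
  have h1 := dot_self_nonneg (swV h j *ᵥ u)
  have h2 := mul_nonneg (inv_pos.2 D.Δ_pos).le h1
  linarith

theorem swG_neg (D : SWData h j hc Δ ν c) (u : V → ℝ) (hu : ∀ v, j v ≠ -1 → u v = 0) :
    u ⬝ᵥ swG h j Δ *ᵥ u ≤ -Δ * (u ⬝ᵥ u) := by
  rw [bg_form D (by norm_num) u hu]
  have h1 := dot_self_nonneg (swV h j *ᵥ u)
  have h2 := mul_nonneg (inv_pos.2 D.Δ_pos).le h1
  linarith

/-- Sums over `R` become sums over `V` (`Finset.sum_of_injOn` / `Function.Injective.sum_extend`-style; `u` vanishes off the range of `e`),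
then `swG_zero` and `Finset.sum_comm`. -/
theorem swG_form (D : SWData h j hc Δ ν c) {e : R → V} (he : Function.Injective e)
    (hr : ∀ v, j v = 0 ↔ v ∈ Set.range e) (u : V → ℝ) (hu : ∀ v, j v ≠ 0 → u v = 0) :
    (u ∘ e) ⬝ᵥ (swG h j Δ).submatrix e e *ᵥ (u ∘ e) = swForm h j Δ u := by
  have hu' : ∀ v, v ∉ Set.range e → u v = 0 := fun v hv => hu v fun h0 => hv ((hr v).1 h0)
  have e1 : (swG h j Δ).submatrix e e *ᵥ (u ∘ e) = (swG h j Δ *ᵥ u) ∘ e := by
    funext r
    exact Fintype.sum_of_injective e he _ (fun w => swG h j Δ (e r) w * u w)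
      (fun w hw => by rw [hu' w hw, mul_zero]) fun _ => rfl
  have e2 : (u ∘ e) ⬝ᵥ ((swG h j Δ *ᵥ u) ∘ e) = u ⬝ᵥ swG h j Δ *ᵥ u :=
    Fintype.sum_of_injective e he _ (fun v => u v * (swG h j Δ *ᵥ u) v)
      (fun w hw => by rw [hu' w hw, zero_mul]) fun _ => rfl
  rw [e1, e2, bg_congr (M' := h - Δ⁻¹ • (hᵀ * diagonal j * h)) u fun v w hv hw => ?_]
  · rw [swForm, Matrix.sub_mulVec, dotProduct_sub, Matrix.smul_mulVec, dotProduct_smul, smul_eq_mul,
      ← Matrix.mulVec_mulVec, ← Matrix.mulVec_mulVec, Matrix.dotProduct_mulVec u hᵀ,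
      Matrix.vecMul_transpose]
    congr 2
    exact Finset.sum_congr rfl fun w _ => by rw [Matrix.mulVec_diagonal]; ring
  · rw [swG_zero D (not_not.1 fun h0 => hv (hu v h0)) (not_not.1 fun h0 => hw (hu w h0)),
      Matrix.sub_apply, Matrix.smul_apply, smul_eq_mul, Matrix.mul_apply]
    congr 2
    exact Finset.sum_congr rfl fun z _ => by rw [Matrix.mul_diagonal, Matrix.transpose_apply]; ring

/-- Entries are at most `ν + card V * c² / Δ` (`swG_zero`); `OpLe.of_entry`, `card R ≤ card V`. -/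
theorem swG_opLe (D : SWData h j hc Δ ν c) {e : R → V} (he : Function.Injective e)
    (hr : ∀ v, j v = 0 ↔ v ∈ Set.range e) :
    OpLe ((swG h j Δ).submatrix e e) (Fintype.card V * ν + (Fintype.card V * c) ^ 2 / Δ) := by
  have hΔ := D.Δ_pos
  have hν := D.ν_nonneg
  have hc0 := D.c_nonneg
  have h1 : ∀ r s : R, |(swG h j Δ).submatrix e e r s| ≤ ν + Δ⁻¹ * (Fintype.card V * c ^ 2) := by
    intro r s
    have hr0 : j (e r) = 0 := (hr _).2 ⟨r, rfl⟩
    have hs0 : j (e s) = 0 := (hr _).2 ⟨s, rfl⟩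
    rw [Matrix.submatrix_apply, swG_zero D hr0 hs0]
    refine (abs_sub _ _).trans (add_le_add (D.small _ _ hr0 hs0) ?_)
    rw [abs_mul, abs_of_pos (inv_pos.2 hΔ)]
    refine mul_le_mul_of_nonneg_left ((Finset.abs_sum_le_sum_abs _ _).trans ?_) (inv_pos.2 hΔ).le
    rw [← Finset.card_univ, ← nsmul_eq_mul]
    refine Finset.sum_le_card_nsmul _ _ _ fun z _ => ?_
    by_cases hz : j z = 0
    · rw [hz, zero_mul, abs_zero]; positivity
    · have a1 : |j z| = 1 := by
        rcases D.hj z with a | a | a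
        · exact absurd a hz
        · rw [a, abs_one]
        · rw [a, abs_neg, abs_one]
      rw [abs_mul, a1, one_mul, abs_mul, bg_h D z, bg_h D z, pow_two]
      exact mul_le_mul (D.coup _ _ hr0 hz) (D.coup _ _ hs0 hz) (abs_nonneg _) hc0
  refine (OpLe.of_entry h1).mono (by positivity) ?_
  have h2 : (Fintype.card R : ℝ) ≤ Fintype.card V := by
    exact_mod_cast Fintype.card_le_of_injective e he
  refine (mul_le_mul_of_nonneg_right h2 (by positivity)).trans (le_of_eq ?_)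
  ring

end Crest.Agent.R338
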