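import Crest.Agent.R338.Bar_Defs

/-! # Stage B: grid matrices in coordinates.  Prefix helper lemmas with `bgrid_`. -/

set_option autoImplicit false
set_option linter.dupNamespace false
set_option linter.unusedVariables false

noncomputable section

namespace Crest.Agent.R338

open Crest.Agent.Lib.PT Matrix Finset

theorem bgrid_entry {K : ℕ} (tH tV ε : ℕ → ℕ → ℝ) (p q : Fin K × Fin K) :
    gridMat K tH tV ε p q =
      (if (q.1 : ℕ) = p.1 ∧ (q.2 : ℕ) = p.2 then ε p.1 p.2 else 0) -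
      (if (q.1 : ℕ) = p.1 + 1 ∧ (q.2 : ℕ) = p.2 then tH p.1 p.2 else 0) -
      (if (q.1 : ℕ) = p.1 - 1 ∧ (q.2 : ℕ) = p.2 then
        (if 0 < (p.1 : ℕ) then tH (p.1 - 1) p.2 else 0) else 0) -
      (if (q.1 : ℕ) = p.1 ∧ (q.2 : ℕ) = p.2 + 1 then tV p.1 p.2 else 0) -
      (if (q.1 : ℕ) = p.1 ∧ (q.2 : ℕ) = p.2 - 1 then
        (if 0 < (p.2 : ℕ) then tV p.1 (p.2 - 1) else 0) else 0) := by
  obtain ⟨⟨a, ha⟩, ⟨b, hb⟩⟩ := p
  obtain ⟨⟨c, hc⟩, ⟨d, hd⟩⟩ := q
  simp only [gridMat, of_apply, Prod.mk.injEq, Fin.mk.injEq]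
  split_ifs <;> first
    | omega
    | (simp only [sub_zero, zero_sub]; done)
    | (have e : c = a - 1 ∧ d = b := (by omega); rw [e.1, e.2]; simp only [sub_zero, zero_sub]; done)
    | (have e : c = a ∧ d = b - 1 := (by omega); rw [e.1, e.2]; simp only [sub_zero, zero_sub]; done)

theorem gridMat_symm (K : ℕ) (tH tV ε : ℕ → ℕ → ℝ) : (gridMat K tH tV ε)ᵀ = gridMat K tH tV ε := by
  ext ⟨⟨a, ha⟩, ⟨b, hb⟩⟩ ⟨⟨c, hc⟩, ⟨d, hd⟩⟩
  simp only [transpose_apply, gridMat, of_apply, Prod.mk.injEq, Fin.mk.injEq]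
  split_ifs <;> first | rfl | omega | (obtain ⟨rfl, rfl⟩ : c = a ∧ d = b := (by omega); rfl)

theorem gridMat_congr {K : ℕ} {tH tV ε tH' tV' ε' : ℕ → ℕ → ℝ}
    (h : ∀ x y, x < K → y < K → tH x y = tH' x y ∧ tV x y = tV' x y ∧ ε x y = ε' x y) :
    gridMat K tH tV ε = gridMat K tH' tV' ε' := by
  ext p q
  simp only [gridMat, of_apply, (h p.1 p.2 p.1.2 p.2.2).1, (h p.1 p.2 p.1.2 p.2.2).2.1,
    (h p.1 p.2 p.1.2 p.2.2).2.2, (h q.1 q.2 q.1.2 q.2.2).1, (h q.1 q.2 q.1.2 q.2.2).2.1]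

theorem ext0_apply {K : ℕ} (u : Fin K × Fin K → ℝ) (p : Fin K × Fin K) : ext0 u p.1 p.2 = u p := by
  rw [ext0, dif_pos ⟨p.1.2, p.2.2⟩]

theorem ext0_out {K : ℕ} (u : Fin K × Fin K → ℝ) {x y : ℕ} (h : K ≤ x ∨ K ≤ y) : ext0 u x y = 0 := by
  rw [ext0, dif_neg (by omega)]

theorem sum_grid (K : ℕ) (f : ℕ → ℕ → ℝ) :
    ∑ p : Fin K × Fin K, f p.1 p.2 = ∑ x ∈ range K, ∑ y ∈ range K, f x y := by
  rw [Fintype.sum_prod_type, ← Fin.sum_univ_eq_sum_range (fun x => ∑ y ∈ range K, f x y)]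
  exact sum_congr rfl fun x _ => Fin.sum_univ_eq_sum_range (fun y => f x y) K

theorem bgrid_pick {K : ℕ} (u : Fin K × Fin K → ℝ) (x y : ℕ) (c : ℝ) :
    ∑ q : Fin K × Fin K, (if (q.1 : ℕ) = x ∧ (q.2 : ℕ) = y then c else 0) * u q = c * ext0 u x y := by
  by_cases h : x < K ∧ y < K
  · rw [sum_eq_single (⟨x, h.1⟩, ⟨y, h.2⟩), if_pos ⟨rfl, rfl⟩, ext0, dif_pos h]
    · rintro ⟨⟨a, ha⟩, ⟨b, hb⟩⟩ _ hne
      rw [if_neg, zero_mul]
      rintro ⟨rfl, rfl⟩
      exact hne rfl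
    · simp
  · rw [ext0, dif_neg h, mul_zero]
    refine sum_eq_zero fun q _ => ?_
    rw [if_neg, zero_mul]
    rintro ⟨rfl, rfl⟩
    exact h ⟨q.1.2, q.2.2⟩

/-- The five cases in the definition of `gridMat` are mutually exclusive: write an entry as a sum of five terms
`if q.1 = x' ∧ q.2 = y' then _ else 0` (conditions on the values), and
`∑ q, (if q.1 = x' ∧ q.2 = y' then f else 0) * u q = f * ext0 u x' y'`. -/
theorem gridMat_mulVec {K : ℕ} (tH tV ε : ℕ → ℕ → ℝ) (u : Fin K × Fin K → ℝ) (p : Fin K × Fin K) :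
    (gridMat K tH tV ε *ᵥ u) p = act tH tV ε (ext0 u) p.1 p.2 := by
  simp only [mulVec, dotProduct, bgrid_entry, sub_mul, sum_sub_distrib, bgrid_pick, act]
  congr 2
  · congr 1
    split_ifs <;> simp
  · split_ifs <;> simp

theorem bgrid_shift (K : ℕ) (U t : ℕ → ℝ) (hU : U K = 0) :
    ∑ x ∈ range K, U x * (if 0 < x then t (x - 1) * U (x - 1) else 0) =
      ∑ x ∈ range K, t x * U x * U (x + 1) := by
  have h := sum_range_succ (fun x => U x * (if 0 < x then t (x - 1) * U (x - 1) else 0)) K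
  rw [hU, zero_mul, add_zero, sum_range_succ'] at h
  rw [← h]
  simp only [lt_irrefl, if_false, mul_zero, add_zero, Nat.zero_lt_succ, if_true, Nat.add_sub_cancel]
  exact sum_congr rfl fun x _ => by ring

/-- `gridMat_mulVec`, `sum_grid`, and the index shift
`∑ x < K, U x * (if 0 < x then t (x-1) * U (x-1) else 0) = ∑ x < K, t x * U x * U (x+1)` for `U K = 0`. -/
theorem bar_gridMat_form {K : ℕ} (tH tV ε : ℕ → ℕ → ℝ) (u : Fin K × Fin K → ℝ) :
    u ⬝ᵥ gridMat K tH tV ε *ᵥ u = ∑ x ∈ range K, ∑ y ∈ range K,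
      (ε x y * ext0 u x y ^ 2 - 2 * tH x y * ext0 u x y * ext0 u (x + 1) y -
        2 * tV x y * ext0 u x y * ext0 u x (y + 1)) := by
  have h1 : u ⬝ᵥ gridMat K tH tV ε *ᵥ u =
      ∑ x ∈ range K, ∑ y ∈ range K, ext0 u x y * act tH tV ε (ext0 u) x y := by
    rw [← sum_grid K fun x y => ext0 u x y * act tH tV ε (ext0 u) x y, dotProduct]
    exact sum_congr rfl fun p _ => by rw [gridMat_mulVec, ext0_apply]
  have h2 : ∑ x ∈ range K, ∑ y ∈ range K, ext0 u x y *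
      (if 0 < x then tH (x - 1) y * ext0 u (x - 1) y else 0) =
      ∑ x ∈ range K, ∑ y ∈ range K, tH x y * ext0 u x y * ext0 u (x + 1) y := by
    rw [sum_comm, sum_comm (f := fun x y => tH x y * ext0 u x y * ext0 u (x + 1) y)]
    exact sum_congr rfl fun y _ => bgrid_shift K (fun x => ext0 u x y) (fun x => tH x y)
      (ext0_out u (Or.inl le_rfl))
  have h3 : ∑ x ∈ range K, ∑ y ∈ range K, ext0 u x y *
      (if 0 < y then tV x (y - 1) * ext0 u x (y - 1) else 0) =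
      ∑ x ∈ range K, ∑ y ∈ range K, tV x y * ext0 u x y * ext0 u x (y + 1) :=
    sum_congr rfl fun x _ => bgrid_shift K (fun y => ext0 u x y) (fun y => tV x y)
      (ext0_out u (Or.inr le_rfl))
  simp only [h1, act, mul_sub, sum_sub_distrib, h2, h3]
  simp only [← sum_sub_distrib]
  exact sum_congr rfl fun x _ => sum_congr rfl fun y _ => by ring

/-- e.g. `gridMat_mulVec` applied to the row `u = gridMat p ·`. -/
theorem gridMat_rowSq {K : ℕ} (tH tV ε : ℕ → ℕ → ℝ) (p : Fin K × Fin K) :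
    ∑ q, gridMat K tH tV ε p q ^ 2 = rowSq K tH tV ε p.1 p.2 := by
  have h := gridMat_mulVec tH tV ε (fun q => gridMat K tH tV ε p q) p
  simp only [mulVec, dotProduct, ← sq] at h
  rw [h]
  obtain ⟨⟨a, ha⟩, ⟨b, hb⟩⟩ := p
  have e0 : ext0 (fun q => gridMat K tH tV ε (⟨a, ha⟩, ⟨b, hb⟩) q) a b = ε a b := by
    rw [ext0, dif_pos ⟨ha, hb⟩]; simp [gridMat]
  have e1 : tH a b * ext0 (fun q => gridMat K tH tV ε (⟨a, ha⟩, ⟨b, hb⟩) q) (a + 1) b =
      -(if a + 1 < K then tH a b ^ 2 else 0) := by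
    split_ifs with h
    · rw [ext0, dif_pos ⟨h, hb⟩]; simp [gridMat, sq]
    · rw [ext0_out _ (Or.inl (by omega))]; simp
  have e2 : (if 0 < a then tH (a - 1) b *
      ext0 (fun q => gridMat K tH tV ε (⟨a, ha⟩, ⟨b, hb⟩) q) (a - 1) b else 0) =
      -(if 0 < a then tH (a - 1) b ^ 2 else 0) := by
    split_ifs with h
    · rw [ext0, dif_pos ⟨by omega, hb⟩]
      simp only [gridMat, of_apply, Prod.mk.injEq, Fin.mk.injEq]
      rw [if_neg (by omega), if_neg (by omega), if_pos ⟨trivial, by omega⟩]; ring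
    · simp
  have e3 : tV a b * ext0 (fun q => gridMat K tH tV ε (⟨a, ha⟩, ⟨b, hb⟩) q) a (b + 1) =
      -(if b + 1 < K then tV a b ^ 2 else 0) := by
    split_ifs with h
    · rw [ext0, dif_pos ⟨ha, h⟩]; simp [gridMat, sq]
    · rw [ext0_out _ (Or.inr (by omega))]; simp
  have e4 : (if 0 < b then tV a (b - 1) *
      ext0 (fun q => gridMat K tH tV ε (⟨a, ha⟩, ⟨b, hb⟩) q) a (b - 1) else 0) =
      -(if 0 < b then tV a (b - 1) ^ 2 else 0) := by
    split_ifs with h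
    · rw [ext0, dif_pos ⟨ha, by omega⟩]
      simp only [gridMat, of_apply, Prod.mk.injEq, Fin.mk.injEq]
      rw [if_neg (by omega), if_neg (by omega), if_neg (by omega), if_neg (by omega),
        if_pos ⟨trivial, by omega⟩]; ring
    · simp
  simp only [act, rowSq, e0, e1, e2, e3, e4]
  ring

theorem sum_range_three (n : ℕ) (f : ℕ → ℝ) :
    ∑ x ∈ range (3 * n), f x = ∑ i ∈ range n, (f (3 * i) + f (3 * i + 1) + f (3 * i + 2)) := by
  induction n with
  | zero => simp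
  | succ n ih =>
    rw [show 3 * (n + 1) = 3 * n + 1 + 1 + 1 by ring, sum_range_succ, sum_range_succ, sum_range_succ, ih,
      sum_range_succ]
    ring

theorem barF_card (K : ℕ) : (barF K).card = cntF K := by
  have h := sum_grid K fun x y => if bF x y then 1 else 0
  have : ((barF K).card : ℝ) = cntF K := by
    rw [barF, card_filter, cntF]
    push_cast
    exact h
  exact_mod_cast this

theorem cntF_le (K : ℕ) : cntF K ≤ K * K := by
  rw [← barF_card]
  simpa using card_le_univ (barF K)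

theorem barF_sum {K : ℕ} (tH tV ε : ℕ → ℕ → ℝ) :
    ∑ w ∈ barF K, ∑ v, gridMat K tH tV ε w v ^ 2 =
      ∑ x ∈ range K, ∑ y ∈ range K, if bF x y then rowSq K tH tV ε x y else 0 := by
  rw [barF, sum_filter, ← sum_grid K fun x y => if bF x y then rowSq K tH tV ε x y else 0]
  exact sum_congr rfl fun p _ => by rw [gridMat_rowSq]

end Crest.Agent.R338
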