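import Crest.Agent.R338.Bar_Defs

/-! # Stage B: the concrete buses.  Prefix helper lemmas with `blap_`. -/

set_option autoImplicit false
set_option linter.dupNamespace false
set_option linter.unusedVariables false

noncomputable section

namespace Crest.Agent.R338

open Crest.Agent.Lib.PT Matrix Finset

theorem blap_chain {n : ℕ} (f : ℕ → ℝ) {d : ℝ} (hd : 0 ≤ d)
    (h : ∀ k, k + 1 < n → |f k - f (k + 1)| ≤ d) {i j : ℕ} (hi : i < n) (hj : j < n) :
    |f i - f j| ≤ n * d := by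
  have h1 : ∀ k m, k + m < n → |f k - f (k + m)| ≤ m * d := by
    intro k m
    induction m with
    | zero => simp
    | succ m ih =>
      intro hm
      have h2 := ih (by omega)
      have h3 := h (k + m) (by omega)
      have h4 := abs_sub_le (f k) (f (k + m)) (f (k + m + 1))
      push_cast
      rw [← add_assoc]
      linarith
  have h2 : ∀ i j, i ≤ j → j < n → |f i - f j| ≤ n * d := fun i j hij hj => by
    obtain ⟨m, rfl⟩ := Nat.exists_eq_add_of_le hij
    refine (h1 i m hj).trans (mul_le_mul_of_nonneg_right ?_ hd)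
    exact_mod_cast (by omega : m ≤ n)
  rcases le_total i j with h3 | h3
  · exact h2 i j h3 hj
  · rw [abs_sub_comm]
    exact h2 j i h3 hi

/-- the summand of `lapN` -/
def blap_t (n : ℕ) (C : ℕ → ℕ → Fin 4 → ℝ) (i j : ℕ) : ℝ :=
  (C i j 0 - C i j 1) ^ 2 + (C i j 2 - C i j 3) ^ 2 + (if i = j then (C i j 1 - C i j 3) ^ 2 else 0) +
    (if i + 1 < n then (C i j 1 - C (i + 1) j 0) ^ 2 else 0) +
    (if j + 1 < n then (C i j 3 - C i (j + 1) 2) ^ 2 else 0)

theorem blap_t_nonneg (n : ℕ) (C : ℕ → ℕ → Fin 4 → ℝ) (i j : ℕ) : 0 ≤ blap_t n C i j := by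
  unfold blap_t
  split_ifs <;> positivity

theorem blap_nonneg (n : ℕ) (C : ℕ → ℕ → Fin 4 → ℝ) : 0 ≤ lapN n C :=
  Finset.sum_nonneg fun i _ => Finset.sum_nonneg fun j _ => blap_t_nonneg n C i j

theorem blap_t_le (n : ℕ) (C : ℕ → ℕ → Fin 4 → ℝ) {i j : ℕ} (hi : i < n) (hj : j < n) :
    blap_t n C i j ≤ lapN n C :=
  (Finset.single_le_sum (f := fun j => blap_t n C i j) (fun j _ => blap_t_nonneg n C i j)
    (mem_range.2 hj)).trans
    (Finset.single_le_sum (f := fun i => ∑ j ∈ range n, blap_t n C i j)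
      (fun i _ => Finset.sum_nonneg fun j _ => blap_t_nonneg n C i j) (mem_range.2 hi))

theorem blap_edges (n : ℕ) (C : ℕ → ℕ → Fin 4 → ℝ) {i j : ℕ} (hi : i < n) (hj : j < n) :
    |C i j 0 - C i j 1| ≤ √(lapN n C) ∧ |C i j 2 - C i j 3| ≤ √(lapN n C) ∧
      (i = j → |C i j 1 - C i j 3| ≤ √(lapN n C)) ∧
      (i + 1 < n → |C i j 1 - C (i + 1) j 0| ≤ √(lapN n C)) ∧
      (j + 1 < n → |C i j 3 - C i (j + 1) 2| ≤ √(lapN n C)) := by
  have h := blap_t_le n C hi hj
  unfold blap_t at h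
  have h1 := sq_nonneg (C i j 0 - C i j 1)
  have h2 := sq_nonneg (C i j 2 - C i j 3)
  have h3 : 0 ≤ (if i = j then (C i j 1 - C i j 3) ^ 2 else 0) := by split_ifs <;> positivity
  have h4 : 0 ≤ (if i + 1 < n then (C i j 1 - C (i + 1) j 0) ^ 2 else 0) := by
    split_ifs <;> positivity
  have h5 : 0 ≤ (if j + 1 < n then (C i j 3 - C i (j + 1) 2) ^ 2 else 0) := by
    split_ifs <;> positivity
  refine ⟨Real.abs_le_sqrt (by linarith), Real.abs_le_sqrt (by linarith), fun e => ?_, fun e => ?_,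
    fun e => ?_⟩
  all_goals
    rw [if_pos e] at h
    exact Real.abs_le_sqrt (by linarith)

theorem blap_path (n : ℕ) (C : ℕ → ℕ → Fin 4 → ℝ) {i j : ℕ} (hi : i < n) (hj : j < n) :
    |C i j 0 - C j j 1| ≤ 4 * n * √(lapN n C) ∧ |C i j 1 - C j j 1| ≤ 4 * n * √(lapN n C) ∧
      |C i j 2 - C i i 1| ≤ 4 * n * √(lapN n C) ∧ |C i j 3 - C i i 1| ≤ 4 * n * √(lapN n C) := by
  set δ := √(lapN n C) with hδ
  have h0 : 0 ≤ δ := Real.sqrt_nonneg _
  have hn : (1 : ℝ) ≤ n := by exact_mod_cast (by omega : 1 ≤ n)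
  have hnδ : δ ≤ n * δ := le_mul_of_one_le_left h0 hn
  have hE : |C i j 1 - C j j 1| ≤ n * (2 * δ) := by
    refine blap_chain (fun k => C k j 1) (by positivity) (fun k hk => ?_) hi hj
    have h1 := (blap_edges n C (by omega : k < n) hj).2.2.2.1 hk
    have h2 := (blap_edges n C hk hj).1
    have h3 := abs_sub_le (C k j 1) (C (k + 1) j 0) (C (k + 1) j 1)
    linarith
  have hN : |C i j 3 - C i i 3| ≤ n * (2 * δ) := by
    refine blap_chain (fun k => C i k 3) (by positivity) (fun k hk => ?_) hj hi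
    have h1 := (blap_edges n C hi (by omega : k < n)).2.2.2.2 hk
    have h2 := (blap_edges n C hi hk).2.1
    have h3 := abs_sub_le (C i k 3) (C i (k + 1) 2) (C i (k + 1) 3)
    linarith
  have h1 := (blap_edges n C hi hj).1
  have h2 := (blap_edges n C hi hj).2.1
  have h3 := (blap_edges n C hi hi).2.2.1 rfl
  rw [abs_sub_comm] at h3
  have h4 := abs_sub_le (C i j 0) (C i j 1) (C j j 1)
  have h5 := abs_sub_le (C i j 3) (C i i 3) (C i i 1)
  have h6 := abs_sub_le (C i j 2) (C i j 3) (C i i 1)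
  refine ⟨?_, ?_, ?_, ?_⟩ <;> linarith

theorem blap_ext {n : ℕ} (c : BSite n → ℝ) {i j : ℕ} (hi : i < n) (hj : j < n) (q : Fin 4) :
    extB c i j q = c (⟨i, hi⟩, ⟨j, hj⟩, q) := by
  simp [extB, hi, hj]

/-- `fib`: `Fintype.sum_prod_type`, `Fin.sum_univ_four`.  `inv`: termwise (`Finset.sum_congr`); the two ends of every edge have the same `busOf`.
`poin`: let `δ = √(lap c)`; every term of `lapN` is `≤ lap c` (`Finset.single_le_sum` twice), so along every edge `|c x - c y| ≤ δ`.  Induction: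
`|E i j - E i' j| ≤ 2 |i - i'| δ` and `|N i j - N i j'| ≤ 2 |j - j'| δ`, hence `|c x - c (port (busOf x))| ≤ 4 n δ` for every one of the `4 n²` sites
(use the edge `E i i – N i i` for the terminals `S, N`). -/
theorem busData (n : ℕ) :
    BusData (busOf (n := n)) port (4 * n) lap (64 * (n : ℝ) ^ 4) := by
  refine ⟨fun f => ?_, fun u => by simp [busOf, port], fun c a => ?_, ?_, fun c => blap_nonneg _ _,
    fun c => ?_⟩
  · simp only [Fintype.sum_prod_type, Fin.sum_univ_four, busOf]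
    simp [Finset.sum_add_distrib, ← Finset.mul_sum]
    ring
  · unfold lap lapN
    refine Finset.sum_congr rfl fun i hi => Finset.sum_congr rfl fun j hj => ?_
    have hi' := mem_range.1 hi
    have hj' := mem_range.1 hj
    simp only [blap_ext _ hi' hj']
    congr 1
    · congr 1
      · congr 1
        · simp [busOf]
        · split_ifs with e
          · subst e
            simp [busOf]
          · rfl
      · split_ifs with e
        · simp [blap_ext _ e hj', busOf]
        · rfl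
    · split_ifs with e
      · simp [blap_ext _ hi' e, busOf]
      · rfl
  · simp [lap, lapN, extB]
  · have key : ∀ x : BSite n, (c x - c (port (busOf x))) ^ 2 ≤ 16 * (n : ℝ) ^ 2 * lap c := by
      rintro ⟨i, j, q⟩
      have h := blap_path n (extB c) i.2 j.2
      simp only [blap_ext _ i.2 j.2, blap_ext _ i.2 i.2, blap_ext _ j.2 j.2, Fin.eta] at h
      have h1 : |c (i, j, q) - c (port (busOf (i, j, q)))| ≤ 4 * n * √(lap c) := by
        fin_cases q
        · exact h.1
        · exact h.2.1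
        · exact h.2.2.1
        · exact h.2.2.2
      have h2 := pow_le_pow_left₀ (abs_nonneg _) h1 2
      rw [sq_abs, mul_pow, Real.sq_sqrt (show 0 ≤ lap c from blap_nonneg _ _)] at h2
      refine h2.trans (le_of_eq ?_)
      ring
    refine (Finset.sum_le_card_nsmul _ _ _ fun x _ => key x).trans (le_of_eq ?_)
    simp
    ring

theorem kMat_form (n : ℕ) (κ : ℕ → ℕ → ℝ) (c : BSite n → ℝ) :
    c ⬝ᵥ kMat n κ *ᵥ c =
      ∑ i : Fin n, ∑ j : Fin n, if i = j then 0 else 2 * κ i j * (c (i, j, 1) * c (i, j, 3)) := by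
  simp only [dotProduct, mulVec, Fintype.sum_prod_type, kMat, Matrix.of_apply]
  refine Finset.sum_congr rfl fun i _ => Finset.sum_congr rfl fun j _ => ?_
  by_cases h : i = j
  · simp [h]
  · simp [h, ite_and]
    ring

/-- `OpLe.of_entry`, `card (BSite n) = 4 n²`. -/
theorem kMat_opLe (n : ℕ) {κ : ℕ → ℕ → ℝ} {k0 : ℝ} (h0 : 0 ≤ k0) (h : ∀ i j, |κ i j| ≤ k0) :
    OpLe (kMat n κ) (8 * (n : ℝ) ^ 2 * k0) := by
  have := OpLe.of_entry (M := kMat n κ) (c := 2 * k0) fun x y => by
    simp only [kMat, Matrix.of_apply]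
    split_ifs
    · rw [abs_mul, abs_two]
      linarith [h x.1 x.2.1]
    · simp [h0]
  convert this using 1
  simp
  ring

/-- `kMat_form`; `a ⬝ᵥ hcMat *ᵥ a = ∑ ε u a u² - 2 ∑_{i ≠ j} t i j a i a j` (`Finset.sum_comm` for the transposed half). -/
theorem hcMat_form (n : ℕ) {r : ℝ} (hr : r ≠ 0) (t : List (List ℚ)) (ε : List ℚ) (a : Fin n → ℝ) :
    a ⬝ᵥ ((2 : ℝ) • hcMat n t ε) *ᵥ a =
      ∑ u : Fin n, (sε n r (fun u => ((ε.getD u 0 : ℚ) : ℝ)) u - 4 * n * r ^ 2 * r⁻¹) * a u ^ 2 -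
        r⁻¹ ^ 2 * ((a ∘ busOf) ⬝ᵥ kMat n (sκ r fun i j => (ent t i j : ℝ)) *ᵥ (a ∘ busOf)) := by
  rw [kMat_form]
  have e1 : a ⬝ᵥ ((2 : ℝ) • hcMat n t ε) *ᵥ a =
      ∑ u : Fin n, 2 * ((ε.getD u 0 : ℚ) : ℝ) * a u ^ 2 -
        ((∑ i : Fin n, ∑ j : Fin n, if i = j then 0 else 2 * (ent t i j : ℝ) * (a j * a i)) +
        ∑ i : Fin n, ∑ j : Fin n, if j = i then 0 else 2 * (ent t j i : ℝ) * (a i * a j)) := by
    simp only [dotProduct, mulVec, hcMat, Matrix.smul_apply, Matrix.of_apply, smul_eq_mul,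
      ← Finset.sum_add_distrib, ← Finset.sum_sub_distrib, Finset.mul_sum]
    refine Finset.sum_congr rfl fun i _ => ?_
    have : 2 * ((ε.getD i 0 : ℚ) : ℝ) * a i ^ 2 =
        ∑ j : Fin n, if i = j then 2 * ((ε.getD i 0 : ℚ) : ℝ) * a i ^ 2 else 0 := by simp
    rw [this, ← Finset.sum_sub_distrib]
    refine Finset.sum_congr rfl fun j _ => ?_
    by_cases h : i = j
    · subst h
      simp only [if_true]
      ring
    · simp only [h, Ne.symm h, if_false]
      push_cast
      ring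
  rw [e1, Finset.sum_comm (f := fun i j : Fin n =>
    if j = i then (0 : ℝ) else 2 * (ent t j i : ℝ) * (a i * a j))]
  congr 1
  · refine Finset.sum_congr rfl fun u _ => ?_
    simp only [sε]
    field_simp
    ring
  · simp only [← Finset.sum_add_distrib, Finset.mul_sum]
    refine Finset.sum_congr rfl fun i _ => Finset.sum_congr rfl fun j _ => ?_
    split_ifs
    · simp
    · simp only [sκ, Function.comp, busOf]
      simp
      field_simp
      ring

/-- `OpLe.of_entry`: entries are at most `4 B`. -/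
theorem hcMat_opLe {n : ℕ} {B : ℝ} (hn : (n : ℝ) ≤ B) {t : List (List ℚ)} {ε : List ℚ}
    (ht : ∀ i j, 0 ≤ (ent t i j : ℝ) ∧ (ent t i j : ℝ) ≤ B) (hε : ∀ u, |((ε.getD u 0 : ℚ) : ℝ)| ≤ B) :
    OpLe ((2 : ℝ) • hcMat n t ε) (4 * B ^ 2) := by
  have hB : 0 ≤ B := (Nat.cast_nonneg n).trans hn
  have := OpLe.of_entry (M := (2 : ℝ) • hcMat n t ε) (c := 4 * B) fun u v => by
    simp only [hcMat, Matrix.smul_apply, Matrix.of_apply, smul_eq_mul, abs_mul, abs_two]
    split_ifs
    · linarith [hε u]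
    · push_cast
      rw [abs_neg, abs_of_nonneg (by linarith [(ht u v).1, (ht v u).1])]
      linarith [(ht u v).2, (ht v u).2]
  refine this.mono (by positivity) ?_
  rw [Fintype.card_fin]
  nlinarith

end Crest.Agent.R338
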