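import Crest.Agent.R338.Bar_Grid

/-! # Stage B: sites and entries of the crossbar.  Prefix helper lemmas with `bsite_`. -/

set_option autoImplicit false
set_option linter.dupNamespace false
set_option linter.unusedVariables false

noncomputable section

namespace Crest.Agent.R338

open Crest.Agent.Lib.PT Matrix Finset

/-- retained sites -/
abbrev bsite_Z (x y : ℕ) : Prop := (x % 3 = 1 ∧ y % 3 ≠ 1) ∨ (x % 3 ≠ 1 ∧ y % 3 = 1) ∨ bHome x y

theorem bsite_J0 (x y : ℕ) : bJ x y = 0 ↔ bsite_Z x y := by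
  unfold bJ
  split_ifs with h1 h2
  · exact ⟨fun h => absurd h one_ne_zero, fun h => by omega⟩
  · exact ⟨fun h => absurd h (by norm_num), fun h => by omega⟩
  · exact ⟨fun _ => by omega, fun _ => rfl⟩

theorem bsite_q (q : Fin 4) : (qx q = 1 ∧ qy q ≠ 1) ∨ (qx q ≠ 1 ∧ qy q = 1) := by
  revert q
  decide

theorem bsite_q_inj (q q' : Fin 4) : qx q = qx q' → qy q = qy q' → q = q' := by
  revert q q'
  decide

theorem bsite_entry {K : ℕ} (tH tV ε : ℕ → ℕ → ℝ) (p q : Fin K × Fin K) {Φ : ℝ → Prop}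
    {A : ℕ → ℕ → Prop} (h0 : Φ 0) (hne : p ≠ q) (hp : A p.1 p.2) (hq : A q.1 q.2)
    (hH : ∀ x y, A x y → A (x + 1) y → Φ (-tH x y))
    (hV : ∀ x y, A x y → A x (y + 1) → Φ (-tV x y)) : Φ (gridMat K tH tV ε p q) := by
  simp only [gridMat, Matrix.of_apply, if_neg hne]
  split_ifs with h1 h2 h3 h4
  · exact hH _ _ hp (by rw [h1.2, h1.1]; exact hq)
  · exact hH _ _ hq (by rw [h2.2, ← h2.1]; exact hp)
  · exact hV _ _ hp (by rw [h3.2, h3.1]; exact hq)
  · exact hV _ _ hq (by rw [h4.2, ← h4.1]; exact hp)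
  · exact h0

section field

variable {𝕜 : Type} [Field 𝕜] [LinearOrder 𝕜] [IsStrictOrderedRing 𝕜] {T ρ τ Δ : 𝕜} {κ : ℕ → ℕ → 𝕜}
  {ε : ℕ → 𝕜}

theorem bH_mem (P : Par T ρ τ Δ κ ε) (x y : ℕ) : 0 ≤ bH T ρ κ x y ∧ bH T ρ κ x y ≤ T * ρ := by
  have h1 := P.T_pos
  have h2 := P.ρ_ge
  have h3 := P.κ0 (x / 3) (y / 3)
  have h4 := P.κT (x / 3) (y / 3)
  unfold bH
  split_ifs <;> constructor <;> nlinarith

theorem bV_mem (P : Par T ρ τ Δ κ ε) (x y : ℕ) : 0 ≤ bV T ρ τ x y ∧ bV T ρ τ x y ≤ T * ρ := by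
  have h1 := P.T_pos
  have h2 := P.ρ_ge
  have h3 := P.τ0
  have h4 := P.τT
  unfold bV
  split_ifs <;> constructor <;> nlinarith

/-- `0 ≤ (T - κ)² / T ≤ T`. -/
theorem bE_small (P : Par T ρ τ Δ κ ε) (n : ℕ) {x y : ℕ} (h : bJ x y = 0) :
    |bE n T ρ Δ κ ε x y| ≤ 4 * T := by
  have h1 := P.T_pos
  have h2 := P.Δ0
  have h3 := P.ΔT
  have h4 := P.κ0 (x / 3) (y / 3)
  have h5 := P.κT (x / 3) (y / 3)
  have h6 := abs_le.1 (P.εT (x / 3))
  have h7 : 0 ≤ (T - κ (x / 3) (y / 3)) ^ 2 / T := by positivity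
  have h8 : (T - κ (x / 3) (y / 3)) ^ 2 / T ≤ T := by
    rw [div_le_iff₀ h1]
    nlinarith
  rw [bsite_J0] at h
  unfold bE
  split_ifs <;> first | omega | (rw [abs_le]; constructor <;> linarith)

theorem bE_le (P : Par T ρ τ Δ κ ε) (n x y : ℕ) : |bE n T ρ Δ κ ε x y| ≤ T * ρ ^ 2 := by
  have h1 := P.T_pos
  have h2 := P.ρ_ge
  by_cases h : bJ x y = 0
  · refine (bE_small P n h).trans ?_
    nlinarith [mul_le_mul_of_nonneg_left (show (4 : 𝕜) ≤ ρ ^ 2 by nlinarith) h1.le]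
  · rw [bsite_J0] at h
    have h3 : 0 ≤ T * ρ ^ 2 := by positivity
    unfold bE
    split_ifs <;> first | omega | simp only [abs_neg, abs_of_nonneg h3, le_refl]

theorem rowSq_mem (P : Par T ρ τ Δ κ ε) (n K x y : ℕ) :
    0 ≤ rowSq K (bH T ρ κ) (bV T ρ τ) (bE n T ρ Δ κ ε) x y ∧
      rowSq K (bH T ρ κ) (bV T ρ τ) (bE n T ρ Δ κ ε) x y ≤ 5 * (T * ρ ^ 2) ^ 2 := by
  have h1 := P.T_pos
  have h2 := P.ρ_ge
  have h3 : T * ρ ≤ T * ρ ^ 2 := mul_le_mul_of_nonneg_left (by nlinarith) h1.le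
  have hH : ∀ x y, bH T ρ κ x y ^ 2 ≤ (T * ρ ^ 2) ^ 2 := fun x y =>
    pow_le_pow_left₀ (bH_mem P x y).1 ((bH_mem P x y).2.trans h3) 2
  have hV : ∀ x y, bV T ρ τ x y ^ 2 ≤ (T * ρ ^ 2) ^ 2 := fun x y =>
    pow_le_pow_left₀ (bV_mem P x y).1 ((bV_mem P x y).2.trans h3) 2
  have hE : bE n T ρ Δ κ ε x y ^ 2 ≤ (T * ρ ^ 2) ^ 2 := by
    rw [← sq_abs]
    exact pow_le_pow_left₀ (abs_nonneg _) (bE_le P n x y) 2
  have hi : ∀ (c : Prop) [Decidable c] (a : 𝕜), a ^ 2 ≤ (T * ρ ^ 2) ^ 2 →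
      0 ≤ (if c then a ^ 2 else 0) ∧ (if c then a ^ 2 else 0) ≤ (T * ρ ^ 2) ^ 2 := fun c _ a ha => by
    split_ifs
    · exact ⟨sq_nonneg _, ha⟩
    · exact ⟨le_rfl, sq_nonneg _⟩
  have a1 := hi (x + 1 < K) _ (hH x y)
  have a2 := hi (0 < x) _ (hH (x - 1) y)
  have a3 := hi (y + 1 < K) _ (hV x y)
  have a4 := hi (0 < y) _ (hV x (y - 1))
  have a5 := sq_nonneg (bE n T ρ Δ κ ε x y)
  unfold rowSq
  constructor <;> linarith [a1.1, a1.2, a2.1, a2.2, a3.1, a3.2, a4.1, a4.2]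

end field

theorem emb_injective (n : ℕ) : Function.Injective (emb n) := by
  rintro (u | ⟨i, j, q⟩) (v | ⟨i', j', q'⟩) h <;>
    simp only [emb, Prod.mk.injEq, Fin.mk.injEq] at h
  · exact congrArg Sum.inl (Fin.ext (by omega))
  · have := bsite_q q'
    have := qx_lt q'
    have := qy_lt q'
    omega
  · have := bsite_q q
    have := qx_lt q
    have := qy_lt q
    omega
  · have := qx_lt q
    have := qy_lt q
    have := qx_lt q'
    have := qy_lt q'
    obtain rfl : i = i' := Fin.ext (by omega)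
    obtain rfl : j = j' := Fin.ext (by omega)
    obtain rfl : q = q' := bsite_q_inj q q' (by omega) (by omega)
    rfl

theorem emb_range (n : ℕ) (p : Fin (3 * n) × Fin (3 * n)) :
    bJ p.1 p.2 = 0 ↔ p ∈ Set.range (emb n) := by
  obtain ⟨⟨x, hx⟩, ⟨y, hy⟩⟩ := p
  rw [bsite_J0]
  constructor
  · intro h
    have hx' : x / 3 < n := by omega
    have hy' : y / 3 < n := by omega
    have key : ∀ q : Fin 4, x % 3 = qx q → y % 3 = qy q →
        ((⟨x, hx⟩, ⟨y, hy⟩) : Fin (3 * n) × Fin (3 * n)) ∈ Set.range (emb n) := fun q h1 h2 =>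
      ⟨Sum.inr (⟨x / 3, hx'⟩, ⟨y / 3, hy'⟩, q), by
        simp only [emb, Prod.mk.injEq, Fin.mk.injEq]
        omega⟩
    dsimp only at h
    by_cases h0 : bHome x y
    · exact ⟨Sum.inl ⟨x / 3, hx'⟩, by
        simp only [emb, Prod.mk.injEq, Fin.mk.injEq]
        omega⟩
    have : (x % 3 = 0 ∧ y % 3 = 1) ∨ (x % 3 = 2 ∧ y % 3 = 1) ∨ (x % 3 = 1 ∧ y % 3 = 0) ∨
      (x % 3 = 1 ∧ y % 3 = 2) := by omega
    rcases this with h | h | h | h
    · exact key 0 h.1 h.2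
    · exact key 1 h.1 h.2
    · exact key 2 h.1 h.2
    · exact key 3 h.1 h.2
  · rintro ⟨u | ⟨i, j, q⟩, h⟩ <;> simp only [emb, Prod.mk.injEq, Fin.mk.injEq] at h <;> dsimp only
    · omega
    · have := bsite_q q
      have := qx_lt q
      have := qy_lt q
      omega

theorem mem_barF {K : ℕ} (p : Fin K × Fin K) : p ∈ barF K ↔ bJ p.1 p.2 = -1 := by
  simp only [barF, mem_filter, mem_univ, true_and]
  unfold bJ
  split_ifs with h1 h2
  · exact ⟨fun h => by omega, fun h => absurd h (by norm_num)⟩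
  · exact ⟨fun _ => rfl, fun _ => h2⟩
  · exact ⟨fun h => absurd h h2, fun h => absurd h (by norm_num)⟩

theorem home_inl {n : ℕ} (u : Fin n) : bHome (emb n (Sum.inl u)).1 (emb n (Sum.inl u)).2 := by
  simp only [emb]
  omega

theorem home_inr {n : ℕ} (x : BSite n) : ¬ bHome (emb n (Sum.inr x)).1 (emb n (Sum.inr x)).2 := by
  simp only [emb]
  have := bsite_q x.2.2
  have := qx_lt x.2.2
  have := qy_lt x.2.2
  omega

/-- Unfold `gridMat`; in each of the four neighbour cases do a case analysis on `x % 3`, `y % 3` (`omega` for `(x+1) % 3`, `(x+1) / 3`).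
It suffices to show, for the edge `(x,y)–(x+1,y)` (and likewise `(x,y)–(x,y+1)` with `bV`): both ends with `bJ ≠ 0` ⇒ `bH = 0`; both ends with `bJ = 0` ⇒
`bH ≤ T`; one end a home and the other with `bJ ≠ 0` ⇒ `bH = 0`. -/
theorem barMat_data (n : ℕ) {T ρ τ Δ : ℝ} {κ : ℕ → ℕ → ℝ} {ε : ℕ → ℝ} (P : Par T ρ τ Δ κ ε)
    (hρ : 9 * (n : ℝ) ^ 2 ≤ ρ) :
    SWData (barMat n T ρ τ Δ κ ε) (fun p => bJ p.1 p.2) (fun p => bHome p.1 p.2) (T * ρ ^ 2) (4 * T)
      (T * ρ) := by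
  have h1 := P.T_pos
  have h2 := P.ρ_ge
  have hρ0 : 0 < ρ := by linarith
  have z : ∀ p q : Fin (3 * n) × Fin (3 * n), p ≠ q → (¬ bsite_Z p.1 p.2 ∨ bHome p.1 p.2) →
      (¬ bsite_Z q.1 q.2 ∨ bHome q.1 q.2) → barMat n T ρ τ Δ κ ε p q = 0 := fun p q hne hp hq =>
    bsite_entry _ _ _ p q (Φ := fun a => a = 0) (A := fun x y => ¬ bsite_Z x y ∨ bHome x y) rfl hne hp hq
      (fun x y a b => by
        have : x % 3 = 2 ∧ y % 3 ≠ 1 := by omega
        simp [bH, this.1, this.2])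
      (fun x y a b => by
        have : y % 3 = 2 ∧ x % 3 ≠ 1 := by omega
        simp [bV, this.1, this.2])
  have dg : ∀ p : Fin (3 * n) × Fin (3 * n), barMat n T ρ τ Δ κ ε p p = bE n T ρ Δ κ ε p.1 p.2 :=
    fun p => by simp [barMat, gridMat]
  refine ⟨gridMat_symm _ _ _ _, fun v => ?_, fun v w hv hw => ?_, fun v w hv hw => ?_,
    fun v w hv hw => ?_, fun v hv => (bsite_J0 _ _).2 (Or.inr (Or.inr hv)), fun v w hv hw => ?_,
    by positivity, by positivity, by positivity, ?_⟩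
  · unfold bJ
    split_ifs <;> simp
  · rw [Ne, bsite_J0] at hv hw
    split_ifs with h
    · subst h
      rw [dg]
      unfold bE bJ
      split_ifs <;> first | omega | simp
    · exact z v w h (Or.inl hv) (Or.inl hw)
  · by_cases h : v = w
    · subst h
      rw [dg]
      exact bE_small P n hv
    · rw [bsite_J0] at hv hw
      refine bsite_entry _ _ _ v w (Φ := fun a => |a| ≤ 4 * T) (A := bsite_Z)
        (by rw [abs_zero]; positivity) h hv hw (fun x y a b => ?_) fun x y a b => ?_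
      · rw [abs_neg, abs_of_nonneg (bH_mem P x y).1]
        unfold bH
        split_ifs <;> first | omega | linarith
      · rw [abs_neg, abs_of_nonneg (bV_mem P x y).1]
        have := P.τT
        unfold bV
        split_ifs <;> first | omega | linarith
  · refine bsite_entry _ _ _ v w (Φ := fun a => |a| ≤ T * ρ) (A := fun _ _ => True)
      (by rw [abs_zero]; positivity) (fun h => hw (h ▸ hv)) trivial trivial (fun x y _ _ => ?_)
      fun x y _ _ => ?_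
    · rw [abs_neg, abs_of_nonneg (bH_mem P x y).1]
      exact (bH_mem P x y).2
    · rw [abs_neg, abs_of_nonneg (bV_mem P x y).1]
      exact (bV_mem P x y).2
  · refine z v w (fun h => hw (h ▸ (bsite_J0 _ _).2 (Or.inr (Or.inr hv)))) (Or.inr hv) (Or.inl ?_)
    rwa [Ne, bsite_J0] at hw
  · simp only [Fintype.card_prod, Fintype.card_fin]
    push_cast
    nlinarith [mul_le_mul_of_nonneg_right hρ (mul_pos h1 hρ0).le]

end Crest.Agent.R338
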