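import Crest.Agent.R338.Bar_SW
import Crest.Agent.R338.Bar_Bus
import Crest.Agent.R338.Bar_Form
import Crest.Agent.R338.Bar_Lap
import Crest.Agent.R338.Bar_Site
import Crest.Agent.R338.Bar_Num

/-! # Stage B: the analytic statement (helper25) -/

set_option autoImplicit false
set_option linter.dupNamespace false
set_option linter.unusedVariables false

noncomputable section

namespace Crest.Agent.R338

open Crest.Agent.Lib.PT Matrix Finset

theorem bar_form (n : ℕ) {T ρ : ℝ} (τ Δ : ℝ) (hT : T ≠ 0) (hρ : ρ ≠ 0) (κ : ℕ → ℕ → ℝ) (ε : ℕ → ℝ)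
    (u : Fin (3 * n) × Fin (3 * n) → ℝ) (hu : ∀ p : Fin (3 * n) × Fin (3 * n), bJ p.1 p.2 ≠ 0 → u p = 0) :
    swForm (barMat n T ρ τ Δ κ ε) (fun p => bJ p.1 p.2) (T * ρ ^ 2) u =
      busForm (fun v : Fin n => ε v) port τ T Δ lap (kMat n κ) ((u ∘ emb n) ∘ Sum.inl)
        ((u ∘ emb n) ∘ Sum.inr) := by
  have h0 : ∀ x y, bJ x y ≠ 0 → ext0 u x y = 0 := fun x y h => by
    unfold ext0
    split_ifs with h1
    · exact hu _ h
    · rfl
  have key := bar_form_nat n τ Δ hT hρ κ ε (ext0 u) h0 fun x y h => ext0_out u h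
  have eB : extB ((u ∘ emb n) ∘ Sum.inr) = fun i j q => ext0 u (3 * i + qx q) (3 * j + qy q) := by
    funext i j q
    have := qx_lt q
    have := qy_lt q
    unfold extB
    split_ifs with h1
    · exact (ext0_apply u (emb n (Sum.inr (⟨i, h1.1⟩, ⟨j, h1.2⟩, q)))).symm
    · exact (ext0_out u (by omega)).symm
  have eL : ∀ v : Fin n, ((u ∘ emb n) ∘ Sum.inl) v = ext0 u (3 * v + 2) (3 * v + 2) := fun v =>
    (ext0_apply u (emb n (Sum.inl v))).symm
  have eR : ∀ (i j : Fin n) (q : Fin 4),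
      ((u ∘ emb n) ∘ Sum.inr) (i, j, q) = ext0 u (3 * i + qx q) (3 * j + qy q) := fun i j q =>
    (ext0_apply u (emb n (Sum.inr (i, j, q)))).symm
  unfold swForm busForm barMat lap
  rw [bar_gridMat_form, kMat_form, eB]
  simp only [gridMat_mulVec]
  rw [sum_grid (3 * n) fun x y => bJ x y * act (bH T ρ κ) (bV T ρ τ) (bE n T ρ Δ κ ε) (ext0 u) x y ^ 2,
    key]
  simp only [dotProduct, Fintype.sum_prod_type, Fin.sum_univ_four, port, eL, eR, Fin.ext_iff,
    Finset.sum_range, sq]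
  rfl

theorem bmain_tau (n : ℕ) {r : ℝ} (hr : 0 < r) : 4 * n * r ^ 2 = r⁻¹ * r ^ 3 * (4 * n) := by
  field_simp

theorem bmain_card (n : ℕ) : (Fintype.card (Fin (3 * n) × Fin (3 * n)) : ℝ) = 9 * (n : ℝ) ^ 2 := by
  rw [Fintype.card_prod, Fintype.card_fin]
  push_cast
  ring

theorem bmain_N {n N : ℕ} {B : ℝ} (hB : 1 ≤ B) (hn : (n : ℝ) ≤ B) (hN : (N : ℝ) ≤ B) :
    ((N + 2 * cntF (3 * n) : ℕ) : ℝ) ≤ 19 * B ^ 2 := by
  have h1 : (cntF (3 * n) : ℝ) ≤ 3 * n * (3 * n) := by exact_mod_cast cntF_le (3 * n)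
  have h2 : (n : ℝ) * n ≤ B * B := mul_self_le_mul_self (by positivity) hn
  push_cast
  nlinarith

theorem bmain_form {n : ℕ} {r τ Δ ν c : ℝ} {κ : ℕ → ℕ → ℝ} {ε : ℕ → ℝ}
    {hc : Fin (3 * n) × Fin (3 * n) → Prop}
    (D : SWData (barMat n (r ^ 6) (r ^ 7) τ Δ κ ε) (fun p => bJ p.1 p.2) hc (r ^ 6 * (r ^ 7) ^ 2) ν c)
    (hr : 0 < r) (u : Fin n ⊕ BSite n → ℝ) :
    u ⬝ᵥ (swG (barMat n (r ^ 6) (r ^ 7) τ Δ κ ε) (fun p => bJ p.1 p.2) (r ^ 6 * (r ^ 7) ^ 2)).submatrix
        (emb n) (emb n) *ᵥ u =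
      busForm (fun v : Fin n => ε v) port τ (r ^ 6) Δ lap (kMat n κ) (u ∘ Sum.inl) (u ∘ Sum.inr) := by
  have h1 : Function.extend (emb n) u 0 ∘ emb n = u := Function.extend_comp (emb_injective n) _ _
  have h2 : ∀ p : Fin (3 * n) × Fin (3 * n), bJ p.1 p.2 ≠ 0 → Function.extend (emb n) u 0 p = 0 :=
    fun p hp => Function.extend_apply' _ _ _ fun h => hp ((emb_range n p).2 h)
  rw [← h1, swG_form D (emb_injective n) (emb_range n) _ h2,
    bar_form n τ Δ (by positivity) (by positivity) κ ε _ h2]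

theorem bar_yes {n N : ℕ} {B r a : ℝ} {t : List (List ℚ)} {ε : List ℚ} (hn1 : 1 ≤ n) (hn : (n : ℝ) ≤ B)
    (hN : (N : ℝ) ≤ B) (ht : ∀ i j, 0 ≤ (ent t i j : ℝ) ∧ (ent t i j : ℝ) ≤ B)
    (hε : ∀ u, |((ε.getD u 0 : ℚ) : ℝ)| ≤ B) (ha : |a| ≤ B) (hr : 10 ^ 7 * B ^ 8 ≤ r)
    (H : FYes (Fin N) (fun _ => True) (hcMat n t ε) a) :
    FYes (Fin (N + 2 * cntF (3 * n))) (fun p : Fin (3 * n) × Fin (3 * n) => bHome p.1 p.2)
      (gridMat (3 * n) (sH r fun i j => (ent t i j : ℝ)) (sV n r)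
        (sE n r (fun i j => (ent t i j : ℝ)) fun u => ((ε.getD u 0 : ℚ) : ℝ)))
      (2 * a - shift n r (fun i j => (ent t i j : ℝ)) (fun u => ((ε.getD u 0 : ℚ) : ℝ)) + 1 / 2) := by
  have hn0 : (1 : ℝ) ≤ n := by exact_mod_cast hn1
  have hB : 1 ≤ B := hn0.trans hn
  have hr0 : 0 < r := lt_of_lt_of_le (by positivity) hr
  have D := barMat_data n (par_std hB hr hn ht hε) (num_rho hB hr (by linarith) hn)
  have h1 := bus_yes (busData n) (bmain_tau n hr0) (by positivity) (bmain_form D hr0)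
    (hcMat_form n hr0.ne' t ε) (hcMat_opLe hn ht hε) (by positivity) (a := 2 * a)
    (by rw [abs_mul, abs_two]; nlinarith) (ι := Fin N)
    (by rw [Fintype.card_fin]; exact num_eta hB hr (by linarith) hn (by positivity) hN)
    (hc := fun v => bHome (emb n v).1 (emb n v).2) home_inr (H.smul zero_le_two)
  have h2 := sw_yes (ι' := Fin (N + 2 * cntF (3 * n))) D (emb_injective n) (emb_range n) mem_barF
    (by simp only [Fintype.card_fin, barF_card]) h1
  refine h2.mono ?_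
  have e1 := num_yes hB hr (by linarith) hn (by positivity) hN
  have e2 := num_sw hB hr (by linarith) hn (by positivity) (bmain_N hB hn hN)
  unfold barMat
  rw [barF_sum, bmain_card]
  simp only [Fintype.card_fin]
  unfold shift sH sV sE
  linarith

theorem bar_no {n N : ℕ} {B r b : ℝ} {t : List (List ℚ)} {ε : List ℚ} (hn1 : 1 ≤ n) (hn : (n : ℝ) ≤ B)
    (hN : (N : ℝ) ≤ B) (ht : ∀ i j, 0 ≤ (ent t i j : ℝ) ∧ (ent t i j : ℝ) ≤ B)
    (hε : ∀ u, |((ε.getD u 0 : ℚ) : ℝ)| ≤ B) (hb : |b| ≤ B) (hr : 10 ^ 7 * B ^ 8 ≤ r)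
    (H : FNo (Fin N) (fun _ => True) (hcMat n t ε) b) :
    FNo (Fin (N + 2 * cntF (3 * n))) (fun p : Fin (3 * n) × Fin (3 * n) => bHome p.1 p.2)
      (gridMat (3 * n) (sH r fun i j => (ent t i j : ℝ)) (sV n r)
        (sE n r (fun i j => (ent t i j : ℝ)) fun u => ((ε.getD u 0 : ℚ) : ℝ)))
      (2 * b - shift n r (fun i j => (ent t i j : ℝ)) (fun u => ((ε.getD u 0 : ℚ) : ℝ)) - 1 / 2) := by
  have hn0 : (1 : ℝ) ≤ n := by exact_mod_cast hn1
  have hB : 1 ≤ B := hn0.trans hn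
  have hr0 : 0 < r := lt_of_lt_of_le (by positivity) hr
  have D := barMat_data n (par_std hB hr hn ht hε) (num_rho hB hr (by linarith) hn)
  have hK : OpLe (kMat n (sκ r fun i j => (ent t i j : ℝ))) (8 * (n : ℝ) ^ 2 * (2 * B * r ^ 2)) :=
    kMat_opLe n (by positivity) fun i j => by
      have := ht i j
      unfold sκ
      rw [abs_of_nonneg (by have := this.1; positivity)]
      gcongr
      exact this.2
  have h1 := bus_no (busData n) (bmain_tau n hr0) (by positivity) (by positivity) (by positivity)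
    (by positivity) hK (by positivity) (num_big hB hr (by linarith) hn) (bmain_form D hr0)
    (hcMat_form n hr0.ne' t ε) (hcMat_opLe hn ht hε) (by positivity) (b0 := 2 * b) (ι := Fin N)
    (by
      rw [abs_mul, abs_two, Fintype.card_fin]
      have : B ≤ B ^ 3 := le_self_pow₀ hB (by norm_num)
      have : B ^ 2 * N ≤ B ^ 2 * B := by gcongr
      nlinarith)
    (hc := fun v => bHome (emb n v).1 (emb n v).2) home_inl (H.smul zero_le_two)
  have e1 := num_bus hB hr hn0 hn (by positivity) hN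
  have e2 := num_sw hB hr (by linarith) hn (by positivity) (bmain_N hB hn hN)
  have e3 := num_gap hB hr (by linarith) hn (by positivity) (bmain_N hB hn hN)
  have h2 := sw_no (ι' := Fin (N + 2 * cntF (3 * n))) D (emb_injective n) (emb_range n) mem_barF
    (by simp only [Fintype.card_fin, barF_card]) (b := 2 * b - 1 / 4)
    (by
      rw [bmain_card, Fintype.card_fin]
      have : |2 * b - 1 / 4| ≤ 2 * B + 1 := by
        rw [abs_le] at hb ⊢
        constructor <;> linarith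
      linarith)
    (h1.mono (by rw [Fintype.card_fin]; linarith))
  refine h2.mono ?_
  unfold barMat
  rw [barF_sum, bmain_card]
  simp only [Fintype.card_fin]
  unfold shift sH sV sE
  linarith

end Crest.Agent.R338
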