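import Crest.Agent.R338.Bar_Cay
import Crest.Agent.R338.Bar_Blk
import Crest.Agent.R338.Bar_G

/-! # Stage B: the Schrieffer–Wolff step.  Prefix helper lemmas with `bsw_`. -/

set_option autoImplicit false
set_option linter.dupNamespace false
set_option linter.unusedVariables false

noncomputable section

namespace Crest.Agent.R338

open Crest.Agent.Lib.PT Matrix Finset

variable {ι ι' V R : Type} [Fintype ι] [DecidableEq ι] [Fintype ι'] [DecidableEq ι'] [Fintype V]
  [DecidableEq V] [Fintype R] [DecidableEq R]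
  {h : Matrix V V ℝ} {j : V → ℝ} {hc : V → Prop} {Δ ν c : ℝ}

/-- `sw_orth` with `h0 = diagonal (Δ * j ·)`, `hR v w = if j v = 0 ∧ j w = 0 then h v w else 0`, `W = swV h j`, `S = swS h j Δ`,
`x = card V * c / Δ`, norm of `hR` `≤ card V * ν` (`OpLe.of_entry`; `OpLe.of_rowcol` for the diagonal matrix).
`h0 + hR + W = h`, and `(j v - j w)² = 1` whenever `swV v w ≠ 0`.  Rows of `S` at hard-core sites vanish (`hc0`, `hc1`). -/
theorem sw_rot (D : SWData h j hc Δ ν c) :
    ∃ O : Matrix V V ℝ, Oᵀ * O = 1 ∧ O * Oᵀ = 1 ∧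
      (∀ v, hc v → ∀ u, O v u = (if u = v then 1 else 0) ∧ O u v = if u = v then 1 else 0) ∧
      OpLe (Oᵀ * h * O - swG h j Δ) (swErr (Fintype.card V) ν c Δ) := by
  classical
  have hΔ := D.Δ_pos
  have hν := D.ν_nonneg
  have hc0 := D.c_nonneg
  have hs : ∀ v w, h v w = h w v := fun v w => (congrFun (congrFun D.symm v) w).symm
  have hWs : ∀ v w, swV h j v w = swV h j w v := fun v w => by
    simp only [swV, Matrix.of_apply, hs v w, iff_comm (a := j v = 0)]
  have hWc : ∀ v w, |swV h j v w| ≤ c := fun v w => by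
    simp only [swV, Matrix.of_apply]
    split_ifs with h1
    · simpa using hc0
    · by_cases h2 : j v = 0
      · exact D.coup v w h2 fun h3 => h1 ⟨fun _ => h3, fun _ => h2⟩
      · rw [hs]
        refine D.coup w v ?_ h2
        by_contra h3
        exact h1 ⟨fun h4 => absurd h4 h2, fun h4 => absurd h4 h3⟩
  have hW1 : ∀ v w, swV h j v w * (j v - j w) ^ 2 = swV h j v w := fun v w => by
    simp only [swV, Matrix.of_apply]
    split_ifs with h1
    · simp
    · rcases D.hj v with h2 | h2 | h2 <;> rcases D.hj w with h3 | h3 | h3 <;>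
        simp [h2, h3] at h1 ⊢
  have hSc : ∀ v w, |swS h j Δ v w| ≤ c / Δ := fun v w => by
    refine abs_le_of_sq_le_sq ?_ (by positivity)
    have e : swS h j Δ v w ^ 2 = (swV h j v w / Δ) ^ 2 := by
      simp only [swS, Matrix.of_apply]
      linear_combination (swV h j v w / Δ ^ 2) * hW1 v w
    rw [e, ← sq_abs, abs_div, abs_of_pos hΔ]
    exact pow_le_pow_left₀ (by positivity) (div_le_div_of_nonneg_right (hWc v w) hΔ.le) 2
  obtain ⟨hR, hhR⟩ : ∃ hR : Matrix V V ℝ,
      hR = Matrix.of fun v w => if j v = 0 ∧ j w = 0 then h v w else 0 := ⟨_, rfl⟩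
  have hsum : Matrix.diagonal (fun v => Δ * j v) + hR + swV h j = h := by
    ext v w
    simp only [hhR, swV, Matrix.add_apply, Matrix.of_apply, Matrix.diagonal_apply]
    by_cases h1 : j v = 0 <;> by_cases h2 : j w = 0
    · simp [h1, h2]
    · simp [h1, h2]
    · have h3 : v ≠ w := fun h4 => h1 (h4 ▸ h2)
      simp [h1, h2, h3]
    · simp [h1, h2, D.diag v w h1 h2]
  have hS : (swS h j Δ)ᵀ = -swS h j Δ := by
    ext v w
    simp only [swS, Matrix.transpose_apply, Matrix.neg_apply, Matrix.of_apply, hWs w v]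
    ring
  have hcomm : Matrix.diagonal (fun v => Δ * j v) * swS h j Δ -
      swS h j Δ * Matrix.diagonal (fun v => Δ * j v) = -swV h j := by
    ext v w
    simp only [Matrix.sub_apply, Matrix.diagonal_mul, Matrix.mul_diagonal, Matrix.neg_apply, swS,
      Matrix.of_apply]
    rw [← hW1 v w]
    field_simp
    linear_combination (-(j v - j w) ^ 2) * hW1 v w
  have n0 : OpLe (Matrix.diagonal fun v => Δ * j v) Δ := by
    have h1 : ∀ v, |Δ * j v| ≤ Δ := fun v => by
      rcases D.hj v with h2 | h2 | h2 <;> simp [h2, hΔ.le, abs_of_pos hΔ]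
    refine OpLe.of_rowcol (fun v => ?_) fun v => ?_
    · rw [Finset.sum_eq_single v (fun w _ hw => by simp [Matrix.diagonal_apply_ne' _ hw]) (by simp)]
      simpa using h1 v
    · rw [Finset.sum_eq_single v (fun w _ hw => by simp [Matrix.diagonal_apply_ne _ hw]) (by simp)]
      simpa using h1 v
  have nR : OpLe hR (Fintype.card V * ν) := by
    refine OpLe.of_entry fun v w => ?_
    simp only [hhR, Matrix.of_apply]
    split_ifs with h1
    · exact D.small v w h1.1 h1.2
    · simpa using hν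
  have nW : OpLe (swV h j) (Δ * (Fintype.card V * c / Δ)) := by
    refine (OpLe.of_entry hWc).mono (by positivity) (le_of_eq ?_)
    field_simp
  have nS : OpLe (swS h j Δ) (Fintype.card V * c / Δ) :=
    (OpLe.of_entry hSc).mono (by positivity) (le_of_eq (by ring))
  obtain ⟨O, h1, h2, h3, h4⟩ := sw_orth _ hR _ _ hS hcomm hΔ.le (by positivity) (by positivity)
    ((div_le_one hΔ).2 D.big) n0 nR nW nS
  refine ⟨O, h1, h2, fun v hv => h3 v fun u => ?_, ?_⟩
  · have h5 : swV h j v u = 0 := by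
      simp only [swV, Matrix.of_apply]
      split_ifs with h6
      · rfl
      · exact D.hc1 v u hv fun h7 => h6 ⟨fun _ => h7, fun _ => D.hc0 v hv⟩
    simp [swS, h5]
  · have e : Matrix.diagonal (fun v => Δ * j v) + hR = h - swV h j := eq_sub_of_add_eq hsum
    rw [hsum, e] at h4
    exact h4

theorem bsw_sum (D : SWData h j hc Δ ν c) {F : Finset V} (hF : ∀ v, v ∈ F ↔ j v = -1) :
    ∑ w ∈ F, swG h j Δ w w = -(Δ⁻¹ * ∑ w ∈ F, ∑ v, h w v ^ 2) := by
  rw [Finset.mul_sum, ← Finset.sum_neg_distrib]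
  exact Finset.sum_congr rfl fun w hw => swG_diag D ((hF w).1 hw)

theorem bsw_err (D : SWData h j hc Δ ν c) : 0 ≤ swErr (Fintype.card V) ν c Δ := by
  have hΔ := D.Δ_pos
  have hν := D.ν_nonneg
  have hc0 := D.c_nonneg
  unfold swErr
  positivity

/-- `blk_yes` for `swG`, `swG_diag`, `FYes.of_form_le` with `OpLe.form_le`, `fYes_orth`. -/
theorem sw_yes (D : SWData h j hc Δ ν c) {e : R → V} (he : Function.Injective e)
    (hr : ∀ v, j v = 0 ↔ v ∈ Set.range e) {F : Finset V} (hF : ∀ v, v ∈ F ↔ j v = -1)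
    (hcard : Fintype.card ι' = Fintype.card ι + 2 * F.card) {a : ℝ}
    (H : FYes ι (fun r => hc (e r)) ((swG h j Δ).submatrix e e) a) :
    FYes ι' hc h (a - 2 * Δ⁻¹ * ∑ w ∈ F, ∑ v, h w v ^ 2 +
      Fintype.card ι' * swErr (Fintype.card V) ν c Δ) := by
  obtain ⟨O, h1, h2, h3, h4⟩ := sw_rot D
  have h5 := blk_yes (swG_symm D) D.hj (swG_blk D) he hr hF D.hc0 hcard H
  have h6 := h5.of_form_le (h' := Oᵀ * h * O) (e := swErr (Fintype.card V) ν c Δ) fun u => by
    have h7 := (abs_le.1 (h4.form_le (bsw_err D) u)).2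
    rw [Matrix.sub_mulVec, dotProduct_sub] at h7
    linarith
  refine ((fYes_orth h O h1 h2 h3 _).1 h6).mono (le_of_eq ?_)
  rw [bsw_sum D hF]
  ring

/-- `blk_no` for `swG` with `g = Δ`. -/
theorem sw_no (D : SWData h j hc Δ ν c) {e : R → V} (he : Function.Injective e)
    (hr : ∀ v, j v = 0 ↔ v ∈ Set.range e) {F : Finset V} (hF : ∀ v, v ∈ F ↔ j v = -1)
    (hcard : Fintype.card ι' = Fintype.card ι + 2 * F.card) {b : ℝ}
    (hg : (Fintype.card V * ν + (Fintype.card V * c) ^ 2 / Δ) * Fintype.card ι' + |b| ≤ Δ)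
    (H : FNo ι (fun r => hc (e r)) ((swG h j Δ).submatrix e e) b) :
    FNo ι' hc h (b - 2 * Δ⁻¹ * ∑ w ∈ F, ∑ v, h w v ^ 2 -
      Fintype.card ι' * swErr (Fintype.card V) ν c Δ) := by
  obtain ⟨O, h1, h2, h3, h4⟩ := sw_rot D
  have hΔ := D.Δ_pos
  have hν := D.ν_nonneg
  have h5 := blk_no (swG_symm D) D.hj (swG_blk D) he hr hF D.hc0 hcard (swG_opLe D he hr)
    (by positivity) hg (swG_pos D) (swG_neg D) H
  have h6 := h5.of_form_le (h' := Oᵀ * h * O) (e := swErr (Fintype.card V) ν c Δ) fun u => by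
    have h7 := (abs_le.1 (h4.form_le (bsw_err D) u)).1
    rw [Matrix.sub_mulVec, dotProduct_sub] at h7
    linarith
  refine ((fNo_orth h O h1 h2 h3 _).1 h6).mono (le_of_eq ?_)
  rw [bsw_sum D hF]
  ring

end Crest.Agent.R338
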