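import Crest.Agent.R338.CDefs

/-! # Calculus of `Bd` (bounded derivatives), the step function `sig`, finite differences
Use `norm_iteratedFDeriv_mul_le`, `norm_iteratedFDeriv_comp_le`, `ContinuousLinearMap.iteratedFDeriv_comp_right`,
`iteratedFDeriv_add_apply`, `norm_iteratedFDeriv_fderiv`, `norm_iteratedFDeriv_clm_apply_const`,
`norm_iteratedFDeriv_eq_norm_iteratedDeriv`. -/

set_option autoImplicit false
set_option linter.dupNamespace false
set_option linter.unusedVariables false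

noncomputable section

namespace Crest.Agent.R338

open Matrix MeasureTheory Set
open Crest.MathPhysics.ElectronicCoulomb

section
variable {E F : Type} [NormedAddCommGroup E] [NormedSpace ℝ E] [NormedAddCommGroup F]
  [NormedSpace ℝ F]

theorem Bd.nonneg {k : ℕ} {M : ℝ} {f : E → ℝ} (h : Bd k M f) : 0 ≤ M := by
  exact (norm_nonneg _).trans (h.2 0 (Nat.zero_le _) 0)
theorem Bd.abs_le {k : ℕ} {M : ℝ} {f : E → ℝ} (h : Bd k M f) (x : E) : |f x| ≤ M := by
  simpa using h.2 0 (Nat.zero_le _) x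
theorem Bd.norm_fderiv_le {k : ℕ} {M : ℝ} {f : E → ℝ} (h : Bd (k + 1) M f) (x : E) :
    ‖fderiv ℝ f x‖ ≤ M := by
  rw [← norm_iteratedFDeriv_one]
  exact h.2 1 (by omega) x
theorem Bd.mono {k k' : ℕ} {M M' : ℝ} {f : E → ℝ} (h : Bd k M f) (hk : k' ≤ k) (hM : M ≤ M') :
    Bd k' M' f := by
  exact ⟨h.1.of_le (by exact_mod_cast hk), fun j hj x => (h.2 j (hj.trans hk) x).trans hM⟩
theorem Bd.const (k : ℕ) (c : ℝ) : Bd k |c| (fun _ : E => c) := by
  refine ⟨contDiff_const, fun j _ x => ?_⟩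
  rcases eq_or_ne j 0 with rfl | hj
  · simp
  · simp [iteratedFDeriv_const_of_ne hj]
theorem Bd.add {k : ℕ} {M M' : ℝ} {f g : E → ℝ} (hf : Bd k M f) (hg : Bd k M' g) :
    Bd k (M + M') fun x => f x + g x := by
  refine ⟨hf.1.add hg.1, fun j hj x => ?_⟩
  rw [fun_iteratedFDeriv_add_apply (hf.1.of_le (by exact_mod_cast hj)).contDiffAt
    (hg.1.of_le (by exact_mod_cast hj)).contDiffAt]
  exact (norm_add_le _ _).trans (add_le_add (hf.2 j hj x) (hg.2 j hj x))
theorem Bd.neg {k : ℕ} {M : ℝ} {f : E → ℝ} (hf : Bd k M f) : Bd k M fun x => -f x := by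
  refine ⟨hf.1.neg, fun j hj x => ?_⟩
  have := iteratedFDeriv_neg_apply (𝕜 := ℝ) (i := j) (f := f) (x := x)
  rw [show (fun x => -f x) = -f from rfl, this, norm_neg]
  exact hf.2 j hj x
theorem Bd.sub {k : ℕ} {M M' : ℝ} {f g : E → ℝ} (hf : Bd k M f) (hg : Bd k M' g) :
    Bd k (M + M') fun x => f x - g x := by
  simpa only [sub_eq_add_neg] using hf.add hg.neg
theorem Bd.const_mul {k : ℕ} {M : ℝ} {f : E → ℝ} (hf : Bd k M f) (c : ℝ) :
    Bd k (|c| * M) fun x => c * f x := by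
  refine ⟨contDiff_const.mul hf.1, fun j hj x => ?_⟩
  have := iteratedFDeriv_const_smul_apply' (a := c) (x := x) (hf.1.of_le (m := j) (by exact_mod_cast hj)).contDiffAt
  simp only [smul_eq_mul] at this
  rw [this, norm_smul, Real.norm_eq_abs]
  exact mul_le_mul_of_nonneg_left (hf.2 j hj x) (abs_nonneg c)
theorem Bd.mul {k : ℕ} {M M' : ℝ} {f g : E → ℝ} (hf : Bd k M f) (hg : Bd k M' g) :
    Bd k (2 ^ k * M * M') fun x => f x * g x := by
  refine ⟨hf.1.mul hg.1, fun j hj x => ?_⟩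
  have h0 := hf.nonneg
  have h0' := hg.nonneg
  refine (norm_iteratedFDeriv_mul_le hf.1 hg.1 x (by exact_mod_cast hj)).trans ?_
  calc _ ≤ ∑ i ∈ Finset.range (j + 1), (j.choose i : ℝ) * M * M' := by
        refine Finset.sum_le_sum fun i hi => ?_
        have := Finset.mem_range.1 hi
        gcongr
        · exact hf.2 i (by omega) x
        · exact hg.2 (j - i) (by omega) x
    _ = 2 ^ j * M * M' := by
        rw [← Finset.sum_mul, ← Finset.sum_mul, ← Nat.cast_sum, Nat.sum_range_choose]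
        push_cast
        rfl
    _ ≤ _ := by
        gcongr
        norm_num
theorem Bd.sum {α : Type} (s : Finset α) {k : ℕ} {M : α → ℝ} {f : α → E → ℝ}
    (h : ∀ a ∈ s, Bd k (M a) (f a)) : Bd k (∑ a ∈ s, M a) fun x => ∑ a ∈ s, f a x := by
  classical
  induction s using Finset.induction_on with
  | empty => simpa using Bd.const (E := E) k 0
  | insert a s ha ih =>
    simp only [Finset.sum_insert ha]
    exact (h a (Finset.mem_insert_self _ _)).add (ih fun b hb => h b (Finset.mem_insert_of_mem hb))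
/-- Directional derivative along a vector of norm `≤ 1`. -/
theorem Bd.fderiv_apply {k : ℕ} {M : ℝ} {f : E → ℝ} (hf : Bd (k + 1) M f) {e : E} (he : ‖e‖ ≤ 1) :
    Bd k M fun x => fderiv ℝ f x e := by
  have h1 : ContDiff ℝ k (fderiv ℝ f) := hf.1.fderiv_right (by push_cast; exact le_rfl)
  refine ⟨h1.clm_apply contDiff_const, fun j hj x => ?_⟩
  refine (norm_iteratedFDeriv_clm_apply_const h1.contDiffAt (by exact_mod_cast hj)).trans ?_
  rw [norm_iteratedFDeriv_fderiv]
  exact (mul_le_of_le_one_left (norm_nonneg _) he).trans (hf.2 (j + 1) (by omega) x)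
/-- Composition with an affine map whose linear part has norm `≤ c`, `1 ≤ c`. -/
theorem Bd.comp_affine {k : ℕ} {M c : ℝ} {f : F → ℝ} (hf : Bd k M f) (L : E →L[ℝ] F) (b : F)
    (hL : ‖L‖ ≤ c) (hc : 1 ≤ c) : Bd k (c ^ k * M) fun x => f (L x + b) := by
  have h1 : ContDiff ℝ k fun y => f (y + b) := hf.1.comp (contDiff_id.add contDiff_const)
  refine ⟨h1.comp L.contDiff, fun j hj x => ?_⟩
  have := L.iteratedFDeriv_comp_right h1 x (i := j) (by exact_mod_cast hj)
  rw [show (fun x => f (L x + b)) = (fun y => f (y + b)) ∘ L from rfl, this, iteratedFDeriv_comp_add_right]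
  refine (ContinuousMultilinearMap.norm_compContinuousLinearMap_le _ _).trans ?_
  rw [Finset.prod_const, Finset.card_univ, Fintype.card_fin, mul_comm]
  refine mul_le_mul ?_ (hf.2 j hj _) (norm_nonneg _) (by positivity)
  exact (pow_le_pow_left₀ (norm_nonneg _) hL j).trans (pow_le_pow_right₀ hc hj)
theorem Bd.exp_neg {k : ℕ} {M : ℝ} {f : E → ℝ} (hf : Bd k M f) (h0 : ∀ x, 0 ≤ f x) (hM : 1 ≤ M) :
    Bd k (k.factorial * M ^ k) fun x => Real.exp (-f x) := by
  have h1 : ContDiff ℝ k fun s : ℝ => Real.exp (-1 * s) := by fun_prop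
  refine ⟨hf.1.neg.exp, fun j hj x => ?_⟩
  have := norm_iteratedFDeriv_comp_le h1 hf.1 (n := j) (by exact_mod_cast hj) x (C := 1) (D := M)
    (fun i _ => by
      rw [norm_iteratedFDeriv_eq_norm_iteratedDeriv, iteratedDeriv_exp_const_mul]
      simp [h0 x])
    fun i h1 hi => (hf.2 i (hi.trans hj) x).trans (le_self_pow₀ hM (by omega))
  rw [show (fun x => Real.exp (-f x)) = (fun s : ℝ => Real.exp (-1 * s)) ∘ f by
    funext y; simp]
  refine this.trans ?_
  rw [mul_one]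
  gcongr
/-- A function which is `C^k` and locally constant outside a compact set is `Bd`. -/
theorem exists_bd {k : ℕ} {f : E → ℝ} (hf : ContDiff ℝ k f) {K : Set E} (hK : IsCompact K)
    (h : ∀ x ∉ K, ∀ᶠ y in nhds x, f y = f x) {c : ℝ} (hc : ∀ x, |f x| ≤ c) :
    ∃ M, 1 ≤ M ∧ Bd k M f := by
  have h1 : ∀ j : Fin (k + 1), ∃ C, ∀ x ∈ K, ‖iteratedFDeriv ℝ j f x‖ ≤ C := fun j =>
    hK.exists_bound_of_continuousOn
      (hf.continuous_iteratedFDeriv (by exact_mod_cast Nat.lt_succ_iff.1 j.2)).continuousOn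
  choose C hC using h1
  have h0 : 0 ≤ ∑ j, |C j| := Finset.sum_nonneg fun j _ => abs_nonneg _
  refine ⟨1 + |c| + ∑ j, |C j|, by linarith [abs_nonneg c], hf, fun j hj x => ?_⟩
  by_cases hx : x ∈ K
  · have h2 := hC ⟨j, by omega⟩ x hx
    have h3 := Finset.single_le_sum (f := fun j => |C j|) (fun j _ => abs_nonneg _)
      (Finset.mem_univ (⟨j, by omega⟩ : Fin (k + 1)))
    linarith [le_abs_self (C ⟨j, by omega⟩), abs_nonneg c]
  · have h2 : f =ᶠ[nhds x] fun _ => f x := h x hx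
    rw [(h2.iteratedFDeriv ℝ j).eq_of_nhds]
    have h3 := (Bd.const (E := E) k (f x)).2 j hj x
    linarith [hc x, le_abs_self c]
theorem Bd.lin {V : Type} [Fintype V] {k : ℕ} {M : ℝ} {φ : V → E → ℝ} (h : ∀ p, Bd k M (φ p))
    (α : V → ℝ) : Bd k (Real.sqrt (Fintype.card V * (α ⬝ᵥ α)) * M) (lin φ α) := by
  refine (Bd.sum Finset.univ fun p _ => (h p).const_mul (α p)).mono le_rfl ?_
  rw [← Finset.sum_mul]
  rcases isEmpty_or_nonempty V with hV | ⟨⟨p⟩⟩
  · simp
  refine mul_le_mul_of_nonneg_right (Real.le_sqrt_of_sq_le ?_) (h p).nonneg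
  simpa [dotProduct, sq] using sq_sum_le_card_mul_sum_sq (s := Finset.univ) (f := fun p => |α p|)
/-- Restriction to a line, as a function of one variable. -/
theorem Bd.line {k : ℕ} {M : ℝ} {f : E → ℝ} (hf : Bd k M f) (x : E) {e : E} (he : ‖e‖ ≤ 1) :
    ContDiff ℝ k (fun t : ℝ => f (x + t • e)) ∧
      ∀ j ≤ k, ∀ t, |iteratedDeriv j (fun t : ℝ => f (x + t • e)) t| ≤ M := by
  have := hf.comp_affine ((ContinuousLinearMap.id ℝ ℝ).smulRight e) x (c := 1) (by simpa using he) le_rfl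
  simp only [ContinuousLinearMap.smulRight_apply, ContinuousLinearMap.id_apply, add_comm _ x, one_pow,
    one_mul] at this
  refine ⟨this.1, fun j hj t => ?_⟩
  rw [← Real.norm_eq_abs, ← norm_iteratedFDeriv_eq_norm_iteratedDeriv]
  exact this.2 j hj t

theorem Bd.lip {k : ℕ} {M : ℝ} {f : E → ℝ} (hf : Bd (k + 1) M f) (x y : E) :
    |f y - f x| ≤ M * ‖y - x‖ :=
  convex_univ.norm_image_sub_le_of_norm_fderiv_le (𝕜 := ℝ)
    (fun z _ => hf.1.differentiable (by simp) z) (fun z _ => hf.norm_fderiv_le z) (mem_univ x) (mem_univ y)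
theorem Bd.hasDerivAt_line {k : ℕ} {M : ℝ} {f : E → ℝ} (hf : Bd (k + 1) M f) (x e : E) (t : ℝ) :
    HasDerivAt (fun t : ℝ => f (x + t • e)) (fderiv ℝ f (x + t • e) e) t := by
  have := (hf.1.differentiable (by simp) (x + t • e)).hasFDerivAt.comp_hasDerivAt t
    (((hasDerivAt_id t).smul_const e).const_add x)
  rwa [one_smul] at this
theorem Bd.taylor1 {M t : ℝ} {f : E → ℝ} (hf : Bd 2 M f) (x : E) {e : E} (he : ‖e‖ ≤ 1) (ht : 0 ≤ t) :
    |f (x + t • e) - f x - t * fderiv ℝ f x e| ≤ M * t ^ 2 / 2 := by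
  have h1 : ∀ s : ℝ, HasDerivAt (fun s : ℝ => f (x + s • e) - f x - s * fderiv ℝ f x e)
      (fderiv ℝ f (x + s • e) e - fderiv ℝ f x e) s := fun s => by
    simpa using ((hf.hasDerivAt_line x e s).sub_const (f x)).fun_sub
      ((hasDerivAt_id s).mul_const (fderiv ℝ f x e))
  refine image_norm_le_of_norm_deriv_right_le_deriv_boundary (a := 0) (b := t)
    (fun s _ => (h1 s).continuousAt.continuousWithinAt) (fun s _ => (h1 s).hasDerivWithinAt)
    (B := fun s => M * s ^ 2 / 2) (B' := fun s => M * s) (by simp) (fun s => ?_) (fun s hs => ?_)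
    (right_mem_Icc.2 ht)
  · refine (((hasDerivAt_pow 2 s).const_mul M).div_const 2).congr_deriv ?_
    push_cast
    ring
  · refine ((hf.fderiv_apply he).lip x (x + s • e)).trans (mul_le_mul_of_nonneg_left ?_ hf.nonneg)
    rw [add_sub_cancel_left, norm_smul, Real.norm_of_nonneg hs.1]
    exact mul_le_of_le_one_right hs.1 he

/-- First difference. -/
theorem Bd.fd1 {M τ : ℝ} {f : E → ℝ} (hf : Bd 2 M f) (x : E) {e : E} (he : ‖e‖ ≤ 1) (hτ : 0 < τ) :
    |(f (x + τ • e) - f x) / τ - fderiv ℝ f x e| ≤ M * τ := by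
  have h := hf.taylor1 x he hτ.le
  have h0 := hf.nonneg
  rw [show (f (x + τ • e) - f x) / τ - fderiv ℝ f x e =
    (f (x + τ • e) - f x - τ * fderiv ℝ f x e) / τ by field_simp, abs_div, abs_of_pos hτ, div_le_iff₀ hτ]
  nlinarith [mul_nonneg h0 (sq_nonneg τ)]
/-- Second difference. -/
theorem Bd.fd2 {M τ : ℝ} {f : E → ℝ} (hf : Bd 3 M f) (x : E) {e : E} (he : ‖e‖ ≤ 1) (hτ : 0 < τ) :
    |(f (x + τ • e) - 2 * f x + f (x - τ • e)) / τ ^ 2 -
      fderiv ℝ (fun y => fderiv ℝ f y e) x e| ≤ M * τ := by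
  set A := fderiv ℝ (fun y => fderiv ℝ f y e) x e with hA
  have h0 := hf.nonneg
  have hF := hf.fderiv_apply he
  have h1 : ∀ s : ℝ, HasDerivAt (fun s : ℝ => f (x + s • e) + f (x + s • -e) - s ^ 2 * A)
      (fderiv ℝ f (x + s • e) e - fderiv ℝ f (x + s • -e) e - 2 * s * A) s := fun s => by
    refine (((hf.hasDerivAt_line x e s).fun_add (hf.hasDerivAt_line x (-e) s)).fun_sub
      ((hasDerivAt_pow 2 s).mul_const A)).congr_deriv ?_
    rw [map_neg]
    push_cast
    ring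
  have h2 := norm_image_sub_le_of_norm_deriv_le_segment' (a := 0) (b := τ) (C := M * τ ^ 2)
    (fun s _ => (h1 s).hasDerivWithinAt) (fun s hs => by
      have a1 := _root_.abs_le.1 (hF.taylor1 x he hs.1)
      have a2 := _root_.abs_le.1 (hF.taylor1 x (e := -e) (by simpa using he) hs.1)
      rw [map_neg, ← hA] at a2
      rw [← hA] at a1
      have a3 : M * s ^ 2 ≤ M * τ ^ 2 := by gcongr; exacts [hs.1, hs.2.le]
      rw [Real.norm_eq_abs, _root_.abs_le]
      constructor <;> linarith [a1.1, a1.2, a2.1, a2.2]) τ (right_mem_Icc.2 hτ.le)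
  simp only [zero_smul, add_zero, smul_neg, ← sub_eq_add_neg, neg_zero, sub_zero, Real.norm_eq_abs] at h2
  rw [show (f (x + τ • e) - 2 * f x + f (x - τ • e)) / τ ^ 2 - A =
    (f (x + τ • e) + f (x - τ • e) - τ ^ 2 * A - (f x + f x - 0 ^ 2 * A)) / τ ^ 2 by field_simp; ring,
    abs_div, abs_of_pos (pow_pos hτ 2), div_le_iff₀ (pow_pos hτ 2)]
  linarith
end

theorem Bd.fst {k : ℕ} {M : ℝ} {E F : Type} [NormedAddCommGroup E] [NormedSpace ℝ E]
    [NormedAddCommGroup F] [NormedSpace ℝ F] {f : E → ℝ} (hf : Bd k M f) :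
    Bd k M fun p : E × F => f p.1 := by
  simpa using hf.comp_affine (ContinuousLinearMap.fst ℝ E F) 0 (ContinuousLinearMap.norm_fst_le ..) le_rfl
theorem Bd.snd {k : ℕ} {M : ℝ} {E F : Type} [NormedAddCommGroup E] [NormedSpace ℝ E]
    [NormedAddCommGroup F] [NormedSpace ℝ F] {f : F → ℝ} (hf : Bd k M f) :
    Bd k M fun p : E × F => f p.2 := by
  simpa using hf.comp_affine (ContinuousLinearMap.snd ℝ E F) 0 (ContinuousLinearMap.norm_snd_le ..) le_rfl
theorem Bd.dx {k : ℕ} {M : ℝ} {f : P2 → ℝ} (hf : Bd (k + 1) M f) : Bd k M (dx f) := by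
  exact hf.fderiv_apply (e := (1, 0)) (by simp [Prod.norm_def])
theorem Bd.dy {k : ℕ} {M : ℝ} {f : P2 → ℝ} (hf : Bd (k + 1) M f) : Bd k M (dy f) := by
  exact hf.fderiv_apply (e := (0, 1)) (by simp [Prod.norm_def])
theorem Bd.lap2 {k : ℕ} {M : ℝ} {f : P2 → ℝ} (hf : Bd (k + 2) M f) : Bd k (2 * M) (lap2 f) := by
  rw [two_mul]
  exact hf.dx.dx.add hf.dy.dy

end Crest.Agent.R338
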