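import Crest.Agent.R338.Defs

/-!
# rid 338 (S0529): definitions of the continuum stage

Scaled units `x = ℓ y`: one-body form `q ψ = ½∫|∇ψ|² + ∫ W ψ²`, `W = -ℓ ∑ 1/|y - Y|`.  The atoms `Y` fill a
huge slab and produce `W ≈ const + w(y₁,y₂) + ω² y₃²/2`, with `w = (|∇S|² - ΔS)/2 + v + ε` (ground state
transform: `½∫|∇ψ|² + ∫ (|∇S|² - ΔS)/2 ψ² = ½∫|∇ψ + ψ∇S|²`).  `e^{-S}` is `1` on islands (the sites of the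
grid), small on the wires between neighbouring islands and tiny elsewhere.
Packages (data + inequalities): `PL` (plane), `LN` (line), `OB3` (ideal 3D potential), `PotOK`
(discretisation error of the atoms), `OB` (what the many-body argument needs).
DO NOT EDIT (msg helper74).
-/

set_option autoImplicit false
set_option linter.dupNamespace false

noncomputable section

namespace Crest.Agent.R338

open Matrix MeasureTheory Set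
open Crest.MathPhysics.ElectronicCoulomb

/-! ### Generalities -/

/-- `C¹` with compact support. -/
def Cc1 {E : Type} [NormedAddCommGroup E] [NormedSpace ℝ E] (f : E → ℝ) : Prop :=
  ContDiff ℝ 1 f ∧ HasCompactSupport f

/-- `C^k` with all derivatives of order `≤ k` bounded by `M`. -/
def Bd {E : Type} [NormedAddCommGroup E] [NormedSpace ℝ E] (k : ℕ) (M : ℝ) (f : E → ℝ) : Prop :=
  ContDiff ℝ k f ∧ ∀ j ≤ k, ∀ x, ‖iteratedFDeriv ℝ j f x‖ ≤ M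

/-- Squared gradient on a Euclidean space. -/
def gradSq {κ : Type} [Fintype κ] [DecidableEq κ] (f : EuclideanSpace ℝ κ → ℝ)
    (x : EuclideanSpace ℝ κ) : ℝ :=
  ∑ c, (fderiv ℝ f x (EuclideanSpace.single c 1)) ^ 2

abbrev P2 := ℝ × ℝ
abbrev P3 := (ℝ × ℝ) × ℝ

def dx (f : P2 → ℝ) (p : P2) : ℝ := fderiv ℝ f p (1, 0)
def dy (f : P2 → ℝ) (p : P2) : ℝ := fderiv ℝ f p (0, 1)
def d1 (f : P3 → ℝ) (y : P3) : ℝ := fderiv ℝ f y ((1, 0), 0)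
def d2 (f : P3 → ℝ) (y : P3) : ℝ := fderiv ℝ f y ((0, 1), 0)
def d3 (f : P3 → ℝ) (y : P3) : ℝ := fderiv ℝ f y ((0, 0), 1)
def gsq3 (f : P3 → ℝ) (y : P3) : ℝ := d1 f y ^ 2 + d2 f y ^ 2 + d3 f y ^ 2
def lap2 (f : P2 → ℝ) (p : P2) : ℝ := dx (dx f) p + dy (dy f) p
/-- Euclidean norms (the norm of `ℝ × ℝ` is the sup norm). -/
def nrm2 (p : P2) : ℝ := Real.sqrt (p.1 ^ 2 + p.2 ^ 2)
def nrm3 (y : P3) : ℝ := Real.sqrt (y.1.1 ^ 2 + y.1.2 ^ 2 + y.2 ^ 2)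
def box2 (Λ : ℝ) : Set P2 := Icc 2 Λ ×ˢ Icc 2 Λ
def box3 (Λ : ℝ) : Set P3 := box2 Λ ×ˢ Icc (-2) 2

/-- Coefficients of `ψ` along the family `e`. -/
def coef {E V : Type} [MeasureSpace E] (e : V → E → ℝ) (ψ : E → ℝ) : V → ℝ :=
  fun p => ∫ y, e p y * ψ y

/-- Linear combination of the family `φ`. -/
def lin {E V : Type} [Fintype V] (φ : V → E → ℝ) (α : V → ℝ) : E → ℝ :=
  fun y => ∑ p, α p * φ p y

/-- Two-body combination of the family `φ`. -/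
def lin2 {E V : Type} [Fintype V] (φ : V → E → ℝ) (β : V → V → ℝ) (y y' : E) : ℝ :=
  ∑ p, ∑ q, β p q * (φ p y * φ q y')

/-- The one-body energy form. -/
def qf {E : Type} [MeasureSpace E] (gsq : (E → ℝ) → E → ℝ) (W ψ : E → ℝ) : ℝ :=
  1 / 2 * (∫ y, gsq ψ y) + ∫ y, W y * ψ y ^ 2

/-! ### `C¹` many-body states -/

/-- Real, `C¹`, compactly supported, antisymmetric. -/
def IsC {n : ℕ} (Ψ : Spin n → Config n → ℝ) : Prop :=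
  (∀ s, Cc1 (Ψ s)) ∧ ∀ (σ : Equiv.Perm (Fin n)) (s : Spin n) (x : Config n),
    Ψ (fun i => s (σ i)) (permConfig σ x) = ((Equiv.Perm.sign σ : ℤ) : ℝ) * Ψ s x

def cNsq {n : ℕ} (Ψ : Spin n → Config n → ℝ) : ℝ := ∑ s, ∫ x, Ψ s x ^ 2

def cEn {n : ℕ} (W : Config n → ℝ) (Ψ : Spin n → Config n → ℝ) : ℝ :=
  ∑ s, qf gradSq W (Ψ s)

/-! ### The one-body package -/

/-- `e p`: orthonormal functions with disjoint supports (lower bound); `Rg p`: a small region carrying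
a quarter of the mass of a hard-core site; `φ p`: trial functions (upper bound). -/
structure OB (E : Type) [NormedAddCommGroup E] [NormedSpace ℝ E] [MeasureSpace E]
    (gsq : (E → ℝ) → E → ℝ) (nrm : E → ℝ) (W : E → ℝ) {V : Type} [Fintype V]
    (k : Matrix V V ℝ) (hc : V → Prop) (E0 err γ d0 κ η : ℝ) where
  e : V → E → ℝ
  Rg : V → Set E
  φ : V → E → ℝ
  e_meas : ∀ p, Measurable (e p)
  e_bdd : ∃ C : ℝ, ∀ p y, |e p y| ≤ C ∧ (C < ‖y‖ → e p y = 0)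
  e_disj : ∀ p q y, p ≠ q → e p y * e q y = 0
  e_norm : ∀ p, ∫ y, e p y ^ 2 = 1
  Rg_meas : ∀ p, MeasurableSet (Rg p)
  Rg_disj : ∀ p q, p ≠ q → Disjoint (Rg p) (Rg q)
  Rg_other : ∀ p q, p ≠ q → ∀ y ∈ Rg p, e q y = 0
  Rg_diam : ∀ p, hc p → ∀ y ∈ Rg p, ∀ y' ∈ Rg p, nrm (y - y') ≤ d0
  Rg_mass : ∀ p, hc p → 1 / 4 ≤ ∫ y in Rg p, e p y ^ 2
  low : ∀ ψ, Cc1 ψ → (E0 - err) * (∫ y, ψ y ^ 2) + coef e ψ ⬝ᵥ k *ᵥ coef e ψ +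
    γ * ((∫ y, ψ y ^ 2) - coef e ψ ⬝ᵥ coef e ψ) ≤ qf gsq W ψ
  φ_reg : ∀ p, Cc1 (φ p)
  gram : ∀ α : V → ℝ, α ⬝ᵥ α ≤ ∫ y, lin φ α y ^ 2 ∧ ∫ y, lin φ α y ^ 2 ≤ (1 + η) * (α ⬝ᵥ α)
  up : ∀ α : V → ℝ, qf gsq W (lin φ α) ≤
    E0 * (∫ y, lin φ α y ^ 2) + α ⬝ᵥ k *ᵥ α + err * (α ⬝ᵥ α)
  two : ∀ β : V → V → ℝ, (∀ p, hc p → β p p = 0) →
    ∫⁻ y, ∫⁻ y', ENNReal.ofReal (lin2 φ β y y' ^ 2 / nrm (y - y')) ≤
      ENNReal.ofReal (κ * ∑ p, ∑ q, β p q ^ 2)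

/-- The package for the ideal potential on `P3`: smooth trial functions in a box, and a lower bound
that still has room for the `H¹` norm of the remainder and for a tail term. -/
structure OB3 (W : P3 → ℝ) {V : Type} [Fintype V] (k : Matrix V V ℝ) (hc : V → Prop)
    (E0 err γ d0 κ η θ M Λ Z Cr : ℝ) extends OB P3 gsq3 nrm3 W k hc E0 err γ d0 κ η where
  φ_bd : ∀ p, Bd 4 M (φ p)
  φ_supp : ∀ p y, y ∉ box3 Λ → φ p y = 0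
  low' : ∀ ψ, Cc1 ψ → ∃ α' : V → ℝ, α' ⬝ᵥ α' ≤ 2 * (∫ y, ψ y ^ 2) ∧
    (E0 - err) * (∫ y, ψ y ^ 2) + coef e ψ ⬝ᵥ k *ᵥ coef e ψ +
      γ * ((∫ y, ψ y ^ 2) - coef e ψ ⬝ᵥ coef e ψ) +
      θ * ((∫ y, (ψ y - lin φ α' y) ^ 2) + ∫ y, gsq3 (fun y => ψ y - lin φ α' y) y) +
      Cr * (∫ y in {y : P3 | Z < |y.2|}, ψ y ^ 2) ≤ qf gsq3 W ψ

/-! ### The plane -/

/-- The planar potential. -/
def wOf (S v ε : P2 → ℝ) (p : P2) : ℝ :=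
  1 / 2 * (dx S p ^ 2 + dy S p ^ 2 - lap2 S p) + v p + ε p

/-- The nonnegative part of the planar energy after the ground state transform. -/
def X2 (S v ψ : P2 → ℝ) : ℝ :=
  1 / 2 * (∫ p, ((dx ψ p + ψ p * dx S p) ^ 2 + (dy ψ p + ψ p * dy S p) ^ 2)) + ∫ p, v p * ψ p ^ 2

structure PL (S v ε : P2 → ℝ) {V : Type} [Fintype V] (k : Matrix V V ℝ) (hc : V → Prop)
    (err CP θ η η' κ ν M Λ : ℝ) where
  e : V → P2 → ℝ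
  Rg : V → Set P2
  φ : V → P2 → ℝ
  S_bd : Bd 8 M S
  v_bd : Bd 6 M v
  ε_bd : Bd 6 M ε
  w_bd : Bd 6 M (wOf S v ε)
  v_nonneg : ∀ p, 0 ≤ v p
  ε_le : ∀ p, |ε p| ≤ ν
  w_out : ∀ p, p ∉ box2 Λ → wOf S v ε p = 1
  e_meas : ∀ p, Measurable (e p)
  e_bdd : ∀ p y, |e p y| ≤ 1 ∧ (y ∉ box2 Λ → e p y = 0)
  e_disj : ∀ p q y, p ≠ q → e p y * e q y = 0
  e_norm : ∀ p, ∫ y, e p y ^ 2 = 1
  Rg_meas : ∀ p, MeasurableSet (Rg p)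
  Rg_disj : ∀ p q, p ≠ q → Disjoint (Rg p) (Rg q)
  Rg_other : ∀ p q, p ≠ q → ∀ y ∈ Rg p, e q y = 0
  Rg_diam : ∀ p, hc p → ∀ y ∈ Rg p, ∀ y' ∈ Rg p, nrm2 (y - y') ≤ 2
  Rg_mass : ∀ p, hc p → 1 / 2 ≤ ∫ y in Rg p, e p y ^ 2
  poin : ∀ ψ, Cc1 ψ → (∫ y, ψ y ^ 2) - coef e ψ ⬝ᵥ coef e ψ ≤ CP * X2 S v ψ
  low : ∀ ψ, Cc1 ψ → coef e ψ ⬝ᵥ k *ᵥ coef e ψ - err * (∫ y, ψ y ^ 2) ≤
    (1 - θ) * X2 S v ψ + ∫ y, ε y * ψ y ^ 2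
  φ_bd : ∀ p, Bd 4 M (φ p)
  φ_supp : ∀ p y, y ∉ box2 Λ → φ p y = 0
  gram : ∀ α : V → ℝ, α ⬝ᵥ α ≤ ∫ y, lin φ α y ^ 2 ∧ ∫ y, lin φ α y ^ 2 ≤ (1 + η) * (α ⬝ᵥ α)
  up : ∀ α : V → ℝ, X2 S v (lin φ α) + (∫ y, ε y * lin φ α y ^ 2) ≤ α ⬝ᵥ k *ᵥ α + err * (α ⬝ᵥ α)
  close : ∀ α : V → ℝ, ∃ α' : V → ℝ, α' ⬝ᵥ α' ≤ α ⬝ᵥ α ∧
    ∫ y, (lin e α y - lin φ α' y) ^ 2 ≤ η' * (α ⬝ᵥ α)
  two : ∀ β : V → V → ℝ, (∀ p, hc p → β p p = 0) →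
    ∫⁻ y, ∫⁻ y', ENNReal.ofReal (lin2 φ β y y' ^ 2 / nrm2 (y - y')) ≤
      ENNReal.ofReal (κ * ∑ p, ∑ q, β p q ^ 2)

section design

variable {𝕜 : Type} [Field 𝕜] [LinearOrder 𝕜]

/-- A `C⁹` monotone step, `0` on `(-∞,0]`, `1` on `[1,∞)`, `sig u + sig (1-u) = 1`, rational at rationals. -/
def sig (u : 𝕜) : 𝕜 := max u 0 ^ 10 / (max u 0 ^ 10 + max (1 - u) 0 ^ 10)
/-- `0` for `x ≤ α - a`, `1` for `x ≥ α`. -/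
def stepUp (a α x : 𝕜) : 𝕜 := sig ((x - α) / a + 1)
/-- `1` for `x ≤ β`, `0` for `x ≥ β + a`. -/
def stepDn (a β x : 𝕜) : 𝕜 := sig ((β - x) / a + 1)
/-- `1` on `[α, β]`, `0` outside `[α - a, β + a]`. -/
def bump (a α β x : 𝕜) : 𝕜 := stepUp a α x * stepDn a β x
/-- complementary to the bumps of the intervals ending at `β` and starting at `α` (`β < α`). -/
def gap (a β α x : 𝕜) : 𝕜 := (1 - stepDn a β x) * (1 - stepUp a α x)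
/-- Centre of island number `i`. -/
def cen (D : 𝕜) (i : ℕ) : 𝕜 := D * ((i : 𝕜) + 1)
/-- Midpoint number `i` of the symmetric lattice of spacing `h` with `2n` points. -/
def xc (h : 𝕜) (n i : ℕ) : 𝕜 := h * ((i : 𝕜) - (n : 𝕜) + 1 / 2)

/-- Geometry: `K × K` islands at distance `D`, transition width `a`, sea level `Ssea`, sides `sd`, levels
of the horizontal / vertical wires, island energies. -/
structure Geo (𝕜 : Type) where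
  K : ℕ
  D : 𝕜
  a : 𝕜
  Ssea : 𝕜
  sd : ℕ → ℕ → 𝕜
  lvH : ℕ → ℕ → 𝕜
  lvV : ℕ → ℕ → 𝕜
  ep : ℕ → ℕ → 𝕜

def Geo.S (g : Geo 𝕜) (p : 𝕜 × 𝕜) : 𝕜 :=
  g.Ssea -
    (g.Ssea * ∑ i ∈ Finset.range g.K, ∑ j ∈ Finset.range g.K,
        bump g.a (cen g.D i - g.sd i j / 2) (cen g.D i + g.sd i j / 2) p.1 *
          bump g.a (cen g.D j - g.sd i j / 2) (cen g.D j + g.sd i j / 2) p.2 +
      ∑ i ∈ Finset.range (g.K - 1), ∑ j ∈ Finset.range g.K, (g.Ssea - g.lvH i j) *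
        (gap g.a (cen g.D i + g.sd i j / 2) (cen g.D (i + 1) - g.sd (i + 1) j / 2) p.1 *
          bump g.a (cen g.D j - 1 / 2) (cen g.D j + 1 / 2) p.2) +
      ∑ i ∈ Finset.range g.K, ∑ j ∈ Finset.range (g.K - 1), (g.Ssea - g.lvV i j) *
        (bump g.a (cen g.D i - 1 / 2) (cen g.D i + 1 / 2) p.1 *
          gap g.a (cen g.D j + g.sd i j / 2) (cen g.D (j + 1) - g.sd i (j + 1) / 2) p.2))

def Geo.v (g : Geo 𝕜) (p : 𝕜 × 𝕜) : 𝕜 :=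
  1 - bump g.a (3 * g.D / 4) (g.D * g.K + g.D / 4) p.1 *
    bump g.a (3 * g.D / 4) (g.D * g.K + g.D / 4) p.2

def Geo.ε (g : Geo 𝕜) (p : 𝕜 × 𝕜) : 𝕜 :=
  ∑ i ∈ Finset.range g.K, ∑ j ∈ Finset.range g.K, g.ep i j *
    (bump g.a (cen g.D i - g.sd i j / 2 - g.a) (cen g.D i + g.sd i j / 2 + g.a) p.1 *
      bump g.a (cen g.D j - g.sd i j / 2 - g.a) (cen g.D j + g.sd i j / 2 + g.a) p.2)

/-- The island energy that turns the weighted graph Laplacian into `gridMat K tH tV ε`. -/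
def epOf (K : ℕ) (sd tH tV ε : ℕ → ℕ → 𝕜) (i j : ℕ) : 𝕜 :=
  ε i j - ((if i + 1 < K then tH i j * sd (i + 1) j else 0) +
    (if 0 < i then tH (i - 1) j * sd (i - 1) j else 0) +
    (if j + 1 < K then tV i j * sd i (j + 1) else 0) +
    (if 0 < j then tV i (j - 1) * sd i (j - 1) else 0)) / sd i j

end design

/-- Hypotheses on the geometry. -/
structure GeoOK (g : Geo ℝ) (tH tV ε : ℕ → ℕ → ℝ) (hc : Fin g.K × Fin g.K → Prop)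
    (D1 η ν : ℝ) : Prop where
  K_pos : 1 ≤ g.K
  a_pos : 0 < g.a
  a_le : g.a ≤ η
  η_le : η ≤ 1 / 100
  D1_ge : 1 ≤ D1
  D1_le : D1 ≤ η * g.D
  sea_nonneg : 0 ≤ g.Ssea
  sd_eq : ∀ p : Fin g.K × Fin g.K, (hc p → g.sd p.1 p.2 = 1) ∧ (¬ hc p → g.sd p.1 p.2 = D1)
  ν_pos : 0 < ν
  ν_small : ν * (g.K * g.D) ^ 5 ≤ η ^ 2
  sea_small : Real.exp (-2 * g.Ssea) * (g.K * g.D) ^ 2 ≤ η * ν
  ep_eq : ∀ i < g.K, ∀ j < g.K, g.ep i j = epOf g.K g.sd tH tV ε i j ∧ |g.ep i j| ≤ ν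
  hor : ∀ i j, i + 1 < g.K → j < g.K → 0 ≤ tH i j ∧ 2 * g.sd i j * g.sd (i + 1) j * tH i j ≤ ν ∧
    0 ≤ g.lvH i j ∧ g.lvH i j ≤ g.Ssea ∧
    (1 - η) * (g.D * (2 * g.sd i j * g.sd (i + 1) j * tH i j)) ≤ Real.exp (-2 * g.lvH i j) ∧
    Real.exp (-2 * g.lvH i j) ≤
      (1 + η) * (g.D * (2 * g.sd i j * g.sd (i + 1) j * tH i j)) + Real.exp (-2 * g.Ssea)
  ver : ∀ i j, i < g.K → j + 1 < g.K → 0 ≤ tV i j ∧ 2 * g.sd i j * g.sd i (j + 1) * tV i j ≤ ν ∧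
    0 ≤ g.lvV i j ∧ g.lvV i j ≤ g.Ssea ∧
    (1 - η) * (g.D * (2 * g.sd i j * g.sd i (j + 1) * tV i j)) ≤ Real.exp (-2 * g.lvV i j) ∧
    Real.exp (-2 * g.lvV i j) ≤
      (1 + η) * (g.D * (2 * g.sd i j * g.sd i (j + 1) * tV i j)) + Real.exp (-2 * g.Ssea)

/-! ### The line -/

/-- The confining potential. -/
def Wz (ω L z : ℝ) : ℝ := 1 / 2 * ω ^ 2 * min (z ^ 2) (4 * L ^ 2)

def X1 (sp lo g : ℝ → ℝ) : ℝ :=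
  1 / 2 * (∫ z, (deriv g z + sp z * g z) ^ 2) + ∫ z, lo z * g z ^ 2

structure LN (ω L err η M : ℝ) where
  sp : ℝ → ℝ
  lo : ℝ → ℝ
  G : ℝ → ℝ
  ζ : ℝ → ℝ
  sp_cont : Continuous sp
  lo_meas : Measurable lo
  lo_bdd : ∃ C : ℝ, ∀ z, 0 ≤ lo z ∧ lo z ≤ C
  low : ∀ g, Cc1 g → (ω / 2 - err) * (∫ z, g z ^ 2) + X1 sp lo g +
    ω ^ 2 * L ^ 2 / 2 * (∫ z in {z : ℝ | 2 * L < |z|}, g z ^ 2) ≤
      1 / 2 * (∫ z, deriv g z ^ 2) + ∫ z, Wz ω L z * g z ^ 2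
  grad : ∀ g, Cc1 g → ∫ z, deriv g z ^ 2 ≤ (∫ z, (deriv g z + sp z * g z) ^ 2) + ω * ∫ z, g z ^ 2
  poin : ∀ g, Cc1 g → (∫ z, g z ^ 2) - (∫ z, G z * g z) ^ 2 ≤ X1 sp lo g
  G_meas : Measurable G
  G_bdd : ∀ z, |G z| ≤ M ∧ (2 * L < |z| → G z = 0)
  G_norm : ∫ z, G z ^ 2 = 1
  G_mass : 1 / 2 ≤ ∫ z in Icc (-1 : ℝ) 1, G z ^ 2
  ζ_bd : Bd 4 M ζ
  ζ_supp : ∀ z, 2 < |z| → ζ z = 0
  ζ_norm : 1 ≤ ∫ z, ζ z ^ 2 ∧ ∫ z, ζ z ^ 2 ≤ 1 + η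
  ζ_up : 1 / 2 * (∫ z, deriv ζ z ^ 2) + (∫ z, Wz ω L z * ζ z ^ 2) ≤ ω / 2 * (∫ z, ζ z ^ 2) + err
  ζ_X : X1 sp lo ζ ≤ err
  close : ∃ c : ℝ, 0 ≤ c ∧ c ≤ 1 ∧ ∫ z, (G z - c * ζ z) ^ 2 ≤ η

/-! ### The atoms -/

/-- Columns on the lattice `h (ℤ + ½)² ∩ [-Ka h, Ka h]²`; column `(i,j)` has `2 nc i j` atoms at spacing
`sp i j`, symmetric about `0`. -/
structure Atoms where
  h : ℝ
  Ka : ℕ
  sp : ℕ → ℕ → ℝ
  nc : ℕ → ℕ → ℕ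

def Atoms.sum (a : Atoms) (F : P3 → ℝ) : ℝ :=
  ∑ i ∈ Finset.range (2 * a.Ka), ∑ j ∈ Finset.range (2 * a.Ka),
    ∑ k ∈ Finset.range (2 * a.nc i j), F ((xc a.h a.Ka i, xc a.h a.Ka j), xc (a.sp i j) (a.nc i j) k)

/-- The Coulomb kernel cut off smoothly inside the unit ball. -/
def kfar (y : P3) : ℝ := sig (2 * (y.1.1 ^ 2 + y.1.2 ^ 2 + y.2 ^ 2) - 1) / nrm3 y

/-- The columns carry the density `(ω² + Δw)/(4π)` up to `τ` and have half-height `≈ L`. -/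
structure AtomsOK (a : Atoms) (w : P2 → ℝ) (ℓ ω L τ Λ : ℝ) : Prop where
  h_pos : 0 < a.h
  h_le : a.h ≤ 1
  col : ∀ i < 2 * a.Ka, ∀ j < 2 * a.Ka, a.h / 2 ≤ a.sp i j ∧ a.sp i j ≤ 3 * a.h ∧
    |ℓ / (a.h ^ 2 * a.sp i j) - (ω ^ 2 + lap2 w (xc a.h a.Ka i, xc a.h a.Ka j)) / (4 * Real.pi)| ≤ τ ∧
    |a.nc i j * a.sp i j - L| ≤ a.sp i j ∧
    ((xc a.h a.Ka i, xc a.h a.Ka j) ∉ Icc 1 (Λ + 1) ×ˢ Icc 1 (Λ + 1) → a.nc i j * a.sp i j = L)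

/-- What is known about the difference `Δ` between the true and the ideal potential. -/
structure PotOK (Δ : P3 → ℝ) (Λ Z η τ Cr : ℝ) : Prop where
  int : ∀ F : P3 → ℝ, Continuous F → HasCompactSupport F → Integrable fun y => Δ y * F y
  core : ∃ Vc : P3 → ℝ, Measurable Vc ∧ (∀ y, 0 ≤ Vc y) ∧
    (∀ F : P3 → ℝ, Continuous F → HasCompactSupport F → Integrable fun y => Vc y * F y) ∧
    (∀ y : P3, |y.2| ≤ Z → Δ y ≤ η + Vc y) ∧ (∀ y, Δ y ≤ Cr + Vc y) ∧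
    (∀ y ∈ box3 Λ, |Δ y| ≤ η + Vc y) ∧
    ∀ ψ, Cc1 ψ → ∫ y, Vc y * ψ y ^ 2 ≤ η * ((∫ y, ψ y ^ 2) + ∫ y, gsq3 ψ y)
  weak : ∀ (ρ : P3 → ℝ) (M : ℝ), Bd 4 M ρ → (∀ y, y ∉ box3 Λ → ρ y = 0) →
    |∫ y, Δ y * ρ y| ≤ τ * M

/-- The physical position `ℓ y`. -/
def phys (ℓ : ℝ) (y : P3) : Pos3 := WithLp.toLp 2 ![ℓ * y.1.1, ℓ * y.1.2, ℓ * y.2]

end Crest.Agent.R338
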