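import Crest.Agent.R338.ContDefs

/-! # Stage C: the algorithm is polynomial time
Prove `@[fun_prop]` lemmas bottom-up (`sig, stepUp, stepDn, bump, gap, cen, xc, flag, Pp, Hh, hq, om, ell, eps, piq, lvl, sdq,
epOf, (geo R K T).S/v/ε, wq, mq, spq, ncq, pts, kq, cq, codes`), each for arbitrary `PT` arguments with `PB R`, `PB K`;
then make the definition irreducible.  In `lvl` the exponent `k` is an index in a `PB` range (`PB.idx`,
`PT.map_range`, or rewrite `countP` with `k` replaced by `min k bound`).  The codes are those of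
`Def_GateCircuit`/`Def_CoulombProblem` (NOT `Crest.Enc`): `natCode n = (n.bits.map fun b => [true, b]).flatten ++ [false]`. -/

set_option autoImplicit false
set_option linter.dupNamespace false
set_option linter.unusedVariables false

noncomputable section

namespace Crest.Agent.R338

open Matrix MeasureTheory Set
open Crest.MathPhysics.ElectronicCoulomb Crest.MathPhysics.CoulombProblem
open Crest.Agent.Lib.PT

section
variable {α : Type} [Enc α] {R K N i j n : α → ℕ} {T : α → Tabs} {u v w z : α → ℚ} {p : α → ℚ × ℚ}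

@[fun_prop] theorem cp_sig (hu : PT u) : PT fun a => sig (u a) := by
  unfold sig; fun_prop

@[fun_prop] theorem cp_stepUp (hu : PT u) (hv : PT v) (hw : PT w) : PT fun a => stepUp (u a) (v a) (w a) := by
  unfold stepUp; fun_prop

@[fun_prop] theorem cp_stepDn (hu : PT u) (hv : PT v) (hw : PT w) : PT fun a => stepDn (u a) (v a) (w a) := by
  unfold stepDn; fun_prop

@[fun_prop] theorem cp_bump (hu : PT u) (hv : PT v) (hw : PT w) (hz : PT z) :
    PT fun a => bump (u a) (v a) (w a) (z a) := by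
  unfold bump; fun_prop

@[fun_prop] theorem cp_gap (hu : PT u) (hv : PT v) (hw : PT w) (hz : PT z) :
    PT fun a => gap (u a) (v a) (w a) (z a) := by
  unfold gap; fun_prop

@[fun_prop] theorem cp_cen (hu : PT u) (hi : PT i) : PT fun a => cen (u a) (i a) := by
  unfold cen; fun_prop

@[fun_prop] theorem cp_xc (hu : PT u) (hn : PT n) (hi : PT i) : PT fun a => xc (u a) (n a) (i a) := by
  unfold xc; fun_prop

@[fun_prop] theorem cp_flag {F : α → List (List Bool)} (hF : PT F) (hi : PT i) (hj : PT j) :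
    PT fun a => flag (F a) (i a) (j a) := by
  unfold flag; fun_prop

@[fun_prop] theorem cp_Pp (hR : PT R) : PT fun a => Pp (R a) := hR.nat_pow (PT.const _) (PB.const _)

@[fun_prop] theorem cp_Pp' (hR : PB R) : PB fun a => Pp (R a) := hR.pow _

@[fun_prop] theorem cp_Hh (hR : PT R) : PT fun a => Hh (R a) := (cp_Pp hR).nat_pow (PT.const _) (PB.const _)

@[fun_prop] theorem cp_Hh' (hR : PB R) : PB fun a => Hh (R a) := (cp_Pp' hR).pow _

@[fun_prop] theorem cp_Ka (hR : PT R) : PT fun a => Ka (R a) := (cp_Hh hR).nat_pow (PT.const _) (PB.const _)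

@[fun_prop] theorem cp_Ka' (hR : PB R) : PB fun a => Ka (R a) := (cp_Hh' hR).pow _

attribute [local irreducible] Pp Hh Ka

@[fun_prop] theorem cp_hq (hR : PT R) : PT fun a => hq (R a) := by
  unfold hq; fun_prop

@[fun_prop] theorem cp_om (hR : PT R) : PT fun a => om (R a) :=
  hR.rat_natCast.rat_pow (PT.const _) (PB.const _)

attribute [local irreducible] hq om

@[fun_prop] theorem cp_ell (hR : PT R) : PT fun a => ell (R a) := by
  unfold ell; fun_prop

@[fun_prop] theorem cp_eps (hR : PT R) : PT fun a => eps (R a) := by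
  unfold eps; fun_prop

@[fun_prop] theorem cp_piq (hR : PT R) (hb : PB R) : PT fun a => piq (R a) := by
  unfold piq; fun_prop

@[fun_prop] theorem cp_lvl (hR : PT R) (hb : PB R) (hu : PT u) : PT fun a => lvl (R a) (u a) := by
  have h : PT fun a => (List.range (2 * R a ^ 35)).countP fun k =>
      decide (u a < (1 - 1 / (R a : ℚ) ^ 33) ^ min k (2 * R a ^ 35)) :=
    PT.countP (by fun_prop) (PT.decide (PT.rat_lt (by fun_prop)
      (PT.rat_pow (by fun_prop) (by fun_prop) (PB.min_right _ (by fun_prop)))))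
  have h' : PT fun a => (List.range (2 * R a ^ 35)).countP fun k =>
      decide (u a < (1 - 1 / (R a : ℚ) ^ 33) ^ k) := h.of_eq fun a => List.countP_congr fun k hk => by
    rw [min_eq_left (List.mem_range.1 hk).le]
  unfold lvl
  exact h'.rat_natCast.rat_div (by fun_prop)

@[fun_prop] theorem cp_sdq (hR : PT R) (hT : PT T) (hi : PT i) (hj : PT j) :
    PT fun a => sdq (R a) (T a) (i a) (j a) := by
  unfold sdq; fun_prop

attribute [local irreducible] ell eps piq lvl sdq

theorem cp_ep (hR : PT R) (hK : PT K) (hT : PT T) (hi : PT i) (hj : PT j) :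
    PT fun a => (geo (R a) (K a) (T a)).ep (i a) (j a) := by
  simp only [geo, epOf]
  fun_prop

theorem cp_S (hR : PT R) (hb : PB R) (hK : PT K) (hb' : PB K) (hT : PT T) (hp : PT p) :
    PT fun a => (geo (R a) (K a) (T a)).S (p a) := by
  simp only [geo, Geo.S]
  fun_prop

theorem cp_v (hR : PT R) (hK : PT K) (hp : PT p) : PT fun a => (geo (R a) (K a) (T a)).v (p a) := by
  simp only [geo, Geo.v]
  fun_prop

theorem cp_ε (hR : PT R) (hK : PT K) (hb' : PB K) (hT : PT T) (hp : PT p) :
    PT fun a => (geo (R a) (K a) (T a)).ε (p a) := by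
  have h : PT fun q : (α × ℕ) × ℕ => (geo (R q.1.1) (K q.1.1) (T q.1.1)).ep q.1.2 q.2 :=
    cp_ep (by fun_prop) (by fun_prop) (by fun_prop) (by fun_prop) (by fun_prop)
  refine PT.sum_range (by fun_prop) hK hb' (PT.sum_range (by fun_prop) (hK.comp PT.id.fst) (hb'.comp PT.id.fst)
    (h.rat_mul ?_))
  simp only [geo]
  fun_prop

theorem cp_fd1x {f : α → ℚ × ℚ → ℚ} (hf : PT fun q : α × ℚ × ℚ => f q.1 q.2) (hu : PT u) (hp : PT p) :
    PT fun a => fd1x (u a) (f a) (p a) :=
  ((hf.comp (f := fun a => (a, (p a).1 + u a, (p a).2)) (by fun_prop)).rat_sub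
    (hf.comp (f := fun a => (a, p a)) (by fun_prop))).rat_div hu

theorem cp_fd1y {f : α → ℚ × ℚ → ℚ} (hf : PT fun q : α × ℚ × ℚ => f q.1 q.2) (hu : PT u) (hp : PT p) :
    PT fun a => fd1y (u a) (f a) (p a) :=
  ((hf.comp (f := fun a => (a, (p a).1, (p a).2 + u a)) (by fun_prop)).rat_sub
    (hf.comp (f := fun a => (a, p a)) (by fun_prop))).rat_div hu

theorem cp_fd2x {f : α → ℚ × ℚ → ℚ} (hf : PT fun q : α × ℚ × ℚ => f q.1 q.2) (hu : PT u) (hp : PT p) :
    PT fun a => fd2x (u a) (f a) (p a) :=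
  (((hf.comp (f := fun a => (a, (p a).1 + u a, (p a).2)) (by fun_prop)).rat_sub
    ((PT.const 2).rat_mul (hf.comp (f := fun a => (a, p a)) (by fun_prop)))).rat_add
    (hf.comp (f := fun a => (a, (p a).1 - u a, (p a).2)) (by fun_prop))).rat_div (by fun_prop)

theorem cp_fd2y {f : α → ℚ × ℚ → ℚ} (hf : PT fun q : α × ℚ × ℚ => f q.1 q.2) (hu : PT u) (hp : PT p) :
    PT fun a => fd2y (u a) (f a) (p a) :=
  (((hf.comp (f := fun a => (a, (p a).1, (p a).2 + u a)) (by fun_prop)).rat_sub
    ((PT.const 2).rat_mul (hf.comp (f := fun a => (a, p a)) (by fun_prop)))).rat_add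
    (hf.comp (f := fun a => (a, (p a).1, (p a).2 - u a)) (by fun_prop))).rat_div (by fun_prop)

attribute [local irreducible] Geo.S Geo.v Geo.ε fd1x fd1y fd2x fd2y geo

theorem cp_wq (hR : PT R) (hb : PB R) (hK : PT K) (hb' : PB K) (hT : PT T) (hu : PT u) (hp : PT p) :
    PT fun a => wq (geo (R a) (K a) (T a)) (u a) (p a) := by
  have h : PT fun q : α × ℚ × ℚ => (geo (R q.1) (K q.1) (T q.1)).S q.2 :=
    cp_S (by fun_prop) (by fun_prop) (by fun_prop) (by fun_prop) (by fun_prop) (by fun_prop)
  have h1 := cp_fd1x (f := fun a => (geo (R a) (K a) (T a)).S) h hu hp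
  have h2 := cp_fd1y (f := fun a => (geo (R a) (K a) (T a)).S) h hu hp
  have h3 := cp_fd2x (f := fun a => (geo (R a) (K a) (T a)).S) h hu hp
  have h4 := cp_fd2y (f := fun a => (geo (R a) (K a) (T a)).S) h hu hp
  unfold wq
  exact (((PT.const _).rat_mul (((h1.rat_pow (PT.const 2) (PB.const 2)).rat_add
    (h2.rat_pow (PT.const 2) (PB.const 2))).rat_sub (h3.rat_add h4))).rat_add (cp_v hR hK hp)).rat_add
    (cp_ε hR hK hb' hT hp)

attribute [local irreducible] wq

@[fun_prop] theorem cp_Lam (hR : PT R) (hK : PT K) : PT fun a => Lam (R a) (K a) := by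
  unfold Lam; fun_prop

@[fun_prop] theorem cp_mq (hR : PT R) (hb : PB R) (hK : PT K) (hb' : PB K) (hT : PT T) (hp : PT p) :
    PT fun a => mq (R a) (K a) (T a) (p a) := by
  have h : PT fun q : α × ℚ × ℚ => wq (geo (R q.1) (K q.1) (T q.1)) (hq (R q.1) ^ 123) q.2 :=
    cp_wq (by fun_prop) (by fun_prop) (by fun_prop) (by fun_prop) (by fun_prop) (by fun_prop) (by fun_prop)
  have h1 : PT fun a => hq (R a) ^ 41 := by fun_prop
  have h2 : PT fun a => om (R a) ^ 2 := by fun_prop
  have h3 := cp_fd2x (f := fun a => wq (geo (R a) (K a) (T a)) (hq (R a) ^ 123)) h h1 hp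
  have h4 := cp_fd2y (f := fun a => wq (geo (R a) (K a) (T a)) (hq (R a) ^ 123)) h h1 hp
  unfold mq
  exact PT.ite (by fun_prop) (h2.rat_add (h3.rat_add h4)) h2

@[fun_prop] theorem cp_Lq (hR : PT R) (hb : PB R) : PT fun a => Lq (R a) := by
  unfold Lq; fun_prop

attribute [local irreducible] mq Lq

@[fun_prop] theorem cp_spq (hR : PT R) (hb : PB R) (hK : PT K) (hb' : PB K) (hT : PT T) (hi : PT i) (hj : PT j) :
    PT fun a => spq (R a) (K a) (T a) (i a) (j a) := by
  unfold spq; fun_prop

attribute [local irreducible] spq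

@[fun_prop] theorem cp_ncq (hR : PT R) (hb : PB R) (hK : PT K) (hb' : PB K) (hT : PT T) (hi : PT i) (hj : PT j) :
    PT fun a => ncq (R a) (K a) (T a) (i a) (j a) := by
  unfold ncq; fun_prop

@[fun_prop] theorem cp_ncq' (hb : PB R) : PB fun a => ncq (R a) (K a) (T a) (i a) (j a) :=
  PB.min_right _ (by fun_prop)

attribute [local irreducible] ncq

@[fun_prop] theorem cp_pts (hR : PT R) (hb : PB R) (hK : PT K) (hb' : PB K) (hT : PT T) :
    PT fun a => pts (R a) (K a) (T a) := by
  unfold pts; fun_prop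

@[fun_prop] theorem cp_kq {Y : α → (ℚ × ℚ) × ℚ} (hR : PT R) (hb : PB R) (hY : PT Y) :
    PT fun a => kq (R a) (Y a) := by
  simp only [kq, List.bind_eq_flatMap, List.pure_def]
  fun_prop

attribute [local irreducible] pts kq

@[fun_prop] theorem cp_cq (hR : PT R) (hb : PB R) (hK : PT K) (hb' : PB K) (hT : PT T) :
    PT fun a => cq (R a) (K a) (T a) := by
  unfold cq; fun_prop

@[fun_prop] theorem cp_natCode (hn : PT n) : PT fun a => Crest.Quantum.GateCircuit.natCode (n a) := by
  unfold Crest.Quantum.GateCircuit.natCode; fun_prop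

@[fun_prop] theorem cp_ratCode (hu : PT u) : PT fun a => Crest.MathPhysics.CoulombProblem.ratCode (u a) := by
  unfold Crest.MathPhysics.CoulombProblem.ratCode Crest.MathPhysics.CoulombProblem.intCode; fun_prop

attribute [local irreducible] cq Crest.MathPhysics.CoulombProblem.ratCode

theorem cp_code (hR : PT R) (hb : PB R) (hK : PT K) (hb' : PB K) (hN : PT N) (hb'' : PB N) (hT : PT T)
    (hu : PT u) (hv : PT v) : PT fun a => (inst (R a) (K a) (N a) (T a) (u a) (v a)).code := by
  simp only [Instance.code, inst, Crest.Quantum.GateCircuit.listCode, unaryCode, List.map_map, Function.comp_def,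
    posCode, posq, Matrix.cons_val_zero, Matrix.cons_val_one, Matrix.cons_val]
  fun_prop

end

theorem alg_pt (C₀ : ℕ) : PT (alg C₀) :=
  cp_code (by fun_prop) (by fun_prop) (by fun_prop) (PB.min_right _ (by fun_prop)) (by fun_prop)
    (PB.min_right _ (by fun_prop)) (by fun_prop) (by fun_prop) (by fun_prop)

end Crest.Agent.R338
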