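import Crest.Agent.R338.FBasic

/-! # Fermion models: one-body maps act on ground energies; soft core -/

set_option autoImplicit false
set_option linter.dupNamespace false
set_option linter.unusedVariables false

noncomputable section

namespace Crest.Agent.R338

open Crest.Agent.Lib.PT Matrix

variable {ι V V' : Type} [Fintype ι] [DecidableEq ι] [Fintype V] [DecidableEq V] [Fintype V']
  [DecidableEq V']

section aux

variable {β γ : Type} [Fintype β] [Fintype γ]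

theorem ft_dot (T : Matrix γ β ℝ) (x : β → ℝ) (y : γ → ℝ) : (T *ᵥ x) ⬝ᵥ y = x ⬝ᵥ Tᵀ *ᵥ y := by
  rw [Matrix.mulVec_transpose, dotProduct_comm x, ← Matrix.dotProduct_mulVec, dotProduct_comm]

theorem ft_conj_dot (T : Matrix γ β ℝ) (M : Matrix γ γ ℝ) (x : β → ℝ) :
    (T *ᵥ x) ⬝ᵥ M *ᵥ (T *ᵥ x) = x ⬝ᵥ (Tᵀ * M * T) *ᵥ x := by
  rw [ft_dot, Matrix.mulVec_mulVec, Matrix.mulVec_mulVec]

theorem ft_sq_dot (T : Matrix γ β ℝ) (x : β → ℝ) :
    (T *ᵥ x) ⬝ᵥ (T *ᵥ x) = x ⬝ᵥ (Tᵀ * T) *ᵥ x := by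
  rw [ft_dot, Matrix.mulVec_mulVec]

variable [DecidableEq β]

open scoped MatrixOrder in
theorem ft_psd {S : Matrix β β ℝ} (hS : Sᵀ = S) (h : ∀ u : β → ℝ, 0 ≤ u ⬝ᵥ S *ᵥ u) :
    ∃ R : Matrix β β ℝ, Rᵀ * R = S := by
  have h1 : S.PosSemidef := Matrix.posSemidef_iff_dotProduct_mulVec.2 ⟨hS, fun x => h x⟩
  obtain ⟨R, hR⟩ := CStarAlgebra.nonneg_iff_eq_star_mul_self.1 h1.nonneg
  exact ⟨R, hR.symm⟩

theorem ft_upd_mono {C : ι → Matrix β β ℝ} (hC : ∀ j, ∃ R : Matrix β β ℝ, Rᵀ * R = C j) (i : ι)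
    {M M' : Matrix β β ℝ} (h : ∀ u : β → ℝ, u ⬝ᵥ M *ᵥ u ≤ u ⬝ᵥ M' *ᵥ u) (x : (ι → β) → ℝ) :
    x ⬝ᵥ tens (Function.update C i M) *ᵥ x ≤ x ⬝ᵥ tens (Function.update C i M') *ᵥ x := by
  choose R hR using hC
  have key : ∀ M : Matrix β β ℝ, tens (Function.update C i M) =
      (tens (Function.update R i 1))ᵀ * loc i M * tens (Function.update R i 1) := by
    intro M
    rw [Matrix.mul_assoc, loc_mul_tens, tens_transpose, tens_mul]
    congr 1
    funext j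
    by_cases hj : j = i
    · subst hj
      simp
    · simp [Function.update_of_ne hj, hR]
  rw [key, key, ← ft_conj_dot, ← ft_conj_dot]
  exact loc_form_mono i h _

theorem ft_mono {C D : ι → Matrix β β ℝ} (hC : ∀ j, ∃ R : Matrix β β ℝ, Rᵀ * R = C j)
    (hD : ∀ j, ∃ R : Matrix β β ℝ, Rᵀ * R = D j)
    (h : ∀ j, ∀ u : β → ℝ, u ⬝ᵥ C j *ᵥ u ≤ u ⬝ᵥ D j *ᵥ u) (x : (ι → β) → ℝ) :
    x ⬝ᵥ tens C *ᵥ x ≤ x ⬝ᵥ tens D *ᵥ x := by
  have key : ∀ s : Finset ι, x ⬝ᵥ tens C *ᵥ x ≤ x ⬝ᵥ tens (fun j => if j ∈ s then D j else C j) *ᵥ x := by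
    intro s
    induction s using Finset.induction_on with
    | empty => simp
    | insert i s hi ih =>
      have hE : ∀ j, ∃ R : Matrix β β ℝ, Rᵀ * R = (fun j => if j ∈ s then D j else C j) j := by
        intro j
        dsimp only
        split_ifs
        exacts [hD j, hC j]
      have h1 := ft_upd_mono hE i (h i) x
      have e1 : Function.update (fun j => if j ∈ s then D j else C j) i (C i) =
          fun j => if j ∈ s then D j else C j := by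
        rw [Function.update_eq_self_iff, if_neg hi]
      have e2 : Function.update (fun j => if j ∈ s then D j else C j) i (D i) =
          fun j => if j ∈ insert i s then D j else C j := by
        funext j
        by_cases hj : j = i
        · subst hj
          simp
        · simp [hj]
      rw [e1, e2] at h1
      exact ih.trans h1
  simpa using key Finset.univ

end aux

omit [Fintype V] [DecidableEq V] [Fintype V'] [DecidableEq V'] in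
theorem ft_hsp_smul (c : ℝ) (h : Matrix V V' ℝ) : hsp (c • h) = c • hsp h := by
  ext a b
  simp [hsp]

omit [Fintype V] [DecidableEq V] [Fintype V'] [DecidableEq V'] in
theorem ft_hsp_add (h h' : Matrix V V' ℝ) : hsp (h + h') = hsp h + hsp h' := by
  ext a b
  simp only [hsp, Matrix.of_apply, Matrix.add_apply]
  split_ifs <;> simp

theorem ft_hsp_psd {S : Matrix V V ℝ} (hS : Sᵀ = S) (h : ∀ u : V → ℝ, 0 ≤ u ⬝ᵥ S *ᵥ u) :
    ∃ R : Matrix (V × Fin 2) (V × Fin 2) ℝ, Rᵀ * R = hsp S := by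
  obtain ⟨R, hR⟩ := ft_psd hS h
  exact ⟨hsp R, by rw [hsp_transpose, hsp_mul, hR]⟩

theorem ft_gram (S : Matrix V V ℝ) {η : ℝ} (hS : Sᵀ = S) (h0 : 0 ≤ η)
    (gram : ∀ u : V → ℝ, u ⬝ᵥ u ≤ u ⬝ᵥ S *ᵥ u ∧ u ⬝ᵥ S *ᵥ u ≤ (1 + η) * (u ⬝ᵥ u)) (A : FSt ι V) :
    A ⬝ᵥ A ≤ A ⬝ᵥ tens (fun _ : ι => hsp S) *ᵥ A ∧
      A ⬝ᵥ tens (fun _ : ι => hsp S) *ᵥ A ≤ (1 + η) ^ Fintype.card ι * (A ⬝ᵥ A) := by
  have p1 := ft_hsp_psd hS fun u => (dot_self_nonneg u).trans (gram u).1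
  have p2 := ft_hsp_psd (S := (1 : Matrix V V ℝ)) (by simp) fun u => by simpa using dot_self_nonneg u
  have p3 := ft_hsp_psd (S := (1 + η) • (1 : Matrix V V ℝ)) (by simp) fun u => by
    simpa [Matrix.smul_mulVec] using mul_nonneg (by linarith) (dot_self_nonneg u)
  have h1 := ft_mono (fun _ : ι => p2) (fun _ : ι => p1)
    (fun _ => hsp_form_mono fun u => by simpa using (gram u).1) A
  have h2 := ft_mono (fun _ : ι => p1) (fun _ : ι => p3)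
    (fun _ => hsp_form_mono fun u => by simpa [Matrix.smul_mulVec] using (gram u).2) A
  simp only [hsp_one, tens_one, Matrix.one_mulVec] at h1
  simp only [ft_hsp_smul, hsp_one] at h2
  rw [tens_smul (fun _ : ι => 1 + η) (fun _ => 1), tens_one] at h2
  exact ⟨h1, by simpa [Matrix.smul_mulVec] using h2⟩

omit [DecidableEq V] [DecidableEq V'] in
theorem ft_nsq (L : Matrix V' V ℝ) (A : FSt ι V) :
    (tens (fun _ : ι => hsp L) *ᵥ A) ⬝ᵥ (tens (fun _ : ι => hsp L) *ᵥ A) =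
      A ⬝ᵥ tens (fun _ : ι => hsp (Lᵀ * L)) *ᵥ A := by
  simp only [ft_sq_dot, tens_transpose, tens_mul, hsp_transpose, hsp_mul]

omit [DecidableEq V] in
theorem ft_en (L : Matrix V' V ℝ) (h' : Matrix V' V' ℝ) (A : FSt ι V) :
    (tens (fun _ : ι => hsp L) *ᵥ A) ⬝ᵥ fmat ι h' *ᵥ (tens (fun _ : ι => hsp L) *ᵥ A) =
      ∑ i : ι, A ⬝ᵥ tens (Function.update (fun _ : ι => hsp (Lᵀ * L)) i (hsp (Lᵀ * h' * L))) *ᵥ A := by
  rw [fmat, Matrix.sum_mulVec, dotProduct_sum]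
  refine Finset.sum_congr rfl fun i _ => ?_
  rw [ft_conj_dot, Matrix.mul_assoc, loc_mul_tens, tens_transpose, tens_mul]
  congr 3
  funext j
  by_cases hj : j = i
  · subst hj
    simp [hsp_transpose, hsp_mul, Matrix.mul_assoc]
  · simp [Function.update_of_ne hj, hsp_transpose, hsp_mul]

theorem ft_pow {η : ℝ} {n : ℕ} (h0 : 0 ≤ η) (hN : n * η ≤ 1) : (1 + η) ^ n ≤ 1 + 2 * (n * η) := by
  have h1 : (1 + η) ^ n ≤ Real.exp η ^ n :=
    pow_le_pow_left₀ (by linarith) (by linarith [Real.add_one_le_exp η]) n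
  have h2 := Real.exp_bound' (x := n * η) (by positivity) hN (n := 1) one_pos
  rw [← Real.exp_nat_mul] at h1
  norm_num at h2
  linarith

omit [Fintype V'] [DecidableEq V'] in
/-- `L^{⊗ ι}` preserves the hard-core constraint if the rows of `L` at hard-core sites vanish or are
coordinate functionals of hard-core sites. -/
theorem HCok.lift {hc : V → Prop} {hc' : V' → Prop} {A : FSt ι V} (hA : HCok hc A)
    (L : Matrix V' V ℝ)
    (hL : ∀ v', hc' v' → (∀ v, L v' v = 0) ∨ ∃ r, hc r ∧ ∀ v, L v' v = if v = r then 1 else 0) :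
    HCok (ι := ι) hc' (tens (fun _ : ι => hsp L) *ᵥ A) := by
  intro x i j hij hx hv
  refine Finset.sum_eq_zero fun y _ => ?_
  show (∏ l, hsp L (x l) (y l)) * A y = 0
  rcases hL _ hv with h | ⟨r, hr, h⟩
  · rw [Finset.prod_eq_zero (Finset.mem_univ i) (by simp [hsp, h]), zero_mul]
  · by_cases h1 : (y i).1 = r
    · by_cases h2 : (y j).1 = r
      · rw [hA y i j hij (h1.trans h2.symm) (h1 ▸ hr), mul_zero]
      · rw [Finset.prod_eq_zero (Finset.mem_univ j) (by simp [hsp, ← hx, h, h2]), zero_mul]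
    · rw [Finset.prod_eq_zero (Finset.mem_univ i) (by simp [hsp, h, h1]), zero_mul]

omit [DecidableEq V'] in
/-- Gram bounds tensorise.  Apply `L` one factor at a time (induction over a finset `s` for the
square matrices `tens (fun i => if i ∈ s then hsp S else 1)`, `S = Lᵀ L`, using a square root of `S`
(`Matrix.PosSemidef`, `CFC.sqrt`) or slices), here in the form needed below: if `M ≤ M'` as forms
then `M ⊗ S ⊗ … ⊗ S ≤ M' ⊗ S ⊗ … ⊗ S`, and if `0 ≤ M'`, `S ≤ c` then `M' ⊗ S ⊗ … ⊗ S ≤ c^(N-1) M' ⊗ 1 ⊗ … ⊗ 1`. -/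
theorem lift_nsq (L : Matrix V' V ℝ) {η : ℝ} (h0 : 0 ≤ η)
    (gram : ∀ a : V → ℝ, a ⬝ᵥ a ≤ (L *ᵥ a) ⬝ᵥ (L *ᵥ a) ∧ (L *ᵥ a) ⬝ᵥ (L *ᵥ a) ≤ (1 + η) * (a ⬝ᵥ a))
    (A : FSt ι V) :
    A ⬝ᵥ A ≤ (tens (fun _ : ι => hsp L) *ᵥ A) ⬝ᵥ (tens (fun _ : ι => hsp L) *ᵥ A) ∧
      (tens (fun _ : ι => hsp L) *ᵥ A) ⬝ᵥ (tens (fun _ : ι => hsp L) *ᵥ A) ≤
        (1 + η) ^ Fintype.card ι * (A ⬝ᵥ A) := by
  rw [ft_nsq]
  exact ft_gram _ (by simp) h0 (fun u => by rw [← ft_sq_dot]; exact gram u) A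

/-- The algebraic core of all upper bounds: `S` a symmetric Gram matrix with `1 ≤ S ≤ 1 + η`, `M ≤ k` as
forms, `‖k‖ ≤ ν`.  Proof: `M + ν S ≤ k + ν (1+η) =: B ≥ 0`, so with `G = S^{⊗ ι}`,
`∑ᵢ A⬝(M⁽ⁱ⁾ ⊗ S…)A + N ν A⬝G A ≤ (1+η)^N ∑ᵢ A⬝B⁽ⁱ⁾A ≤ (1+2Nη)(a + Nν + Nνη) |A|²`, the bracket is `≥ 0`
unless `A = 0`, and `|A|² ≤ A⬝G A`. -/
theorem gram_energy (S M k : Matrix V V ℝ) {η ν a : ℝ} (hS : Sᵀ = S) (h0 : 0 ≤ η)
    (hN : Fintype.card ι * η ≤ 1) (hν : 0 ≤ ν) (ha : |a| ≤ ν) (hk : OpLe k ν)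
    (gram : ∀ u : V → ℝ, u ⬝ᵥ u ≤ u ⬝ᵥ S *ᵥ u ∧ u ⬝ᵥ S *ᵥ u ≤ (1 + η) * (u ⬝ᵥ u))
    (hM : ∀ u : V → ℝ, u ⬝ᵥ M *ᵥ u ≤ u ⬝ᵥ k *ᵥ u) (A : FSt ι V)
    (hA : A ⬝ᵥ fmat ι k *ᵥ A ≤ a * (A ⬝ᵥ A)) :
    A ⬝ᵥ A ≤ A ⬝ᵥ tens (fun _ : ι => hsp S) *ᵥ A ∧
    A ⬝ᵥ tens (fun _ : ι => hsp S) *ᵥ A ≤ 3 * (A ⬝ᵥ A) ∧
      ∑ i : ι, A ⬝ᵥ tens (Function.update (fun _ : ι => hsp S) i (hsp M)) *ᵥ A ≤
        (a + 8 * (Fintype.card ι : ℝ) ^ 2 * η * ν) * (A ⬝ᵥ tens (fun _ : ι => hsp S) *ᵥ A) := by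
  obtain ⟨g1, g2⟩ := ft_gram S hS h0 gram A
  have hP := ft_pow h0 hN
  have hX := dot_self_nonneg A
  have g3 : A ⬝ᵥ tens (fun _ : ι => hsp S) *ᵥ A ≤ 3 * (A ⬝ᵥ A) :=
    g2.trans (mul_le_mul_of_nonneg_right (by linarith) hX)
  refine ⟨g1, g3, ?_⟩
  set B : Matrix V V ℝ := (1 / 2 : ℝ) • (k + kᵀ) + (ν * (1 + η)) • 1 with hB
  have hBf : ∀ u : V → ℝ, u ⬝ᵥ B *ᵥ u = u ⬝ᵥ k *ᵥ u + ν * (1 + η) * (u ⬝ᵥ u) := by
    intro u
    have e : u ⬝ᵥ kᵀ *ᵥ u = u ⬝ᵥ k *ᵥ u := by rw [← ft_dot, dotProduct_comm]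
    simp only [hB, Matrix.add_mulVec, Matrix.smul_mulVec, Matrix.one_mulVec, dotProduct_add, dotProduct_smul,
      smul_eq_mul, e]
    ring
  have hB0 : ∀ u : V → ℝ, 0 ≤ u ⬝ᵥ B *ᵥ u := by
    intro u
    have h1 := (abs_le.1 (hk.form_le hν u)).1
    have h2 := mul_nonneg (mul_nonneg hν h0) (dot_self_nonneg u)
    rw [hBf]
    linarith
  have hBs : Bᵀ = B := by simp [hB, add_comm]
  have p1 := ft_hsp_psd hS fun u => (dot_self_nonneg u).trans (gram u).1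
  have p2 := ft_hsp_psd hBs hB0
  have p3 := ft_hsp_psd (S := (1 + η) • (1 : Matrix V V ℝ)) (by simp) fun u => by
    simpa [Matrix.smul_mulVec] using mul_nonneg (by linarith) (dot_self_nonneg u)
  have p4 := ft_hsp_psd (S := (1 + η) • B) (by rw [Matrix.transpose_smul, hBs]) fun u => by
    rw [Matrix.smul_mulVec, dotProduct_smul]
    exact mul_nonneg (by linarith) (hB0 u)
  have step : ∀ i : ι, A ⬝ᵥ tens (Function.update (fun _ : ι => hsp S) i (hsp M)) *ᵥ A +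
      ν * (A ⬝ᵥ tens (fun _ : ι => hsp S) *ᵥ A) ≤ (1 + η) ^ Fintype.card ι * (A ⬝ᵥ loc i (hsp B) *ᵥ A) := by
    intro i
    have s1 := ft_upd_mono (fun _ : ι => p1) i (M := hsp (M + ν • S)) (M' := hsp B)
      (hsp_form_mono fun u => by
        have h1 := mul_le_mul_of_nonneg_left (gram u).2 hν
        have h2 := hM u
        rw [hBf, Matrix.add_mulVec, Matrix.smul_mulVec, dotProduct_add, dotProduct_smul, smul_eq_mul]
        linarith) A
    have s2 := ft_mono (C := Function.update (fun _ : ι => hsp S) i (hsp B))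
      (D := fun j => (1 + η) • Function.update (fun _ : ι => (1 : Matrix (V × Fin 2) (V × Fin 2) ℝ)) i (hsp B) j)
      (fun j => by
        by_cases hj : j = i
        · subst hj
          simpa using p2
        · simpa [Function.update_of_ne hj] using p1)
      (fun j => by
        by_cases hj : j = i
        · subst hj
          simpa [ft_hsp_smul] using p4
        · simpa [Function.update_of_ne hj, ft_hsp_smul, hsp_one] using p3)
      (fun j => by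
        by_cases hj : j = i
        · subst hj
          rw [Function.update_self, Function.update_self, ← ft_hsp_smul]
          refine hsp_form_mono fun u => ?_
          have := mul_nonneg h0 (hB0 u)
          rw [Matrix.smul_mulVec, dotProduct_smul, smul_eq_mul]
          linarith
        · rw [Function.update_of_ne hj, Function.update_of_ne hj, ← hsp_one, ← ft_hsp_smul]
          exact hsp_form_mono fun u => by simpa [Matrix.smul_mulVec] using (gram u).2) A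
    rw [tens_smul (fun _ : ι => 1 + η), ← loc_eq_update, Finset.prod_const, Finset.card_univ,
      Matrix.smul_mulVec, dotProduct_smul, smul_eq_mul] at s2
    rw [ft_hsp_add, ft_hsp_smul, tens_update_add, tens_update_smul, Function.update_eq_self_iff.2 rfl,
      Matrix.add_mulVec, Matrix.smul_mulVec, dotProduct_add, dotProduct_smul, smul_eq_mul] at s1
    exact s1.trans s2
  have hsum := Finset.sum_le_sum fun i (_ : i ∈ Finset.univ) => step i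
  rw [Finset.sum_add_distrib, Finset.sum_const, Finset.card_univ, nsmul_eq_mul, ← Finset.mul_sum,
    ← dotProduct_sum, ← dotProduct_sum, ← Matrix.sum_mulVec, ← Matrix.sum_mulVec] at hsum
  rw [← dotProduct_sum, ← Matrix.sum_mulVec]
  have w0 : 0 ≤ A ⬝ᵥ fmat ι B *ᵥ A := by
    have := fmat_mono (h := (0 : ℝ) • (1 : Matrix V V ℝ)) (h' := B) (fun u => by simpa using hB0 u) A
    rw [fmat_smul] at this
    simpa using this
  have w1 : A ⬝ᵥ fmat ι B *ᵥ A ≤ (a + Fintype.card ι * (ν * (1 + η))) * (A ⬝ᵥ A) := by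
    have := fmat_mono (h := B) (h' := k + (ν * (1 + η)) • 1) (fun u => by
      rw [hBf]
      simp [Matrix.add_mulVec, Matrix.smul_mulVec]) A
    rw [fmat_add k, fmat_smul (ν * (1 + η)), fmat_one] at this
    simp only [Matrix.add_mulVec, Matrix.smul_mulVec, Matrix.one_mulVec, dotProduct_add, dotProduct_smul,
      smul_eq_mul] at this
    linarith
  change _ ≤ _ * (A ⬝ᵥ fmat ι B *ᵥ A) at hsum
  generalize A ⬝ᵥ (∑ i : ι, tens (Function.update (fun _ : ι => hsp S) i (hsp M))) *ᵥ A = E at hsum ⊢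
  generalize A ⬝ᵥ tens (fun _ : ι => hsp S) *ᵥ A = g at hsum g1 g3 ⊢
  generalize A ⬝ᵥ fmat ι B *ᵥ A = W at hsum w0 w1
  generalize A ⬝ᵥ A = X at g1 g3 w1 hX
  have hn : (Fintype.card ι : ℝ) ≤ (Fintype.card ι : ℝ) ^ 2 := by exact_mod_cast Nat.le_self_pow two_ne_zero _
  have hn0 : (0 : ℝ) ≤ Fintype.card ι := Nat.cast_nonneg _
  have h1 := hsum.trans (mul_le_mul_of_nonneg_right hP w0)
  generalize (Fintype.card ι : ℝ) = N at *
  have hNη : 0 ≤ N * η := mul_nonneg hn0 h0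
  have ha' := (abs_le.1 ha).2
  rcases le_or_gt 0 (a + N * (ν * (1 + η))) with hβ | hβ
  · have h2 : W ≤ (a + N * (ν * (1 + η))) * g := w1.trans (mul_le_mul_of_nonneg_left g1 hβ)
    have h3 := mul_le_mul_of_nonneg_left h2 (show 0 ≤ 1 + 2 * (N * η) by linarith)
    have h4 : a + N * (ν * (1 + η)) ≤ (2 + N) * ν := by nlinarith [mul_le_mul_of_nonneg_left hN hν]
    have h5 := mul_le_mul_of_nonneg_left h4 hNη
    have h6 := mul_le_mul_of_nonneg_left hn (mul_nonneg h0 hν)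
    have h7 : (1 + 2 * (N * η)) * (a + N * (ν * (1 + η))) - N * ν ≤ a + 8 * N ^ 2 * η * ν := by
      nlinarith [mul_nonneg (mul_nonneg h0 hν) (sq_nonneg N)]
    have h8 := mul_le_mul_of_nonneg_right h7 (hX.trans g1)
    nlinarith
  · have hX0 : X = 0 := le_antisymm (by nlinarith) hX
    have hg : g = 0 := le_antisymm (by linarith) (by linarith)
    have hW : W = 0 := le_antisymm (by rw [hX0, mul_zero] at w1; exact w1) w0
    rw [hg, hW] at h1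
    rw [hg]
    linarith

/-- Upper transfer along an almost isometric one-body map (`gram_energy` with `S = Lᵀ L`,
`M = Lᵀ h' L`). -/
theorem FYes.transfer {hc : V → Prop} {hc' : V' → Prop} {k : Matrix V V ℝ} {h' : Matrix V' V' ℝ}
    (L : Matrix V' V ℝ) {η ν a : ℝ}
    (hL : ∀ v', hc' v' → (∀ v, L v' v = 0) ∨ ∃ r, hc r ∧ ∀ v, L v' v = if v = r then 1 else 0)
    (h0 : 0 ≤ η) (hN : Fintype.card ι * η ≤ 1) (hν : 0 ≤ ν) (ha : |a| ≤ ν) (hk : OpLe k ν)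
    (gram : ∀ u : V → ℝ, u ⬝ᵥ u ≤ (L *ᵥ u) ⬝ᵥ (L *ᵥ u) ∧ (L *ᵥ u) ⬝ᵥ (L *ᵥ u) ≤ (1 + η) * (u ⬝ᵥ u))
    (en : ∀ u : V → ℝ, (L *ᵥ u) ⬝ᵥ h' *ᵥ (L *ᵥ u) ≤ u ⬝ᵥ k *ᵥ u) (H : FYes ι hc k a) :
    FYes ι hc' h' (a + 8 * (Fintype.card ι : ℝ) ^ 2 * η * ν) := by
  obtain ⟨A, h1, h2, h3, h4⟩ := H
  obtain ⟨g1, -, g3⟩ := gram_energy (Lᵀ * L) (Lᵀ * h' * L) k (by simp) h0 hN hν ha hk
    (fun u => by rw [← ft_sq_dot]; exact gram u) (fun u => by rw [← ft_conj_dot]; exact en u) A h4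
  refine ⟨_, h1.lift L, h2.lift L hL, fun h => ?_, ?_⟩
  · have := ft_nsq L A
    rw [h, zero_dotProduct] at this
    linarith [dot_self_pos h3]
  · rw [ft_en, ft_nsq]
    exact g3

theorem ft_orth (h O : Matrix V V ℝ) (h1 : Oᵀ * O = 1) (A : FSt ι V) :
    (tens (fun _ : ι => hsp O) *ᵥ A) ⬝ᵥ (tens (fun _ : ι => hsp O) *ᵥ A) = A ⬝ᵥ A ∧
      (tens (fun _ : ι => hsp O) *ᵥ A) ⬝ᵥ fmat ι h *ᵥ (tens (fun _ : ι => hsp O) *ᵥ A) =
        A ⬝ᵥ fmat ι (Oᵀ * h * O) *ᵥ A := by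
  constructor
  · rw [ft_nsq, h1, hsp_one, tens_one, Matrix.one_mulVec]
  · rw [ft_en, h1, hsp_one, fmat, Matrix.sum_mulVec, dotProduct_sum]
    simp only [loc_eq_update]

theorem ft_yes {hc : V → Prop} (h O : Matrix V V ℝ) (h1 : Oᵀ * O = 1)
    (hO : ∀ v, hc v → ∀ u, O v u = if u = v then 1 else 0) {a : ℝ} (H : FYes ι hc (Oᵀ * h * O) a) :
    FYes ι hc h a := by
  obtain ⟨A, a1, a2, a3, a4⟩ := H
  obtain ⟨e1, e2⟩ := ft_orth h O h1 A
  refine ⟨_, a1.lift O, a2.lift O fun v hv => Or.inr ⟨v, hv, hO v hv⟩, fun h => ?_, by rw [e1, e2]; exact a4⟩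
  rw [h, zero_dotProduct] at e1
  linarith [dot_self_pos a3]

theorem ft_no {hc : V → Prop} (h O : Matrix V V ℝ) (h1 : Oᵀ * O = 1)
    (hO : ∀ v, hc v → ∀ u, O v u = if u = v then 1 else 0) {b : ℝ} (H : FNo ι hc h b) :
    FNo ι hc (Oᵀ * h * O) b := by
  intro A a1 a2
  obtain ⟨e1, e2⟩ := ft_orth h O h1 A
  rw [← e1, ← e2]
  exact H _ (a1.lift O) (a2.lift O fun v hv => Or.inr ⟨v, hv, hO v hv⟩)

theorem ft_back (h O : Matrix V V ℝ) (h2 : O * Oᵀ = 1) : Oᵀᵀ * (Oᵀ * h * O) * Oᵀ = h := by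
  rw [Matrix.transpose_transpose, ← Matrix.mul_assoc, ← Matrix.mul_assoc, h2, Matrix.one_mul, Matrix.mul_assoc,
    h2, Matrix.mul_one]

/-- Orthogonal change of basis fixing the hard-core sites. -/
theorem fYes_orth {hc : V → Prop} (h O : Matrix V V ℝ) (h1 : Oᵀ * O = 1) (h2 : O * Oᵀ = 1)
    (hO : ∀ v, hc v → ∀ u, O v u = (if u = v then 1 else 0) ∧ O u v = if u = v then 1 else 0)
    (a : ℝ) : FYes ι hc (Oᵀ * h * O) a ↔ FYes ι hc h a := by
  refine ⟨ft_yes h O h1 fun v hv u => (hO v hv u).1, fun H => ?_⟩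
  refine ft_yes _ Oᵀ (by simpa using h2) (fun v hv u => (hO v hv u).2) ?_
  rwa [ft_back h O h2]

theorem fNo_orth {hc : V → Prop} (h O : Matrix V V ℝ) (h1 : Oᵀ * O = 1) (h2 : O * Oᵀ = 1)
    (hO : ∀ v, hc v → ∀ u, O v u = (if u = v then 1 else 0) ∧ O u v = if u = v then 1 else 0)
    (b : ℝ) : FNo ι hc (Oᵀ * h * O) b ↔ FNo ι hc h b := by
  refine ⟨fun H => ?_, ft_no h O h1 fun v hv u => (hO v hv u).1⟩
  have := ft_no _ Oᵀ (by simpa using h2) (fun v hv u => (hO v hv u).2) H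
  rwa [ft_back h O h2] at this

/-- Configurations violating the hard-core constraint. -/
def Bad (hc : V → Prop) (x : ι → V × Fin 2) : Prop :=
  ∃ i j, i ≠ j ∧ (x i).1 = (x j).1 ∧ hc (x i).1

open Classical in
/-- Finite repulsion instead of a hard core: split `A = A₀ + A₁` (`A₀` = restriction to the good
configurations, still antisymmetric), `2 N ν |A₀||A₁| ≤ (2N²ν²/u)|A₀|² + (u/2)|A₁|²`. -/
theorem FNo.soft {hc : V → Prop} {k : Matrix V V ℝ} {b ν u : ℝ} (H : FNo ι hc k b) (hk : OpLe k ν)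
    (hν : 0 ≤ ν) (hb : |b| ≤ ν) (hu : 0 < u) (hu' : 2 * (Fintype.card ι + 1) * ν ≤ u)
    (A : FSt ι V) (hA : Anti A) :
    (b - 2 * (Fintype.card ι : ℝ) ^ 2 * ν ^ 2 / u) * (A ⬝ᵥ A) ≤
      A ⬝ᵥ fmat ι k *ᵥ A + u * ∑ x, if Bad hc x then A x ^ 2 else 0 := by
  set A₀ : FSt ι V := fun x => if Bad hc x then 0 else A x with hA₀
  set A₁ : FSt ι V := fun x => if Bad hc x then A x else 0 with hA₁
  have eA : A = A₀ + A₁ := by
    funext x
    simp only [hA₀, hA₁, Pi.add_apply]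
    split_ifs <;> simp
  have e01 : A₀ ⬝ᵥ A₁ = 0 := Finset.sum_eq_zero fun x _ => by
    simp only [hA₀, hA₁]
    split_ifs <;> simp
  have e11 : (∑ x, if Bad hc x then A x ^ 2 else 0) = A₁ ⬝ᵥ A₁ := Finset.sum_congr rfl fun x _ => by
    simp only [hA₁]
    split_ifs <;> simp [sq]
  have hbad : ∀ (σ : Equiv.Perm ι) (x : ι → V × Fin 2), Bad hc (x ∘ σ) ↔ Bad hc x := by
    intro σ x
    constructor
    · rintro ⟨i, j, hij, h⟩
      exact ⟨σ i, σ j, σ.injective.ne hij, h⟩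
    · rintro ⟨i, j, hij, h⟩
      exact ⟨σ.symm i, σ.symm j, σ.symm.injective.ne hij, by simpa using h⟩
  have a0 : Anti A₀ := fun σ x => by
    simp only [hA₀, hbad]
    split_ifs
    · simp
    · exact hA σ x
  have c0 : HCok hc A₀ := fun x i j hij h1 h2 => if_pos ⟨i, j, hij, h1, h2⟩
  have h00 := H A₀ a0 c0
  have hN : (0 : ℝ) ≤ Fintype.card ι := Nat.cast_nonneg _
  have hF := hk.fmat (ι := ι) hν
  have h11 := (abs_le.1 (hF.form_le (mul_nonneg hN hν) A₁)).1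
  have h10 := hF.two_dot_le A₁ A₀ (t := u / 2) (by positivity)
  have h01 := hF.transpose.two_dot_le A₁ A₀ (t := u / 2) (by positivity)
  rw [← ft_dot, dotProduct_comm] at h01
  have e2 : (Fintype.card ι * ν) ^ 2 / (u / 2) = 2 * (Fintype.card ι : ℝ) ^ 2 * ν ^ 2 / u := by
    field_simp
  rw [e2] at h10 h01
  have eX : A ⬝ᵥ A = A₀ ⬝ᵥ A₀ + A₁ ⬝ᵥ A₁ := by
    conv_lhs => rw [eA]
    rw [add_dotProduct, dotProduct_add, dotProduct_add, dotProduct_comm A₁ A₀, e01]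
    ring
  have eE : A ⬝ᵥ fmat ι k *ᵥ A = A₀ ⬝ᵥ fmat ι k *ᵥ A₀ + A₀ ⬝ᵥ fmat ι k *ᵥ A₁ +
      (A₁ ⬝ᵥ fmat ι k *ᵥ A₀ + A₁ ⬝ᵥ fmat ι k *ᵥ A₁) := by
    conv_lhs => rw [eA]
    rw [Matrix.mulVec_add, add_dotProduct, dotProduct_add, dotProduct_add]
  have hc0 : 0 ≤ 2 * (Fintype.card ι : ℝ) ^ 2 * ν ^ 2 / u := by positivity
  have hX := dot_self_nonneg A₁
  have h2 : b - 2 * (Fintype.card ι : ℝ) ^ 2 * ν ^ 2 / u ≤ u / 2 - Fintype.card ι * ν := by
    linarith [(abs_le.1 hb).2]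
  have h3 := mul_le_mul_of_nonneg_right h2 hX
  have h4 := neg_abs_le (A₁ ⬝ᵥ fmat ι k *ᵥ A₀)
  have h5 := neg_abs_le (A₀ ⬝ᵥ fmat ι k *ᵥ A₁)
  rw [e11, eX, eE]
  linarith

end Crest.Agent.R338
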