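import Crest.Agent.R338.Many_Split

/-! # rid 338, `Many`: tensorised Bessel inequalities.  Prefix helper lemmas with `mb_`. -/

set_option autoImplicit false
set_option linter.dupNamespace false
set_option linter.unusedVariables false
set_option linter.unusedSectionVars false

noncomputable section

namespace Crest.Agent.R338

open Matrix MeasureTheory Set
open Crest.MathPhysics.ElectronicCoulomb

variable {ι V : Type} [Fintype ι] [DecidableEq ι] [Fintype V] [DecidableEq V]

/-- `‖t‖ ≤ ‖ins i t y‖`. -/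
theorem Nice.slice1 {f : (ι → Pos3) → ℝ} (hf : Nice f) (i : ι) (y : {j // j ≠ i} → Pos3) :
    Nice fun t => f (ins i t y) := by
  obtain ⟨hm, C, hC⟩ := hf
  refine ⟨hm.comp ((ms_cont_ins i).comp (Continuous.prodMk_left y)).measurable, C,
    fun t => ⟨(hC _).1, fun ht => (hC _).2 (ht.trans_le ?_)⟩⟩
  simpa using norm_le_pi_norm (ins i t y) i

theorem mb_norm (i : ι) (t : Pos3) (y : {j // j ≠ i} → Pos3) : ‖y‖ ≤ ‖ins i t y‖ := by
  refine (pi_norm_le_iff_of_nonneg (norm_nonneg _)).2 fun j => ?_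
  simpa using norm_le_pi_norm (ins i t y) j

/-- `‖y‖ ≤ ‖ins i t y‖`. -/
theorem Nice.slice2 {f : (ι → Pos3) → ℝ} (hf : Nice f) (i : ι) (t : Pos3) :
    Nice fun y => f (ins i t y) := by
  obtain ⟨hm, C, hC⟩ := hf
  exact ⟨hm.comp ((ms_cont_ins i).comp (Continuous.prodMk_right t)).measurable, C,
    fun y => ⟨(hC _).1, fun hy => (hC _).2 (hy.trans_le (mb_norm i t y))⟩⟩

/-- Measurable: `StronglyMeasurable.integral_prod_left'`; bounded by `C * ∫ |e p|`. -/
theorem nice_al {e : V → Pos3 → ℝ} (he : ∀ p, Nice (e p)) {f : (ι → Pos3) → ℝ} (hf : Nice f) (i : ι) (p : V) :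
    Nice fun y => al e i f y p := by
  obtain ⟨hm, C, hC⟩ := hf
  have hme : Measurable fun q : Pos3 × ({j // j ≠ i} → Pos3) => e p q.1 * f (ins i q.1 q.2) :=
    ((he p).1.comp measurable_fst).mul (hm.comp (ms_cont_ins i).measurable)
  refine ⟨(hme.stronglyMeasurable.integral_prod_left' (μ := volume)).measurable, max C ((∫ t, |e p t|) * C),
    fun y => ⟨le_trans ?_ (le_max_right _ _), fun hy => ?_⟩⟩
  · rw [← integral_mul_const]
    refine abs_integral_le_integral_abs.trans (integral_mono_of_nonneg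
      (Filter.Eventually.of_forall fun t => abs_nonneg _) ((he p).integrable.abs.mul_const C)
      (Filter.Eventually.of_forall fun t => ?_))
    beta_reduce
    rw [abs_mul]
    exact mul_le_mul_of_nonneg_left (hC _).1 (abs_nonneg _)
  · have : ∀ t, f (ins i t y) = 0 := fun t =>
      (hC _).2 (((le_max_left _ _).trans_lt hy).trans_le (mb_norm i t y))
    simp [al, coef, this]

theorem Pj_ins (e : V → Pos3 → ℝ) (i : ι) (f : (ι → Pos3) → ℝ) (t : Pos3) (y : {j // j ≠ i} → Pos3) :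
    Pj e i f (ins i t y) = lin e (al e i f y) t := by
  simp only [Pj, update_ins_self, ins_self]
  rfl

theorem mb_nice_prod (i : ι) {a : ({j // j ≠ i} → Pos3) → ℝ} {b : Pos3 → ℝ} (ha : Nice a) (hb : Nice b) :
    Nice fun x : ι → Pos3 => a (fun j => x j) * b (x i) := by
  obtain ⟨hm, C, hC⟩ := ha
  obtain ⟨hm', D, hD⟩ := hb
  have hC0 : 0 ≤ C := (abs_nonneg _).trans (hC 0).1
  have hD0 : 0 ≤ D := (abs_nonneg _).trans (hD 0).1
  refine ⟨(hm.comp (by fun_prop)).mul (hm'.comp (measurable_pi_apply i)), max (max C D) (C * D),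
    fun x => ⟨le_trans ?_ (le_max_right _ _), fun hx => ?_⟩⟩
  · rw [abs_mul]
    exact mul_le_mul (hC _).1 (hD _).1 (abs_nonneg _) hC0
  · by_contra hne
    obtain ⟨h1, h2⟩ := mul_ne_zero_iff.1 hne
    have h1' : ‖(fun j : {j // j ≠ i} => x j)‖ ≤ C := not_lt.1 fun h => h1 ((hC _).2 h)
    have h2' : ‖x i‖ ≤ D := not_lt.1 fun h => h2 ((hD _).2 h)
    refine absurd ((pi_norm_le_iff_of_nonneg (hC0.trans (le_max_left C D))).2 fun j => ?_)
      (not_le.2 ((le_max_left _ _).trans_lt hx))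
    by_cases hj : j = i
    · subst hj; exact h2'.trans (le_max_right _ _)
    · exact ((norm_le_pi_norm (fun j : {j // j ≠ i} => x j) ⟨j, hj⟩).trans h1').trans (le_max_left _ _)

/-- `Pj e i f x = ∑ p, al e i f (x restricted) p * e p (x i)`. -/
theorem nice_Pj {e : V → Pos3 → ℝ} (he : ∀ p, Nice (e p)) {f : (ι → Pos3) → ℝ} (hf : Nice f) (i : ι) :
    Nice (Pj e i f) := by
  have h1 : Pj e i f = fun x => ∑ p, al e i f (fun j => x j) p * e p (x i) := by
    funext x
    conv_lhs => rw [← ins_restrict i x]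
    rw [Pj_ins]; rfl
  rw [h1]
  exact Nice.sum _ fun p _ => mb_nice_prod i (nice_al he hf i p) (he p)

theorem mb_tp_ins (e : V → Pos3 → ℝ) (i : ι) (p : V) (w : {j // j ≠ i} → V) (t : Pos3)
    (y : {j // j ≠ i} → Pos3) : tp e (ins i p w) (ins i t y) = e p t * tp e w y := by
  rw [tp, prod_split i]
  simp only [ins_self, ins_coe]
  rfl

/-- Fubini (`integral_ins`, `prod_split`). -/
theorem coef_al {e : V → Pos3 → ℝ} (he : ∀ p, Nice (e p)) {f : (ι → Pos3) → ℝ} (hf : Nice f) (i : ι) (p : V)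
    (w : {j // j ≠ i} → V) : coef (tp e) (fun y => al e i f y p) w = coef (tp e) f (ins i p w) := by
  have h := (integral_ins i ((nice_tp he (ins i p w)).mul hf).integrable).2
  simp only [coef, al]
  rw [h]
  congr 1
  funext y
  rw [← integral_const_mul]
  congr 1
  funext t
  rw [mb_tp_ins]; ring

/-- `integral_ins`, `Pj_ins`, `ON.pyth'` on each slice. -/
theorem Pj_sq {e : V → Pos3 → ℝ} (he : ON e) {f : (ι → Pos3) → ℝ} (hf : Nice f) (i : ι) :
    ∫ x, (f x - Pj e i f x) ^ 2 = (∫ x, f x ^ 2) - ∫ y, al e i f y ⬝ᵥ al e i f y := by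
  have h1 := integral_ins i (hf.sub (nice_Pj he.nice hf i)).sq.integrable
  have h2 := integral_ins i hf.sq.integrable
  rw [h1.2, h2.2, ← integral_sub h2.1 (Nice.dot fun p => nice_al he.nice hf i p).integrable]
  congr 1
  funext y
  simp only [Pj_ins]
  exact he.pyth' (hf.slice1 i y)

theorem mb_lin_ins {e : V → Pos3 → ℝ} (he : ∀ p, Nice (e p)) {f : (ι → Pos3) → ℝ} (hf : Nice f) (i : ι)
    (t : Pos3) (y : {j // j ≠ i} → Pos3) :
    lin (tp e) (coef (tp e) fun y => Pj e i f (ins i t y)) y = lin (tp e) (coef (tp e) f) (ins i t y) := by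
  have h1 : (fun y => Pj e i f (ins i t y)) = lin (fun p y => al e i f y p) fun p => e p t := by
    funext z
    rw [Pj_ins]
    exact Finset.sum_congr rfl fun p _ => mul_comm _ _
  rw [h1, lin, lin, sum_ins i, Finset.sum_comm]
  refine Finset.sum_congr rfl fun w _ => ?_
  rw [coef_lin (nice_tp he) (fun p => nice_al he hf i p), Finset.sum_mul]
  refine Finset.sum_congr rfl fun p _ => ?_
  rw [coef_al he hf, mb_tp_ins]; ring

theorem mb_proj {e : V → Pos3 → ℝ} (he : ON e) : ∀ (n : ℕ) (ι : Type) [Fintype ι] [DecidableEq ι],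
    Fintype.card ι = n → ∀ f : (ι → Pos3) → ℝ, Nice f →
      ∫ x, (f x - lin (tp e) (coef (tp e) f) x) ^ 2 ≤ ∑ i, ∫ x, (f x - Pj e i f x) ^ 2 := by
  intro n
  induction n with
  | zero =>
    intro ι _ _ hc f hf
    have : IsEmpty ι := Fintype.card_eq_zero_iff.1 hc
    have : ∀ x, f x - lin (tp e) (coef (tp e) f) x = 0 := by
      intro x
      simp only [lin, coef, tp, Finset.univ_unique, Finset.sum_singleton, Finset.univ_eq_empty, Finset.prod_empty,
        one_mul, mul_one]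
      rw [volume_pi, Measure.pi_of_empty _ x, integral_dirac, sub_self]
    simp [this]
  | succ n ih =>
    intro ι _ _ hc f hf
    obtain ⟨i⟩ : Nonempty ι := Fintype.card_pos_iff.1 (by omega)
    have hc' : Fintype.card {j // j ≠ i} = n := by
      rw [Fintype.card_subtype_compl, Fintype.card_subtype_eq, hc]; rfl
    have hL := integral_ins' i (hf.sub (Nice.lin (nice_tp he.nice) (coef (tp e) f))).sq.integrable
    have hP := fun j => integral_ins' i (hf.sub (nice_Pj he.nice hf j)).sq.integrable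
    rw [hL.2, sum_split i, (hP i).2, Finset.sum_congr rfl fun (j : {j // j ≠ i}) _ => (hP j).2,
      ← integral_finsetSum _ fun (j : {j // j ≠ i}) _ => (hP j).1,
      ← integral_add (hP i).1 (integrable_finsetSum _ fun (j : {j // j ≠ i}) _ => (hP j).1)]
    refine integral_mono hL.1 ((hP i).1.add (integrable_finsetSum _ fun (j : {j // j ≠ i}) _ => (hP j).1))
      fun t => ?_
    have h2 := (he.tp (ι := {j // j ≠ i})).two (hf.slice2 i t) ((nice_Pj he.nice hf i).slice2 i t)
    have h3 := ih {j // j ≠ i} hc' _ (hf.slice2 i t)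
    have h4 : ∀ (j : {j // j ≠ i}) (y : {j // j ≠ i} → Pos3),
        Pj e j (fun y => f (ins i t y)) y = Pj e (j : ι) f (ins i t y) := by
      intro j y
      simp only [Pj, update_ins_coe, ins_coe]
    simp only [mb_lin_ins he.nice hf] at h2
    simp only [h4] at h3
    beta_reduce
    linarith

/-- Induction on `card ι` (generalising `ι`, `f`).  Empty `ι`: the volume is a Dirac mass and both functions agree.
Otherwise fix `i`; for each `t` apply `ON.two` (family `tp e` on `{j // j ≠ i} → Pos3`) to `g = f (ins i t ·)` and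
`g' = Pj e i f (ins i t ·) = fun y => lin e (al e i f y) t`: by `coef_al` the projection of `g'` is
`lin (tp e) (coef (tp e) f) (ins i t ·)` (`sum_ins`, `prod_split`).  Use the induction hypothesis for `g`
(`update_ins_coe`: `Pj e j g y = Pj e ↑j f (ins i t y)`), integrate over `t` (`integral_ins'`), `sum_split`. -/
theorem tens_proj {e : V → Pos3 → ℝ} (he : ON e) {f : (ι → Pos3) → ℝ} (hf : Nice f) :
    ∫ x, (f x - lin (tp e) (coef (tp e) f) x) ^ 2 ≤ ∑ i, ∫ x, (f x - Pj e i f x) ^ 2 := by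
  exact mb_proj he _ ι rfl f hf

theorem tens_bessel {e : V → Pos3 → ℝ} (he : ON e) {f : (ι → Pos3) → ℝ} (hf : Nice f) :
    (∫ x, f x ^ 2) - (coef (tp e) f : (ι → V) → ℝ) ⬝ᵥ coef (tp e) f ≤
      ∑ i, ((∫ x, f x ^ 2) - ∫ y, al e i f y ⬝ᵥ al e i f y) := by
  rw [← (he.tp (ι := ι)).pyth' hf, ← Finset.sum_congr rfl fun i _ => Pj_sq he hf i]
  exact tens_proj he hf

/-- `ON.vbessel` with `a w p = coef (tp e) f (ins i p w)` (`coef_al`); `loc_mulVec`, `sum_ins`, `update_ins_self`;
`∫ al ⬝ al ≤ ∫ f²` by `Pj_sq`. -/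
theorem slice_form {e : V → Pos3 → ℝ} (he : ON e) {f : (ι → Pos3) → ℝ} (hf : Nice f) {k : Matrix V V ℝ}
    {ν : ℝ} (hk : OpLe k ν) (hν : 0 ≤ ν) (i : ι) :
    (coef (tp e) f : (ι → V) → ℝ) ⬝ᵥ loc i k *ᵥ coef (tp e) f -
        ν * ((∫ x, f x ^ 2) - (coef (tp e) f : (ι → V) → ℝ) ⬝ᵥ coef (tp e) f) ≤
      ∫ y, al e i f y ⬝ᵥ k *ᵥ al e i f y := by
  have h1 := (he.tp (ι := {j // j ≠ i})).vbessel (fun p => nice_al he.nice hf i p) hk hν
    (fun w p => coef (tp e) f (ins i p w)) fun w p => (coef_al he.nice hf i p w).symm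
  have h2 := Pj_sq he hf i
  have h3 : 0 ≤ ∫ x, (f x - Pj e i f x) ^ 2 := integral_nonneg fun x => sq_nonneg _
  have h4 : (coef (tp e) f : (ι → V) → ℝ) ⬝ᵥ loc i k *ᵥ coef (tp e) f =
      ∑ w : {j // j ≠ i} → V, (fun p => coef (tp e) f (ins i p w)) ⬝ᵥ k *ᵥ fun p => coef (tp e) f (ins i p w) := by
    rw [dotProduct, sum_ins i, Finset.sum_comm]
    refine Finset.sum_congr rfl fun w _ => Finset.sum_congr rfl fun p _ => ?_
    simp only [loc_mulVec, update_ins_self, ins_self]
    rfl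
  have h5 : (coef (tp e) f : (ι → V) → ℝ) ⬝ᵥ coef (tp e) f =
      ∑ w : {j // j ≠ i} → V, (fun p => coef (tp e) f (ins i p w)) ⬝ᵥ fun p => coef (tp e) f (ins i p w) := by
    rw [dotProduct, sum_ins i, Finset.sum_comm]
    rfl
  rw [Finset.sum_add_distrib, ← Finset.mul_sum, ← h4, ← h5] at h1
  have h6 := mul_le_mul_of_nonneg_left (show ∫ y, al e i f y ⬝ᵥ al e i f y ≤ ∫ x, f x ^ 2 by linarith) hν
  linarith

end Crest.Agent.R338
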