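import Crest.Agent.R338.Many_Gram

/-! # rid 338, `Many`: the repulsion.  Prefix helper lemmas with `mr_`. -/

set_option autoImplicit false
set_option linter.dupNamespace false
set_option linter.unusedVariables false
set_option linter.unusedSectionVars false

noncomputable section

namespace Crest.Agent.R338

open Matrix MeasureTheory Set
open Crest.MathPhysics.ElectronicCoulomb
open scoped Classical

variable {ι V : Type} [Fintype ι] [DecidableEq ι] [Fintype V] [DecidableEq V] {N : ℕ}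

/-- Split at `i`, then at `j' = ⟨j, _⟩` (`lintegral_ins'`, `lintegral_ins`, `lintegral_lintegral_swap`):
`x = ins i t (ins j' u z)`, `lin (tp φ) a x = lin2 φ (β z) t u` with
`β z p q = lin (tp φ) (fun w => a (ins i p (ins j' q w))) z` (`lin_tp_ins` twice), `β z p p = 0` at hard-core sites.
Then `two`, `gram_tp`, `tens_gram_le`, `sum_ins` twice give the bound for the lower integral of the nonnegative
measurable integrand; it is finite, hence the integrability. -/
theorem pair_le {φ : V → Pos3 → ℝ} (hφ : ∀ p, Nice (φ p)) {hc : V → Prop} {κ η : ℝ} (hκ : 0 ≤ κ) (h0 : 0 ≤ η)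
    (hN : Fintype.card ι * η ≤ 1)
    (gram : ∀ u : V → ℝ, u ⬝ᵥ u ≤ u ⬝ᵥ gramM φ *ᵥ u ∧ u ⬝ᵥ gramM φ *ᵥ u ≤ (1 + η) * (u ⬝ᵥ u))
    (two : ∀ β : V → V → ℝ, (∀ p, hc p → β p p = 0) →
      ∫⁻ y, ∫⁻ y', ENNReal.ofReal (lin2 φ β y y' ^ 2 / ‖y - y'‖) ≤ ENNReal.ofReal (κ * ∑ p, ∑ q, β p q ^ 2))
    {i j : ι} (hij : i ≠ j) (a : (ι → V) → ℝ) (ha : ∀ v, v i = v j → hc (v i) → a v = 0) :
    (Integrable fun x => 1 / ‖x i - x j‖ * lin (tp φ) a x ^ 2) ∧
      ∫ x, 1 / ‖x i - x j‖ * lin (tp φ) a x ^ 2 ≤ 3 * κ * (a ⬝ᵥ a) := by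
  have hm : Measurable fun x : ι → Pos3 => 1 / ‖x i - x j‖ * lin (tp φ) a x ^ 2 :=
    (by fun_prop : Measurable fun x : ι → Pos3 => 1 / ‖x i - x j‖).mul
      (Nice.lin (nice_tp hφ) a).sq.1
  have hnn : ∀ x : ι → Pos3, 0 ≤ 1 / ‖x i - x j‖ * lin (tp φ) a x ^ 2 := fun x => by positivity
  let j' : {l // l ≠ i} := ⟨j, hij.symm⟩
  let c : V → V → ({l // l ≠ j'} → V) → ℝ := fun q p w => a (ins i p (ins j' q w))
  have hc0 : ∀ p, hc p → ∀ w, c p p w = 0 := fun p hp w =>
    ha _ (by rw [ins_self, ins_coe i p _ j', ins_self]) (by rwa [ins_self])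
  have hN' : Fintype.card {l // l ≠ j'} * η ≤ 1 := by
    refine le_trans (mul_le_mul_of_nonneg_right ?_ h0) hN
    exact_mod_cast (Fintype.card_subtype_le _).trans (Fintype.card_subtype_le _)
  have hnice : ∀ q p, Nice fun z => lin (tp φ) (c q p) z ^ 2 := fun q p =>
    (Nice.lin (nice_tp hφ) _).sq
  have hint : Integrable fun z => κ * ∑ q, ∑ p, lin (tp φ) (c q p) z ^ 2 :=
    ((Nice.sum _ fun q _ => Nice.sum _ fun p _ => hnice q p).const_mul κ).integrable
  have hsum : ∑ q, ∑ p, c q p ⬝ᵥ c q p = a ⬝ᵥ a := by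
    rw [Finset.sum_comm, dotProduct, sum_ins i]
    refine Finset.sum_congr rfl fun p _ => ?_
    rw [sum_ins j']
    rfl
  have hb : ∫ z, κ * ∑ q, ∑ p, lin (tp φ) (c q p) z ^ 2 ≤ 3 * κ * (a ⬝ᵥ a) := by
    rw [integral_const_mul,
      integral_finsetSum _ fun q _ => (Nice.sum _ fun p _ => hnice q p).integrable, ← hsum,
      mul_comm 3 κ, mul_assoc, Finset.mul_sum _ _ (3 : ℝ)]
    refine mul_le_mul_of_nonneg_left (Finset.sum_le_sum fun q _ => ?_) hκ
    rw [integral_finsetSum _ fun p _ => (hnice q p).integrable, Finset.mul_sum]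
    refine Finset.sum_le_sum fun p _ => ?_
    simp only [sq]
    rw [gram_tp hφ]
    exact tens_gram_le _ (gramM_symm φ) h0 hN' gram _
  have key : ∫⁻ x, ENNReal.ofReal (1 / ‖x i - x j‖ * lin (tp φ) a x ^ 2) ≤
      ENNReal.ofReal (3 * κ * (a ⬝ᵥ a)) := by
    have hG := hm.ennreal_ofReal
    have hH : Measurable fun y : {l // l ≠ i} → Pos3 => ∫⁻ t, ENNReal.ofReal
        (1 / ‖ins i t y i - ins i t y j‖ * lin (tp φ) a (ins i t y) ^ 2) :=
      (hG.comp (ms_cont_ins i).measurable).lintegral_prod_left'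
    rw [lintegral_ins i hG, lintegral_ins j' hH]
    refine le_trans (lintegral_mono fun z => ?_) ((ofReal_integral_eq_lintegral_ofReal hint
      (Filter.Eventually.of_forall fun z => ?_)).symm.le.trans (ENNReal.ofReal_le_ofReal hb))
    · refine le_of_eq_of_le ?_ (two (fun q p => lin (tp φ) (c q p) z) fun p hp => by
        simp [lin, hc0 p hp])
      refine lintegral_congr fun u => lintegral_congr fun t => ?_
      have e : lin (tp φ) a (ins i t (ins j' u z)) =
          lin2 φ (fun q p => lin (tp φ) (c q p) z) u t := by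
        rw [lin_tp_ins, lin, lin2, Finset.sum_comm]
        refine Finset.sum_congr rfl fun p _ => ?_
        rw [lin_tp_ins, lin, Finset.sum_mul]
        exact Finset.sum_congr rfl fun q _ => mul_assoc _ _ _
      rw [e, ins_self, ins_coe i t _ j', ins_self, norm_sub_rev, one_div_mul_eq_div]
    · exact mul_nonneg hκ (Finset.sum_nonneg fun q _ => Finset.sum_nonneg fun p _ => sq_nonneg _)
  refine ⟨(lintegral_ofReal_ne_top_iff_integrable hm.aestronglyMeasurable
    (Filter.Eventually.of_forall hnn)).1 (ne_top_of_le_ne_top ENNReal.ofReal_ne_top key), ?_⟩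
  rw [integral_eq_lintegral_of_nonneg_ae (Filter.Eventually.of_forall hnn) hm.aestronglyMeasurable]
  exact ENNReal.toReal_le_of_le_ofReal
    (mul_nonneg (mul_nonneg (by norm_num) hκ) (dot_self_nonneg a)) key

theorem measurableSet_zone {Rg : V → Set Pos3} (hR : ∀ p, MeasurableSet (Rg p)) (hc : V → Prop) :
    MeasurableSet (Zone Rg hc : Set (ι → Pos3)) := by
  unfold Zone
  simp only [ofPred_exists]
  refine MeasurableSet.iUnion fun i => MeasurableSet.iUnion fun j => MeasurableSet.iUnion fun p => ?_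
  exact (MeasurableSet.const _).inter ((MeasurableSet.const _).inter
    ((measurable_pi_apply i (hR p)).inter (measurable_pi_apply j (hR p))))

theorem mr_nice {Rg : V → Set Pos3} (hR : ∀ p, MeasurableSet (Rg p)) (hc : V → Prop)
    {f : (ι → Pos3) → ℝ} (hf : Nice f) : Nice fun x => (Zone Rg hc).indicator 1 x * f x :=
  hf.mul_bdd (C := 1) (measurable_one.indicator (measurableSet_zone hR hc)) fun x => by
    by_cases hx : x ∈ Zone Rg hc <;> simp [hx]

/-- For `v i = v j = p` hard-core the integrand dominates `∏ l, g l (x l)` with `g l = indicator (Rg p) (e p ^ 2)` for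
`l = i, j` and `g l = e (v l) ^ 2` otherwise; `integral_fintype_prod_volume_eq_prod`. -/
theorem zone_tp {e : V → Pos3 → ℝ} (he : ON e) {Rg : V → Set Pos3} (hR : ∀ p, MeasurableSet (Rg p))
    {hc : V → Prop} (hm : ∀ p, hc p → 1 / 4 ≤ ∫ y in Rg p, e p y ^ 2) {v : ι → V} (hv : BadV hc v) :
    1 / 16 ≤ ∫ x, (Zone Rg hc).indicator 1 x * tp e v x ^ 2 := by
  obtain ⟨i, j, hij, hvij, hci⟩ := hv
  let g : ι → Pos3 → ℝ := fun l =>
    if l = i ∨ l = j then (Rg (v l)).indicator fun y => e (v l) y ^ 2 else fun y => e (v l) y ^ 2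
  have g0 : ∀ l y, 0 ≤ g l y ∧ g l y ≤ e (v l) y ^ 2 := fun l y => by
    simp only [g]
    split_ifs
    · exact ⟨indicator_nonneg (fun _ _ => sq_nonneg _) _,
        indicator_le_self' (fun _ _ => sq_nonneg _) _⟩
    · exact ⟨sq_nonneg _, le_rfl⟩
  have gi : g i = (Rg (v i)).indicator fun y => e (v i) y ^ 2 := if_pos (Or.inl rfl)
  have gj : g j = (Rg (v j)).indicator fun y => e (v j) y ^ 2 := if_pos (Or.inr rfl)
  have h1 : 1 / 16 ≤ ∫ x : ι → Pos3, ∏ l, g l (x l) := by
    rw [integral_fintype_prod_volume_eq_prod, Fintype.prod_eq_mul i j hij fun l hl => by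
      rw [show g l = fun y => e (v l) y ^ 2 from if_neg (not_or.2 hl), he.norm], gi, gj,
      integral_indicator (hR _), integral_indicator (hR _)]
    have a1 := hm _ hci
    have a2 := hm _ (hvij ▸ hci)
    nlinarith
  refine h1.trans (integral_mono_of_nonneg (Filter.Eventually.of_forall fun x =>
    Finset.prod_nonneg fun l _ => (g0 l _).1) (mr_nice hR hc (nice_tp he.nice v).sq).integrable
    (Filter.Eventually.of_forall fun x => ?_))
  by_cases hx : x ∈ Zone Rg hc
  · simp only [indicator_of_mem hx, Pi.one_apply, one_mul, tp, ← Finset.prod_pow]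
    exact Finset.prod_le_prod (fun l _ => (g0 l _).1) fun l _ => (g0 l _).2
  · simp only [indicator_of_notMem hx, zero_mul]
    by_cases hxi : x i ∈ Rg (v i)
    · have hxj : x j ∉ Rg (v j) := fun h => hx ⟨i, j, v i, hij, hci, hxi, hvij ▸ h⟩
      exact (Finset.prod_eq_zero (Finset.mem_univ j) (by rw [gj, indicator_of_notMem hxj])).le
    · exact (Finset.prod_eq_zero (Finset.mem_univ i) (by rw [gi, indicator_of_notMem hxi])).le

/-- With `P = lin (tp e) a`: `f² ≥ ½ P² - (f - P)²` pointwise, `ON.lin_sq`, `zone_tp`, `ON.pyth'`. -/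
theorem zone_ge {e : V → Pos3 → ℝ} (he : ON e) {Rg : V → Set Pos3} (hR : ∀ p, MeasurableSet (Rg p))
    {hc : V → Prop} (hm : ∀ p, hc p → 1 / 4 ≤ ∫ y in Rg p, e p y ^ 2) {f : (ι → Pos3) → ℝ} (hf : Nice f) :
    1 / 32 * (∑ v : ι → V, if BadV hc v then coef (tp e) f v ^ 2 else 0) -
        ((∫ x, f x ^ 2) - (coef (tp e) f : (ι → V) → ℝ) ⬝ᵥ coef (tp e) f) ≤
      ∫ x, (Zone Rg hc).indicator 1 x * f x ^ 2 := by
  have hT : ON (tp e : (ι → V) → (ι → Pos3) → ℝ) := he.tp
  obtain ⟨a, ha⟩ : ∃ a : (ι → V) → ℝ, a = coef (tp e) f := ⟨_, rfl⟩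
  have hpy := hT.pyth' hf
  rw [← ha] at hpy ⊢
  have hP : Nice (lin (tp e) a) := Nice.lin hT.nice a
  have i1 := (mr_nice hR hc hP.sq).integrable
  have i2 := (hf.sub hP).sq.integrable
  have h1 : 1 / 16 * (∑ v : ι → V, if BadV hc v then a v ^ 2 else 0) ≤
      ∫ x, (Zone Rg hc).indicator 1 x * lin (tp e) a x ^ 2 := by
    have e1 : ∀ x, (Zone Rg hc).indicator 1 x * lin (tp e) a x ^ 2 =
        ∑ v : ι → V, a v ^ 2 * ((Zone Rg hc).indicator 1 x * tp e v x ^ 2) := fun x => by
      rw [hT.lin_sq, Finset.mul_sum]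
      exact Finset.sum_congr rfl fun v _ => mul_left_comm _ _ _
    simp only [e1]
    rw [integral_finsetSum _ fun v _ =>
      ((mr_nice hR hc (hT.nice v).sq).const_mul _).integrable, Finset.mul_sum]
    refine Finset.sum_le_sum fun v _ => ?_
    rw [integral_const_mul]
    split_ifs with hv
    · rw [mul_comm]
      exact mul_le_mul_of_nonneg_left (zone_tp he hR hm hv) (sq_nonneg _)
    · rw [mul_zero]
      exact mul_nonneg (sq_nonneg _) (integral_nonneg fun x =>
        mul_nonneg (indicator_nonneg (fun _ _ => zero_le_one) _) (sq_nonneg _))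
  have h2 : ∫ x, (1 / 2 * ((Zone Rg hc).indicator 1 x * lin (tp e) a x ^ 2) -
      (f x - lin (tp e) a x) ^ 2) ≤ ∫ x, (Zone Rg hc).indicator 1 x * f x ^ 2 := by
    refine integral_mono ((i1.const_mul _).sub i2) (mr_nice hR hc hf.sq).integrable fun x => ?_
    by_cases hx : x ∈ Zone Rg hc
    · simp only [indicator_of_mem hx, Pi.one_apply, one_mul]
      nlinarith [sq_nonneg (2 * f x - lin (tp e) a x)]
    · simp only [indicator_of_notMem hx, zero_mul, mul_zero]
      nlinarith [sq_nonneg (f x - lin (tp e) a x)]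
  rw [integral_sub (i1.const_mul _) i2, integral_const_mul, hpy] at h2
  linarith

/-- Off the null sets `elPos i x = elPos j x` (`Measure.addHaar_submodule`, or `mp_cfg`) a point of the zone has a pair
at distance in `(0, d0]`; the other terms of the repulsion are `≥ 0` (`norm_sub_rev` if `j < i`). -/
theorem zone_le_rep {Rg : V → Set Pos3} {hc : V → Prop} {d0 : ℝ} (hd : 0 < d0)
    (hdiam : ∀ p, hc p → ∀ y ∈ Rg p, ∀ y' ∈ Rg p, ‖y - y'‖ ≤ d0) :
    ∀ᵐ x : Config N, 1 / d0 * (Zone Rg hc).indicator 1 (fun i => elPos i x) ≤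
      ∑ i : Fin N, ∑ j : Fin N, if i < j then 1 / ‖elPos i x - elPos j x‖ else 0 := by
  have hne : ∀ᵐ x : Config N, ∀ i j : Fin N, i ≠ j → elPos i x ≠ elPos j x := by
    refine ae_all_iff.2 fun i => ae_all_iff.2 fun j => ?_
    by_cases hij : i = j
    · exact Filter.Eventually.of_forall fun x h => absurd hij h
    let L : Fin N → (Config N →ₗ[ℝ] Pos3) := fun l =>
      (LinearMap.proj l).comp (ms_cfgL N).symm.toLinearEquiv.toLinearMap
    have hs : LinearMap.eqLocus (L i) (L j) ≠ ⊤ := fun h => by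
      have h1 : cfg (Pi.single i (EuclideanSpace.single 0 1)) ∈ LinearMap.eqLocus (L i) (L j) :=
        h ▸ Submodule.mem_top
      have h2 : (Pi.single i (EuclideanSpace.single 0 1) : Fin N → Pos3) i =
          (Pi.single i (EuclideanSpace.single 0 1) : Fin N → Pos3) j := h1
      rw [Pi.single_eq_same, Pi.single_eq_of_ne' hij] at h2
      simpa using congrArg (fun y : Pos3 => y 0) h2
    have h0 := Measure.addHaar_submodule (volume : Measure (Config N)) _ hs
    filter_upwards [measure_eq_zero_iff_ae_notMem.1 h0] with x hx _ using hx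
  filter_upwards [hne] with x hx
  have hnn : ∀ i j : Fin N, 0 ≤ if i < j then 1 / ‖elPos i x - elPos j x‖ else 0 := fun i j => by
    split_ifs <;> positivity
  have key : ∀ i j p, i < j → hc p → elPos i x ∈ Rg p → elPos j x ∈ Rg p →
      1 / d0 ≤ ∑ i : Fin N, ∑ j : Fin N, if i < j then 1 / ‖elPos i x - elPos j x‖ else 0 := by
    intro i j p hij hp hi hj
    refine le_trans ?_ (Finset.single_le_sum (fun l _ => Finset.sum_nonneg fun m _ => hnn l m)
      (Finset.mem_univ i))
    refine le_trans ?_ (Finset.single_le_sum (fun m _ => hnn i m) (Finset.mem_univ j))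
    rw [if_pos hij]
    exact one_div_le_one_div_of_le (norm_sub_pos_iff.2 (hx i j hij.ne)) (hdiam p hp _ hi _ hj)
  by_cases hz : (fun i => elPos i x) ∈ Zone Rg hc
  · rw [indicator_of_mem hz, Pi.one_apply, mul_one]
    obtain ⟨i, j, p, hij, hp, hi, hj⟩ := hz
    rcases hij.lt_or_gt with h | h
    · exact key i j p h hp hi hj
    · exact key j i p h hp hj hi
  · rw [indicator_of_notMem hz, mul_zero]
    exact Finset.sum_nonneg fun l _ => Finset.sum_nonneg fun m _ => hnn l m

end Crest.Agent.R338
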