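import Crest.Agent.R338.Kin
import Crest.Agent.R338.FTrans
import Crest.Agent.R338.Many_Bessel
import Crest.Agent.R338.Many_Rep

/-! # From the one-body package to the `N`-electron energy

Use the measure preserving identification `Config N ≃ (Fin N → Pos3)` (`elPos`), Fubini in one variable
(`MeasurableEquiv.piFinSuccAbove`), `integral_fintype_prod_eq_prod`, local integrability of
`1/‖elPos i x - R‖` and `1/‖elPos i x - elPos j x‖`, and `gradSq Ψ = ∑ᵢ (gradSq in the variable i)`.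

**Upper bound.** For `A` from `FYes` put `Ψ s x = ∑_v A (fun i => (v i, s i)) ∏ᵢ φ (v i) (elPos i x)`; it is `IsC`.
With the Gram matrix `S p q = ∫ φ p φ q` and `M p q` = matrix of the bilinear form of `q - E0`,
`cNsq Ψ = A⬝S^{⊗}A` and kinetic + attraction `- N E0 cNsq = ∑ᵢ A⬝(M⁽ⁱ⁾ ⊗ S…)A`; apply `gram_energy` with
`k + err • 1` (norm `≤ ν + err ≤ 2ν`; `a + N err`, see below).  Repulsion of the pair `(i,j)`: freeze the other
variables, `Ψ = lin2 φ β` with `β p p = 0` at hard-core sites (`HCok`), use `two`, and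
`∫ ∑ β² ≤ 3 |A|²` (Gram bound in the other variables).  By antisymmetry it is enough to treat one pair.
Then `kin_yes`.

**Lower bound.** `F x = ∑ᵢ ∑_α 1/‖xᵢ - R α‖`, `Wb x = (1/d0) ∑_{i<j} ∑_{p hc} 1[xᵢ ∈ Rg p] 1[xⱼ ∈ Rg p]` is below
the repulsion off the null set `xᵢ = xⱼ`.  For `IsC Ψ` let `A (v,s) = ∫ Ψ s ∏ e (v i)` (antisymmetric),
`PΨ = ∑ A ∏ e`, `Ψ' = Ψ - PΨ`, `αⁱ p (x̂) = ∫ e p (t) Ψ(x̂, xᵢ = t)`.  Apply `low` in each variable and integrate.
Tensorised Bessel: `|Ψ|² - |A|² ≤ ∑ᵢ (|Ψ|² - ∫|αⁱ|²)` (induction on `N`, class of bounded measurable functions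
with bounded support), `∑ᵢ ∫ αⁱ⬝k αⁱ ≥ A⬝fmat k A - N ν |Ψ'|²` (cross terms vanish), and
`∫ Wb Ψ² ≥ ½ ∫ Wb (PΨ)² - (N²/d0)|Ψ'|²`, `∫ Wb (PΨ)² ≥ (1/(16 d0)) ∑_{Bad} A²` (disjoint supports, `Rg_mass`).
Conclude with `FNo.soft`, `u = 1/(32 d0)`, and `kin_no`. -/

set_option autoImplicit false
set_option linter.dupNamespace false
set_option linter.unusedVariables false

noncomputable section

namespace Crest.Agent.R338

open Matrix MeasureTheory Set
open Crest.MathPhysics.ElectronicCoulomb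

variable {V : Type} [Fintype V] [DecidableEq V]

/-- The attraction of one electron. -/
def attr {M : ℕ} (R : Fin M → Pos3) (y : Pos3) : ℝ := ∑ α, -(1 / ‖y - R α‖)

theorem many_qf_add {N : ℕ} {W W' f : Config N → ℝ} (h : Integrable fun x => W x * f x ^ 2)
    (h' : Integrable fun x => W' x * f x ^ 2) :
    qf gradSq (fun x => W x + W' x) f = qf gradSq W f + ∫ x, W' x * f x ^ 2 := by
  simp only [qf, add_mul]
  rw [integral_add h h', add_assoc]

theorem many_yes_spin {M N : ℕ} (R : Fin M → Pos3) {k : Matrix V V ℝ} {hc : V → Prop}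
    {E0 err γ d0 κ η : ℝ} (ob : OB Pos3 gradSq (fun y => ‖y‖) (attr R) k hc E0 err γ d0 κ η)
    (hη : 0 ≤ η) (hN : N * η ≤ 1) (hκ : 0 ≤ κ) (a : (Fin N → V) → ℝ)
    (ha : ∀ i j v, i ≠ j → v i = v j → hc (v i) → a v = 0) {f : Config N → ℝ} (hf : Cc1 f)
    (hfa : ∀ z, f (cfg z) = lin (tp ob.φ) a z) :
    (Integrable fun x => unitNucleiPotential R x * f x ^ 2) ∧
      qf gradSq (unitNucleiPotential R) f ≤ N * E0 * (∫ x, f x ^ 2) +
        ∑ i, a ⬝ᵥ tens (Function.update (fun _ : Fin N => gramM ob.φ) i (k + err • (1 : Matrix V V ℝ))) *ᵥ a +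
        3 * (N : ℝ) ^ 2 * κ * (a ⬝ᵥ a) := by
  have hφ : ∀ p, Nice (ob.φ p) := fun p => nice_of_cont (ob.φ_reg p).1.continuous (ob.φ_reg p).2
  have gram : ∀ u : V → ℝ, u ⬝ᵥ u ≤ u ⬝ᵥ gramM ob.φ *ᵥ u ∧ u ⬝ᵥ gramM ob.φ *ᵥ u ≤ (1 + η) * (u ⬝ᵥ u) :=
    fun u => gram_one hφ u ▸ ob.gram u
  obtain ⟨q1, q2, q3⟩ := qf_slices R hf
  have hp : ∀ i j : Fin N, (Integrable fun x : Config N =>
      (if i < j then 1 / ‖elPos i x - elPos j x‖ else 0) * f x ^ 2) ∧
      ∫ x : Config N, (if i < j then 1 / ‖elPos i x - elPos j x‖ else 0) * f x ^ 2 ≤ 3 * κ * (a ⬝ᵥ a) := by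
    intro i j
    split_ifs with hij
    · have := pair_le (ι := Fin N) hφ hκ hη (by simpa using hN) gram ob.two hij.ne a fun v => ha i j v hij.ne
      rw [← integrable_cfg, integral_cfg]
      simpa only [elPos_cfg, hfa] using this
    · have := dot_self_nonneg a
      simp only [zero_mul, integrable_fun_zero, integral_zero, true_and]
      positivity
  have hrep : Integrable fun x : Config N =>
      (∑ i : Fin N, ∑ j : Fin N, if i < j then 1 / ‖elPos i x - elPos j x‖ else 0) * f x ^ 2 := by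
    simp only [Finset.sum_mul]
    exact integrable_finsetSum _ fun i _ => integrable_finsetSum _ fun j _ => (hp i j).1
  have hW : unitNucleiPotential (n := N) R = fun x => (∑ i, attr0 R (elPos i x)) +
      ∑ i : Fin N, ∑ j : Fin N, if i < j then 1 / ‖elPos i x - elPos j x‖ else 0 := rfl
  rw [hW]
  refine ⟨(q2.add hrep).congr (Filter.Eventually.of_forall fun x => (add_mul _ _ _).symm), ?_⟩
  rw [many_qf_add q2 hrep, q3]
  refine add_le_add ?_ ?_
  · have hg : Integrable fun z => f (cfg z) ^ 2 := (nice_cfg hf).sq.integrable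
    have hc' : N * E0 * (∫ x, f x ^ 2) = ∑ _i : Fin N, E0 * ∫ x, f x ^ 2 := by
      rw [Finset.sum_const, Finset.card_fin, nsmul_eq_mul, mul_assoc]
    rw [hc', ← Finset.sum_add_distrib]
    refine Finset.sum_le_sum fun i _ => ?_
    obtain ⟨i1, i2⟩ := integral_ins i hg
    have i3 := (Nice.form (fun p => Nice.lin (nice_tp (ι := {j // j ≠ i}) hφ) fun w => a (ins i p w))
      (k + err • (1 : Matrix V V ℝ))).integrable
    rw [integral_cfg fun x => f x ^ 2, i2, ← gram_slice hφ, ← integral_const_mul, ← integral_add (i1.const_mul _) i3]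
    refine integral_mono (q1 i) ((i1.const_mul _).add i3) fun y => ?_
    have := ob.up fun p => lin (tp ob.φ) (fun w => a (ins i p w)) y
    simp only [hfa, lin_tp_ins, add_mulVec, smul_mulVec, one_mulVec, dotProduct_add, dotProduct_smul, smul_eq_mul]
    exact this.trans (le_of_eq (add_assoc _ _ _))
  · simp only [Finset.sum_mul]
    rw [integral_finsetSum _ fun i _ => integrable_finsetSum _ fun j _ => (hp i j).1]
    calc _ ≤ ∑ _i : Fin N, ∑ _j : Fin N, 3 * κ * (a ⬝ᵥ a) := by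
          refine Finset.sum_le_sum fun i _ => ?_
          rw [integral_finsetSum _ fun j _ => (hp i j).1]
          exact Finset.sum_le_sum fun j _ => (hp i j).2
      _ = _ := by simp only [Finset.sum_const, Finset.card_fin, nsmul_eq_mul]; ring

theorem many_yes {M N : ℕ} (R : Fin M → Pos3) {k : Matrix V V ℝ} {hc : V → Prop}
    {E0 err γ d0 κ η ν a : ℝ} (ob : OB Pos3 gradSq (fun y => ‖y‖) (attr R) k hc E0 err γ d0 κ η)
    (hk : OpLe k ν) (ha : |a| ≤ ν) (herr : 0 ≤ err) (herr' : (N + 1) * err ≤ ν) (hη : 0 ≤ η)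
    (hN : N * η ≤ 1) (hκ : 0 ≤ κ) (H : FYes (Fin N) hc k a) :
    InfEnergyLE (unitNucleiPotential (n := N) R)
      (N * E0 + a + (N * err + 16 * (N : ℝ) ^ 2 * η * ν + 3 * (N : ℝ) ^ 2 * κ)) := by
  obtain ⟨A, hA, hH, h0, hE⟩ := H
  have hφ : ∀ p, Nice (ob.φ p) := fun p => nice_of_cont (ob.φ_reg p).1.continuous (ob.φ_reg p).2
  have gram : ∀ u : V → ℝ, u ⬝ᵥ u ≤ u ⬝ᵥ gramM ob.φ *ᵥ u ∧ u ⬝ᵥ gramM ob.φ *ᵥ u ≤ (1 + η) * (u ⬝ᵥ u) :=
    fun u => gram_one hφ u ▸ ob.gram u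
  have hν : 0 ≤ ν := (abs_nonneg a).trans ha
  have hN0 : (0 : ℝ) ≤ N := Nat.cast_nonneg N
  have hNe : 0 ≤ N * err := by positivity
  have hΨ := isC_lin ob.φ_reg hA
  set Ψ : Spin N → Config N → ℝ := fun s x => lin (tp ob.φ) (spn A s) fun i => elPos i x with hΨd
  have hs := fun s => many_yes_spin R ob hη hN hκ (spn A s)
    (fun i j v hij h1 h2 => hH (fun l => (v l, s l)) i j hij h1 h2) (hΨ.1 s) fun z => rfl
  have hn : cNsq Ψ = A ⬝ᵥ tens (fun _ : Fin N => hsp (gramM ob.φ)) *ᵥ A := by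
    rw [spn_tens (fun _ => gramM ob.φ) A, cNsq]
    refine Finset.sum_congr rfl fun s _ => ?_
    rw [integral_cfg, ← gram_tp hφ]
    simp only [sq]
    rfl
  have hk' : OpLe (k + err • (1 : Matrix V V ℝ)) (2 * ν) := by
    have h1 := hk.add ((OpLe.one (κ := V)).smul err) hν (by positivity)
    refine h1.mono (by positivity) ?_
    rw [abs_of_nonneg herr]
    linarith
  obtain ⟨g1, -, g3⟩ := gram_energy (ι := Fin N) (gramM ob.φ) (k + err • (1 : Matrix V V ℝ))
    (k + err • (1 : Matrix V V ℝ)) (η := η) (ν := 2 * ν) (a := a + N * err) (gramM_symm _) hη (by simpa using hN)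
    (by positivity) (by
      have := abs_le.1 ha
      rw [abs_le]; constructor <;> linarith) hk' gram (fun _ => le_rfl) A (by
      have := fb_form_le (ι := Fin N) (h := k) (h' := k + err • (1 : Matrix V V ℝ)) (e := err) (fun u => by
        simp only [add_mulVec, smul_mulVec, one_mulVec, dotProduct_add, dotProduct_smul, smul_eq_mul, le_refl]) A
      rw [Fintype.card_fin] at this
      linarith)
  rw [← hn] at g1 g3
  rw [Fintype.card_fin] at g3
  refine kin_yes _ Ψ _ hΨ ((dot_self_pos h0).trans_le g1) (fun s => (hs s).1) ?_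
  refine (Finset.sum_le_sum fun s _ => (hs s).2).trans ?_
  rw [Finset.sum_add_distrib, Finset.sum_add_distrib, ← Finset.mul_sum, ← Finset.mul_sum, ← spn_dot,
    Finset.sum_comm]
  simp only [← spn_update]
  have h1 : 3 * (N : ℝ) ^ 2 * κ * (A ⬝ᵥ A) ≤ 3 * (N : ℝ) ^ 2 * κ * cNsq Ψ :=
    mul_le_mul_of_nonneg_left g1 (by positivity)
  have h2 : (∑ s, ∫ x, Ψ s x ^ 2) = cNsq Ψ := rfl
  rw [h2]
  linarith

open scoped Classical in
theorem many_no_spin {M N : ℕ} (R : Fin M → Pos3) {k : Matrix V V ℝ} {hc : V → Prop}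
    {E0 err γ d0 κ η ν : ℝ} (ob : OB Pos3 gradSq (fun y => ‖y‖) (attr R) k hc E0 err γ d0 κ η)
    (hk : OpLe k ν) (hν : 0 ≤ ν) (hd : 0 < d0) (hγ : (N + 1) * ν + (N : ℝ) ^ 2 / d0 ≤ γ)
    {f : Config N → ℝ} (hf : Cc1 f) (a : (Fin N → V) → ℝ) (ha : a = coef (tp ob.e) fun z => f (cfg z)) :
    a ⬝ᵥ a ≤ ∫ x, f x ^ 2 ∧
    N * (E0 - err) * (∫ x, f x ^ 2) + (∑ i, a ⬝ᵥ loc i k *ᵥ a) +
        1 / (32 * d0) * (∑ v, if BadV hc v then a v ^ 2 else 0) + ν * ((∫ x, f x ^ 2) - a ⬝ᵥ a) ≤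
      qf gradSq (fun x => (∑ i, attr0 R (elPos i x)) +
        1 / d0 * (Zone ob.Rg hc).indicator 1 fun i => elPos i x) f := by
  have he : ON ob.e := ⟨fun p => ⟨ob.e_meas p, ob.e_bdd.imp fun C h => h p⟩, ob.e_disj, ob.e_norm⟩
  have hg := nice_cfg hf
  obtain ⟨q1, q2, q3⟩ := qf_slices R hf
  have hZ : Nice fun z : Fin N → Pos3 => (Zone ob.Rg hc).indicator (1 : (Fin N → Pos3) → ℝ) z * f (cfg z) ^ 2 :=
    hg.sq.mul_bdd (measurable_one.indicator (measurableSet_zone ob.Rg_meas hc)) (C := 1) fun x => by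
      by_cases h : x ∈ Zone ob.Rg hc <;> simp [h]
  have hWb : Integrable fun x : Config N =>
      (1 / d0 * (Zone ob.Rg hc).indicator 1 fun i => elPos i x) * f x ^ 2 := by
    rw [← integrable_cfg]
    exact (hZ.integrable.const_mul (1 / d0)).congr (Filter.Eventually.of_forall fun x => (mul_assoc _ _ _).symm)
  have z1 := zone_ge he ob.Rg_meas ob.Rg_mass hg
  have z2 : ∫ x : Config N, (1 / d0 * (Zone ob.Rg hc).indicator 1 fun i => elPos i x) * f x ^ 2 =
      1 / d0 * ∫ z, (Zone ob.Rg hc).indicator 1 z * f (cfg z) ^ 2 := by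
    rw [integral_cfg, ← integral_const_mul]
    simp only [mul_assoc]
    rfl
  have b0 := (he.tp (ι := Fin N)).bessel hg
  have b1 := tens_bessel he hg
  have b2 := Finset.sum_le_sum fun i (_ : i ∈ Finset.univ) => slice_form he hg hk hν i
  have b3 : ∀ i : Fin N, (E0 - err) * (∫ z, f (cfg z) ^ 2) +
      (∫ y, al ob.e i (fun z => f (cfg z)) y ⬝ᵥ k *ᵥ al ob.e i (fun z => f (cfg z)) y) +
      γ * ((∫ z, f (cfg z) ^ 2) - ∫ y, al ob.e i (fun z => f (cfg z)) y ⬝ᵥ al ob.e i (fun z => f (cfg z)) y) ≤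
      ∫ y, qf gradSq (attr0 R) fun t => f (cfg (ins i t y)) := by
    intro i
    obtain ⟨i1, i2⟩ := integral_ins i hg.sq.integrable
    have i3 := (Nice.form (nice_al he.nice hg i) k).integrable
    have i4 := (Nice.dot (nice_al he.nice hg i)).integrable
    rw [i2, ← integral_sub i1 i4, ← integral_const_mul, ← integral_const_mul, ← integral_add (i1.const_mul _) i3,
      ← integral_add ((i1.const_mul _).fun_add i3) ((i1.sub' i4).const_mul _)]
    exact integral_mono (((i1.const_mul _).add i3).add ((i1.sub i4).const_mul _)) (q1 i)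
      fun y => ob.low _ (cc1_slice hf i y)
  have b4 := Finset.sum_le_sum fun i (_ : i ∈ Finset.univ) => b3 i
  rw [many_qf_add q2 hWb, q3, z2, integral_cfg fun x => f x ^ 2]
  rw [← ha] at z1 b0 b1 b2
  refine ⟨b0, ?_⟩
  rw [Finset.sum_add_distrib, Finset.sum_add_distrib, ← Finset.mul_sum (a := γ), Finset.sum_const, Finset.card_fin,
    nsmul_eq_mul] at b4
  rw [Finset.sum_sub_distrib, Finset.sum_const, Finset.card_fin, nsmul_eq_mul] at b2
  have hγ0 : 0 ≤ γ := le_trans (by positivity) hγ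
  have c1 := mul_le_mul_of_nonneg_left b1 hγ0
  have c2 := mul_le_mul_of_nonneg_left z1 (one_div_pos.2 hd).le
  have hδ : 0 ≤ (∫ z, f (cfg z) ^ 2) - a ⬝ᵥ a := sub_nonneg.2 b0
  have c3 := mul_le_mul_of_nonneg_right hγ hδ
  have c4 : 1 / d0 * ((∫ z, f (cfg z) ^ 2) - a ⬝ᵥ a) ≤ (N : ℝ) ^ 2 / d0 * ((∫ z, f (cfg z) ^ 2) - a ⬝ᵥ a) := by
    rcases Nat.eq_zero_or_pos N with rfl | hN
    · have : (∫ z, f (cfg z) ^ 2) - a ⬝ᵥ a = 0 := le_antisymm (by simpa using b1) hδ
      rw [this, mul_zero, mul_zero]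
    · have : (1 : ℝ) ≤ N := by exact_mod_cast hN
      gcongr
      exact one_le_pow₀ this
  have c5 : 1 / (32 * d0) = 1 / d0 * (1 / 32) := by field_simp
  rw [c5]
  linarith

theorem many_no {M N : ℕ} (R : Fin M → Pos3) {k : Matrix V V ℝ} {hc : V → Prop}
    {E0 err γ d0 κ η ν b : ℝ} (ob : OB Pos3 gradSq (fun y => ‖y‖) (attr R) k hc E0 err γ d0 κ η)
    (hk : OpLe k ν) (hb : |b| ≤ ν) (herr : 0 ≤ err) (hd : 0 < d0)
    (hu : 64 * (N + 1) * ν * d0 ≤ 1) (hγ : (N + 1) * ν + (N : ℝ) ^ 2 / d0 ≤ γ)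
    (H : FNo (Fin N) hc k b) :
    InfEnergyGE (unitNucleiPotential (n := N) R)
      (N * E0 + b - (N * err + 64 * (N : ℝ) ^ 2 * ν ^ 2 * d0)) := by
  classical
  have hν : 0 ≤ ν := (abs_nonneg b).trans hb
  have hm : ∀ i : Fin N, Measurable fun x : Config N => elPos i x := fun i => by
    unfold elPos; fun_prop
  have hW : ∀ x : Config N, 1 / d0 * ((Zone ob.Rg hc).indicator 1 fun i => elPos i x) -
      ∑ i : Fin N, ∑ α, 1 / ‖elPos i x - R α‖ = (∑ i, attr0 R (elPos i x)) +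
        1 / d0 * (Zone ob.Rg hc).indicator 1 fun i => elPos i x := fun x => by
    simp only [attr0, Finset.sum_neg_distrib]; ring
  refine kin_no _ (fun x => ∑ i : Fin N, ∑ α, 1 / ‖elPos i x - R α‖)
    (fun x => 1 / d0 * (Zone ob.Rg hc).indicator 1 fun i => elPos i x) _ (1 / d0) ?_ (fun x => by positivity) ?_
    (fun x => ?_) ?_ (fun f hf => ?_) fun Ψ hΨ => ?_
  · exact Finset.measurable_sum _ fun i _ => Finset.measurable_sum _ fun α _ =>
      ((hm i).sub_const _).norm.const_div 1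
  · exact ((measurable_one.indicator (measurableSet_zone ob.Rg_meas hc)).comp
      (measurable_pi_lambda _ hm)).const_mul _
  · have : 0 < 1 / d0 := one_div_pos.2 hd
    by_cases h : (fun i => elPos i x) ∈ Zone ob.Rg hc
    · rw [indicator_of_mem h, Pi.one_apply, mul_one, abs_of_pos this]
    · rw [indicator_of_notMem h, mul_zero, abs_zero]; exact this.le
  · filter_upwards [zone_le_rep (N := N) hd ob.Rg_diam] with x hx
    rw [hW]
    exact add_le_add le_rfl hx
  · have := (qf_slices R hf).2.1.neg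
    refine this.congr (Filter.Eventually.of_forall fun x => ?_)
    simp only [attr0, Finset.sum_neg_distrib, Pi.neg_apply, neg_mul, neg_neg]
  · simp only [hW]
    set A : FSt (Fin N) V := fun x => coef (tp ob.e) (fun z => Ψ (fun i => (x i).2) (cfg z)) fun i => (x i).1
    have hs := fun s => many_no_spin R ob hk hν hd hγ (hΨ.1 s) (spn A s) rfl
    have h1 := H.soft hk hν hb (u := 1 / (32 * d0)) (by positivity) (by
      rw [Fintype.card_fin, le_div_iff₀ (by positivity)]; linarith) A (anti_coef ob.e hΨ)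
    have h2 := Finset.sum_le_sum fun s (_ : s ∈ Finset.univ) => (hs s).1
    have h3 := Finset.sum_le_sum fun s (_ : s ∈ Finset.univ) => (hs s).2
    have h4 : (∑ x, if Bad hc x then A x ^ 2 else 0) = ∑ s, ∑ v, if BadV hc v then spn A s v ^ 2 else 0 := by
      rw [sum_spn]
      rfl
    rw [Finset.sum_add_distrib, Finset.sum_add_distrib, Finset.sum_add_distrib, ← Finset.mul_sum, ← Finset.mul_sum,
      ← Finset.mul_sum, Finset.sum_sub_distrib, ← spn_fmat, ← spn_dot, ← h4] at h3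
    rw [← spn_dot] at h2
    have h5 : (∑ s, ∫ x, Ψ s x ^ 2) = cNsq Ψ := rfl
    rw [h5] at h2 h3
    have h6 : 2 * (Fintype.card (Fin N) : ℝ) ^ 2 * ν ^ 2 / (1 / (32 * d0)) = 64 * (N : ℝ) ^ 2 * ν ^ 2 * d0 := by
      rw [Fintype.card_fin]; field_simp; ring
    rw [h6] at h1
    have h7 : b - 64 * (N : ℝ) ^ 2 * ν ^ 2 * d0 ≤ ν := by
      have : 0 ≤ 64 * (N : ℝ) ^ 2 * ν ^ 2 * d0 := by positivity
      linarith [le_abs_self b]
    have h8 := mul_le_mul_of_nonneg_right h7 (sub_nonneg.2 h2)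
    refine le_trans ?_ h3
    linarith

end Crest.Agent.R338
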