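import Crest.Agent.R338.Many

/-! # From scaled coordinates on `P3` to physical coordinates on `Pos3`
`phys ℓ : P3 ≃L[ℝ] Pos3` maps `volume` to `ℓ⁻³ • volume` (so `∫ x, F x = ℓ³ ∫ y, F (phys ℓ y)`),
`‖phys ℓ y‖ = ℓ nrm3 y`, `gsq3 (ψ ∘ phys ℓ) y = ℓ² gradSq ψ (phys ℓ y)`.  New data: `e' p x = c e p (phys⁻¹ x)`,
`φ' p x = c φ p (phys⁻¹ x)`, `c = ℓ^{-3/2} = (√ℓ)⁻¹^3`, `Rg' p = phys '' Rg p`; for `ψ` on `Pos3` apply `low` to
`c⁻¹ ψ ∘ phys`. -/

set_option autoImplicit false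
set_option linter.dupNamespace false
set_option linter.unusedVariables false

noncomputable section

namespace Crest.Agent.R338

open Matrix MeasureTheory Set
open Crest.MathPhysics.ElectronicCoulomb

theorem scale_cc1 {E E' : Type} [NormedAddCommGroup E] [NormedSpace ℝ E] [NormedAddCommGroup E']
    [NormedSpace ℝ E'] (T : E ≃L[ℝ] E') (a : ℝ) {ψ : E' → ℝ} (h : Cc1 ψ) :
    Cc1 fun y => a * ψ (T y) :=
  ⟨contDiff_const.mul (h.1.comp T.contDiff), (h.2.comp_homeomorph T.toHomeomorph).mul_left⟩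

/-- transfer of the package along a linear change of variables -/
theorem OB.transfer {E E' : Type} [NormedAddCommGroup E] [NormedSpace ℝ E] [MeasureSpace E]
    [BorelSpace E] [NormedAddCommGroup E'] [NormedSpace ℝ E'] [MeasureSpace E'] [BorelSpace E']
    {gsq : (E → ℝ) → E → ℝ} {nrm W : E → ℝ} {gsq' : (E' → ℝ) → E' → ℝ} {nrm' W' : E' → ℝ}
    (T : E ≃L[ℝ] E') {ℓ c : ℝ} (hℓ : 0 < ℓ) (hc0 : 0 < c)
    (hmap : Measure.map T volume = ENNReal.ofReal (c ^ 2) • (volume : Measure E'))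
    (hn : ∀ y, nrm' (T y) = ℓ * nrm y)
    (hg : ∀ (ψ : E' → ℝ) (a : ℝ) (y : E), Differentiable ℝ ψ →
      gsq (fun y => a * ψ (T y)) y = a ^ 2 * (ℓ ^ 2 * gsq' ψ (T y)))
    (hW : ∀ y, W y = ℓ ^ 2 * W' (T y))
    {V : Type} [Fintype V] {k : Matrix V V ℝ} {hc : V → Prop} {E0 err γ d0 κ η : ℝ}
    (ob : OB E gsq nrm W k hc E0 err γ d0 κ η) :
    Nonempty (OB E' gsq' nrm' W' ((ℓ ^ 2)⁻¹ • k) hc
      (E0 / ℓ ^ 2) (err / ℓ ^ 2) (γ / ℓ ^ 2) (ℓ * d0) (κ / ℓ) η) := by
  have hemb : MeasurableEmbedding T := T.toHomeomorph.measurableEmbedding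
  have hI : ∀ (F : E' → ℝ) (G : E → ℝ), (∀ y, F (T y) = c ^ 2 * G y) → ∫ x, F x = ∫ y, G y := by
    intro F G h
    have h1 := hemb.integral_map (μ := volume) F
    rw [hmap, integral_smul_measure, ENNReal.toReal_ofReal (by positivity), smul_eq_mul] at h1
    simp only [h, integral_const_mul] at h1
    exact mul_left_cancel₀ (by positivity) h1
  have hL : ∀ (F : E' → ENNReal) (G : E → ENNReal),
      (∀ y, F (T y) = ENNReal.ofReal (c ^ 2) * G y) → ∫⁻ x, F x = ∫⁻ y, G y := by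
    intro F G h
    have h1 := hemb.lintegral_map (μ := volume) F
    rw [hmap, lintegral_smul_measure, smul_eq_mul] at h1
    simp only [h] at h1
    rw [lintegral_const_mul' _ _ ENNReal.ofReal_ne_top] at h1
    exact (ENNReal.mul_right_inj (ENNReal.ofReal_pos.2 (by positivity)).ne'
      ENNReal.ofReal_ne_top).1 h1
  have hsq : ∀ ψ : E' → ℝ, ∫ x, ψ x ^ 2 = ∫ y, (c⁻¹ * ψ (T y)) ^ 2 := fun ψ =>
    hI _ _ fun y => by field_simp
  have hq : ∀ ψ : E' → ℝ, Differentiable ℝ ψ →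
      qf gsq W (fun y => c⁻¹ * ψ (T y)) = ℓ ^ 2 * qf gsq' W' ψ := by
    intro ψ hψ
    unfold qf
    rw [← hI (fun x => ℓ ^ 2 * gsq' ψ x) _ fun y => by rw [hg ψ _ y hψ]; field_simp,
      ← hI (fun x => ℓ ^ 2 * (W' x * ψ x ^ 2)) _ fun y => by rw [hW]; field_simp,
      integral_const_mul, integral_const_mul]
    ring
  have hlin : ∀ α : V → ℝ, (fun y => c⁻¹ * lin (fun p x => c * ob.φ p (T.symm x)) α (T y)) =
      lin ob.φ α := by
    intro α
    funext y
    unfold lin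
    rw [Finset.mul_sum]
    refine Finset.sum_congr rfl fun p _ => ?_
    beta_reduce
    rw [T.symm_apply_apply]
    field_simp
  have hlin' : ∀ α : V → ℝ, ∫ x, lin (fun p x => c * ob.φ p (T.symm x)) α x ^ 2 =
      ∫ y, lin ob.φ α y ^ 2 := by
    intro α
    rw [hsq, ← hlin α]
  have hl2 : 0 < ℓ ^ 2 := by positivity
  have hsm : Measurable T.symm := T.symm.continuous.measurable
  refine ⟨{
    e := fun p x => c * ob.e p (T.symm x)
    Rg := fun p => T.symm ⁻¹' ob.Rg p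
    φ := fun p x => c * ob.φ p (T.symm x)
    e_meas := fun p => ((ob.e_meas p).comp hsm).const_mul c
    e_bdd := ?_
    e_disj := fun p q x hpq => ?_
    e_norm := fun p => ?_
    Rg_meas := fun p => hsm (ob.Rg_meas p)
    Rg_disj := fun p q hpq => (ob.Rg_disj p q hpq).preimage _
    Rg_other := fun p q hpq x hx => by rw [ob.Rg_other p q hpq _ hx, mul_zero]
    Rg_diam := fun p hp x hx x' hx' => ?_
    Rg_mass := fun p hp => ?_
    low := fun ψ hψ => ?_
    φ_reg := fun p => scale_cc1 T.symm c (ob.φ_reg p)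
    gram := fun α => by rw [hlin']; exact ob.gram α
    up := fun α => ?_
    two := fun β hβ => ?_ }⟩
  · obtain ⟨C, hC⟩ := ob.e_bdd
    refine ⟨max (c * C) (‖(T : E →L[ℝ] E')‖ * C), fun p x => ⟨?_, fun h => ?_⟩⟩
    · rw [abs_mul, abs_of_pos hc0]
      exact (mul_le_mul_of_nonneg_left (hC p _).1 hc0.le).trans (le_max_left _ _)
    · rw [(hC p _).2 (lt_of_not_ge fun h' => ?_), mul_zero]
      have h1 := (T : E →L[ℝ] E').le_opNorm_of_le h'
      rw [ContinuousLinearEquiv.coe_coe, T.apply_symm_apply] at h1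
      exact absurd ((le_max_right _ _).trans_lt h) (not_lt.2 h1)
  · rw [mul_mul_mul_comm, ob.e_disj p q _ hpq, mul_zero]
  · rw [← ob.e_norm p]
    exact hI _ _ fun y => by rw [T.symm_apply_apply, mul_pow]
  · have h1 := hn (T.symm x - T.symm x')
    rw [map_sub, T.apply_symm_apply, T.apply_symm_apply] at h1
    rw [h1]
    exact mul_le_mul_of_nonneg_left (ob.Rg_diam p hp _ hx _ hx') hℓ.le
  · refine (ob.Rg_mass p hp).trans (le_of_eq ?_)
    rw [← integral_indicator (ob.Rg_meas p), ← integral_indicator (hsm (ob.Rg_meas p))]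
    refine (hI _ _ fun y => ?_).symm
    by_cases hy : y ∈ ob.Rg p
    · rw [indicator_of_mem hy, indicator_of_mem (by simpa using hy), T.symm_apply_apply, mul_pow]
    · rw [indicator_of_notMem hy, indicator_of_notMem (by simpa using hy), mul_zero]
  · have h1 := ob.low _ (scale_cc1 T c⁻¹ hψ)
    have h2 : coef (fun p x => c * ob.e p (T.symm x)) ψ = coef ob.e fun y => c⁻¹ * ψ (T y) := by
      funext p
      exact hI _ _ fun y => by beta_reduce; rw [T.symm_apply_apply]; field_simp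
    rw [hq ψ (hψ.1.differentiable one_ne_zero), ← hsq, ← h2] at h1
    rw [smul_mulVec, dotProduct_smul, smul_eq_mul]
    refine le_of_mul_le_mul_left (le_trans (le_of_eq ?_) h1) hl2
    field_simp
  · have h1 := ob.up α
    have hd : Differentiable ℝ (lin (fun p x => c * ob.φ p (T.symm x)) α) :=
      Differentiable.fun_sum fun p _ =>
        ((scale_cc1 T.symm c (ob.φ_reg p)).1.differentiable one_ne_zero).const_mul _
    have h2 := hq _ hd
    rw [hlin] at h2
    rw [h2] at h1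
    rw [hlin', smul_mulVec, dotProduct_smul, smul_eq_mul]
    refine le_of_mul_le_mul_left (h1.trans (le_of_eq ?_)) hl2
    field_simp
  · have h1 := ob.two β hβ
    have h2 : ∫⁻ x, ∫⁻ x', ENNReal.ofReal
        (lin2 (fun p x => c * ob.φ p (T.symm x)) β x x' ^ 2 / nrm' (x - x')) =
        ∫⁻ y, ENNReal.ofReal ℓ⁻¹ *
          ∫⁻ y', ENNReal.ofReal (lin2 ob.φ β y y' ^ 2 / nrm (y - y')) := by
      refine hL _ _ fun y => ?_
      rw [← lintegral_const_mul' _ _ ENNReal.ofReal_ne_top,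
        ← lintegral_const_mul' _ _ ENNReal.ofReal_ne_top]
      refine hL _ _ fun y' => ?_
      have e : lin2 (fun p x => c * ob.φ p (T.symm x)) β (T y) (T y') = c ^ 2 * lin2 ob.φ β y y' := by
        unfold lin2
        simp only [T.symm_apply_apply, Finset.mul_sum]
        refine Finset.sum_congr rfl fun p _ => Finset.sum_congr rfl fun q _ => ?_
        ring
      rw [e, ← map_sub, hn, ← ENNReal.ofReal_mul (by positivity), ← ENNReal.ofReal_mul (by positivity),
        ← ENNReal.ofReal_mul (by positivity)]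
      congr 1
      rw [div_eq_mul_inv, div_eq_mul_inv, mul_inv]
      ring
    rw [h2, lintegral_const_mul' _ _ ENNReal.ofReal_ne_top]
    refine (mul_le_mul_right h1 _).trans (le_of_eq ?_)
    rw [← ENNReal.ofReal_mul (by positivity)]
    congr 1
    ring

/-- `phys ℓ` as a linear equivalence -/
def physE {ℓ : ℝ} (hℓ : 0 < ℓ) : P3 ≃L[ℝ] Pos3 :=
  LinearEquiv.toContinuousLinearEquiv
    { toFun := phys ℓ
      invFun := fun x => ((x 0 / ℓ, x 1 / ℓ), x 2 / ℓ)
      map_add' := fun y y' => by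
        ext i
        fin_cases i <;> simp [phys, mul_add]
      map_smul' := fun a y => by
        ext i
        fin_cases i <;> simp [phys, mul_left_comm]
      left_inv := fun y => by
        simp [phys, hℓ.ne']
      right_inv := fun x => by
        ext i
        fin_cases i <;> simp [phys] <;> field_simp }

theorem physE_apply {ℓ : ℝ} (hℓ : 0 < ℓ) (y : P3) : physE hℓ y = phys ℓ y := rfl

theorem scale_mp : MeasurePreserving (fun y : P3 => (![y.1.1, y.1.2, y.2] : Fin 3 → ℝ)) volume volume := by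
  have hm : Measurable fun y : P3 => (![y.1.1, y.1.2, y.2] : Fin 3 → ℝ) := by
    refine measurable_pi_lambda _ fun i => ?_
    fin_cases i <;> simp <;> fun_prop
  refine ⟨hm, (Measure.pi_eq fun s hs => ?_).symm⟩
  have e : (fun y : P3 => (![y.1.1, y.1.2, y.2] : Fin 3 → ℝ)) ⁻¹' univ.pi s =
      (s 0 ×ˢ s 1) ×ˢ s 2 := by
    ext y
    simp [Fin.forall_fin_succ, and_assoc]
  rw [Measure.map_apply hm (MeasurableSet.univ_pi hs), e, Measure.volume_eq_prod, Measure.prod_prod,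
    Measure.volume_eq_prod, Measure.prod_prod, Fin.prod_univ_three]

theorem scale_map {ℓ : ℝ} (hℓ : 0 < ℓ) :
    Measure.map (phys ℓ) volume = ENNReal.ofReal ((ℓ ^ 3)⁻¹) • (volume : Measure Pos3) := by
  have h1 := (PiLp.volume_preserving_toLp (Fin 3)).comp scale_mp
  have e : phys ℓ = (fun x : Pos3 => ℓ • x) ∘
      (WithLp.toLp 2 ∘ fun y : P3 => (![y.1.1, y.1.2, y.2] : Fin 3 → ℝ)) := by
    funext y
    ext i
    fin_cases i <;> simp [phys]
  rw [e, ← Measure.map_map (measurable_const_smul ℓ) h1.measurable, h1.map_eq,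
    Measure.map_addHaar_smul _ hℓ.ne', finrank_euclideanSpace_fin, abs_of_pos (by positivity)]

theorem norm_phys {ℓ : ℝ} (hℓ : 0 < ℓ) (y : P3) : ‖phys ℓ y‖ = ℓ * nrm3 y := by
  rw [EuclideanSpace.norm_eq, Fin.sum_univ_three, nrm3, ← Real.sqrt_sq hℓ.le,
    ← Real.sqrt_mul (sq_nonneg _), Real.sqrt_sq hℓ.le]
  congr 1
  simp [phys, mul_pow]
  ring

theorem scale_gsq {ℓ : ℝ} (hℓ : 0 < ℓ) (ψ : Pos3 → ℝ) (a : ℝ) (y : P3) (h : Differentiable ℝ ψ) :
    gsq3 (fun y => a * ψ (physE hℓ y)) y = a ^ 2 * (ℓ ^ 2 * gradSq ψ (physE hℓ y)) := by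
  have h1 : HasFDerivAt (fun y => a * ψ (physE hℓ y))
      (a • (fderiv ℝ ψ (physE hℓ y)).comp (physE hℓ : P3 →L[ℝ] Pos3)) y :=
    ((h _).hasFDerivAt.comp y (physE hℓ).hasFDerivAt).const_mul a
  have e : ∀ (v : P3) (i : Fin 3), phys ℓ v = ℓ • EuclideanSpace.single i 1 →
      fderiv ℝ (fun y => a * ψ (physE hℓ y)) y v =
        a * (ℓ * fderiv ℝ ψ (physE hℓ y) (EuclideanSpace.single i 1)) := by
    intro v i hv
    rw [h1.fderiv, _root_.smul_apply, ContinuousLinearMap.comp_apply,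
      ContinuousLinearEquiv.coe_coe, physE_apply hℓ v, hv, map_smul, smul_eq_mul, smul_eq_mul]
  unfold gsq3 d1 d2 d3 gradSq
  rw [Fin.sum_univ_three, e _ 0 (by ext i; fin_cases i <;> simp [phys]),
    e _ 1 (by ext i; fin_cases i <;> simp [phys]), e _ 2 (by ext i; fin_cases i <;> simp [phys])]
  ring

theorem OB.scale {V : Type} [Fintype V] {M : ℕ} (Y : Fin M → P3) {ℓ : ℝ} (hℓ : 0 < ℓ)
    {k : Matrix V V ℝ} {hc : V → Prop} {E0 err γ d0 κ η : ℝ}
    (ob : OB P3 gsq3 nrm3 (fun y => -(ℓ * ∑ α, 1 / nrm3 (y - Y α))) k hc E0 err γ d0 κ η) :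
    Nonempty (OB Pos3 gradSq (fun y => ‖y‖) (attr fun α => phys ℓ (Y α)) ((ℓ ^ 2)⁻¹ • k) hc
      (E0 / ℓ ^ 2) (err / ℓ ^ 2) (γ / ℓ ^ 2) (ℓ * d0) (κ / ℓ) η) := by
  have hs : 0 < Real.sqrt ((ℓ ^ 3)⁻¹) := Real.sqrt_pos.2 (by positivity)
  refine OB.transfer (physE hℓ) hℓ hs ?_ (norm_phys hℓ) (scale_gsq hℓ) (fun y => ?_) ob
  · rw [Real.sq_sqrt (by positivity)]
    exact scale_map hℓ
  · unfold attr
    rw [Finset.mul_sum, Finset.mul_sum, ← Finset.sum_neg_distrib]
    refine Finset.sum_congr rfl fun α _ => ?_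
    beta_reduce
    rw [← physE_apply hℓ, ← map_sub, physE_apply, norm_phys hℓ, one_div, one_div, mul_inv]
    field_simp

end Crest.Agent.R338
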