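import Crest.Agent.R338.ContOB
import Crest.Agent.R338.ContPT
import Crest.Agent.R338.Scale
import Crest.Agent.R338.Many

/-! # Stage C: grid model → Coulomb problem (see `CDefs.lean`, `README`) -/

set_option autoImplicit false
set_option linter.dupNamespace false
set_option linter.unusedVariables false

noncomputable section

namespace Crest.Agent.R338

open Crest.Agent.Lib.PT Matrix
open Crest.MathPhysics.ElectronicCoulomb Crest.MathPhysics.CoulombProblem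

section num

variable {r N e ℓ : ℝ}

theorem cn_div (hr : 10 ^ 7 ≤ r) (hN0 : 0 ≤ N) (hN : N ≤ r) {c : ℝ} (hc0 : 0 ≤ c) (hc : c ≤ 1000)
    {a b : ℕ} (h : a + 1 ≤ b) : c * N ^ a / r ^ b ≤ 1 / 16 := by
  rw [div_le_div_iff₀ (ppos hr _) (by norm_num), one_mul]
  calc c * N ^ a * 16 = (16 * c) * N ^ a := by ring
    _ ≤ (16 * c) * r ^ a := by gcongr
    _ ≤ r ^ b := cpw hr (by linarith) h

theorem cn_yes (hr : 10 ^ 7 ≤ r) (hN0 : 0 ≤ N) (hN : N ≤ r) (he : 0 < e) (hℓ : e * r ^ 8 = ℓ)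
    {w c c' a : ℝ} (hc : N * |c' - c| ≤ e / 16) :
    N * ((w - (c + 1)) / ℓ ^ 2) + (ℓ ^ 2)⁻¹ * (e * a) + (N * (e / r ^ 2 / ℓ ^ 2) +
      16 * N ^ 2 * (1 / r ^ 28) * ((ℓ ^ 2)⁻¹ * (e * r ^ 2)) + 3 * N ^ 2 * (1 / r ^ 11 / ℓ)) ≤
      (N * (w - (c' + 1)) + e * (a + 1 / 4)) / ℓ ^ 2 := by
  have hr0 := rpos hr
  have hℓ0 : 0 < ℓ := by rw [← hℓ]; positivity
  rw [le_div_iff₀ (by positivity)]
  have h1 : (N * ((w - (c + 1)) / ℓ ^ 2) + (ℓ ^ 2)⁻¹ * (e * a) + (N * (e / r ^ 2 / ℓ ^ 2) +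
      16 * N ^ 2 * (1 / r ^ 28) * ((ℓ ^ 2)⁻¹ * (e * r ^ 2)) + 3 * N ^ 2 * (1 / r ^ 11 / ℓ))) * ℓ ^ 2 =
      N * (w - (c + 1)) + e * a + (e * (1 * N ^ 1 / r ^ 2) + e * (16 * N ^ 2 / r ^ 26) +
        3 * N ^ 2 / r ^ 11 * ℓ) := by
    field_simp
  have h2 : 3 * N ^ 2 / r ^ 11 * ℓ = e * (3 * N ^ 2 / r ^ 3) := by
    rw [← hℓ]; field_simp
  rw [h1, h2]
  have a1 := mul_le_mul_of_nonneg_left (cn_div hr hN0 hN (c := 1) (by norm_num) (by norm_num)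
    (a := 1) (b := 2) le_rfl) he.le
  have a2 := mul_le_mul_of_nonneg_left (cn_div hr hN0 hN (c := 16) (by norm_num) (by norm_num)
    (a := 2) (b := 26) (by norm_num)) he.le
  have a3 := mul_le_mul_of_nonneg_left (cn_div hr hN0 hN (c := 3) (by norm_num) (by norm_num)
    (a := 2) (b := 3) le_rfl) he.le
  have a4 := mul_le_mul_of_nonneg_left (le_abs_self (c' - c)) hN0
  linarith

theorem cn_no (hr : 10 ^ 7 ≤ r) (hN0 : 0 ≤ N) (hN : N ≤ r) (he : 0 < e) (hℓ : e * r ^ 8 = ℓ)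
    {w c c' b : ℝ} (hc : N * |c' - c| ≤ e / 16) :
    (N * (w - (c' + 1)) + e * (b - 1 / 4)) / ℓ ^ 2 ≤
      N * ((w - (c + 1)) / ℓ ^ 2) + (ℓ ^ 2)⁻¹ * (e * b) - (N * (e / r ^ 2 / ℓ ^ 2) +
        64 * N ^ 2 * ((ℓ ^ 2)⁻¹ * (e * r ^ 2)) ^ 2 * (ℓ * 3)) := by
  have hr0 := rpos hr
  have hℓ0 : 0 < ℓ := by rw [← hℓ]; positivity
  rw [div_le_iff₀ (by positivity)]
  have h1 : (N * ((w - (c + 1)) / ℓ ^ 2) + (ℓ ^ 2)⁻¹ * (e * b) - (N * (e / r ^ 2 / ℓ ^ 2) +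
        64 * N ^ 2 * ((ℓ ^ 2)⁻¹ * (e * r ^ 2)) ^ 2 * (ℓ * 3))) * ℓ ^ 2 =
      N * (w - (c + 1)) + e * b - (e * (1 * N ^ 1 / r ^ 2) + e * (192 * N ^ 2 * (e * r ^ 4 / ℓ))) := by
    field_simp
    ring
  have h2 : 192 * N ^ 2 * (e * r ^ 4 / ℓ) = 192 * N ^ 2 / r ^ 4 := by
    rw [← hℓ]; field_simp
  rw [h1, h2]
  have a1 := mul_le_mul_of_nonneg_left (cn_div hr hN0 hN (c := 1) (by norm_num) (by norm_num)
    (a := 1) (b := 2) le_rfl) he.le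
  have a2 := mul_le_mul_of_nonneg_left (cn_div hr hN0 hN (c := 192) (by norm_num) (by norm_num)
    (a := 2) (b := 4) (by norm_num)) he.le
  have a4 := mul_le_mul_of_nonneg_left (neg_abs_le (c' - c)) hN0
  linarith

theorem cn_succ (hr : 10 ^ 7 ≤ r) (hN : N ≤ r) : N + 1 ≤ r ^ 2 :=
  apw hr (a := 1) (by simpa using hN) (pone hr 1) le_rfl

theorem cn_err (hr : 10 ^ 7 ≤ r) (hN : N ≤ r) (he : 0 < e) (hℓ0 : 0 < ℓ) :
    (N + 1) * (e / r ^ 2 / ℓ ^ 2) ≤ (ℓ ^ 2)⁻¹ * (e * r ^ 2) := by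
  have hr0 := rpos hr
  calc (N + 1) * (e / r ^ 2 / ℓ ^ 2) ≤ r ^ 4 * (e / r ^ 2 / ℓ ^ 2) :=
        mul_le_mul_of_nonneg_right ((cn_succ hr hN).trans (pw hr (by norm_num))) (by positivity)
    _ = _ := by field_simp

theorem cn_hu (hr : 10 ^ 7 ≤ r) (hN : N ≤ r) (he : 0 < e) (hℓ : e * r ^ 8 = ℓ) :
    64 * (N + 1) * ((ℓ ^ 2)⁻¹ * (e * r ^ 2)) * (ℓ * 3) ≤ 1 := by
  have hr0 := rpos hr
  have h1 : 64 * (N + 1) * ((ℓ ^ 2)⁻¹ * (e * r ^ 2)) * (ℓ * 3) = 192 * (N + 1) / r ^ 6 := by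
    rw [← hℓ]; field_simp; ring
  rw [h1, div_le_one (ppos hr _)]
  exact (mul_le_mul_of_nonneg_left (cn_succ hr hN) (by norm_num)).trans (cpw hr (by norm_num) (by norm_num))

theorem cn_hγ (hr : 10 ^ 7 ≤ r) (hN0 : 0 ≤ N) (hN : N ≤ r) (he : 0 < e) (hℓ : e * r ^ 8 = ℓ)
    (hs : ℓ * r ^ 170 ≤ 1) :
    (N + 1) * ((ℓ ^ 2)⁻¹ * (e * r ^ 2)) + N ^ 2 / (ℓ * 3) ≤ 1 / r ^ 159 / ℓ ^ 2 := by
  have hr0 := rpos hr
  have hℓ0 : 0 < ℓ := by rw [← hℓ]; positivity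
  rw [le_div_iff₀ (by positivity)]
  have h1 : ((N + 1) * ((ℓ ^ 2)⁻¹ * (e * r ^ 2)) + N ^ 2 / (ℓ * 3)) * ℓ ^ 2 =
      e * ((N + 1) * r ^ 2) + ℓ * (N ^ 2 / 3) := by field_simp
  rw [h1]
  have h2 : e ≤ ℓ := by rw [← hℓ]; exact le_mul_of_one_le_right he.le (pone hr _)
  have h3 : (N + 1) * r ^ 2 ≤ r ^ 4 := mpw hr (cn_succ hr hN) le_rfl (by positivity) le_rfl
  have h4 : N ^ 2 / 3 ≤ r ^ 4 := by
    have : N ^ 2 ≤ r ^ 4 := ppw hr (a := 1) hN0 (by simpa using hN) (by norm_num)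
    have := sq_nonneg N
    linarith
  refine le_inv_pw hr (le_trans ?_ hs)
  calc (e * ((N + 1) * r ^ 2) + ℓ * (N ^ 2 / 3)) * r ^ 159 ≤ (ℓ * r ^ 4 + ℓ * r ^ 4) * r ^ 159 := by
        gcongr
    _ = ℓ * (2 * r ^ 163) := by ring
    _ ≤ ℓ * r ^ 170 := mul_le_mul_of_nonneg_left (cpw hr (by norm_num) (by norm_num)) hℓ0.le

theorem cn_valid (hr : 10 ^ 7 ≤ r) (he : 0 < e) (hℓ : e * r ^ 8 = ℓ) (hs : ℓ * r ^ 170 ≤ 1)
    {X a b : ℝ} (hab : a + 1 ≤ b) :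
    (X + e * (a + 1 / 4)) / ℓ ^ 2 + 1 ≤ (X + e * (b - 1 / 4)) / ℓ ^ 2 := by
  have hr0 := rpos hr
  have hℓ0 : 0 < ℓ := by rw [← hℓ]; positivity
  rw [div_add_one (by positivity), div_le_div_iff_of_pos_right (by positivity)]
  have h1 : ℓ ^ 2 = e * (ℓ * r ^ 8) := by rw [sq]; nth_rewrite 1 [← hℓ]; ring
  have h2 : 2 * (ℓ * r ^ 8) ≤ 1 := by
    refine le_trans ?_ hs
    rw [mul_left_comm]
    exact mul_le_mul_of_nonneg_left (cpw hr (by norm_num) (by norm_num)) hℓ0.le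
  have h3 := mul_le_mul_of_nonneg_left h2 he.le
  have h4 := mul_le_mul_of_nonneg_left hab he.le
  rw [h1]
  linarith

end num

theorem cn_cq {R N : ℕ} (hR : 10 ^ 7 ≤ R) (hN : N ≤ R) (K : ℕ) (T : Tabs) :
    (N : ℝ) * |(cq R K T : ℝ) - cR R K T| ≤ (eps R : ℝ) / 16 := by
  obtain ⟨hr, hrP, hPH⟩ := R_le_Pp hR
  have hP : (10 : ℝ) ^ 7 ≤ Pp R := hr.trans hrP
  obtain ⟨h0, h1⟩ := hq_pos hR
  obtain ⟨hhP, hhH⟩ := hq_mul hR
  obtain ⟨he1, -⟩ := eps_bounds hR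
  have hNP : (N : ℝ) ≤ Pp R := le_trans (by exact_mod_cast hN) hrP
  have hc : |(cq R K T : ℝ) - cR R K T| ≤ (hq R : ℝ) ^ 18 := cq_spec hR K T
  generalize |(cq R K T : ℝ) - cR R K T| = d at hc
  generalize ((Pp R : ℕ) : ℝ) = P at *
  generalize ((hq R : ℚ) : ℝ) = h at *
  have a1 : h * P ^ 2 ≤ 1 := hsmall hP hhP h0 (by norm_num)
  have a2 : 16 * P ≤ P ^ 2 := by simpa using cpw hP (c := 16) (by norm_num) (a := 1) (b := 2) le_rfl
  have a3 : h ^ 18 ≤ h ^ 4 := pow_le_pow_of_le_one h0.le h1 (by norm_num)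
  have hP0 := rpos hP
  rw [le_div_iff₀ (by norm_num)]
  calc (N : ℝ) * d * 16 ≤ N * h ^ 4 * 16 := by gcongr; exact hc.trans a3
    _ ≤ P * h ^ 4 * 16 := by gcongr
    _ = h ^ 3 * (h * (16 * P)) := by ring
    _ ≤ h ^ 3 * (h * P ^ 2) := by gcongr
    _ ≤ h ^ 3 * 1 := by gcongr
    _ ≤ _ := by rw [mul_one]; exact he1

theorem cn_small {R : ℕ} (hR : 10 ^ 7 ≤ R) : (ell R : ℝ) * (R : ℝ) ^ 170 ≤ 1 := by
  obtain ⟨hr, hrP, hPH⟩ := R_le_Pp hR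
  have hP : (10 : ℝ) ^ 7 ≤ Pp R := hr.trans hrP
  obtain ⟨he1, he2, -, he4⟩ := eps_bounds hR
  have hℓ0 : (0 : ℝ) ≤ ell R := le_trans (le_trans (pow_pos (hq_pos hR).1 3).le he1) he2
  refine le_trans (mul_le_mul_of_nonneg_left ?_ hℓ0) he4
  refine (pow_le_Pp hR (by norm_num)).trans ?_
  simpa using pw hP (a := 1) (b := 30) (by norm_num)

theorem inst_potential (R K N : ℕ) (T : Tabs) (a b : ℚ) :
    (inst R K N T a b).potential = unitNucleiPotential (n := N)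
      fun α : Fin (pts R K T).length => phys (ell R) (toP3 ((pts R K T).get α)) := by
  funext x
  unfold Instance.potential unitNucleiPotential
  congr 1
  refine Finset.sum_congr rfl fun i _ => ?_
  refine Fintype.sum_equiv (finCongr (List.length_map (f := posq R) (as := pts R K T))) _ _ fun α => ?_
  have : (inst R K N T a b).nuclei.get α = posq R ((pts R K T).get
      (finCongr (List.length_map (f := posq R) (as := pts R K T)) α)) := by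
    show ((pts R K T).map (posq R)).get α = _
    simp
  beta_reduce
  rw [this, realPos_posq]
  rfl

theorem red_GR_C : Red YesGR NoGR YesC NoC := by
  obtain ⟨C₀, hC₀, hob⟩ := exists_ob
  have key : ∀ x : GRI, ValidGR x → ∃ d : Instance, d.Valid ∧ alg C₀ x = d.code ∧
      (FYes (Fin x.2.2.1) x.hc x.mat x.2.2.2.2.1 → InfEnergyLE d.potential (d.lower : ℝ)) ∧
      (FNo (Fin x.2.2.1) x.hc x.mat x.2.2.2.2.2 → InfEnergyGE d.potential (d.upper : ℝ)) := by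
    rintro ⟨B, K, N, T, a, b⟩ ⟨hK1, hKB, hN1, hNB, hT, ha, hb, hab⟩
    dsimp only at hK1 hKB hN1 hNB hT hab ha hb
    have hBR : B.n ≤ B.n + C₀ := Nat.le_add_right _ _
    have hCR : C₀ ≤ B.n + C₀ := Nat.le_add_left _ _
    have halg : alg C₀ (B, K, N, T, a, b) = (inst (B.n + C₀) K N T a b).code := by
      unfold alg
      dsimp only
      rw [min_eq_left hKB, min_eq_left hNB]
    generalize B.n + C₀ = R at hBR hCR halg
    have hR : 10 ^ 7 ≤ R := hC₀.trans hCR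
    have hBq : (B.n : ℚ) ≤ R := by exact_mod_cast hBR
    have hTR : TabsOK R T := fun i j => by
      obtain ⟨a1, a2, a3, a4, a5⟩ := hT i j
      exact ⟨a1, a2.trans hBq, a3, a4.trans hBq, a5.trans hBq⟩
    obtain ⟨hnd, hne, ⟨ob⟩⟩ := hob R K T hCR hK1 (hKB.trans hBR) hTR
    obtain ⟨hr, -⟩ := R_le_Pp hR
    have he : (0 : ℝ) < eps R := lt_of_lt_of_le (pow_pos (hq_pos hR).1 3) (eps_bounds hR).1
    have hℓ := eps_mul hR
    have hℓ0 : (0 : ℝ) < ell R := he.trans_le (eps_bounds hR).2.1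
    have hs := cn_small hR
    have hNR : N ≤ R := hNB.trans hBR
    have hNr : (N : ℝ) ≤ R := by exact_mod_cast hNR
    have hN0 : (0 : ℝ) ≤ N := Nat.cast_nonneg N
    have hc := cn_cq hR hNR K T
    have hr0 := rpos hr
    obtain ⟨obp⟩ := OB.scale (fun α => toP3 ((pts R K T).get α)) hℓ0 ob
    have hi : (0 : ℝ) ≤ ((ell R : ℝ) ^ 2)⁻¹ := by positivity
    have hop := (tabMat_opLe (K := K) hR hTR).smul ((ell R : ℝ) ^ 2)⁻¹
    rw [abs_of_nonneg hi] at hop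
    have habs : ∀ t : ℚ, |t| ≤ B.n →
        |((ell R : ℝ) ^ 2)⁻¹ * ((eps R : ℝ) * t)| ≤ ((ell R : ℝ) ^ 2)⁻¹ * ((eps R : ℝ) * (R : ℝ) ^ 2) := by
      intro t ht
      rw [abs_mul, abs_mul, abs_of_nonneg hi, abs_of_pos he]
      have h1 : |(t : ℝ)| ≤ R := by exact_mod_cast ht.trans hBq
      have h2 : (R : ℝ) ≤ (R : ℝ) ^ 2 := by simpa using pw hr (a := 1) (b := 2) (by norm_num)
      gcongr
      exact h1.trans h2
    have hlo : ((inst R K N T a b).lower : ℝ) = ((N : ℝ) * ((om R : ℝ) / 2 - ((cq R K T : ℝ) + 1)) +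
        (eps R : ℝ) * ((a : ℝ) + 1 / 4)) / (ell R : ℝ) ^ 2 := by
      unfold inst; push_cast; rfl
    have hup : ((inst R K N T a b).upper : ℝ) = ((N : ℝ) * ((om R : ℝ) / 2 - ((cq R K T : ℝ) + 1)) +
        (eps R : ℝ) * ((b : ℝ) - 1 / 4)) / (ell R : ℝ) ^ 2 := by
      unfold inst; push_cast; rfl
    refine ⟨inst R K N T a b, ⟨?_, hnd, hN1, ?_⟩, halg, fun H => ?_, fun H => ?_⟩
    · simpa [inst] using hne
    · have : ((inst R K N T a b).lower : ℝ) + 1 ≤ (inst R K N T a b).upper := by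
        rw [hlo, hup]
        exact cn_valid hr he hℓ hs (by exact_mod_cast hab)
      exact_mod_cast this
    · have H' := many_yes (N := N) _ obp hop (habs a ha) (by positivity) (cn_err hr hNr he hℓ0)
        (by positivity) (by
          rw [mul_one_div, div_le_one (ppos hr _)]
          exact hNr.trans (by simpa using pw hr (a := 1) (b := 28) (by norm_num)))
        (by positivity) ((FYes.smul H he.le).smul hi)
      rw [inst_potential, hlo]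
      intro δ hδ
      obtain ⟨Ψ, h1, h2, h3⟩ := H' δ hδ
      exact ⟨Ψ, h1, h2, h3.trans (add_le_add (cn_yes hr hN0 hNr he hℓ hc) le_rfl)⟩
    · have H' := many_no (N := N) _ obp hop (habs b hb) (by positivity) (by positivity)
        (cn_hu hr hNr he hℓ) (cn_hγ hr hN0 hNr he hℓ hs) ((FNo.smul H he.le).smul hi)
      rw [inst_potential, hup]
      intro Ψ h1 h2
      exact (cn_no hr hN0 hNr he hℓ hc).trans (H' Ψ h1 h2)
  refine ⟨alg C₀, alg_pt C₀, fun x hx => ?_, fun x hx => ?_⟩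
  · obtain ⟨d, h1, h2, h3, -⟩ := key x hx.1
    exact ⟨d, h1, h2, h3 hx.2⟩
  · obtain ⟨d, h1, h2, -, h4⟩ := key x hx.1
    exact ⟨d, h1, h2, h4 hx.2⟩

end Crest.Agent.R338
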