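import Crest.Agent.R338.ContNum

/-! # Stage C: the atoms are admissible

`M ≤ R^6801 ≤ Pp R`.  `Bd.fd1/fd2` (with `e = (1,0), (0,1)`) and the cast lemmas give `|wq - w| ≤ 4 M² τ₁ + …`
at rational points (`τ₁ = h^123`), hence `|mq - (ω² + lap2 w)| ≤ 2 M τ₂ + 8·(that)/τ₂² ≤ h^40` (`τ₂ = h^41`) inside the box;
outside `[1, Λ+1]²` (which contains a neighbourhood of `box2 Λ`) `lap2 w = 0` as `w = 1` on the open complement of `box2 Λ`.
So `mq ∈ [3ω²/4, 5ω²/4]`, `spq = (π'/3) h ω²/mq ∈ [h/2, 3h]`, `ℓ/(h² spq) = mq/(4π')`; outside the box `Lq/spq = 3 Hh⁵`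
exactly; `Lq/spq ≤ 8 Hh⁵` so the clamp in `ncq` is inactive. -/

set_option autoImplicit false
set_option linter.dupNamespace false
set_option linter.unusedVariables false

noncomputable section

namespace Crest.Agent.R338

open Matrix MeasureTheory Set
open Crest.MathPhysics.ElectronicCoulomb Crest.MathPhysics.CoulombProblem

variable {R K : ℕ} {T : Tabs} {M : ℝ}

theorem ca_xc_cast (h : ℚ) (n i : ℕ) : ((xc h n i : ℚ) : ℝ) = xc (h : ℝ) n i := by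
  simp only [xc]; push_cast; rfl

theorem ca_fd1x {F : P2 → ℝ} {f : ℚ × ℚ → ℚ} {M : ℝ} {τ : ℚ} (hF : Bd 2 M F) (hτ : 0 < τ)
    (hf : ∀ p : ℚ × ℚ, (f p : ℝ) = F (p.1, p.2)) (p : ℚ × ℚ) :
    |(fd1x τ f p : ℝ) - dx F (p.1, p.2)| ≤ M * τ := by
  have := hF.fd1 ((p.1 : ℝ), (p.2 : ℝ)) (e := (1, 0)) (by simp [Prod.norm_def]) (τ := τ)
    (by exact_mod_cast hτ)
  simp only [fd1x, dx]
  push_cast
  rw [hf, hf]
  simpa using this

theorem ca_fd1y {F : P2 → ℝ} {f : ℚ × ℚ → ℚ} {M : ℝ} {τ : ℚ} (hF : Bd 2 M F) (hτ : 0 < τ)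
    (hf : ∀ p : ℚ × ℚ, (f p : ℝ) = F (p.1, p.2)) (p : ℚ × ℚ) :
    |(fd1y τ f p : ℝ) - dy F (p.1, p.2)| ≤ M * τ := by
  have := hF.fd1 ((p.1 : ℝ), (p.2 : ℝ)) (e := (0, 1)) (by simp [Prod.norm_def]) (τ := τ)
    (by exact_mod_cast hτ)
  simp only [fd1y, dy]
  push_cast
  rw [hf, hf]
  simpa using this

theorem ca_second {a b c a' b' c' A M δ τ : ℝ} (hτ : 0 < τ) (ha : |a - a'| ≤ δ) (hb : |b - b'| ≤ δ)
    (hc : |c - c'| ≤ δ) (h : |(a' - 2 * b' + c') / τ ^ 2 - A| ≤ M * τ) :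
    |(a - 2 * b + c) / τ ^ 2 - A| ≤ M * τ + 4 * δ / τ ^ 2 := by
  have h2 : |((a - a') - 2 * (b - b') + (c - c')) / τ ^ 2| ≤ 4 * δ / τ ^ 2 := by
    rw [abs_div, abs_of_pos (pow_pos hτ 2)]
    refine div_le_div_of_nonneg_right ?_ (pow_pos hτ 2).le
    rw [abs_le] at ha hb hc ⊢
    constructor <;> linarith [ha.1, ha.2, hb.1, hb.2, hc.1, hc.2]
  rw [show (a - 2 * b + c) / τ ^ 2 - A =
    ((a' - 2 * b' + c') / τ ^ 2 - A) + ((a - a') - 2 * (b - b') + (c - c')) / τ ^ 2 by ring]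
  exact (abs_add_le _ _).trans (add_le_add h h2)

theorem ca_fd2x {F : P2 → ℝ} {f : ℚ × ℚ → ℚ} {M δ : ℝ} {τ : ℚ} (hF : Bd 3 M F) (hτ : 0 < τ)
    (hf : ∀ p : ℚ × ℚ, |(f p : ℝ) - F (p.1, p.2)| ≤ δ) (p : ℚ × ℚ) :
    |(fd2x τ f p : ℝ) - dx (dx F) (p.1, p.2)| ≤ M * τ + 4 * δ / (τ : ℝ) ^ 2 := by
  have hτ' : (0 : ℝ) < τ := by exact_mod_cast hτ
  have := hF.fd2 ((p.1 : ℝ), (p.2 : ℝ)) (e := (1, 0)) (by simp [Prod.norm_def]) hτ'
  simp only [fd2x]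
  push_cast
  refine ca_second hτ' (hf _) (hf _) (hf _) ?_
  have e : dx (dx F) ((p.1 : ℝ), (p.2 : ℝ)) =
    fderiv ℝ (fun y => fderiv ℝ F y (1, 0)) ((p.1 : ℝ), (p.2 : ℝ)) (1, 0) := rfl
  rw [e]
  simpa using this

theorem ca_fd2y {F : P2 → ℝ} {f : ℚ × ℚ → ℚ} {M δ : ℝ} {τ : ℚ} (hF : Bd 3 M F) (hτ : 0 < τ)
    (hf : ∀ p : ℚ × ℚ, |(f p : ℝ) - F (p.1, p.2)| ≤ δ) (p : ℚ × ℚ) :
    |(fd2y τ f p : ℝ) - dy (dy F) (p.1, p.2)| ≤ M * τ + 4 * δ / (τ : ℝ) ^ 2 := by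
  have hτ' : (0 : ℝ) < τ := by exact_mod_cast hτ
  have := hF.fd2 ((p.1 : ℝ), (p.2 : ℝ)) (e := (0, 1)) (by simp [Prod.norm_def]) hτ'
  simp only [fd2y]
  push_cast
  refine ca_second hτ' (hf _) (hf _) (hf _) ?_
  have e : dy (dy F) ((p.1 : ℝ), (p.2 : ℝ)) =
    fderiv ℝ (fun y => fderiv ℝ F y (0, 1)) ((p.1 : ℝ), (p.2 : ℝ)) (0, 1) := rfl
  rw [e]
  simpa using this

theorem ca_sq {a b M τ : ℝ} (hM : 0 ≤ M) (hτ0 : 0 ≤ τ) (hτ : τ ≤ 1) (h : |a - b| ≤ M * τ) (hb : |b| ≤ M) :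
    |a ^ 2 - b ^ 2| ≤ 3 * M ^ 2 * τ := by
  have h1 : |a + b| ≤ 3 * M := by
    have : M * τ ≤ M := mul_le_of_le_one_right hM hτ
    rw [abs_le] at h hb ⊢
    constructor <;> linarith [h.1, h.2, hb.1, hb.2]
  rw [show a ^ 2 - b ^ 2 = (a + b) * (a - b) by ring, abs_mul]
  calc |a + b| * |a - b| ≤ (3 * M) * (M * τ) := mul_le_mul h1 h (abs_nonneg _) (by positivity)
    _ = 3 * M ^ 2 * τ := by ring

theorem ca_wq (g : Geo ℚ) {τ : ℚ} (hτ : 0 < τ) (hτ1 : τ ≤ 1) (hS : Bd 3 M g.toReal.S) (p : ℚ × ℚ) :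
    |(wq g τ p : ℝ) - wOf g.toReal.S g.toReal.v g.toReal.ε (p.1, p.2)| ≤ (3 * M ^ 2 + M) * τ := by
  have hτ' : (0 : ℝ) < τ := by exact_mod_cast hτ
  have hτ1' : (τ : ℝ) ≤ 1 := by exact_mod_cast hτ1
  have h2 : Bd 2 M g.toReal.S := hS.mono (by norm_num) le_rfl
  have a1 := ca_sq hS.nonneg hτ'.le hτ1' (ca_fd1x h2 hτ g.S_cast p) (h2.dx.abs_le _)
  have a2 := ca_sq hS.nonneg hτ'.le hτ1' (ca_fd1y h2 hτ g.S_cast p) (h2.dy.abs_le _)
  have a3 := ca_fd2x (δ := 0) hS hτ (f := g.S) (fun p => by rw [g.S_cast]; simp) p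
  have a4 := ca_fd2y (δ := 0) hS hτ (f := g.S) (fun p => by rw [g.S_cast]; simp) p
  simp only [wq, wOf, lap2]
  push_cast
  rw [g.v_cast, g.ε_cast]
  rw [mul_zero, zero_div, add_zero] at a3 a4
  rw [abs_le] at a1 a2 a3 a4 ⊢
  constructor <;> linarith [a1.1, a1.2, a2.1, a2.2, a3.1, a3.2, a4.1, a4.2]

theorem ca_lap_out {w : P2 → ℝ} {Λ : ℝ} (hout : ∀ p, p ∉ box2 Λ → w p = 1) {p : P2}
    (hp : p ∉ box2 Λ) : lap2 w p = 0 := by
  have ho : IsOpen (box2 Λ)ᶜ := (isClosed_Icc.prod isClosed_Icc).isOpen_compl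
  have h1 : ∀ q, q ∉ box2 Λ → fderiv ℝ w q = 0 := fun q hq => by
    have : w =ᶠ[nhds q] fun _ => 1 := by
      filter_upwards [ho.mem_nhds hq] with z hz using hout z hz
    rw [this.fderiv_eq]; simp
  have h2 : dx w =ᶠ[nhds p] fun _ => 0 := by
    filter_upwards [ho.mem_nhds hp] with z hz
    simp [dx, h1 z hz]
  have h3 : dy w =ᶠ[nhds p] fun _ => 0 := by
    filter_upwards [ho.mem_nhds hp] with z hz
    simp [dy, h1 z hz]
  have h4 : dx (dx w) p = 0 := by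
    rw [dx, h2.fderiv_eq]; simp
  have h5 : dy (dy w) p = 0 := by
    rw [dy, h3.fderiv_eq]; simp
  rw [lap2, h4, h5, add_zero]

theorem ca_MP (hR : 10 ^ 7 ≤ R) (hM : M ≤ (R : ℝ) ^ 6801) : M ≤ Pp R :=
  hM.trans (pow_le_Pp hR (by norm_num))

theorem ca_small (hR : 10 ^ 7 ≤ R) : 64 * (Pp R : ℝ) ^ 2 * hq R ≤ 1 := by
  obtain ⟨h1, h2, -⟩ := R_le_Pp hR
  have h3 := (hq_mul hR).1
  have h4 := (hq_pos hR).1
  generalize (Pp R : ℝ) = P at *
  generalize (hq R : ℝ) = h at *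
  have hP : (64 : ℝ) ≤ P := by linarith [show (64 : ℝ) ≤ 10 ^ 7 by norm_num]
  have h5 : P ^ 3 ≤ P ^ 11 := pow_le_pow_right₀ (by linarith) (by norm_num)
  have h6 : 64 * P ^ 2 ≤ P ^ 3 := by
    rw [pow_succ P 2, mul_comm]; exact mul_le_mul_of_nonneg_left hP (by positivity)
  calc 64 * P ^ 2 * h ≤ P ^ 11 * h := mul_le_mul_of_nonneg_right (h6.trans h5) h4.le
    _ = 1 := by rw [mul_comm, h3]

theorem ca_hq_pos (hR : 10 ^ 7 ≤ R) : 0 < hq R ∧ hq R ≤ 1 := by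
  have := hq_pos hR
  exact ⟨by exact_mod_cast this.1, by exact_mod_cast this.2⟩

theorem ca_mq (hR : 10 ^ 7 ≤ R) (hM : M ≤ (R : ℝ) ^ 6801)
    (hS : Bd 8 M (geo R K T).toReal.S) (hw : Bd 6 M (wR R K T))
    (hout : ∀ p, p ∉ box2 (Lam R K : ℝ) → wR R K T p = 1) (p : ℚ × ℚ) :
    |(mq R K T p : ℝ) - ((om R : ℝ) ^ 2 + lap2 (wR R K T) (p.1, p.2))| ≤ (hq R : ℝ) ^ 40 := by
  obtain ⟨hq0, hq1⟩ := ca_hq_pos hR
  obtain ⟨hh0, hh1⟩ := hq_pos hR
  unfold mq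
  split_ifs with hp
  · have hδ := ca_wq (geo R K T) (pow_pos hq0 123) (pow_le_one₀ hq0.le hq1)
      (hS.mono (by norm_num) le_rfl)
    have a1 := ca_fd2x (hw.mono (k' := 3) (by norm_num) le_rfl) (pow_pos hq0 41) hδ p
    have a2 := ca_fd2y (hw.mono (k' := 3) (by norm_num) le_rfl) (pow_pos hq0 41) hδ p
    have hM0 := hS.nonneg
    have hMP := ca_MP hR hM
    have hs := ca_small hR
    have hP : (1 : ℝ) ≤ Pp R := by
      obtain ⟨h1, h2, -⟩ := R_le_Pp hR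
      linarith [show (1 : ℝ) ≤ 10 ^ 7 by norm_num]
    rw [lap2]
    push_cast at a1 a2 ⊢
    generalize (Pp R : ℝ) = P at *
    generalize (hq R : ℝ) = h at *
    have e : 4 * ((3 * M ^ 2 + M) * h ^ 123) / (h ^ 41) ^ 2 = 4 * (3 * M ^ 2 + M) * h ^ 41 := by
      field_simp
    rw [e] at a1 a2
    have hb : 2 * (M * h ^ 41 + 4 * (3 * M ^ 2 + M) * h ^ 41) ≤ h ^ 40 := by
      have h1 : M ^ 2 ≤ P ^ 2 := pow_le_pow_left₀ hM0 hMP 2
      have h2 : M ≤ P ^ 2 := hMP.trans (by nlinarith)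
      have h3 : (24 * M ^ 2 + 10 * M) * h ≤ 1 :=
        (mul_le_mul_of_nonneg_right (by nlinarith) hh0.le).trans hs
      calc 2 * (M * h ^ 41 + 4 * (3 * M ^ 2 + M) * h ^ 41) = ((24 * M ^ 2 + 10 * M) * h) * h ^ 40 := by
            ring
        _ ≤ 1 * h ^ 40 := mul_le_mul_of_nonneg_right h3 (by positivity)
        _ = h ^ 40 := one_mul _
    rw [abs_le] at a1 a2 ⊢
    constructor <;> linarith [a1.1, a1.2, a2.1, a2.2]
  · have : ((p.1 : ℝ), (p.2 : ℝ)) ∉ box2 (Lam R K : ℝ) := by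
      rintro ⟨⟨h1, h2⟩, h3, h4⟩
      simp only at h1 h2 h3 h4
      have h1' : (2 : ℚ) ≤ p.1 := by exact_mod_cast h1
      have h2' : p.1 ≤ Lam R K := by exact_mod_cast h2
      have h3' : (2 : ℚ) ≤ p.2 := by exact_mod_cast h3
      have h4' : p.2 ≤ Lam R K := by exact_mod_cast h4
      exact hp ⟨⟨by linarith, by linarith⟩, by linarith, by linarith⟩
    rw [ca_lap_out hout this]
    push_cast
    rw [add_zero, sub_self, abs_zero]
    positivity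

theorem ca_om (hR : 10 ^ 7 ≤ R) (hM : M ≤ (R : ℝ) ^ 6801) :
    16 * M ≤ (om R : ℝ) ^ 2 ∧ 8 ≤ (om R : ℝ) ^ 2 ∧ (om R : ℝ) ^ 2 ≤ Pp R := by
  obtain ⟨h1, -, -⟩ := R_le_Pp hR
  have e : (om R : ℝ) ^ 2 = (R : ℝ) ^ 6804 := by rw [om_eq, ← pow_mul]
  have h2 := pow_le_Pp hR (k := 6804) (by norm_num)
  rw [e]
  have hR1 : (16 : ℝ) ≤ R := by linarith [show (16 : ℝ) ≤ 10 ^ 7 by norm_num]
  have h3 : (R : ℝ) ^ 1 ≤ (R : ℝ) ^ 6804 := pow_le_pow_right₀ (by linarith) (by norm_num)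
  have h4 : (R : ℝ) ^ (6801 + 1) ≤ (R : ℝ) ^ 6804 := pow_le_pow_right₀ (by linarith) (by norm_num)
  have h5 : (0 : ℝ) ≤ (R : ℝ) ^ 6801 := by positivity
  rw [pow_succ] at h4
  rw [pow_one] at h3
  generalize (R : ℝ) ^ 6804 = A at *
  generalize (R : ℝ) ^ 6801 = B at *
  refine ⟨?_, by linarith, h2⟩
  nlinarith

theorem ca_mq_bounds (hR : 10 ^ 7 ≤ R) (hM : M ≤ (R : ℝ) ^ 6801)
    (hS : Bd 8 M (geo R K T).toReal.S) (hw : Bd 6 M (wR R K T))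
    (hout : ∀ p, p ∉ box2 (Lam R K : ℝ) → wR R K T p = 1) (p : ℚ × ℚ) :
    3 / 4 * (om R : ℝ) ^ 2 ≤ mq R K T p ∧ (mq R K T p : ℝ) ≤ 5 / 4 * (om R : ℝ) ^ 2 := by
  have h1 := ca_mq hR hM hS hw hout p
  obtain ⟨h2, h3, -⟩ := ca_om hR hM
  obtain ⟨hh0, hh1⟩ := hq_pos hR
  have h4 : (hq R : ℝ) ^ 40 ≤ 1 := pow_le_one₀ hh0.le hh1
  have h5 := (Bd.lap2 (k := 4) hw).abs_le ((p.1 : ℝ), (p.2 : ℝ))
  rw [abs_le] at h1 h5
  constructor <;> linarith [h1.1, h1.2, h5.1, h5.2]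

/-- The real arithmetic of one column. -/
theorem ca_col {h H o m μ q P ℓ s : ℝ} (hh : 0 < h) (hH : h * H = 1) (ho : 8 ≤ o) (hoP : o ≤ P)
    (hs : 64 * P ^ 2 * h ≤ 1) (hq3 : 3 ≤ q) (hqπ : q ≤ Real.pi) (hqe : Real.pi - q ≤ h ^ 40)
    (hm1 : 3 / 4 * o ≤ m) (hm2 : m ≤ 5 / 4 * o) (hμ : |m - μ| ≤ h ^ 40) (hℓ : ℓ = h ^ 3 * o / 12)
    (hsp : s = 4 * q * ℓ / (h ^ 2 * m)) :
    h / 2 ≤ s ∧ s ≤ 3 * h ∧ |ℓ / (h ^ 2 * s) - μ / (4 * Real.pi)| ≤ h ^ 39 ∧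
      q * H ^ 4 / s ≤ 8 * H ^ 5 := by
  have ho0 : 0 < o := by linarith
  have hm0 : 0 < m := by linarith
  have hq0 : 0 < q := by linarith
  have hπ4 : Real.pi ≤ 4 := Real.pi_le_four
  have hπ0 := Real.pi_pos
  have hH0 : 0 < H := pos_of_mul_pos_left (by rw [mul_comm, hH]; exact one_pos) hh.le
  have e1 : s = q * h * o / (3 * m) := by rw [hsp, hℓ]; field_simp; ring
  have hs1 : h / 2 ≤ s := by
    rw [e1, le_div_iff₀ (by positivity)]
    have : 3 * m / 2 ≤ q * o := by nlinarith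
    nlinarith
  have hs2 : s ≤ 3 * h := by
    rw [e1, div_le_iff₀ (by positivity)]
    have : q * o ≤ 9 * m := by nlinarith
    nlinarith
  have hs0 : 0 < s := by linarith
  refine ⟨hs1, hs2, ?_, ?_⟩
  · have e2 : ℓ / (h ^ 2 * s) = m / (4 * q) := by rw [e1, hℓ]; field_simp; ring
    have e3 : m / (4 * q) - μ / (4 * Real.pi) =
        m * (Real.pi - q) / (4 * q * Real.pi) + (m - μ) / (4 * Real.pi) := by field_simp; ring
    have h40 : 0 < h ^ 40 := pow_pos hh 40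
    have a1 : |m * (Real.pi - q) / (4 * q * Real.pi)| ≤ P * h ^ 40 := by
      rw [abs_of_nonneg (div_nonneg (mul_nonneg hm0.le (by linarith)) (by positivity)),
        div_le_iff₀ (by positivity)]
      have b1 : m * (Real.pi - q) ≤ (2 * P) * h ^ 40 :=
        mul_le_mul (by linarith) hqe (by linarith) (by linarith)
      have b2 : 2 ≤ 4 * q * Real.pi := by nlinarith
      have b3 : 0 ≤ P * h ^ 40 := mul_nonneg (by linarith) h40.le
      nlinarith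
    have a2 : |(m - μ) / (4 * Real.pi)| ≤ h ^ 40 := by
      rw [abs_div, abs_of_pos (by positivity : 0 < 4 * Real.pi), div_le_iff₀ (by positivity)]
      nlinarith
    have a3 : (P + 1) * h ≤ 1 := (mul_le_mul_of_nonneg_right (by nlinarith) hh.le).trans hs
    rw [e2, e3]
    calc _ ≤ P * h ^ 40 + h ^ 40 := (abs_add_le _ _).trans (add_le_add a1 a2)
      _ = ((P + 1) * h) * h ^ 39 := by ring
      _ ≤ 1 * h ^ 39 := mul_le_mul_of_nonneg_right a3 (by positivity)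
      _ = h ^ 39 := one_mul _
  · rw [div_le_iff₀ hs0]
    have b1 : 8 * H ^ 5 * (h / 2) = 4 * H ^ 4 := by
      rw [show 8 * H ^ 5 * (h / 2) = 4 * H ^ 4 * (h * H) by ring, hH, mul_one]
    calc q * H ^ 4 ≤ 4 * H ^ 4 := mul_le_mul_of_nonneg_right (by linarith) (by positivity)
      _ = 8 * H ^ 5 * (h / 2) := b1.symm
      _ ≤ 8 * H ^ 5 * s := mul_le_mul_of_nonneg_left hs1 (by positivity)

theorem ca_out (hR : 10 ^ 7 ≤ R) (i j : ℕ)
    (hm : mq R K T (xc (hq R) (Ka R) i, xc (hq R) (Ka R) j) = om R ^ 2) :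
    Lq R / spq R K T i j = ((3 * Hh R ^ 5 : ℕ) : ℚ) := by
  have h1 : hq R * Hh R = 1 := by exact_mod_cast (hq_mul hR).2
  have h2 : 0 < hq R := (ca_hq_pos hR).1
  have h3 : (3 : ℚ) ≤ piq R := by exact_mod_cast (piq_spec hR).1
  have h4 : (8 : ℚ) ≤ om R ^ 2 := by exact_mod_cast (ca_om (M := 0) hR (by positivity)).2.1
  rw [Lq, spq, hm, ell]
  push_cast
  generalize om R ^ 2 = o at *
  generalize (Hh R : ℚ) = H at *
  generalize hq R = h at *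
  generalize piq R = q at *
  have hq0 : 0 < q := by linarith
  have ho0 : 0 < o := by linarith
  have e : H = 1 / h := by rw [eq_div_iff h2.ne', mul_comm, h1]
  rw [e]
  field_simp
  norm_num

theorem ca_sum_range {α : Type} [AddCommMonoid α] (n : ℕ) (f : ℕ → α) :
    ((List.range n).map f).sum = ∑ i ∈ Finset.range n, f i := by
  induction n with
  | zero => simp
  | succ n ih => rw [List.range_succ, List.map_append, List.sum_append, ih, Finset.sum_range_succ]; simp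

theorem ca_sum_flatMap {α β γ : Type} [AddCommMonoid γ] (l : List α) (f : α → List β) (F : β → γ) :
    ((l.flatMap f).map F).sum = (l.map fun a => ((f a).map F).sum).sum := by
  induction l with
  | nil => simp
  | cons a l ih => rw [List.flatMap_cons, List.map_append, List.sum_append, ih]; simp

theorem ca_length_flatMap {α β : Type} (l : List α) (f : α → List β) (c : ℕ)
    (h : ∀ a, (f a).length ≤ c) : (l.flatMap f).length ≤ l.length * c := by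
  induction l with
  | nil => simp
  | cons a l ih =>
    rw [List.flatMap_cons, List.length_append, List.length_cons, Nat.succ_mul]
    have := h a
    omega

theorem ca_xc_inj {s : ℚ} (hs : s ≠ 0) (n : ℕ) : Function.Injective (xc s n) := fun i j hij => by
  simp only [xc] at hij
  have h1 := mul_left_cancel₀ hs hij
  have h2 : (i : ℚ) = j := by linarith
  exact_mod_cast h2

theorem ca_abs_sum {α : Type} (l : List α) (f g : α → ℝ) (c : ℝ) (h : ∀ a, |f a - g a| ≤ c) :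
    |(l.map f).sum - (l.map g).sum| ≤ l.length * c := by
  induction l with
  | nil => simp
  | cons a l ih =>
    simp only [List.map_cons, List.sum_cons, List.length_cons]
    push_cast
    have := h a
    rw [abs_le] at this ih ⊢
    constructor <;> linarith [this.1, this.2, ih.1, ih.2]

theorem atoms_ok (hR : 10 ^ 7 ≤ R) (hM : M ≤ (R : ℝ) ^ 6801)
    (hS : Bd 8 M (geo R K T).toReal.S) (hw : Bd 6 M (wR R K T))
    (hout : ∀ p, p ∉ box2 (Lam R K : ℝ) → wR R K T p = 1) :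
    AtomsOK (atoms R K T) (wR R K T) (ell R) (om R) (Lq R) ((hq R : ℝ) ^ 39) (Lam R K) := by
  obtain ⟨hh0, hh1⟩ := hq_pos hR
  refine ⟨hh0, hh1, fun i _ j _ => ?_⟩
  change (hq R : ℝ) / 2 ≤ (spq R K T i j : ℝ) ∧ (spq R K T i j : ℝ) ≤ 3 * (hq R : ℝ) ∧
    |(ell R : ℝ) / ((hq R : ℝ) ^ 2 * (spq R K T i j : ℝ)) -
      ((om R : ℝ) ^ 2 + lap2 (wR R K T) (xc (hq R : ℝ) (Ka R) i, xc (hq R : ℝ) (Ka R) j)) /
        (4 * Real.pi)| ≤ (hq R : ℝ) ^ 39 ∧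
    |(ncq R K T i j : ℝ) * (spq R K T i j : ℝ) - Lq R| ≤ (spq R K T i j : ℝ) ∧
    ((xc (hq R : ℝ) (Ka R) i, xc (hq R : ℝ) (Ka R) j) ∉
      Icc 1 ((Lam R K : ℝ) + 1) ×ˢ Icc 1 ((Lam R K : ℝ) + 1) →
      (ncq R K T i j : ℝ) * (spq R K T i j : ℝ) = Lq R)
  rw [← ca_xc_cast, ← ca_xc_cast]
  obtain ⟨-, o1, o2⟩ := ca_om hR hM
  obtain ⟨q1, q2, q3⟩ := piq_spec hR
  obtain ⟨m1, m2⟩ := ca_mq_bounds hR hM hS hw hout (xc (hq R) (Ka R) i, xc (hq R) (Ka R) j)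
  have hsp : (spq R K T i j : ℝ) = 4 * (piq R : ℝ) * (ell R : ℝ) /
      ((hq R : ℝ) ^ 2 * (mq R K T (xc (hq R) (Ka R) i, xc (hq R) (Ka R) j) : ℝ)) := by
    rw [spq]; push_cast; rfl
  obtain ⟨c1, c2, c3, c4⟩ := ca_col hh0 (hq_mul hR).2 o1 o2 (ca_small hR) q1 q2 q3 m1 m2
    (ca_mq hR hM hS hw hout (xc (hq R) (Ka R) i, xc (hq R) (Ka R) j)) ell_eq hsp
  have hs0 : (0 : ℝ) < spq R K T i j := by linarith
  have hs0' : 0 < spq R K T i j := by exact_mod_cast hs0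
  have hL : (Lq R : ℝ) = (piq R : ℝ) * (Hh R : ℝ) ^ 4 := by rw [Lq]; push_cast; rfl
  have hL0 : 0 ≤ Lq R := by
    have : (0 : ℝ) ≤ Lq R := by rw [hL]; exact mul_nonneg (by linarith) (by positivity)
    exact_mod_cast this
  rw [← hL] at c4
  have c4' : Lq R / spq R K T i j ≤ ((8 * Hh R ^ 5 : ℕ) : ℚ) := by exact_mod_cast c4
  have hn : ncq R K T i j = ⌊Lq R / spq R K T i j⌋₊ := by
    rw [ncq]
    exact min_eq_left (Nat.floor_le_of_le c4')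
  refine ⟨c1, c2, c3, ?_, fun hp => ?_⟩
  · have f1 := Nat.floor_le (div_nonneg hL0 hs0'.le)
    have f2 := Nat.lt_floor_add_one (Lq R / spq R K T i j)
    rw [← hn] at f1 f2
    rw [le_div_iff₀ hs0'] at f1
    rw [div_lt_iff₀ hs0'] at f2
    have : |(ncq R K T i j : ℚ) * spq R K T i j - Lq R| ≤ spq R K T i j := by
      rw [abs_le]; constructor <;> linarith
    exact_mod_cast this
  · have hm : mq R K T (xc (hq R) (Ka R) i, xc (hq R) (Ka R) j) = om R ^ 2 := by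
      rw [mq, if_neg]
      rintro ⟨⟨h1, h2⟩, h3, h4⟩
      dsimp only at h1 h2 h3 h4
      refine hp ⟨⟨?_, ?_⟩, ?_, ?_⟩ <;> dsimp only
      · exact_mod_cast h1
      · exact_mod_cast h2
      · exact_mod_cast h3
      · exact_mod_cast h4
    have e := ca_out hR i j hm
    rw [e, Nat.floor_natCast] at hn
    rw [← hn, div_eq_iff hs0'.ne'] at e
    exact_mod_cast e.symm

theorem Lq_bounds (hR : 10 ^ 7 ≤ R) :
    3 * (Hh R : ℝ) ^ 4 ≤ Lq R ∧ (Lq R : ℝ) ≤ 4 * (Hh R : ℝ) ^ 4 := by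
  obtain ⟨q1, q2, -⟩ := piq_spec hR
  have hL : (Lq R : ℝ) = (piq R : ℝ) * (Hh R : ℝ) ^ 4 := by rw [Lq]; push_cast; rfl
  rw [hL]
  exact ⟨mul_le_mul_of_nonneg_right q1 (by positivity),
    mul_le_mul_of_nonneg_right (q2.trans Real.pi_le_four) (by positivity)⟩

theorem atoms_sum (R K : ℕ) (T : Tabs) (F : P3 → ℝ) :
    (atoms R K T).sum F = ((pts R K T).map fun Y => F (toP3 Y)).sum := by
  rw [pts, ca_sum_flatMap, ca_sum_range]
  refine Finset.sum_congr rfl fun i _ => ?_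
  rw [ca_sum_flatMap, ca_sum_range]
  refine Finset.sum_congr rfl fun j _ => ?_
  rw [List.map_map, ca_sum_range]
  refine Finset.sum_congr rfl fun k _ => ?_
  simp only [Function.comp, toP3, ca_xc_cast]
  rfl

theorem atoms_sum_fin (R K : ℕ) (T : Tabs) (F : P3 → ℝ) :
    (atoms R K T).sum F = ∑ α : Fin (pts R K T).length, F (toP3 ((pts R K T).get α)) := by
  rw [atoms_sum]
  exact (Fin.sum_univ_fun_getElem (pts R K T) fun Y => F (toP3 Y)).symm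

theorem pts_length (R K : ℕ) (T : Tabs) : (pts R K T).length ≤ 64 * Hh R ^ 41 := by
  have h := ca_length_flatMap (List.range (2 * Ka R)) (fun i => (List.range (2 * Ka R)).flatMap fun j =>
    (List.range (2 * ncq R K T i j)).map fun k =>
      ((xc (hq R) (Ka R) i, xc (hq R) (Ka R) j), xc (spq R K T i j) (ncq R K T i j) k))
    ((List.range (2 * Ka R)).length * (2 * (8 * Hh R ^ 5))) fun i =>
      ca_length_flatMap _ _ _ fun j => by
        rw [List.length_map, List.length_range]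
        exact Nat.mul_le_mul_left 2 (min_le_right _ _)
  rw [List.length_range] at h
  refine h.trans (le_of_eq ?_)
  rw [Ka]
  generalize Hh R = H
  ring

/-- `xc s n` is injective for `s ≠ 0`, `ell R ≠ 0`. -/
theorem nuclei_nodup (hR : 10 ^ 7 ≤ R) {w : P2 → ℝ} {ℓ ω L τ Λ : ℝ}
    (h : AtomsOK (atoms R K T) w ℓ ω L τ Λ) : ((pts R K T).map (posq R)).Nodup := by
  have hq0 : 0 < hq R := (ca_hq_pos hR).1
  have hl : ell R ≠ 0 := by
    obtain ⟨e1, e2, -⟩ := eps_bounds hR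
    have : (0 : ℝ) < ell R := (pow_pos (hq_pos hR).1 3).trans_le (e1.trans e2)
    exact_mod_cast this.ne'
  refine List.Nodup.map (fun Y Y' hY => ?_) ?_
  · have h0 := congrFun hY 0
    have h1 := congrFun hY 1
    have h2 := congrFun hY 2
    simp only [posq, Matrix.cons_val_zero, Matrix.cons_val_one, Matrix.cons_val] at h0 h1 h2
    exact Prod.ext (Prod.ext (mul_left_cancel₀ hl h0) (mul_left_cancel₀ hl h1)) (mul_left_cancel₀ hl h2)
  rw [pts, List.nodup_flatMap]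
  refine ⟨fun i hi => ?_, List.nodup_range.pairwise_of_forall_ne fun i _ i' _ hii' => ?_⟩
  · rw [List.nodup_flatMap]
    refine ⟨fun j hj => ?_, List.nodup_range.pairwise_of_forall_ne fun j _ j' _ hjj' => ?_⟩
    · have hs : spq R K T i j ≠ 0 := by
        have c : (hq R : ℝ) / 2 ≤ (spq R K T i j : ℝ) :=
          (h.col i (List.mem_range.1 hi) j (List.mem_range.1 hj)).1
        have : (0 : ℝ) < spq R K T i j := by linarith [(hq_pos hR).1]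
        exact_mod_cast this.ne'
      exact List.nodup_range.map fun k k' hk => ca_xc_inj hs _ (congrArg Prod.snd hk)
    · intro Y hY hY'
      obtain ⟨k, -, rfl⟩ := List.mem_map.1 hY
      obtain ⟨k', -, e⟩ := List.mem_map.1 hY'
      exact hjj' (ca_xc_inj hq0.ne' _ (congrArg (fun Y => Y.1.2) e)).symm
  · intro Y hY hY'
    obtain ⟨j, -, hY⟩ := List.mem_flatMap.1 hY
    obtain ⟨j', -, hY'⟩ := List.mem_flatMap.1 hY'
    obtain ⟨k, -, rfl⟩ := List.mem_map.1 hY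
    obtain ⟨k', -, e⟩ := List.mem_map.1 hY'
    exact hii' (ca_xc_inj hq0.ne' _ (congrArg (fun Y => Y.1.1) e)).symm

theorem pts_ne_nil (hR : 10 ^ 7 ≤ R) {w : P2 → ℝ} {ℓ ω τ Λ : ℝ}
    (h : AtomsOK (atoms R K T) w ℓ ω (Lq R) τ Λ) : pts R K T ≠ [] := by
  obtain ⟨r1, r2, r3⟩ := R_le_Pp hR
  obtain ⟨hh0, hh1⟩ := hq_pos hR
  have hH : (2 : ℝ) ≤ Hh R := by linarith [show (2 : ℝ) ≤ 10 ^ 7 by norm_num]
  have hH' : 0 < Hh R := by
    have : (0 : ℝ) < Hh R := by linarith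
    exact_mod_cast this
  have hK : 0 < 2 * Ka R := Nat.mul_pos two_pos (pow_pos hH' 18)
  obtain ⟨-, c2, -, c4, -⟩ := h.col 0 hK 0 hK
  change (spq R K T 0 0 : ℝ) ≤ 3 * (hq R : ℝ) at c2
  change |(ncq R K T 0 0 : ℝ) * (spq R K T 0 0 : ℝ) - Lq R| ≤ (spq R K T 0 0 : ℝ) at c4
  have hn : 0 < 2 * ncq R K T 0 0 := by
    refine Nat.mul_pos two_pos (Nat.pos_of_ne_zero fun h0 => ?_)
    rw [h0, Nat.cast_zero, zero_mul, zero_sub, abs_neg] at c4
    have l1 := (Lq_bounds hR).1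
    have l2 : (2 : ℝ) ^ 4 ≤ (Hh R : ℝ) ^ 4 := pow_le_pow_left₀ (by norm_num) hH 4
    have l3 := le_abs_self (Lq R : ℝ)
    generalize (Hh R : ℝ) ^ 4 = A at *
    norm_num at l2
    linarith
  refine List.ne_nil_of_mem (a := ((xc (hq R) (Ka R) 0, xc (hq R) (Ka R) 0),
    xc (spq R K T 0 0) (ncq R K T 0 0) 0)) ?_
  rw [pts]
  exact List.mem_flatMap.2 ⟨0, List.mem_range.2 hK, List.mem_flatMap.2 ⟨0, List.mem_range.2 hK,
    List.mem_map.2 ⟨0, List.mem_range.2 hn, rfl⟩⟩⟩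

theorem cq_spec (hR : 10 ^ 7 ≤ R) (K : ℕ) (T : Tabs) :
    |(cq R K T : ℝ) - (ell R * (atoms R K T).sum kfar + 3 * (om R : ℝ) ^ 2 / 8)| ≤ (hq R : ℝ) ^ 18 := by
  obtain ⟨hh0, hh1⟩ := hq_pos hR
  obtain ⟨e1, e2, e3, -⟩ := eps_bounds hR
  have hl : (0 : ℝ) < ell R := (pow_pos hh0 3).trans_le (e1.trans e2)
  have h1 := ca_abs_sum (pts R K T) (fun Y => (kq R Y : ℝ)) (fun Y => kfar (toP3 Y)) _ (kq_spec hR)
  have h2 : ((pts R K T).length : ℝ) ≤ 64 * (Hh R : ℝ) ^ 41 := by exact_mod_cast pts_length R K T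
  have h3 : (cq R K T : ℝ) = ell R * ((pts R K T).map fun Y => (kq R Y : ℝ)).sum +
      3 * (om R : ℝ) ^ 2 / 8 := by
    rw [cq]
    push_cast
    rw [List.map_map]
    rfl
  have hs := ca_small hR
  have hH := (hq_mul hR).2
  have hP : (1 : ℝ) ≤ Pp R := by
    obtain ⟨r1, r2, -⟩ := R_le_Pp hR
    linarith [show (1 : ℝ) ≤ 10 ^ 7 by norm_num]
  rw [h3, atoms_sum, add_sub_add_right_eq_sub, ← mul_sub, abs_mul, abs_of_pos hl]
  have h4 := h1.trans (mul_le_mul_of_nonneg_right h2 (pow_pos hh0 60).le)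
  refine (mul_le_mul e3 h4 (abs_nonneg _) (hl.le.trans e3)).trans ?_
  generalize (Pp R : ℝ) = P at *
  generalize (Hh R : ℝ) = H at *
  generalize (hq R : ℝ) = h at *
  have h5 : 64 * P * h ≤ 1 := (mul_le_mul_of_nonneg_right (by nlinarith) hh0.le).trans hs
  have h6 : h ^ 21 ≤ h ^ 18 := pow_le_pow_of_le_one hh0.le hh1 (by norm_num)
  calc P * h ^ 3 * (64 * H ^ 41 * h ^ 60) = (64 * P * h) * h ^ 21 * (h * H) ^ 41 := by ring
    _ = (64 * P * h) * h ^ 21 := by rw [hH, one_pow, mul_one]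
    _ ≤ 1 * h ^ 18 := mul_le_mul h5 h6 (by positivity) zero_le_one
    _ = h ^ 18 := one_mul _

theorem realPos_posq (R : ℕ) (Y : (ℚ × ℚ) × ℚ) : realPos (posq R Y) = phys (ell R) (toP3 Y) := by
  simp only [realPos, phys]
  congr 1
  funext c
  fin_cases c <;> simp [posq, toP3]

end Crest.Agent.R338
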