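import Crest.Agent.R338.Sig
import Crest.Agent.R338.Word

/-! # Stage C: the algorithm (all in `ℚ`)

`R = B + C₀`.  Two levels of scales: "polynomial in `R`" quantities are all `≤ Pp R = R^24000`, the lattice spacing is
`h = 1/Hh R`, `Hh R = (Pp R)^11`.  DO NOT EDIT (msg helper74). -/

set_option autoImplicit false
set_option linter.dupNamespace false

namespace Crest.Agent.R338

open Crest.MathPhysics.CoulombProblem

/-- (`tH`, `tV`, `ε`, hard-core flags) -/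
abbrev Tabs := List (List ℚ) × List (List ℚ) × List (List ℚ) × List (List Bool)

def Pp (R : ℕ) : ℕ := R ^ 24000
def Hh (R : ℕ) : ℕ := Pp R ^ 11
/-- lattice spacing -/
def hq (R : ℕ) : ℚ := 1 / (Hh R : ℚ)
/-- confining frequency -/
def om (R : ℕ) : ℚ := (R : ℚ) ^ 3402
/-- length scale = weight of one atom -/
def ell (R : ℕ) : ℚ := hq R ^ 3 * om R ^ 2 / 12
/-- energy unit of the grid model -/
def eps (R : ℕ) : ℚ := ell R / (R : ℚ) ^ 8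
/-- Wallis approximation of `π` -/
def piq (R : ℕ) : ℚ :=
  2 * ∏ i ∈ Finset.range (2 * Hh R ^ 40),
    (2 * (i : ℚ) + 2) / (2 * (i : ℚ) + 1) * ((2 * (i : ℚ) + 2) / (2 * (i : ℚ) + 3))
/-- approximation of `min (R²) (-½ log T)` -/
def lvl (R : ℕ) (T : ℚ) : ℚ :=
  (((List.range (2 * R ^ 35)).countP fun k => decide (T < (1 - 1 / (R : ℚ) ^ 33) ^ k) : ℕ) : ℚ) /
    (2 * (R : ℚ) ^ 33)
/-- side of an island -/
def sdq (R : ℕ) (T : Tabs) (i j : ℕ) : ℚ := if flag T.2.2.2 i j = true then 1 else (R : ℚ) ^ 12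

def geo (R K : ℕ) (T : Tabs) : Geo ℚ where
  K := K
  D := (R : ℚ) ^ 42
  a := 1 / (R : ℚ) ^ 30
  Ssea := (R : ℚ) ^ 2
  sd := sdq R T
  lvH i j := lvl R ((R : ℚ) ^ 42 * (2 * sdq R T i j * sdq R T (i + 1) j * (eps R * ent T.1 i j)))
  lvV i j := lvl R ((R : ℚ) ^ 42 * (2 * sdq R T i j * sdq R T i (j + 1) * (eps R * ent T.2.1 i j)))
  ep := epOf K (sdq R T) (fun i j => eps R * ent T.1 i j) (fun i j => eps R * ent T.2.1 i j)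
    (fun i j => eps R * ent T.2.2.1 i j)

def fd1x (τ : ℚ) (f : ℚ × ℚ → ℚ) (p : ℚ × ℚ) : ℚ := (f (p.1 + τ, p.2) - f p) / τ
def fd1y (τ : ℚ) (f : ℚ × ℚ → ℚ) (p : ℚ × ℚ) : ℚ := (f (p.1, p.2 + τ) - f p) / τ
def fd2x (τ : ℚ) (f : ℚ × ℚ → ℚ) (p : ℚ × ℚ) : ℚ :=
  (f (p.1 + τ, p.2) - 2 * f p + f (p.1 - τ, p.2)) / τ ^ 2
def fd2y (τ : ℚ) (f : ℚ × ℚ → ℚ) (p : ℚ × ℚ) : ℚ :=
  (f (p.1, p.2 + τ) - 2 * f p + f (p.1, p.2 - τ)) / τ ^ 2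

/-- finite difference approximation of `wOf S v ε` -/
def wq (g : Geo ℚ) (τ : ℚ) (p : ℚ × ℚ) : ℚ :=
  1 / 2 * (fd1x τ g.S p ^ 2 + fd1y τ g.S p ^ 2 - (fd2x τ g.S p + fd2y τ g.S p)) + g.v p + g.ε p

/-- side of the box -/
def Lam (R K : ℕ) : ℚ := (R : ℚ) ^ 42 * ((K : ℚ) + 1)

/-- approximation of `ω² + Δw` -/
def mq (R K : ℕ) (T : Tabs) (p : ℚ × ℚ) : ℚ :=
  if (1 ≤ p.1 ∧ p.1 ≤ Lam R K + 1) ∧ (1 ≤ p.2 ∧ p.2 ≤ Lam R K + 1) then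
    om R ^ 2 + (fd2x (hq R ^ 41) (wq (geo R K T) (hq R ^ 123)) p +
      fd2y (hq R ^ 41) (wq (geo R K T) (hq R ^ 123)) p)
  else om R ^ 2

def Ka (R : ℕ) : ℕ := Hh R ^ 18
/-- half-height of the slab -/
def Lq (R : ℕ) : ℚ := piq R * (Hh R : ℚ) ^ 4
def spq (R K : ℕ) (T : Tabs) (i j : ℕ) : ℚ :=
  4 * piq R * ell R / (hq R ^ 2 * mq R K T (xc (hq R) (Ka R) i, xc (hq R) (Ka R) j))
def ncq (R K : ℕ) (T : Tabs) (i j : ℕ) : ℕ := min ⌊Lq R / spq R K T i j⌋₊ (8 * Hh R ^ 5)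

/-- the atoms, in scaled units -/
def pts (R K : ℕ) (T : Tabs) : List ((ℚ × ℚ) × ℚ) :=
  (List.range (2 * Ka R)).flatMap fun i => (List.range (2 * Ka R)).flatMap fun j =>
    (List.range (2 * ncq R K T i j)).map fun k =>
      ((xc (hq R) (Ka R) i, xc (hq R) (Ka R) j), xc (spq R K T i j) (ncq R K T i j) k)

/-- approximation of `kfar` -/
def kq (R : ℕ) (Y : (ℚ × ℚ) × ℚ) : ℚ :=
  sig (2 * (Y.1.1 ^ 2 + Y.1.2 ^ 2 + Y.2 ^ 2) - 1) *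
    ((((List.range (2 * Hh R ^ 60)).countP fun k => decide (((k : ℚ) + 1) ^ 2 *
      (Y.1.1 ^ 2 + Y.1.2 ^ 2 + Y.2 ^ 2) ≤ ((Hh R : ℚ) ^ 60) ^ 2) : ℕ) : ℚ) / (Hh R : ℚ) ^ 60)

/-- approximation of the depth of the potential -/
def cq (R K : ℕ) (T : Tabs) : ℚ := ell R * ((pts R K T).map (kq R)).sum + 3 * om R ^ 2 / 8

def posq (R : ℕ) (Y : (ℚ × ℚ) × ℚ) : Fin 3 → ℚ := ![ell R * Y.1.1, ell R * Y.1.2, ell R * Y.2]

def inst (R K N : ℕ) (T : Tabs) (a b : ℚ) : Instance where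
  nuclei := (pts R K T).map (posq R)
  electrons := N
  lower := ((N : ℚ) * (om R / 2 - (cq R K T + 1)) + eps R * (a + 1 / 4)) / ell R ^ 2
  upper := ((N : ℚ) * (om R / 2 - (cq R K T + 1)) + eps R * (b - 1 / 4)) / ell R ^ 2

noncomputable def alg (C₀ : ℕ) (x : GRI) : List Bool :=
  (inst (x.1.n + C₀) (min x.2.1 x.1.n) (min x.2.2.1 x.1.n) x.2.2.2.1 x.2.2.2.2.1 x.2.2.2.2.2).code

/-- A rational point of `P3`. -/
def toP3 (Y : (ℚ × ℚ) × ℚ) : P3 := ((Y.1.1, Y.1.2), Y.2)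

/-- The atoms as an `Atoms` structure. -/
noncomputable def atoms (R K : ℕ) (T : Tabs) : Atoms :=
  ⟨hq R, Ka R, fun i j => spq R K T i j, ncq R K T⟩

/-- The planar potential of the instance. -/
noncomputable def wR (R K : ℕ) (T : Tabs) : P2 → ℝ :=
  wOf (geo R K T).toReal.S (geo R K T).toReal.v (geo R K T).toReal.ε

/-- The tables are bounded by `R`. -/
def TabsOK (R : ℕ) (T : Tabs) : Prop :=
  ∀ i j, 0 ≤ ent T.1 i j ∧ ent T.1 i j ≤ R ∧ 0 ≤ ent T.2.1 i j ∧ ent T.2.1 i j ≤ R ∧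
    |ent T.2.2.1 i j| ≤ R

end Crest.Agent.R338
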