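import Crest.Agent.R338.Tens

/-! # Operator norm bounds `OpLe`, stability of `MYes` / `MNo`
Elementary: Cauchy-Schwarz for `dotProduct` (`Finset.sum_mul_sq_le_sq_mul_sq`, or pass to
`EuclideanSpace`). -/

set_option autoImplicit false
set_option linter.dupNamespace false
set_option linter.unusedVariables false

noncomputable section

namespace Crest.Agent.R338

open Crest.Agent.Lib.PT Matrix

variable {κ κ' κ'' : Type} [Fintype κ] [Fintype κ'] [Fintype κ'']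

theorem op_mulVec_dot_self (M : Matrix κ κ' ℝ) (x : κ' → ℝ) :
    (M *ᵥ x) ⬝ᵥ (M *ᵥ x) = x ⬝ᵥ (Mᵀ * M) *ᵥ x := by
  rw [← mulVec_mulVec, dotProduct_mulVec x, vecMul_transpose]

theorem op_form_submatrix (e : κ' ≃ κ) (M : Matrix κ κ ℝ) (x : κ → ℝ) :
    (x ∘ e) ⬝ᵥ M.submatrix e e *ᵥ (x ∘ e) = x ⬝ᵥ M *ᵥ x := by
  have hx : (x ∘ e) ∘ e.symm = x := by funext i; simp
  rw [submatrix_mulVec_equiv, hx, comp_equiv_dotProduct_comp_equiv]

theorem dot_self_nonneg (x : κ → ℝ) : 0 ≤ x ⬝ᵥ x := by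
  exact Finset.sum_nonneg fun i _ => mul_self_nonneg (x i)

theorem dot_self_pos {x : κ → ℝ} (h : x ≠ 0) : 0 < x ⬝ᵥ x := by
  exact lt_of_le_of_ne (dot_self_nonneg x) fun h' => h (dotProduct_self_eq_zero.1 h'.symm)

theorem dot_sq_le (x y : κ → ℝ) : (x ⬝ᵥ y) ^ 2 ≤ (x ⬝ᵥ x) * (y ⬝ᵥ y) := by
  have h := Finset.sum_mul_sq_le_sq_mul_sq Finset.univ x y
  simpa only [dotProduct, sq] using h

/-- Young's inequality for dot products. -/
theorem two_dot_le (x y : κ → ℝ) {t : ℝ} (ht : 0 < t) :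
    2 * |x ⬝ᵥ y| ≤ t * (x ⬝ᵥ x) + (y ⬝ᵥ y) / t := by
  have h1 := dot_self_nonneg (t • x - y)
  have h2 := dot_self_nonneg (t • x + y)
  simp only [sub_dotProduct, dotProduct_sub, add_dotProduct, dotProduct_add, smul_dotProduct,
    dotProduct_smul, smul_eq_mul, dotProduct_comm y x] at h1 h2
  have key : t * (2 * |x ⬝ᵥ y|) ≤ t * (t * (x ⬝ᵥ x) + (y ⬝ᵥ y) / t) := by
    have e : t * (t * (x ⬝ᵥ x) + (y ⬝ᵥ y) / t) = t * (t * (x ⬝ᵥ x)) + y ⬝ᵥ y := by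
      field_simp
    rw [e]
    rcases abs_cases (x ⬝ᵥ y) with h | h <;> rw [h.1] <;> linarith
  exact le_of_mul_le_mul_left key ht

theorem OpLe.mono {M : Matrix κ κ' ℝ} {v w : ℝ} (h : OpLe M v) (h0 : 0 ≤ v) (hw : v ≤ w) :
    OpLe M w := by
  intro x
  exact (h x).trans (mul_le_mul_of_nonneg_right (pow_le_pow_left₀ h0 hw 2) (dot_self_nonneg x))

theorem OpLe.zero (v : ℝ) : OpLe (0 : Matrix κ κ' ℝ) v := by
  intro x
  simp only [zero_mulVec, dotProduct_zero]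
  exact mul_nonneg (sq_nonneg v) (dot_self_nonneg x)

theorem OpLe.one [DecidableEq κ] : OpLe (1 : Matrix κ κ ℝ) 1 := by
  intro x
  simp

theorem OpLe.add {M M' : Matrix κ κ' ℝ} {v w : ℝ} (h : OpLe M v) (h' : OpLe M' w) (h0 : 0 ≤ v)
    (h0' : 0 ≤ w) : OpLe (M + M') (v + w) := by
  intro x
  have hx := dot_self_nonneg x
  have h1 := h x
  have h2 := h' x
  have h3 := dot_sq_le (M *ᵥ x) (M' *ᵥ x)
  have h4 : ((M *ᵥ x) ⬝ᵥ (M' *ᵥ x)) ^ 2 ≤ (v * w * (x ⬝ᵥ x)) ^ 2 := by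
    refine h3.trans ?_
    calc _ ≤ (v ^ 2 * (x ⬝ᵥ x)) * (w ^ 2 * (x ⬝ᵥ x)) :=
          mul_le_mul h1 h2 (dot_self_nonneg _) (mul_nonneg (sq_nonneg v) hx)
      _ = _ := by ring
  have h5 : (M *ᵥ x) ⬝ᵥ (M' *ᵥ x) ≤ v * w * (x ⬝ᵥ x) :=
    (abs_le_of_sq_le_sq' h4 (mul_nonneg (mul_nonneg h0 h0') hx)).2
  simp only [add_mulVec, add_dotProduct, dotProduct_add, dotProduct_comm (M' *ᵥ x) (M *ᵥ x)]
  calc _ ≤ v ^ 2 * (x ⬝ᵥ x) + 2 * (v * w * (x ⬝ᵥ x)) + w ^ 2 * (x ⬝ᵥ x) := by linarith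
    _ = _ := by ring

theorem OpLe.neg {M : Matrix κ κ' ℝ} {v : ℝ} (h : OpLe M v) : OpLe (-M) v := by
  intro x
  simpa only [neg_mulVec, neg_dotProduct_neg] using h x

theorem OpLe.sub {M M' : Matrix κ κ' ℝ} {v w : ℝ} (h : OpLe M v) (h' : OpLe M' w) (h0 : 0 ≤ v)
    (h0' : 0 ≤ w) : OpLe (M - M') (v + w) := by
  rw [sub_eq_add_neg]
  exact h.add h'.neg h0 h0'

theorem OpLe.smul {M : Matrix κ κ' ℝ} {v : ℝ} (h : OpLe M v) (c : ℝ) : OpLe (c • M) (|c| * v) := by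
  intro x
  simp only [smul_mulVec, smul_dotProduct, dotProduct_smul, smul_eq_mul, mul_pow, sq_abs]
  calc c * (c * ((M *ᵥ x) ⬝ᵥ (M *ᵥ x))) = c ^ 2 * ((M *ᵥ x) ⬝ᵥ (M *ᵥ x)) := by ring
    _ ≤ c ^ 2 * (v ^ 2 * (x ⬝ᵥ x)) := mul_le_mul_of_nonneg_left (h x) (sq_nonneg c)
    _ = _ := by ring

theorem OpLe.mul {M : Matrix κ κ' ℝ} {M' : Matrix κ' κ'' ℝ} {v w : ℝ} (h : OpLe M v)
    (h' : OpLe M' w) : OpLe (M * M') (v * w) := by
  intro x
  rw [← mulVec_mulVec]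
  calc _ ≤ v ^ 2 * ((M' *ᵥ x) ⬝ᵥ (M' *ᵥ x)) := h _
    _ ≤ v ^ 2 * (w ^ 2 * (x ⬝ᵥ x)) := mul_le_mul_of_nonneg_left (h' x) (sq_nonneg v)
    _ = _ := by ring

theorem OpLe.sum {α : Type} (s : Finset α) {M : α → Matrix κ κ' ℝ} {v : α → ℝ}
    (h : ∀ a ∈ s, OpLe (M a) (v a)) (h0 : ∀ a ∈ s, 0 ≤ v a) :
    OpLe (∑ a ∈ s, M a) (∑ a ∈ s, v a) := by
  classical
  induction s using Finset.induction_on with
  | empty => simpa using OpLe.zero 0
  | insert a s ha ih =>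
    rw [Finset.sum_insert ha, Finset.sum_insert ha]
    exact (h a (Finset.mem_insert_self _ _)).add
      (ih (fun b hb => h b (Finset.mem_insert_of_mem hb))
        (fun b hb => h0 b (Finset.mem_insert_of_mem hb)))
      (h0 a (Finset.mem_insert_self _ _))
      (Finset.sum_nonneg fun b hb => h0 b (Finset.mem_insert_of_mem hb))

theorem OpLe.listSum {α : Type} (l : List α) {M : α → Matrix κ κ' ℝ} {v : α → ℝ}
    (h : ∀ a ∈ l, OpLe (M a) (v a)) (h0 : ∀ a ∈ l, 0 ≤ v a) :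
    OpLe (l.map M).sum (l.map v).sum := by
  induction l with
  | nil => simpa using OpLe.zero 0
  | cons a l ih =>
    simp only [List.map_cons, List.sum_cons]
    refine (h a List.mem_cons_self).add
      (ih (fun b hb => h b (List.mem_cons_of_mem _ hb))
        (fun b hb => h0 b (List.mem_cons_of_mem _ hb)))
      (h0 a List.mem_cons_self) (List.sum_nonneg ?_)
    intro y hy
    obtain ⟨b, hb, rfl⟩ := List.mem_map.1 hy
    exact h0 b (List.mem_cons_of_mem _ hb)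

theorem OpLe.of_orth [DecidableEq κ'] {M : Matrix κ κ' ℝ} (h : Mᵀ * M = 1) : OpLe M 1 := by
  intro x
  rw [op_mulVec_dot_self, h]
  simp

theorem OpLe.of_proj {M : Matrix κ κ ℝ} (hs : Mᵀ = M) (h : M * M = M) : OpLe M 1 := by
  intro x
  have h1 : (M *ᵥ x) ⬝ᵥ (M *ᵥ x) = x ⬝ᵥ M *ᵥ x := by rw [op_mulVec_dot_self, hs, h]
  have h2 := dot_self_nonneg (x - M *ᵥ x)
  simp only [sub_dotProduct, dotProduct_sub, dotProduct_comm (M *ᵥ x) x] at h2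
  linarith

theorem OpLe.transpose {M : Matrix κ κ' ℝ} {v : ℝ} (h : OpLe M v) : OpLe Mᵀ v := by
  intro y
  have h1 : (Mᵀ *ᵥ y) ⬝ᵥ (Mᵀ *ᵥ y) = y ⬝ᵥ M *ᵥ (Mᵀ *ᵥ y) := by
    rw [dotProduct_mulVec y M, mulVec_transpose]
  have h2 := dot_sq_le y (M *ᵥ (Mᵀ *ᵥ y))
  have h3 := h (Mᵀ *ᵥ y)
  have hy := dot_self_nonneg y
  rw [← h1] at h2
  rcases (dot_self_nonneg (Mᵀ *ᵥ y)).eq_or_lt with h0 | h0
  · rw [← h0]; exact mul_nonneg (sq_nonneg v) hy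
  · refine le_of_mul_le_mul_right ?_ h0
    calc _ = ((Mᵀ *ᵥ y) ⬝ᵥ (Mᵀ *ᵥ y)) ^ 2 := by ring
      _ ≤ _ := h2
      _ ≤ (y ⬝ᵥ y) * (v ^ 2 * ((Mᵀ *ᵥ y) ⬝ᵥ (Mᵀ *ᵥ y))) := mul_le_mul_of_nonneg_left h3 hy
      _ = _ := by ring

/-- Schur test. -/
theorem OpLe.of_rowcol {M : Matrix κ κ' ℝ} {v : ℝ} (hr : ∀ i, ∑ j, |M i j| ≤ v)
    (hc : ∀ j, ∑ i, |M i j| ≤ v) : OpLe M v := by
  intro x
  rcases isEmpty_or_nonempty κ with hκ | ⟨⟨i0⟩⟩
  · have : (M *ᵥ x) ⬝ᵥ (M *ᵥ x) = 0 := by simp [dotProduct]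
    rw [this]; exact mul_nonneg (sq_nonneg v) (dot_self_nonneg x)
  have hv : 0 ≤ v := (Finset.sum_nonneg fun j _ => abs_nonneg (M i0 j)).trans (hr i0)
  have h1 : ∀ i, (M *ᵥ x) i * (M *ᵥ x) i ≤ v * ∑ j, |M i j| * (x j * x j) := by
    intro i
    have h2 := Finset.sum_sq_le_sum_mul_sum_of_sq_le_mul Finset.univ
      (r := fun j => M i j * x j) (f := fun j => |M i j|) (g := fun j => |M i j| * (x j * x j))
      (fun j _ => abs_nonneg _) (fun j _ => mul_nonneg (abs_nonneg _) (mul_self_nonneg _))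
      (fun j _ => le_of_eq (by rw [← mul_assoc, abs_mul_abs_self]; ring))
    calc _ = (∑ j, M i j * x j) ^ 2 := by simp only [mulVec, dotProduct, sq]
      _ ≤ _ := h2
      _ ≤ _ := mul_le_mul_of_nonneg_right (hr i)
          (Finset.sum_nonneg fun j _ => mul_nonneg (abs_nonneg _) (mul_self_nonneg _))
  calc (M *ᵥ x) ⬝ᵥ (M *ᵥ x) ≤ ∑ i, v * ∑ j, |M i j| * (x j * x j) :=
        Finset.sum_le_sum fun i _ => h1 i
    _ = v * ∑ j, (∑ i, |M i j|) * (x j * x j) := by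
        rw [← Finset.mul_sum, Finset.sum_comm]
        simp only [Finset.sum_mul]
    _ ≤ v * ∑ j, v * (x j * x j) :=
        mul_le_mul_of_nonneg_left (Finset.sum_le_sum fun j _ =>
          mul_le_mul_of_nonneg_right (hc j) (mul_self_nonneg _)) hv
    _ = v ^ 2 * (x ⬝ᵥ x) := by
        rw [← Finset.mul_sum, dotProduct]; ring

/-- Entrywise bound. -/
theorem OpLe.of_entry {M : Matrix κ κ ℝ} {c : ℝ} (h : ∀ i j, |M i j| ≤ c) :
    OpLe M (Fintype.card κ * c) := by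
  refine OpLe.of_rowcol (fun i => ?_) (fun j => ?_)
  · simpa using Finset.sum_le_card_nsmul Finset.univ (fun j => |M i j|) c fun j _ => h i j
  · simpa using Finset.sum_le_card_nsmul Finset.univ (fun i => |M i j|) c fun i _ => h i j

theorem OpLe.dot_sq_le {M : Matrix κ κ' ℝ} {v : ℝ} (h : OpLe M v) (y : κ → ℝ) (x : κ' → ℝ) :
    (y ⬝ᵥ M *ᵥ x) ^ 2 ≤ v ^ 2 * ((y ⬝ᵥ y) * (x ⬝ᵥ x)) := by
  calc _ ≤ (y ⬝ᵥ y) * ((M *ᵥ x) ⬝ᵥ (M *ᵥ x)) := R338.dot_sq_le _ _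
    _ ≤ (y ⬝ᵥ y) * (v ^ 2 * (x ⬝ᵥ x)) := mul_le_mul_of_nonneg_left (h x) (dot_self_nonneg y)
    _ = _ := by ring

theorem OpLe.two_dot_le {M : Matrix κ κ' ℝ} {v : ℝ} (h : OpLe M v) (y : κ → ℝ) (x : κ' → ℝ)
    {t : ℝ} (ht : 0 < t) : 2 * |y ⬝ᵥ M *ᵥ x| ≤ t * (y ⬝ᵥ y) + v ^ 2 / t * (x ⬝ᵥ x) := by
  calc _ ≤ t * (y ⬝ᵥ y) + ((M *ᵥ x) ⬝ᵥ (M *ᵥ x)) / t := R338.two_dot_le _ _ ht
    _ ≤ t * (y ⬝ᵥ y) + (v ^ 2 * (x ⬝ᵥ x)) / t := by
        have := div_le_div_of_nonneg_right (h x) ht.le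
        linarith
    _ = _ := by ring

theorem OpLe.form_le {M : Matrix κ κ ℝ} {v : ℝ} (h : OpLe M v) (h0 : 0 ≤ v) (x : κ → ℝ) :
    |x ⬝ᵥ M *ᵥ x| ≤ v * (x ⬝ᵥ x) := by
  refine abs_le_of_sq_le_sq ?_ (mul_nonneg h0 (dot_self_nonneg x))
  calc _ ≤ _ := h.dot_sq_le x x
    _ = _ := by ring

theorem OpLe.loc {ι β : Type} [Fintype ι] [DecidableEq ι] [Fintype β] [DecidableEq β] (i : ι)
    {A : Matrix β β ℝ} {v : ℝ} (h : OpLe A v) : OpLe (loc i A) v := by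
  intro x
  rw [op_mulVec_dot_self, loc_transpose, loc_mul]
  have h1 := loc_form_mono i (A := Aᵀ * A) (B := (v ^ 2) • (1 : Matrix β β ℝ)) (fun u => by
    rw [← op_mulVec_dot_self]
    simpa only [smul_mulVec, one_mulVec, dotProduct_smul, smul_eq_mul] using h u) x
  simpa only [loc_smul, loc_one, smul_mulVec, one_mulVec, dotProduct_smul, smul_eq_mul] using h1

theorem OpLe.swapMat {ι β : Type} [Fintype ι] [DecidableEq ι] [Fintype β] [DecidableEq β]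
    (i j : ι) : OpLe (swapMat i j : Matrix (ι → β) (ι → β) ℝ) 1 := by
  exact OpLe.of_orth (by rw [swapMat_transpose, swapMat_mul_self])

theorem MYes.mono {M : Matrix κ κ ℝ} {a a' : ℝ} (h : MYes M a) (ha : a ≤ a') : MYes M a' := by
  obtain ⟨x, hx, h⟩ := h
  exact ⟨x, hx, h.trans (mul_le_mul_of_nonneg_right ha (dot_self_nonneg x))⟩

theorem MNo.mono {M : Matrix κ κ ℝ} {b b' : ℝ} (h : MNo M b) (hb : b' ≤ b) : MNo M b' := by
  intro x
  exact (mul_le_mul_of_nonneg_right hb (dot_self_nonneg x)).trans (h x)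

theorem MYes.perturb {M M' : Matrix κ κ ℝ} {a e : ℝ} (h : MYes M a) (he : OpLe (M' - M) e)
    (h0 : 0 ≤ e) : MYes M' (a + e) := by
  obtain ⟨x, hx, h⟩ := h
  refine ⟨x, hx, ?_⟩
  have h1 := (abs_le.1 (he.form_le h0 x)).2
  rw [sub_mulVec, dotProduct_sub] at h1
  linarith

theorem MNo.perturb {M M' : Matrix κ κ ℝ} {b e : ℝ} (h : MNo M b) (he : OpLe (M' - M) e)
    (h0 : 0 ≤ e) : MNo M' (b - e) := by
  intro x
  have h1 := (abs_le.1 (he.form_le h0 x)).1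
  have h2 := h x
  rw [sub_mulVec, dotProduct_sub] at h1
  linarith

theorem MYes.affine [DecidableEq κ] {M : Matrix κ κ ℝ} {a c d : ℝ} (h : MYes M a) (hc : 0 ≤ c) :
    MYes (c • M + d • (1 : Matrix κ κ ℝ)) (c * a + d) := by
  obtain ⟨x, hx, h⟩ := h
  refine ⟨x, hx, ?_⟩
  simp only [add_mulVec, smul_mulVec, one_mulVec, dotProduct_add, dotProduct_smul, smul_eq_mul]
  have := mul_le_mul_of_nonneg_left h hc
  linarith

theorem MNo.affine [DecidableEq κ] {M : Matrix κ κ ℝ} {b c d : ℝ} (h : MNo M b) (hc : 0 ≤ c) :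
    MNo (c • M + d • (1 : Matrix κ κ ℝ)) (c * b + d) := by
  intro x
  simp only [add_mulVec, smul_mulVec, one_mulVec, dotProduct_add, dotProduct_smul, smul_eq_mul]
  have := mul_le_mul_of_nonneg_left (h x) hc
  linarith

theorem mYes_submatrix (e : κ' ≃ κ) (M : Matrix κ κ ℝ) (a : ℝ) :
    MYes (M.submatrix e e) a ↔ MYes M a := by
  constructor
  · rintro ⟨x, hx, h⟩
    refine ⟨x ∘ e.symm, fun h0 => hx ?_, ?_⟩
    · funext i
      simpa using congrFun h0 (e i)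
    · rw [comp_equiv_dotProduct_comp_equiv, comp_equiv_symm_dotProduct,
        ← submatrix_mulVec_equiv]
      exact h
  · rintro ⟨x, hx, h⟩
    refine ⟨x ∘ e, fun h0 => hx ?_, ?_⟩
    · funext i
      simpa using congrFun h0 (e.symm i)
    · rw [op_form_submatrix, comp_equiv_dotProduct_comp_equiv]
      exact h

theorem mNo_submatrix (e : κ' ≃ κ) (M : Matrix κ κ ℝ) (b : ℝ) :
    MNo (M.submatrix e e) b ↔ MNo M b := by
  constructor
  · intro h x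
    have h1 := h (x ∘ e)
    rwa [op_form_submatrix, comp_equiv_dotProduct_comp_equiv] at h1
  · intro h x
    have h1 := h (x ∘ e.symm)
    rwa [comp_equiv_dotProduct_comp_equiv, comp_equiv_symm_dotProduct,
      ← submatrix_mulVec_equiv] at h1

end Crest.Agent.R338
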