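import Crest.Agent.R338.ContNum
import Crest.Agent.R338.Op

/-! # Stage C: the geometry is admissible -/

set_option autoImplicit false
set_option linter.dupNamespace false
set_option linter.unusedVariables false

noncomputable section

namespace Crest.Agent.R338

open Matrix MeasureTheory Set
open Crest.MathPhysics.ElectronicCoulomb Crest.MathPhysics.CoulombProblem

theorem gridMat_smul (K : ℕ) (c : ℝ) (tH tV ε : ℕ → ℕ → ℝ) :
    gridMat K (fun i j => c * tH i j) (fun i j => c * tV i j) (fun i j => c * ε i j) =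
      c • gridMat K tH tV ε := by
  ext p q
  simp only [gridMat, Matrix.of_apply, Matrix.smul_apply, smul_eq_mul]
  split_ifs <;> ring

theorem cg_ind {α : Type} [Fintype α] (P : α → Prop) [DecidablePred P] {B : ℝ} (h0 : 0 ≤ B)
    (hP : ∀ a b, P a → P b → a = b) : ∑ a, (if P a then B else 0) ≤ B := by
  by_cases h : ∃ a, P a
  · obtain ⟨a, ha⟩ := h
    rw [Finset.sum_eq_single a (fun b _ hb => if_neg fun h => hb (hP b a h ha)) (by simp),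
      if_pos ha]
  · rw [Finset.sum_eq_zero fun a _ => if_neg fun ha => h ⟨a, ha⟩]
    exact h0

theorem cg_entry (K : ℕ) {tH tV ε : ℕ → ℕ → ℝ} {B : ℝ} (h0 : 0 ≤ B)
    (h : ∀ i j, |tH i j| ≤ B ∧ |tV i j| ≤ B ∧ |ε i j| ≤ B) (p q : Fin K × Fin K) :
    |gridMat K tH tV ε p q| ≤ (if p = q then B else 0) +
      (if p.2 = q.2 ∧ p.1.val + 1 = q.1.val then B else 0) +
      (if p.2 = q.2 ∧ q.1.val + 1 = p.1.val then B else 0) +
      (if p.1 = q.1 ∧ p.2.val + 1 = q.2.val then B else 0) +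
      (if p.1 = q.1 ∧ q.2.val + 1 = p.2.val then B else 0) := by
  have a1 := h p.1 p.2
  have a2 := h q.1 q.2
  have i0 : ∀ (P : Prop) [Decidable P], 0 ≤ (if P then B else 0) := fun P _ => by
    split_ifs
    · exact h0
    · exact le_rfl
  have i1 := i0 (p = q)
  have i2 := i0 (p.2 = q.2 ∧ p.1.val + 1 = q.1.val)
  have i3 := i0 (p.2 = q.2 ∧ q.1.val + 1 = p.1.val)
  have i4 := i0 (p.1 = q.1 ∧ p.2.val + 1 = q.2.val)
  have i5 := i0 (p.1 = q.1 ∧ q.2.val + 1 = p.2.val)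
  simp only [gridMat, Matrix.of_apply]
  by_cases h1 : p = q
  · rw [if_pos h1, if_pos h1]; linarith [a1.2.2]
  rw [if_neg h1]
  by_cases h2 : p.2 = q.2 ∧ p.1.val + 1 = q.1.val
  · rw [if_pos h2, if_pos h2, abs_neg]; linarith [a1.1]
  rw [if_neg h2]
  by_cases h3 : p.2 = q.2 ∧ q.1.val + 1 = p.1.val
  · rw [if_pos h3, if_pos h3, abs_neg]; linarith [a2.1]
  rw [if_neg h3]
  by_cases h4 : p.1 = q.1 ∧ p.2.val + 1 = q.2.val
  · rw [if_pos h4, if_pos h4, abs_neg]; linarith [a1.2.1]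
  rw [if_neg h4]
  by_cases h5 : p.1 = q.1 ∧ q.2.val + 1 = p.2.val
  · rw [if_pos h5, if_pos h5, abs_neg]; linarith [a2.2.1]
  rw [if_neg h5, abs_zero]
  linarith

/-- At most five nonzero entries in every row and column (`OpLe.of_rowcol`). -/
theorem gridMat_opLe (K : ℕ) {tH tV ε : ℕ → ℕ → ℝ} {B : ℝ} (h0 : 0 ≤ B)
    (h : ∀ i j, |tH i j| ≤ B ∧ |tV i j| ≤ B ∧ |ε i j| ≤ B) : OpLe (gridMat K tH tV ε) (5 * B) := by
  refine OpLe.of_rowcol (fun p => ?_) fun q => ?_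
  · refine (Finset.sum_le_sum fun q _ => cg_entry K h0 h p q).trans ?_
    simp only [Finset.sum_add_distrib]
    have i1 := cg_ind (fun q => p = q) h0 fun a b ha hb => ha.symm.trans hb
    have i2 := cg_ind (fun q : Fin K × Fin K => p.2 = q.2 ∧ p.1.val + 1 = q.1.val) h0
      fun a b ha hb => Prod.ext (Fin.ext (by omega)) (ha.1.symm.trans hb.1)
    have i3 := cg_ind (fun q : Fin K × Fin K => p.2 = q.2 ∧ q.1.val + 1 = p.1.val) h0
      fun a b ha hb => Prod.ext (Fin.ext (by omega)) (ha.1.symm.trans hb.1)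
    have i4 := cg_ind (fun q : Fin K × Fin K => p.1 = q.1 ∧ p.2.val + 1 = q.2.val) h0
      fun a b ha hb => Prod.ext (ha.1.symm.trans hb.1) (Fin.ext (by omega))
    have i5 := cg_ind (fun q : Fin K × Fin K => p.1 = q.1 ∧ q.2.val + 1 = p.2.val) h0
      fun a b ha hb => Prod.ext (ha.1.symm.trans hb.1) (Fin.ext (by omega))
    linarith
  · refine (Finset.sum_le_sum fun p _ => cg_entry K h0 h p q).trans ?_
    simp only [Finset.sum_add_distrib]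
    have i1 := cg_ind (fun p => p = q) h0 fun a b ha hb => ha.trans hb.symm
    have i2 := cg_ind (fun p : Fin K × Fin K => p.2 = q.2 ∧ p.1.val + 1 = q.1.val) h0
      fun a b ha hb => Prod.ext (Fin.ext (by omega)) (ha.1.trans hb.1.symm)
    have i3 := cg_ind (fun p : Fin K × Fin K => p.2 = q.2 ∧ q.1.val + 1 = p.1.val) h0
      fun a b ha hb => Prod.ext (Fin.ext (by omega)) (ha.1.trans hb.1.symm)
    have i4 := cg_ind (fun p : Fin K × Fin K => p.1 = q.1 ∧ p.2.val + 1 = q.2.val) h0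
      fun a b ha hb => Prod.ext (ha.1.trans hb.1.symm) (Fin.ext (by omega))
    have i5 := cg_ind (fun p : Fin K × Fin K => p.1 = q.1 ∧ q.2.val + 1 = p.2.val) h0
      fun a b ha hb => Prod.ext (ha.1.trans hb.1.symm) (Fin.ext (by omega))
    linarith

theorem cg_sd {R : ℕ} (hR : 10 ^ 7 ≤ R) (T : Tabs) (i j : ℕ) :
    (1 : ℝ) ≤ sdq R T i j ∧ (sdq R T i j : ℝ) ≤ (R : ℝ) ^ 12 := by
  have hr : (1 : ℝ) ≤ R := le_trans (by norm_num) (R_le_Pp hR).1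
  have h1 : (1 : ℝ) ≤ (R : ℝ) ^ 12 := one_le_pow₀ hr
  unfold sdq
  split_ifs
  · simpa using h1
  · push_cast
    exact ⟨h1, le_rfl⟩

theorem cg_eps {R : ℕ} (hR : 10 ^ 7 ≤ R) :
    (0 : ℝ) < eps R ∧ ∀ k ≤ 24000, (eps R : ℝ) * (R : ℝ) ^ k ≤ 1 := by
  obtain ⟨h1, h2, h3, h4⟩ := eps_bounds hR
  obtain ⟨h5, h6, h7⟩ := R_le_Pp hR
  have h8 : (0 : ℝ) < eps R := lt_of_lt_of_le (pow_pos (hq_pos hR).1 3) h1
  refine ⟨h8, fun k hk => le_trans ?_ h4⟩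
  have h9 : (1 : ℝ) ≤ Pp R := le_trans (by norm_num) (h5.trans h6)
  exact mul_le_mul h2 ((pow_le_Pp hR hk).trans (le_self_pow₀ h9 (by norm_num))) (by positivity)
    (h8.le.trans h2)

theorem cg_wire {R : ℕ} (hR : 10 ^ 7 ≤ R) {s s' t : ℚ} (hs : (1 : ℝ) ≤ s ∧ (s : ℝ) ≤ (R : ℝ) ^ 12)
    (hs' : (1 : ℝ) ≤ s' ∧ (s' : ℝ) ≤ (R : ℝ) ^ 12) (ht0 : 0 ≤ t) (ht : t ≤ R) :
    0 ≤ (eps R : ℝ) * t ∧ 2 * (s : ℝ) * s' * ((eps R : ℝ) * t) ≤ (eps R : ℝ) * (R : ℝ) ^ 26 ∧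
    0 ≤ (lvl R ((R : ℚ) ^ 42 * (2 * s * s' * (eps R * t))) : ℝ) ∧
    (lvl R ((R : ℚ) ^ 42 * (2 * s * s' * (eps R * t))) : ℝ) ≤ (((R : ℚ) ^ 2 : ℚ) : ℝ) ∧
    (1 - 1 / (R : ℝ) ^ 30) * ((((R : ℚ) ^ 42 : ℚ) : ℝ) * (2 * (s : ℝ) * s' * ((eps R : ℝ) * t))) ≤
      Real.exp (-2 * (lvl R ((R : ℚ) ^ 42 * (2 * s * s' * (eps R * t))) : ℝ)) ∧
    Real.exp (-2 * (lvl R ((R : ℚ) ^ 42 * (2 * s * s' * (eps R * t))) : ℝ)) ≤
      (1 + 1 / (R : ℝ) ^ 30) * ((((R : ℚ) ^ 42 : ℚ) : ℝ) * (2 * (s : ℝ) * s' * ((eps R : ℝ) * t))) +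
        Real.exp (-2 * (((R : ℚ) ^ 2 : ℚ) : ℝ)) := by
  obtain ⟨he, hk⟩ := cg_eps hR
  have hr : (2 : ℝ) ≤ R := le_trans (by norm_num) (R_le_Pp hR).1
  have ht0' : (0 : ℝ) ≤ t := by exact_mod_cast ht0
  have ht' : (t : ℝ) ≤ R := by exact_mod_cast ht
  have hs0 : (0 : ℝ) ≤ s := zero_le_one.trans hs.1
  have hs0' : (0 : ℝ) ≤ s' := zero_le_one.trans hs'.1
  have h1 : 2 * (s : ℝ) * s' * ((eps R : ℝ) * t) ≤ (eps R : ℝ) * (R : ℝ) ^ 26 := by
    calc _ ≤ (R : ℝ) * (R : ℝ) ^ 12 * (R : ℝ) ^ 12 * ((eps R : ℝ) * R) := by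
          gcongr
          · exact hs.2
          · exact hs'.2
      _ = _ := by ring
  have e : (((R : ℚ) ^ 42 * (2 * s * s' * (eps R * t)) : ℚ) : ℝ) =
      (R : ℝ) ^ 42 * (2 * (s : ℝ) * s' * ((eps R : ℝ) * t)) := by push_cast; rfl
  have h2 : 0 ≤ (R : ℚ) ^ 42 * (2 * s * s' * (eps R * t)) := by
    have : (0 : ℝ) ≤ (((R : ℚ) ^ 42 * (2 * s * s' * (eps R * t)) : ℚ) : ℝ) := by
      rw [e]; positivity
    exact_mod_cast this
  have h3 : (R : ℚ) ^ 42 * (2 * s * s' * (eps R * t)) ≤ 1 := by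
    have : (((R : ℚ) ^ 42 * (2 * s * s' * (eps R * t)) : ℚ) : ℝ) ≤ 1 := by
      rw [e]
      calc _ ≤ (R : ℝ) ^ 42 * ((eps R : ℝ) * (R : ℝ) ^ 26) := by gcongr
        _ = (eps R : ℝ) * (R : ℝ) ^ 68 := by ring
        _ ≤ 1 := hk 68 (by norm_num)
    exact_mod_cast this
  obtain ⟨l1, l2, l3, l4⟩ := lvl_spec hR h2 h3
  rw [e] at l3 l4
  have e2 : (((R : ℚ) ^ 2 : ℚ) : ℝ) = (R : ℝ) ^ 2 := by push_cast; rfl
  have e3 : (((R : ℚ) ^ 42 : ℚ) : ℝ) = (R : ℝ) ^ 42 := by push_cast; rfl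
  rw [e2, e3]
  exact ⟨by positivity, h1, l1, l2, l3, l4⟩

theorem cg_ep {K : ℕ} {sd tH tV ε : ℕ → ℕ → ℝ} {S t : ℝ} (hS : 1 ≤ S)
    (hs : ∀ i j, 1 ≤ sd i j ∧ sd i j ≤ S) (hH : ∀ i j, 0 ≤ tH i j ∧ tH i j ≤ t)
    (hV : ∀ i j, 0 ≤ tV i j ∧ tV i j ≤ t) (hε : ∀ i j, |ε i j| ≤ t) (i j : ℕ) :
    |epOf K sd tH tV ε i j| ≤ 5 * (t * S) := by
  have ht : 0 ≤ t := (abs_nonneg _).trans (hε i j)
  have key : ∀ (P : Prop) [Decidable P] (x y : ℝ), 0 ≤ x ∧ x ≤ t → 1 ≤ y ∧ y ≤ S →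
      0 ≤ (if P then x * y else 0) ∧ (if P then x * y else 0) ≤ t * S := by
    intro P _ x y hx hy
    split_ifs
    · exact ⟨mul_nonneg hx.1 (by linarith [hy.1]), mul_le_mul hx.2 hy.2 (by linarith [hy.1]) ht⟩
    · exact ⟨le_rfl, by positivity⟩
  have k1 := key (i + 1 < K) _ _ (hH i j) (hs (i + 1) j)
  have k2 := key (0 < i) _ _ (hH (i - 1) j) (hs (i - 1) j)
  have k3 := key (j + 1 < K) _ _ (hV i j) (hs i (j + 1))
  have k4 := key (0 < j) _ _ (hV i (j - 1)) (hs i (j - 1))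
  unfold epOf
  generalize (if i + 1 < K then tH i j * sd (i + 1) j else 0) = x1 at *
  generalize (if 0 < i then tH (i - 1) j * sd (i - 1) j else 0) = x2 at *
  generalize (if j + 1 < K then tV i j * sd i (j + 1) else 0) = x3 at *
  generalize (if 0 < j then tV i (j - 1) * sd i (j - 1) else 0) = x4 at *
  have h1 : 0 ≤ x1 + x2 + x3 + x4 := by linarith [k1.1, k2.1, k3.1, k4.1]
  have h2 : (x1 + x2 + x3 + x4) / sd i j ≤ x1 + x2 + x3 + x4 := div_le_self h1 (hs i j).1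
  have h3 : 0 ≤ (x1 + x2 + x3 + x4) / sd i j := div_nonneg h1 (by linarith [(hs i j).1])
  have h4 := abs_le.1 (hε i j)
  have h5 : t ≤ t * S := le_mul_of_one_le_right ht hS
  rw [abs_le]
  constructor <;> linarith [k1.2, k2.2, k3.2, k4.2]

theorem geo_ok {R K : ℕ} {T : Tabs} (hR : 10 ^ 7 ≤ R) (hK : 1 ≤ K) (hKR : K ≤ R) (hT : TabsOK R T) :
    GeoOK (geo R K T).toReal (fun i j => (eps R : ℝ) * ent T.1 i j)
      (fun i j => (eps R : ℝ) * ent T.2.1 i j) (fun i j => (eps R : ℝ) * ent T.2.2.1 i j)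
      (fun p : Fin K × Fin K => flag T.2.2.2 p.1 p.2 = true) ((R : ℝ) ^ 12) (1 / (R : ℝ) ^ 30)
      ((eps R : ℝ) * (R : ℝ) ^ 26) := by
  obtain ⟨he, hk⟩ := cg_eps hR
  have hr : (100 : ℝ) ≤ R := le_trans (by norm_num) (R_le_Pp hR).1
  have hr1 : (1 : ℝ) ≤ R := by linarith
  have hr0 : (0 : ℝ) < R := by linarith
  have hKR' : (K : ℝ) ≤ R := by exact_mod_cast hKR
  have ea : (geo R K T).toReal.a = 1 / (R : ℝ) ^ 30 := by
    simp only [geo, Geo.toReal]; push_cast; rfl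
  have eD : (geo R K T).toReal.D = (R : ℝ) ^ 42 := by
    simp only [geo, Geo.toReal]; push_cast; rfl
  have eS : (geo R K T).toReal.Ssea = (R : ℝ) ^ 2 := by
    simp only [geo, Geo.toReal]; push_cast; rfl
  have eK : (geo R K T).toReal.K = K := rfl
  have hKD : (K : ℝ) * (R : ℝ) ^ 42 ≤ (R : ℝ) ^ 43 := by
    rw [pow_succ' (R : ℝ) 42]
    gcongr
  refine
    { K_pos := hK
      a_pos := by rw [ea]; positivity
      a_le := ea.le
      η_le := one_div_le_one_div_of_le (by norm_num) (hr.trans (le_self_pow₀ hr1 (by norm_num)))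
      D1_ge := one_le_pow₀ hr1
      D1_le := by rw [eD]; exact le_of_eq (by field_simp)
      sea_nonneg := by rw [eS]; positivity
      sd_eq := fun p => ⟨fun h => ?_, fun h => ?_⟩
      ν_pos := by positivity
      ν_small := ?_
      sea_small := ?_
      ep_eq := fun i _ j _ => ?_
      hor := fun i j _ _ => cg_wire hR (cg_sd hR T i j) (cg_sd hR T (i + 1) j) (hT i j).1
        (hT i j).2.1
      ver := fun i j _ _ => cg_wire hR (cg_sd hR T i j) (cg_sd hR T i (j + 1)) (hT i j).2.2.1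
        (hT i j).2.2.2.1 }
  · show ((sdq R T p.1 p.2 : ℚ) : ℝ) = 1
    unfold sdq
    rw [if_pos h]
    simp
  · show ((sdq R T p.1 p.2 : ℚ) : ℝ) = _
    unfold sdq
    rw [if_neg h]
    push_cast
    rfl
  · rw [eD, eK, div_pow, one_pow, le_div_iff₀ (by positivity)]
    calc _ ≤ (eps R : ℝ) * (R : ℝ) ^ 26 * ((R : ℝ) ^ 43) ^ 5 * ((R : ℝ) ^ 30) ^ 2 := by gcongr
      _ = (eps R : ℝ) * (R : ℝ) ^ 301 := by ring
      _ ≤ 1 := hk 301 (by norm_num)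
  · rw [eD, eK, eS, one_div_mul_eq_div, le_div_iff₀ (by positivity)]
    calc _ ≤ Real.exp (-2 * (R : ℝ) ^ 2) * ((R : ℝ) ^ 43) ^ 2 * (R : ℝ) ^ 30 := by gcongr
      _ = Real.exp (-2 * (R : ℝ) ^ 2) * (R : ℝ) ^ 116 := by ring
      _ ≤ Real.exp (-2 * (R : ℝ) ^ 2) * Pp R :=
          mul_le_mul_of_nonneg_left (pow_le_Pp hR (by norm_num)) (Real.exp_pos _).le
      _ ≤ eps R := (exp_sea hR).trans (eps_bounds hR).1
      _ ≤ _ := le_mul_of_one_le_right he.le (one_le_pow₀ hr1)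
  · have e : (geo R K T).toReal.ep i j = epOf (geo R K T).toReal.K (geo R K T).toReal.sd
        (fun i j => (eps R : ℝ) * ent T.1 i j) (fun i j => (eps R : ℝ) * ent T.2.1 i j)
        (fun i j => (eps R : ℝ) * ent T.2.2.1 i j) i j := by
      simp only [geo, Geo.toReal, epOf]
      push_cast [apply_ite (Rat.cast : ℚ → ℝ)]
      rfl
    refine ⟨e, ?_⟩
    rw [e]
    have h1 : ∀ t : ℚ, 0 ≤ t → t ≤ R → 0 ≤ (eps R : ℝ) * t ∧ (eps R : ℝ) * t ≤ eps R * R :=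
      fun t h0 h1 => ⟨mul_nonneg he.le (by exact_mod_cast h0),
        mul_le_mul_of_nonneg_left (by exact_mod_cast h1) he.le⟩
    refine (cg_ep (S := (R : ℝ) ^ 12) (t := eps R * R) (one_le_pow₀ hr1) (cg_sd hR T)
      (fun i j => h1 _ (hT i j).1 (hT i j).2.1) (fun i j => h1 _ (hT i j).2.2.1 (hT i j).2.2.2.1)
      (fun i j => ?_) i j).trans ?_
    · rw [abs_mul, abs_of_pos he]
      exact mul_le_mul_of_nonneg_left (by exact_mod_cast (hT i j).2.2.2.2) he.le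
    · have h2 : (5 : ℝ) ≤ (R : ℝ) ^ 13 := le_trans (by linarith) (le_self_pow₀ hr1 (by norm_num))
      calc _ ≤ (R : ℝ) ^ 13 * (eps R * R * (R : ℝ) ^ 12) := by gcongr
        _ = _ := by ring

end Crest.Agent.R338
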