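import Mathlib

/-! # Stage C: the parameter inequalities, for abstract reals -/

set_option autoImplicit false
set_option linter.dupNamespace false
set_option linter.unusedVariables false

namespace Crest.Agent.R338

section
variable {r : ℝ}

theorem pw (hr : 10 ^ 7 ≤ r) {a b : ℕ} (h : a ≤ b) : r ^ a ≤ r ^ b :=
  pow_le_pow_right₀ (by linarith [show (1 : ℝ) ≤ 10 ^ 7 by norm_num]) h

theorem rpos (hr : 10 ^ 7 ≤ r) : 0 < r := by linarith [show (0 : ℝ) < 10 ^ 7 by norm_num]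

theorem ppos (hr : 10 ^ 7 ≤ r) (a : ℕ) : 0 < r ^ a := pow_pos (rpos hr) a

theorem pone (hr : 10 ^ 7 ≤ r) (a : ℕ) : 1 ≤ r ^ a := by simpa using pw hr (Nat.zero_le a)

/-- a small constant is absorbed by one power -/
theorem cpw (hr : 10 ^ 7 ≤ r) {c : ℝ} (hc : c ≤ 10 ^ 7) {a b : ℕ} (h : a + 1 ≤ b) :
    c * r ^ a ≤ r ^ b := by
  calc c * r ^ a ≤ r * r ^ a := mul_le_mul_of_nonneg_right (hc.trans hr) (ppos hr a).le
    _ = r ^ (a + 1) := by ring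
    _ ≤ r ^ b := pw hr h

theorem Cpw (hr : 10 ^ 7 ≤ r) {c : ℝ} (hc : c ≤ r) {a b : ℕ} (h : a + 1 ≤ b) :
    c * r ^ a ≤ r ^ b := by
  calc c * r ^ a ≤ r * r ^ a := mul_le_mul_of_nonneg_right hc (ppos hr a).le
    _ = r ^ (a + 1) := by ring
    _ ≤ r ^ b := pw hr h

theorem mpw (hr : 10 ^ 7 ≤ r) {x y : ℝ} {a b c : ℕ} (hx : x ≤ r ^ a) (hy : y ≤ r ^ b) (h0 : 0 ≤ y)
    (h : a + b ≤ c) : x * y ≤ r ^ c := by
  calc x * y ≤ r ^ a * r ^ b := mul_le_mul hx hy h0 (ppos hr a).le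
    _ = r ^ (a + b) := (pow_add _ _ _).symm
    _ ≤ r ^ c := pw hr h

theorem ppw (hr : 10 ^ 7 ≤ r) {x : ℝ} {a n c : ℕ} (h0 : 0 ≤ x) (hx : x ≤ r ^ a) (h : a * n ≤ c) :
    x ^ n ≤ r ^ c := by
  calc x ^ n ≤ (r ^ a) ^ n := pow_le_pow_left₀ h0 hx n
    _ = r ^ (a * n) := (pow_mul _ _ _).symm
    _ ≤ r ^ c := pw hr h

theorem apw (hr : 10 ^ 7 ≤ r) {x y : ℝ} {a c : ℕ} (hx : x ≤ r ^ a) (hy : y ≤ r ^ a)
    (h : a + 1 ≤ c) : x + y ≤ r ^ c := by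
  have := cpw hr (c := 2) (by norm_num) h
  linarith

theorem ineq_M (hr : 10 ^ 7 ≤ r) {C K : ℝ} (hC : C ≤ r) (hK0 : 0 ≤ K) (hK : K ≤ r) :
    C * (K * (1 + r ^ 2) / (1 / r ^ 30)) ^ 200 ≤ r ^ 6801 := by
  have h1 : K * (1 + r ^ 2) / (1 / r ^ 30) = K * (1 + r ^ 2) * r ^ 30 := by
    have := (ppos hr 30).ne'
    field_simp
  have h2 : 1 + r ^ 2 ≤ r ^ 3 := apw hr (pone hr 2) le_rfl le_rfl
  have h3 : K * (1 + r ^ 2) ≤ r ^ 4 :=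
    mpw hr (a := 1) (by simpa using hK) h2 (by positivity) le_rfl
  have h4 : K * (1 + r ^ 2) * r ^ 30 ≤ r ^ 34 := mpw hr h3 le_rfl (ppos hr 30).le le_rfl
  have h0 : 0 ≤ K * (1 + r ^ 2) * r ^ 30 := by have := (ppos hr 30).le; positivity
  have h5 : (K * (1 + r ^ 2) * r ^ 30) ^ 200 ≤ r ^ 6800 := ppw hr h0 h4 (by norm_num)
  rw [h1]
  exact mpw hr (a := 1) (by simpa using hC) h5 (pow_nonneg h0 _) (by norm_num)

/-- `x · r^a ≤ 1` means `x ≤ 1/r^a`. -/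
theorem le_inv_pw (hr : 10 ^ 7 ≤ r) {x : ℝ} {a : ℕ} (h : x * r ^ a ≤ 1) : x ≤ 1 / r ^ a := by
  rw [le_div_iff₀ (ppos hr a)]; exact h

theorem ineq_γ (hr : 10 ^ 7 ≤ r) {C e : ℝ} (hC1 : 1 ≤ C) (hC : C ≤ r) (he0 : 0 ≤ e)
    (he : e * r ^ 161 ≤ 1) : 1 / r ^ 159 + e * r ^ 2 ≤ 1 / r ^ 30 / (2 * (C * (r ^ 42) ^ 3)) := by
  have h1 : e * r ^ 2 ≤ 1 / r ^ 159 := le_inv_pw hr (by
    calc e * r ^ 2 * r ^ 159 = e * r ^ 161 := by ring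
      _ ≤ 1 := he)
  have hp := rpos hr
  have h2 : 2 * (1 / r ^ 159) ≤ 1 / r ^ 30 / (2 * (C * (r ^ 42) ^ 3)) := by
    rw [div_div, mul_one_div, div_le_div_iff₀ (by positivity) (by positivity)]
    have h3 : C * r ^ 156 ≤ r ^ 157 := Cpw hr hC le_rfl
    have h4 : 4 * r ^ 157 ≤ r ^ 159 := cpw hr (by norm_num) (by norm_num)
    calc 2 * (r ^ 30 * (2 * (C * (r ^ 42) ^ 3))) = 4 * (C * r ^ 156) := by ring
      _ ≤ 4 * r ^ 157 := by linarith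
      _ ≤ 1 * r ^ 159 := by linarith
  linarith

theorem ineq_one6M (hr : 10 ^ 7 ≤ r) {M : ℝ} (hM : M ≤ r ^ 6801) :
    1 + 6 * M + r ^ 3402 ≤ r ^ 6802 := by
  have h1 := pone hr 6801
  have h2 : r ^ 3402 ≤ r ^ 6801 := pw hr (by norm_num)
  have h3 : 8 * r ^ 6801 ≤ r ^ 6802 := cpw hr (by norm_num) le_rfl
  linarith

theorem ineq_θ (hr : 10 ^ 7 ≤ r) {C M : ℝ} (hC1 : 1 ≤ C) (hC : C ≤ r) (hM0 : 0 ≤ M)
    (hM : M ≤ r ^ 6801) :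
    1 / r ^ 7000 * (2 * (C * (r ^ 42) ^ 3) * (1 + 6 * M + r ^ 3402) + 4) ≤ 1 / r ^ 30 / 2 := by
  have hp := rpos hr
  have h1 := ineq_one6M hr hM
  have h2 : C * (r ^ 42) ^ 3 ≤ r ^ 127 := by
    rw [← pow_mul]; exact Cpw hr hC le_rfl
  have h3 : C * (r ^ 42) ^ 3 * (1 + 6 * M + r ^ 3402) ≤ r ^ 6929 :=
    mpw hr h2 h1 (by positivity) le_rfl
  have h4 := pone hr 6929
  have h5 : 12 * r ^ 6929 ≤ r ^ 6970 := cpw hr (by norm_num) (by norm_num)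
  have h6 : r ^ 6970 * r ^ 30 = r ^ 7000 := by rw [← pow_add]
  rw [div_div, one_div_mul_eq_div, div_le_div_iff₀ (by positivity) (by positivity), ← h6]
  have h7 : (2 * (C * (r ^ 42) ^ 3) * (1 + 6 * M + r ^ 3402) + 4) * 2 ≤ r ^ 6970 := by
    have : 2 * (C * (r ^ 42) ^ 3) * (1 + 6 * M + r ^ 3402) =
        2 * (C * (r ^ 42) ^ 3 * (1 + 6 * M + r ^ 3402)) := mul_assoc _ _ _
    rw [this]; linarith
  have h8 := mul_le_mul_of_nonneg_right h7 (ppos hr 30).le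
  calc (2 * (C * (r ^ 42) ^ 3) * (1 + 6 * M + r ^ 3402) + 4) * (r ^ 30 * 2)
      = (2 * (C * (r ^ 42) ^ 3) * (1 + 6 * M + r ^ 3402) + 4) * 2 * r ^ 30 := by
        rw [mul_comm (r ^ 30) 2, ← mul_assoc]
    _ ≤ r ^ 6970 * r ^ 30 := h8
    _ = 1 * (r ^ 6970 * r ^ 30) := (one_mul _).symm

/-- The error of the ideal package.  `z` bounds both small quantities of the line package. -/
theorem ineq_err (hr : 10 ^ 7 ≤ r) {C K M e errz ηz : ℝ} (hC1 : 1 ≤ C) (hC : C ≤ r) (hK0 : 0 ≤ K)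
    (hK : K ≤ r) (hM0 : 0 ≤ M) (hM : M ≤ r ^ 6801) (he0 : 0 ≤ e) (he1 : e ≤ 1) (hz0 : 0 ≤ errz)
    (hz : errz * r ^ 4 ≤ e) (hη0 : 0 ≤ ηz) (hη : ηz * r ^ 6 ≤ e) :
    2 * (C * (1 / r ^ 30) * (e * r ^ 26)) + 2 * errz + e * r ^ 2 * ηz +
      1 / r ^ 7000 * (2 * (1 + 6 * M + r ^ 3402) *
        (2 * (C * (e * r ^ 26) * (K * r ^ 42) ^ 3) + 4 * ηz) +
        8 * (e * r ^ 2 + C * (1 / r ^ 30) * (e * r ^ 26) + 2 * (e * r ^ 26) + errz)) ≤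
      e / r ^ 2 / 2 := by
  have hp := rpos hr
  set u := e / r ^ 3 with hu
  have hu0 : 0 ≤ u := by positivity
  have hue : u * r ^ 3 = e := by rw [hu]; field_simp
  have h3 := pone hr 3
  have hule : u ≤ e := by nlinarith
  have t1 : C * (1 / r ^ 30) * (e * r ^ 26) ≤ u := by
    rw [hu, le_div_iff₀ (by positivity)]
    have : C * (1 / r ^ 30) * (e * r ^ 26) * r ^ 3 = C / r * e := by field_simp
    rw [this]
    have : C / r ≤ 1 := by rw [div_le_one hp]; exact hC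
    nlinarith
  have t2 : errz ≤ u := by
    rw [hu, le_div_iff₀ (by positivity)]
    have : errz * r ^ 3 ≤ errz * r ^ 4 := mul_le_mul_of_nonneg_left (pw hr (by norm_num)) hz0
    linarith
  have t3' : ηz * r ^ 5 ≤ e := by
    have : ηz * r ^ 5 ≤ ηz * r ^ 6 := mul_le_mul_of_nonneg_left (pw hr (by norm_num)) hη0
    linarith
  have t3 : e * r ^ 2 * ηz ≤ u := by
    rw [hu, le_div_iff₀ (by positivity)]
    calc e * r ^ 2 * ηz * r ^ 3 = e * (ηz * r ^ 5) := by ring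
      _ ≤ e * 1 := mul_le_mul_of_nonneg_left (t3'.trans he1) he0
      _ = e := mul_one e
  have hηe : ηz ≤ e := by
    have := pone hr 5
    nlinarith
  have a1 : K * r ^ 42 ≤ r ^ 43 := Cpw hr hK le_rfl
  have a2 : (K * r ^ 42) ^ 3 ≤ r ^ 129 := ppw hr (by positivity) a1 le_rfl
  have a3 : C * r ^ 26 ≤ r ^ 27 := Cpw hr hC le_rfl
  have a4 : C * r ^ 26 * (K * r ^ 42) ^ 3 ≤ r ^ 156 := mpw hr a3 a2 (by positivity) le_rfl
  have a5 : C * (e * r ^ 26) * (K * r ^ 42) ^ 3 ≤ e * r ^ 156 := by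
    calc C * (e * r ^ 26) * (K * r ^ 42) ^ 3 = e * (C * r ^ 26 * (K * r ^ 42) ^ 3) := by ring
      _ ≤ e * r ^ 156 := mul_le_mul_of_nonneg_left a4 he0
  have a6 : e ≤ e * r ^ 156 := le_mul_of_one_le_right he0 (pone hr 156)
  have a7 : 2 * (C * (e * r ^ 26) * (K * r ^ 42) ^ 3) + 4 * ηz ≤ 6 * (e * r ^ 156) := by linarith
  have a8 := ineq_one6M hr hM
  have a9 : (1 + 6 * M + r ^ 3402) * (2 * (C * (e * r ^ 26) * (K * r ^ 42) ^ 3) + 4 * ηz) ≤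
      r ^ 6802 * (6 * (e * r ^ 156)) := mul_le_mul a8 a7 (by positivity) (by positivity)
  have a10 : r ^ 6802 * (6 * (e * r ^ 156)) = 6 * (e * r ^ 6958) := by
    rw [show r ^ 6958 = r ^ 6802 * r ^ 156 by rw [← pow_add]]
    generalize r ^ 6802 = x
    generalize r ^ 156 = y
    ring
  have b1 : e * r ^ 2 ≤ e * r ^ 6958 := mul_le_mul_of_nonneg_left (pw hr (by norm_num)) he0
  have b2 : e * r ^ 26 ≤ e * r ^ 6958 := mul_le_mul_of_nonneg_left (pw hr (by norm_num)) he0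
  have b3 : e ≤ e * r ^ 6958 := le_mul_of_one_le_right he0 (pone hr 6958)
  have b4 : 2 * (1 + 6 * M + r ^ 3402) * (2 * (C * (e * r ^ 26) * (K * r ^ 42) ^ 3) + 4 * ηz) +
      8 * (e * r ^ 2 + C * (1 / r ^ 30) * (e * r ^ 26) + 2 * (e * r ^ 26) + errz) ≤
      52 * (e * r ^ 6958) := by
    have : 2 * (1 + 6 * M + r ^ 3402) * (2 * (C * (e * r ^ 26) * (K * r ^ 42) ^ 3) + 4 * ηz) =
      2 * ((1 + 6 * M + r ^ 3402) * (2 * (C * (e * r ^ 26) * (K * r ^ 42) ^ 3) + 4 * ηz)) :=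
      mul_assoc _ _ _
    rw [this]
    linarith
  have b5 : 52 * r ^ 6958 ≤ r ^ 6997 := cpw hr (by norm_num) (by norm_num)
  have b6 : 1 / r ^ 7000 * (52 * (e * r ^ 6958)) ≤ u := by
    rw [hu, one_div_mul_eq_div, div_le_div_iff₀ (by positivity) (by positivity),
      show r ^ 7000 = r ^ 6997 * r ^ 3 by rw [← pow_add]]
    have := mul_le_mul_of_nonneg_left b5 (show 0 ≤ e * r ^ 3 by positivity)
    generalize r ^ 6997 = x at *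
    generalize r ^ 6958 = y at *
    nlinarith
  have b7 := mul_le_mul_of_nonneg_left b4 (show 0 ≤ 1 / r ^ 7000 by positivity)
  have b8 : 6 * u ≤ e / r ^ 2 / 2 := by
    have : e / r ^ 2 = u * r := by rw [hu]; field_simp
    rw [this]
    have : (12 : ℝ) ≤ r := le_trans (by norm_num) hr
    nlinarith
  linarith

end

/-! ### The second level: `P` and `h = P⁻¹¹` -/

section
variable {P h : ℝ}

theorem hsmall (hP : 10 ^ 7 ≤ P) (hh : h * P ^ 11 = 1) (h0 : 0 < h) {a : ℕ} (ha : a ≤ 11) :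
    h * P ^ a ≤ 1 := by
  rw [← hh]; exact mul_le_mul_of_nonneg_left (pw hP ha) h0.le

theorem ineq_E1 {H L : ℝ} (hH : 10 ^ 7 ≤ H) (hh : h * H = 1) (h0 : 0 < h) (hL1 : 3 * H ^ 4 ≤ L)
    (hL2 : L ≤ 4 * H ^ 4) :
    1 / L + L ^ 3 / (H ^ 18 * h) + h ^ 39 * (H ^ 18 * h) ^ 2 ≤ h ^ 4 := by
  have hp := rpos hH
  have e : h = 1 / H := by field_simp; linarith
  have hL0 : 0 < L := lt_of_lt_of_le (by positivity) hL1
  have t1 : 1 / L ≤ h ^ 4 / 3 := by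
    rw [e, div_le_iff₀ hL0]
    have : (1 / H) ^ 4 / 3 * L = L / (3 * H ^ 4) := by field_simp
    rw [this, le_div_iff₀ (by positivity)]; linarith
  have t2 : L ^ 3 / (H ^ 18 * h) ≤ h ^ 4 / 3 := by
    have h1 : L ^ 3 ≤ (4 * H ^ 4) ^ 3 := pow_le_pow_left₀ hL0.le hL2 3
    have h2 : 192 * H ^ 12 ≤ H ^ 13 := cpw hH (by norm_num) le_rfl
    rw [div_le_iff₀ (by positivity), e]
    have : (1 / H) ^ 4 / 3 * (H ^ 18 * (1 / H)) = H ^ 13 / 3 := by field_simp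
    rw [this]
    have : (4 * H ^ 4) ^ 3 = 64 * H ^ 12 := by ring
    linarith
  have t3 : h ^ 39 * (H ^ 18 * h) ^ 2 ≤ h ^ 4 / 3 := by
    have : h ^ 39 * (H ^ 18 * h) ^ 2 = h ^ 4 * h * (h * H) ^ 36 := by ring
    rw [this, hh, one_pow, mul_one]
    have h3 : h ≤ 1 / 3 := by
      have : (3 : ℝ) ≤ H := le_trans (by norm_num) hH
      nlinarith
    have := mul_le_mul_of_nonneg_left h3 (show 0 ≤ h ^ 4 by positivity)
    linarith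
  linarith

theorem ineq_pert (hP : 10 ^ 7 ≤ P) (hh : h * P ^ 11 = 1) (h0 : 0 < h) {r e τ ηp θ Λ M c : ℝ}
    (hr0 : 0 < r) (hr : r ^ 2 ≤ P) (he : h ^ 3 ≤ e) (hτ0 : 0 ≤ τ) (hτ : τ ≤ 2 * P * h ^ 4)
    (hη0 : 0 ≤ ηp) (hη : ηp ≤ 2 * P * h ^ 2) (hθ0 : 0 < θ) (hθ : 1 ≤ θ * P) (hΛ0 : 0 ≤ Λ)
    (hΛ : Λ ≤ P) (hM0 : 0 ≤ M) (hM : M ≤ P) (hc0 : 0 ≤ c) (hc : c ≤ P) :
    e / r ^ 2 / 2 + 32 * τ * M ^ 2 * c + 256 * ηp ^ 2 / θ * Λ ^ 2 * M ^ 2 * c ≤ e / r ^ 2 := by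
  have hp := rpos hP
  have m2 : M ^ 2 ≤ P ^ 2 := pow_le_pow_left₀ hM0 hM 2
  have l2 : Λ ^ 2 ≤ P ^ 2 := pow_le_pow_left₀ hΛ0 hΛ 2
  have t1 : 32 * τ * M ^ 2 * c ≤ 64 * P ^ 4 * h ^ 4 := by
    calc 32 * τ * M ^ 2 * c ≤ 32 * (2 * P * h ^ 4) * P ^ 2 * P := by gcongr
      _ = 64 * P ^ 4 * h ^ 4 := by ring
  have i1 : 1 / θ ≤ P := by rw [div_le_iff₀ hθ0]; linarith
  have t2 : 256 * ηp ^ 2 / θ * Λ ^ 2 * M ^ 2 * c ≤ 1024 * P ^ 8 * h ^ 4 := by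
    calc 256 * ηp ^ 2 / θ * Λ ^ 2 * M ^ 2 * c = 256 * ηp ^ 2 * (1 / θ) * Λ ^ 2 * M ^ 2 * c := by ring
      _ ≤ 256 * (2 * P * h ^ 2) ^ 2 * P * P ^ 2 * P ^ 2 * P := by gcongr
      _ = 1024 * P ^ 8 * h ^ 4 := by ring
  have t3 : P ^ 4 ≤ P ^ 8 := pw hP (by norm_num)
  have t4 : 2176 * P ^ 9 ≤ P ^ 11 := cpw hP (by norm_num) (by norm_num)
  have t5 : 1088 * P ^ 8 * h ^ 4 ≤ e / r ^ 2 / 2 := by
    rw [div_div, le_div_iff₀ (by positivity)]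
    calc 1088 * P ^ 8 * h ^ 4 * (r ^ 2 * 2) ≤ 1088 * P ^ 8 * h ^ 4 * (P * 2) := by gcongr
      _ = h ^ 3 * (h * (2176 * P ^ 9)) := by ring
      _ ≤ h ^ 3 * (h * P ^ 11) := by gcongr
      _ = h ^ 3 := by rw [hh, mul_one]
      _ ≤ e := he
  have t6 := mul_le_mul_of_nonneg_right t3 (show 0 ≤ h ^ 4 by positivity)
  nlinarith

end

end Crest.Agent.R338
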