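import Crest.Agent.R338.ContDefs

/-! # Stage C: elementary facts on the parameters and the rational approximations
WARNING: never let `norm_num`/`simp`/`ring` see a numeral base with a huge exponent; keep `R`, `Pp R`, `Hh R` as atoms
and compare powers with `pow_le_pow_right₀`, `pow_le_pow_left₀`, `← pow_mul`, `← pow_add`. -/

set_option autoImplicit false
set_option linter.dupNamespace false
set_option linter.unusedVariables false

noncomputable section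

namespace Crest.Agent.R338

open Matrix MeasureTheory Set
open Crest.MathPhysics.ElectronicCoulomb Crest.MathPhysics.CoulombProblem

variable {R : ℕ}

theorem cn_R (hR : 10 ^ 7 ≤ R) : (10 : ℝ) ^ 7 ≤ R := by exact_mod_cast hR

theorem cn_one (hR : 10 ^ 7 ≤ R) : (1 : ℝ) ≤ R := le_trans (by norm_num) (cn_R hR)

theorem cn_Pp : (Pp R : ℝ) = (R : ℝ) ^ 24000 := Nat.cast_pow _ _

theorem cn_Hh : (Hh R : ℝ) = (Pp R : ℝ) ^ 11 := Nat.cast_pow _ _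

theorem cn_Pp_one (hR : 10 ^ 7 ≤ R) : (1 : ℝ) ≤ Pp R := by
  rw [cn_Pp]
  exact one_le_pow₀ (cn_one hR)

theorem cn_Hh_one (hR : 10 ^ 7 ≤ R) : (1 : ℝ) ≤ Hh R := by
  rw [cn_Hh]
  exact one_le_pow₀ (cn_Pp_one hR)

theorem cn_pow_le_exp {x : ℝ} (hx : 0 ≤ x) (k : ℕ) : x ^ k ≤ Real.exp (k * x) := by
  rw [Real.exp_nat_mul]
  exact pow_le_pow_left₀ hx (by linarith [Real.add_one_le_exp x]) k

theorem cn_Pp_exp (k : ℕ) : (Pp R : ℝ) ^ k ≤ Real.exp (24000 * k * R) := by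
  have := cn_pow_le_exp (Nat.cast_nonneg (α := ℝ) R) (24000 * k)
  rw [pow_mul, ← cn_Pp, Nat.cast_mul, Nat.cast_ofNat] at this
  exact this

theorem pow_le_Pp (hR : 10 ^ 7 ≤ R) {k : ℕ} (hk : k ≤ 24000) : (R : ℝ) ^ k ≤ Pp R := by
  rw [cn_Pp]
  exact pow_le_pow_right₀ (cn_one hR) hk
theorem R_le_Pp (hR : 10 ^ 7 ≤ R) : (10 : ℝ) ^ 7 ≤ R ∧ (R : ℝ) ≤ Pp R ∧ (Pp R : ℝ) ≤ Hh R := by
  refine ⟨cn_R hR, ?_, ?_⟩
  · have := pow_le_Pp hR (k := 1) (by norm_num)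
    rwa [pow_one] at this
  · rw [cn_Hh]
    exact le_self_pow₀ (cn_Pp_one hR) (by norm_num)
theorem Hh_eq : (Hh R : ℝ) = (Pp R : ℝ) ^ 11 := cn_Hh
theorem hq_eq : (hq R : ℝ) = ((Hh R : ℝ))⁻¹ := by
  rw [hq, one_div, Rat.cast_inv, Rat.cast_natCast]
theorem hq_pos (hR : 10 ^ 7 ≤ R) : (0 : ℝ) < hq R ∧ (hq R : ℝ) ≤ 1 := by
  have := cn_Hh_one hR
  rw [hq_eq]
  exact ⟨inv_pos.2 (by linarith), inv_le_one_of_one_le₀ this⟩
theorem hq_mul (hR : 10 ^ 7 ≤ R) : (hq R : ℝ) * (Pp R : ℝ) ^ 11 = 1 ∧ (hq R : ℝ) * Hh R = 1 := by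
  have := cn_Hh_one hR
  rw [← cn_Hh, and_self, hq_eq]
  exact inv_mul_cancel₀ (by linarith)
theorem om_eq : (om R : ℝ) = (R : ℝ) ^ 3402 := by
  rw [om, Rat.cast_pow, Rat.cast_natCast]
theorem ell_eq : (ell R : ℝ) = (hq R : ℝ) ^ 3 * (om R : ℝ) ^ 2 / 12 := by
  rw [ell, Rat.cast_div, Rat.cast_mul, Rat.cast_pow, Rat.cast_pow, Rat.cast_ofNat]
theorem eps_mul (hR : 10 ^ 7 ≤ R) : (eps R : ℝ) * (R : ℝ) ^ 8 = ell R := by
  have := cn_one hR
  rw [eps, Rat.cast_div, Rat.cast_pow, Rat.cast_natCast]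
  exact div_mul_cancel₀ _ (by positivity)
theorem eps_bounds (hR : 10 ^ 7 ≤ R) : (hq R : ℝ) ^ 3 ≤ eps R ∧ (eps R : ℝ) ≤ ell R ∧
    (ell R : ℝ) ≤ Pp R * (hq R : ℝ) ^ 3 ∧ (ell R : ℝ) * (Pp R : ℝ) ^ 30 ≤ 1 := by
  have h1 := cn_one hR
  have hR' := cn_R hR
  obtain ⟨h0, -⟩ := hq_pos hR
  have he := eps_mul hR
  have hl := ell_eq (R := R)
  have h3 : (0 : ℝ) < (hq R : ℝ) ^ 3 := by positivity
  have h8 : (1 : ℝ) ≤ (R : ℝ) ^ 8 := one_le_pow₀ h1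
  have hom : (om R : ℝ) ^ 2 = (R : ℝ) ^ (3402 * 2) := by rw [om_eq, ← pow_mul]
  have a1 : (R : ℝ) ^ 9 ≤ (om R : ℝ) ^ 2 := hom ▸ pow_le_pow_right₀ h1 (by norm_num)
  have a2 : (om R : ℝ) ^ 2 ≤ Pp R := hom ▸ pow_le_Pp hR (by norm_num)
  have a3 : 12 * (R : ℝ) ^ 8 ≤ (R : ℝ) ^ 9 := by
    rw [pow_succ' (R : ℝ) 8]
    exact mul_le_mul_of_nonneg_right (by linarith) (by linarith)
  have hP := cn_Pp_one hR
  have hm := (hq_mul hR).1
  generalize (om R : ℝ) ^ 2 = o at *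
  generalize (R : ℝ) ^ 9 = r9 at *
  generalize (R : ℝ) ^ 8 = r8 at *
  generalize (Pp R : ℝ) = P at *
  have b1 : (hq R : ℝ) ^ 3 ≤ eps R := by
    refine le_of_mul_le_mul_right ?_ (show 0 < r8 by linarith)
    rw [he, hl]
    nlinarith
  have b3 : (ell R : ℝ) ≤ P * (hq R : ℝ) ^ 3 := by
    rw [hl]
    nlinarith
  refine ⟨b1, ?_, b3, ?_⟩
  · rw [← he]
    exact le_mul_of_one_le_right (by linarith) h8
  · calc (ell R : ℝ) * P ^ 30 ≤ P * (hq R : ℝ) ^ 3 * P ^ 30 := by gcongr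
      _ = (hq R : ℝ) ^ 3 * P ^ 31 := by ring
      _ ≤ (hq R : ℝ) ^ 3 * P ^ 33 := by gcongr; norm_num
      _ = ((hq R : ℝ) * P ^ 11) ^ 3 := by ring
      _ = 1 := by rw [hm, one_pow]
/-- `R^k ≤ exp (k R)`. -/
theorem exp_om (hR : 10 ^ 7 ≤ R) : Real.exp (-(om R : ℝ) / 2) ≤ (hq R : ℝ) ^ 4 := by
  have h1 := cn_one hR
  have hR' := cn_R hR
  have hH := cn_Hh_one hR
  have a1 : (R : ℝ) ^ 2 ≤ om R := om_eq (R := R) ▸ pow_le_pow_right₀ h1 (by norm_num)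
  have a2 := cn_Pp_exp (R := R) (11 * 4)
  rw [pow_mul, ← cn_Hh] at a2
  rw [hq_eq, inv_pow, neg_div, Real.exp_neg]
  refine inv_anti₀ (by positivity) (a2.trans (Real.exp_le_exp.2 ?_))
  push_cast
  nlinarith
theorem exp_sea (hR : 10 ^ 7 ≤ R) : Real.exp (-2 * (R : ℝ) ^ 2) * Pp R ≤ (hq R : ℝ) ^ 3 := by
  have h1 := cn_one hR
  have hR' := cn_R hR
  have hH := cn_Hh_one hR
  have a2 := cn_Pp_exp (R := R) (11 * 3 + 1)
  rw [pow_succ, pow_mul, ← cn_Hh] at a2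
  have a3 : (Hh R : ℝ) ^ 3 * Pp R ≤ Real.exp (2 * (R : ℝ) ^ 2) := by
    refine a2.trans (Real.exp_le_exp.2 ?_)
    push_cast
    nlinarith
  rw [hq_eq, inv_pow, neg_mul, Real.exp_neg, inv_mul_le_iff₀ (Real.exp_pos _),
    le_mul_inv_iff₀ (by positivity), mul_comm]
  exact a3
theorem log_Ka (hR : 10 ^ 7 ≤ R) : 1 + Real.log (8 * (Ka R : ℝ)) ≤ (R : ℝ) ^ 2 := by
  have h1 := cn_one hR
  have hR' := cn_R hR
  have hH := cn_Hh_one hR
  have a2 := cn_Pp_exp (R := R) (11 * 18)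
  rw [pow_mul, ← cn_Hh] at a2
  have e : (Ka R : ℝ) = (Hh R : ℝ) ^ 18 := Nat.cast_pow _ _
  have hK : (0 : ℝ) < Ka R := by rw [e]; positivity
  have a3 : Real.log (Ka R) ≤ 24000 * ((11 * 18 : ℕ) : ℝ) * R :=
    (Real.log_le_iff_le_exp hK).2 (e ▸ a2)
  have a4 := Real.log_le_sub_one_of_pos (show (0 : ℝ) < 8 by norm_num)
  rw [Real.log_mul (by norm_num) hK.ne']
  push_cast at a3
  nlinarith

/-- `Real.Wallis.le_W`, `Real.Wallis.W_le`. -/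
theorem piq_spec (hR : 10 ^ 7 ≤ R) :
    3 ≤ (piq R : ℝ) ∧ (piq R : ℝ) ≤ Real.pi ∧ Real.pi - piq R ≤ (hq R : ℝ) ^ 40 := by
  have e : (piq R : ℝ) = 2 * Real.Wallis.W (2 * Hh R ^ 40) := by
    rw [piq, Real.Wallis.W, Rat.cast_mul, Rat.cast_prod, Rat.cast_ofNat]
    congr 1
    exact Finset.prod_congr rfl fun i _ => by push_cast; rfl
  have h1 := Real.Wallis.W_le (2 * Hh R ^ 40)
  have h2 := Real.Wallis.le_W (2 * Hh R ^ 40)
  have hH := cn_Hh_one hR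
  obtain ⟨r1, r2, r3⟩ := R_le_Pp hR
  have hG : (Hh R : ℝ) ≤ (Hh R : ℝ) ^ 40 := le_self_pow₀ hH (by norm_num)
  rw [Nat.cast_mul, Nat.cast_pow, Nat.cast_ofNat] at h2
  rw [hq_eq, inv_pow, e]
  generalize Real.Wallis.W (2 * Hh R ^ 40) = W at *
  generalize (Hh R : ℝ) ^ 40 = G at *
  have hG7 : (10 : ℝ) ^ 7 ≤ G := by linarith
  have hG0 : 0 < G := by linarith
  have p1 := Real.pi_gt_d2
  have p2 := Real.pi_le_four
  have h3 : Real.pi - 2 * W ≤ G⁻¹ := by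
    have h4 : (2 * (2 * G) + 1) / (2 * (2 * G) + 2) = 1 - 1 / (4 * G + 2) := by
      field_simp
      ring
    have h5 : 1 / (4 * G + 2) * Real.pi ≤ G⁻¹ := by
      rw [div_mul_eq_mul_div, inv_eq_one_div, div_le_div_iff₀ (by positivity) hG0]
      nlinarith
    rw [h4] at h2
    linarith
  have h6 : G⁻¹ ≤ 1 / 10 := by
    rw [inv_eq_one_div]
    exact one_div_le_one_div_of_le (by norm_num) (by linarith)
  exact ⟨by linarith, by linarith, h3⟩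

theorem cn_count (p : ℕ → Prop) [DecidablePred p] (hp : ∀ i j, i ≤ j → p j → p i) (N : ℕ) :
    (List.range N).countP (fun k => decide (p k)) ≤ N ∧
      (∀ i < (List.range N).countP (fun k => decide (p k)), p i) ∧
      ((List.range N).countP (fun k => decide (p k)) < N →
        ¬p ((List.range N).countP fun k => decide (p k))) := by
  induction N with
  | zero => simp
  | succ N ih =>
    obtain ⟨h1, h2, h3⟩ := ih
    rw [List.range_succ, List.countP_append, List.countP_singleton]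
    generalize (List.range N).countP (fun k => decide (p k)) = k at *
    by_cases h : p N
    · have : k = N := h1.eq_or_lt.resolve_right fun hk => h3 hk (hp _ _ h1 h)
      subst this
      simp only [h, decide_true, if_true]
      exact ⟨le_rfl, fun i hi => hp _ _ (by omega) h, fun hk => absurd hk (lt_irrefl _)⟩
    · simp only [h, decide_false, Bool.false_eq_true, if_false, Nat.add_zero]
      refine ⟨by omega, h2, fun hk => ?_⟩
      rcases h1.lt_or_eq with h4 | rfl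
      exacts [h3 h4, h]

theorem cn_exp_ge {x : ℝ} (h : x ≤ 1) (k : ℕ) : (1 - x) ^ k ≤ Real.exp (-(k * x)) := by
  rw [← mul_neg, Real.exp_nat_mul]
  exact pow_le_pow_left₀ (by linarith) (by linarith [Real.add_one_le_exp (-x)]) k

theorem cn_exp_le {x : ℝ} (h0 : 0 ≤ x) (h : x ≤ 1 / 2) (k : ℕ) (hk : 4 * k * x ^ 2 ≤ 1) :
    Real.exp (-(k * x)) ≤ (1 - x) ^ k * (1 + 4 * k * x ^ 2) := by
  have h1 : Real.exp (-(x + 2 * x ^ 2)) ≤ 1 - x := by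
    rw [Real.exp_neg, inv_le_iff_one_le_mul₀ (Real.exp_pos _)]
    have h2 := mul_le_mul_of_nonneg_left (Real.add_one_le_exp (x + 2 * x ^ 2))
      (show 0 ≤ 1 - x by linarith)
    nlinarith [sq_nonneg x]
  have h2 : ∀ y : ℝ, 0 ≤ y → y ≤ 1 / 2 → Real.exp y ≤ 1 + 2 * y := fun y y0 y1 => by
    refine (Real.exp_bound_div_one_sub_of_interval y0 (by linarith)).trans ?_
    rw [div_le_iff₀ (by linarith)]
    nlinarith
  have e : -(k * x) = k * -(x + 2 * x ^ 2) + 2 * k * x ^ 2 := by ring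
  rw [e, Real.exp_add, Real.exp_nat_mul]
  refine mul_le_mul (pow_le_pow_left₀ (Real.exp_pos _).le h1 k) ?_ (Real.exp_pos _).le
    (pow_nonneg (by linarith) k)
  have := h2 (2 * k * x ^ 2) (by positivity) (by linarith)
  linarith

/-- With `x = R⁻³³`, `q = 1 - x`, `k` = the count `= min (2R³⁵) (least k with q^k ≤ T)` (the predicate is monotone):
`q T ≤ q^k ≤ exp(-kx)`, and if `k < 2R³⁵` then `exp(-kx) ≤ q^k exp(kx²) ≤ (1 + 2kx²) T`
(`exp(-x - x²) ≤ 1 - x`). -/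
theorem lvl_spec (hR : 10 ^ 7 ≤ R) {T : ℚ} (h0 : 0 ≤ T) (h1 : T ≤ 1) :
    0 ≤ (lvl R T : ℝ) ∧ (lvl R T : ℝ) ≤ (R : ℝ) ^ 2 ∧
      (1 - 1 / (R : ℝ) ^ 30) * T ≤ Real.exp (-2 * (lvl R T : ℝ)) ∧
      Real.exp (-2 * (lvl R T : ℝ)) ≤ (1 + 1 / (R : ℝ) ^ 30) * T + Real.exp (-2 * (R : ℝ) ^ 2) := by
  have hr1 := cn_one hR
  have hr := cn_R hR
  have hq1 : (1 : ℚ) ≤ R := by exact_mod_cast hr1
  have hx1 : 1 / (R : ℚ) ^ 33 ≤ 1 := div_le_one_of_le₀ (one_le_pow₀ hq1) (by positivity)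
  have hx0 : 0 ≤ 1 / (R : ℚ) ^ 33 := by positivity
  obtain ⟨c1, c2, c3⟩ := cn_count (fun k => T < (1 - 1 / (R : ℚ) ^ 33) ^ k)
    (fun i j hij h => h.trans_le (pow_le_pow_of_le_one (by linarith) (by linarith) hij)) (2 * R ^ 35)
  have e : (lvl R T : ℝ) = ((List.range (2 * R ^ 35)).countP fun k =>
      decide (T < (1 - 1 / (R : ℚ) ^ 33) ^ k) : ℕ) * (1 / (R : ℝ) ^ 33) / 2 := by
    rw [lvl]
    push_cast
    ring
  generalize ((List.range (2 * R ^ 35)).countP fun k =>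
    decide (T < (1 - 1 / (R : ℚ) ^ 33) ^ k)) = k at c1 c2 c3 e
  have c1' : (k : ℝ) ≤ 2 * (R : ℝ) ^ 35 := by exact_mod_cast c1
  have c2' : ∀ i < k, (T : ℝ) < (1 - 1 / (R : ℝ) ^ 33) ^ i := fun i hi => by
    have := (Rat.cast_lt (K := ℝ)).2 (c2 i hi)
    push_cast at this
    exact this
  have c3' : k < 2 * R ^ 35 → (1 - 1 / (R : ℝ) ^ 33) ^ k ≤ T := fun h => by
    have := (Rat.cast_le (K := ℝ)).2 (not_lt.1 (c3 h))
    push_cast at this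
    exact this
  have e2 : -2 * (lvl R T : ℝ) = -(k * (1 / (R : ℝ) ^ 33)) := by rw [e]; ring
  have r0 : (0 : ℝ) < R := by linarith
  have x1 : 2 * (R : ℝ) ^ 35 * (1 / (R : ℝ) ^ 33) = 2 * (R : ℝ) ^ 2 := by field_simp
  have x2 : 1 / (R : ℝ) ^ 33 ≤ 1 / (R : ℝ) ^ 30 :=
    one_div_le_one_div_of_le (by positivity) (pow_le_pow_right₀ hr1 (by norm_num))
  have x3 : 8 * (R : ℝ) ^ 35 * (1 / (R : ℝ) ^ 33) ^ 2 ≤ 1 / (R : ℝ) ^ 30 := by
    have : 8 * (R : ℝ) ^ 35 * (1 / (R : ℝ) ^ 33) ^ 2 = 8 / R * (1 / (R : ℝ) ^ 30) := by field_simp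
    rw [this]
    exact mul_le_of_le_one_left (by positivity) (div_le_one_of_le₀ (by linarith) r0.le)
  have x4 : 1 / (R : ℝ) ^ 30 ≤ 1 / 2 :=
    one_div_le_one_div_of_le (by norm_num)
      (le_trans (by linarith) (le_self_pow₀ hr1 (by norm_num)))
  have x0 : 0 < 1 / (R : ℝ) ^ 33 := by positivity
  have h0' : (0 : ℝ) ≤ T := by exact_mod_cast h0
  have h1' : (T : ℝ) ≤ 1 := by exact_mod_cast h1
  have hk : k = 2 * R ^ 35 → (k : ℝ) = 2 * (R : ℝ) ^ 35 := fun h => by exact_mod_cast h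
  rw [e2, e]
  generalize 1 / (R : ℝ) ^ 33 = x at *
  generalize 1 / (R : ℝ) ^ 30 = y at *
  have k0 : (0 : ℝ) ≤ k := Nat.cast_nonneg k
  refine ⟨by positivity, by nlinarith, ?_, ?_⟩
  · refine le_trans ?_ (cn_exp_ge (by linarith) k)
    rcases k with _ | k
    · rw [pow_zero]
      nlinarith
    · rw [pow_succ']
      exact mul_le_mul (by linarith) (c2' k (Nat.lt_succ_self k)).le h0' (by linarith)
  · rcases c1.lt_or_eq with h | h
    · have h2 : 4 * k * x ^ 2 ≤ y := by nlinarith [sq_nonneg x]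
      have h3 := cn_exp_le x0.le (by linarith) k (by linarith)
      have h4 : (1 - x) ^ k * (1 + 4 * k * x ^ 2) ≤ T * (1 + y) :=
        mul_le_mul (c3' h) (by linarith) (by positivity) h0'
      have := Real.exp_pos (-2 * (R : ℝ) ^ 2)
      linarith
    · rw [hk h, x1, neg_mul]
      nlinarith

/-- `kq` with the count over natural numbers (in the definition the list is coerced to `List ℚ`). -/
theorem kq_eq (R : ℕ) (Y : (ℚ × ℚ) × ℚ) : kq R Y =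
    sig (2 * (Y.1.1 ^ 2 + Y.1.2 ^ 2 + Y.2 ^ 2) - 1) *
      ((((List.range (2 * Hh R ^ 60)).countP fun k : ℕ => decide (((k : ℚ) + 1) ^ 2 *
        (Y.1.1 ^ 2 + Y.1.2 ^ 2 + Y.2 ^ 2) ≤ ((Hh R : ℚ) ^ 60) ^ 2) : ℕ) : ℚ) / (Hh R : ℚ) ^ 60) := by
  rw [kq, bind_pure_comp, List.map_eq_map, List.countP_map]
  rfl

/-- If `q = |Y|² ≤ 1/2` both sides vanish; else the count is `⌊G/√q⌋`, `G = Hh^60`. -/
theorem kq_spec (hR : 10 ^ 7 ≤ R) (Y : (ℚ × ℚ) × ℚ) :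
    |(kq R Y : ℝ) - kfar (toP3 Y)| ≤ (hq R : ℝ) ^ 60 := by
  have hH := cn_Hh_one hR
  obtain ⟨q, hq'⟩ : ∃ q : ℚ, q = Y.1.1 ^ 2 + Y.1.2 ^ 2 + Y.2 ^ 2 := ⟨_, rfl⟩
  have q0 : 0 ≤ q := by rw [hq']; positivity
  have e1 : kfar (toP3 Y) = sig (2 * (q : ℝ) - 1) / Real.sqrt q := by
    rw [hq']
    push_cast
    rfl
  obtain ⟨c1, c2, c3⟩ := cn_count (fun k => ((k : ℚ) + 1) ^ 2 * q ≤ ((Hh R : ℚ) ^ 60) ^ 2)
    (fun i j hij h => le_trans (by gcongr) h) (2 * Hh R ^ 60)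
  have e2 : (kq R Y : ℝ) = sig (2 * (q : ℝ) - 1) * (((List.range (2 * Hh R ^ 60)).countP fun k : ℕ =>
      decide (((k : ℚ) + 1) ^ 2 * q ≤ ((Hh R : ℚ) ^ 60) ^ 2) : ℕ) / (Hh R : ℝ) ^ 60) := by
    rw [kq_eq, ← hq', Rat.cast_mul, sig_cast]
    push_cast
    rfl
  generalize ((List.range (2 * Hh R ^ 60)).countP fun k : ℕ =>
      decide (((k : ℚ) + 1) ^ 2 * q ≤ ((Hh R : ℚ) ^ 60) ^ 2)) = k at c1 c2 c3 e2
  have c2' : ∀ i < k, ((i : ℝ) + 1) ^ 2 * q ≤ ((Hh R : ℝ) ^ 60) ^ 2 := fun i hi => by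
    exact_mod_cast c2 i hi
  have c3' : k < 2 * Hh R ^ 60 → ((Hh R : ℝ) ^ 60) ^ 2 < ((k : ℝ) + 1) ^ 2 * q := fun h => by
    exact_mod_cast not_le.1 (c3 h)
  have hk : k = 2 * Hh R ^ 60 → (k : ℝ) = 2 * (Hh R : ℝ) ^ 60 := fun h => by exact_mod_cast h
  have hG : (1 : ℝ) ≤ (Hh R : ℝ) ^ 60 := one_le_pow₀ hH
  rw [e1, e2, hq_eq, inv_pow]
  generalize (Hh R : ℝ) ^ 60 = G at *
  have G0 : 0 < G := by linarith
  by_cases h : (q : ℝ) ≤ 1 / 2
  · rw [sig_of_nonpos (by linarith), zero_mul, zero_div, sub_zero, abs_zero]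
    positivity
  rw [not_le] at h
  have s0 : 0 < Real.sqrt q := Real.sqrt_pos.2 (by linarith)
  have s2 : Real.sqrt q ^ 2 = q := Real.sq_sqrt (by linarith)
  generalize Real.sqrt q = s at *
  have k0 : (0 : ℝ) ≤ k := Nat.cast_nonneg k
  have a1 : (k : ℝ) ^ 2 * q ≤ G ^ 2 := by
    rcases k with _ | k
    · simp only [Nat.cast_zero]
      nlinarith
    · exact_mod_cast c2' k (Nat.lt_succ_self k)
  have a2 : G ^ 2 < ((k : ℝ) + 1) ^ 2 * q := by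
    refine c3' (c1.lt_or_eq.resolve_right fun h2 => ?_)
    rw [hk h2] at a1
    nlinarith
  have b1 : k * s ≤ G := abs_le_of_sq_le_sq' (by rw [mul_pow, s2]; exact a1) G0.le |>.2
  have b2 : G ≤ (k + 1) * s :=
    (abs_le_of_sq_le_sq' (by rw [mul_pow, s2]; exact a2.le) (by positivity)).2
  have b3 : |k / G - 1 / s| ≤ G⁻¹ := by
    have d1 : k / G ≤ 1 / s := by rw [div_le_div_iff₀ G0 s0]; linarith
    have d2 : 1 / s ≤ (k + 1) / G := by rw [div_le_div_iff₀ s0 G0]; linarith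
    rw [add_div, one_div G] at d2
    have := inv_pos.2 G0
    exact abs_le.2 ⟨by linarith, by linarith⟩
  rw [div_eq_mul_one_div (sig _) s, ← mul_sub, abs_mul, abs_of_nonneg (sig_nonneg _)]
  exact (mul_le_of_le_one_left (abs_nonneg _) (sig_le_one _)).trans b3

end Crest.Agent.R338
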