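import Crest.Agent.R338.Ideal_Prod

/-! # Ideal, part 4: trial functions, remainder, the lower and the upper bound -/

set_option autoImplicit false
set_option linter.dupNamespace false
set_option linter.unusedVariables false
set_option linter.unusedSectionVars false

noncomputable section

namespace Crest.Agent.R338.Idl

open Matrix MeasureTheory Set

theorem arith {N a a' A B R Gr E X kk T q err₂ CP θ η' c M ω errz ηz νk γ θ' err : ℝ}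
    (ha0 : 0 ≤ a) (haN : a ≤ N) (ha' : a' ≤ a) (hA : 0 ≤ A) (hB : 0 ≤ B) (hR0 : 0 ≤ R)
    (hP : N - a ≤ CP * A + B) (hR : R ≤ 2 * (N - a) + 2 * ((2 * η' + 4 * ηz) * a))
    (hG : Gr ≤ E + (2 * M + ω) * R) (hE : E ≤ 4 * (A + B) + 4 * X) (hX : X ≤ 2 * c * a')
    (hq : (ω / 2 - err₂ - errz) * N + kk - νk * (N - a) + θ * A + B + T ≤ q)
    (hc : 0 ≤ c) (hM : 0 ≤ M) (hνk : 0 ≤ νk) (herr₂ : 0 ≤ err₂) (hCP : 1 ≤ CP) (hθ : 0 < θ)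
    (hθ1 : θ ≤ 1) (hη' : 0 ≤ η') (hηz : 0 ≤ ηz) (hω : 0 ≤ ω) (herrz : 0 ≤ errz)
    (hγ : γ + νk ≤ θ / (2 * CP)) (hθ' : 0 < θ')
    (hθ'' : θ' * (2 * CP * (1 + 6 * M + ω) + 4) ≤ θ / 2)
    (herr : 2 * err₂ + 2 * errz + νk * ηz +
      θ' * (2 * (1 + 6 * M + ω) * (2 * η' + 4 * ηz) + 8 * c) ≤ err) :
    (ω / 2 - err) * N + kk + γ * (N - a) + θ' * (R + Gr) + T ≤ q := by
  have hN : 0 ≤ N := ha0.trans haN
  have s1 : N - a ≤ CP * (A + B) := by linarith [mul_le_mul_of_nonneg_right hCP hB]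
  have s2 : (γ + νk) * (N - a) ≤ θ / 2 * (A + B) := by
    have hCP0 : 0 < CP := by linarith
    calc (γ + νk) * (N - a) ≤ θ / (2 * CP) * (N - a) :=
          mul_le_mul_of_nonneg_right hγ (by linarith)
      _ ≤ θ / (2 * CP) * (CP * (A + B)) := mul_le_mul_of_nonneg_left s1 (by positivity)
      _ = θ / 2 * (A + B) := by field_simp
  have s3 : R ≤ 2 * (CP * (A + B)) + 2 * ((2 * η' + 4 * ηz) * N) := by
    have := mul_le_mul_of_nonneg_left haN (by positivity : 0 ≤ 2 * η' + 4 * ηz)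
    linarith
  have s4 : X ≤ 2 * c * N := hX.trans (mul_le_mul_of_nonneg_left (ha'.trans haN) (by positivity))
  have s5 : R + Gr ≤ (2 * CP * (1 + 6 * M + ω) + 4) * (A + B) +
      (2 * (1 + 6 * M + ω) * (2 * η' + 4 * ηz) + 8 * c) * N := by
    have h1 := mul_le_mul_of_nonneg_left s3 (by positivity : 0 ≤ 1 + 6 * M + ω)
    have h2 := mul_nonneg hM hR0
    linarith
  have s6 : θ' * (R + Gr) ≤ θ / 2 * (A + B) +
      θ' * (2 * (1 + 6 * M + ω) * (2 * η' + 4 * ηz) + 8 * c) * N := by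
    have h1 := mul_le_mul_of_nonneg_left s5 hθ'.le
    have h2 := mul_le_mul_of_nonneg_right hθ'' (add_nonneg hA hB)
    linarith
  have s7 := mul_le_mul_of_nonneg_right hθ1 hB
  have s8 := mul_le_mul_of_nonneg_right herr hN
  have s9 := mul_nonneg (mul_nonneg hνk hηz) hN
  have s10 := mul_nonneg herr₂ hN
  have s11 := mul_nonneg herrz hN
  linarith

variable {V : Type} [Fintype V] [DecidableEq V] {S v ε : P2 → ℝ} {k : Matrix V V ℝ}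
  {hc : V → Prop} {err₂ CP θ η η' κ ν M Λ ω L errz ηz Mz : ℝ}

/-- The three-dimensional trial functions. -/
def φ3 (pl : PL S v ε k hc err₂ CP θ η η' κ ν M Λ) (ln : LN ω L errz ηz Mz) (p : V) (y : P3) : ℝ :=
  pl.φ p y.1 * ln.ζ y.2

theorem cc_φ2 (pl : PL S v ε k hc err₂ CP θ η η' κ ν M Λ) (p : V) : Cc1 (pl.φ p) :=
  cc_of_bd (k := 3) (pl.φ_bd p) (K := box2 Λ) (isCompact_Icc.prod isCompact_Icc) (pl.φ_supp p)

theorem ζ_out (ln : LN ω L errz ηz Mz) (z : ℝ) (hz : z ∉ Icc (-2 : ℝ) 2) : ln.ζ z = 0 :=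
  ln.ζ_supp z (by
    by_contra h
    exact hz (abs_le.1 (not_lt.1 h)))

theorem cc_ζ (ln : LN ω L errz ηz Mz) : Cc1 ln.ζ :=
  cc_of_bd (k := 3) ln.ζ_bd isCompact_Icc (ζ_out ln)

theorem φ3_bd (pl : PL S v ε k hc err₂ CP θ η η' κ ν M Λ) (ln : LN ω L errz ηz Mz) (p : V) :
    Bd 4 (16 * M * Mz) (φ3 pl ln p) := by
  have := ((pl.φ_bd p).fst (F := ℝ)).mul (ln.ζ_bd.snd (E := P2))
  norm_num at this
  exact this

theorem φ3_supp (pl : PL S v ε k hc err₂ CP θ η η' κ ν M Λ) (ln : LN ω L errz ηz Mz) (p : V)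
    (y : P3) (hy : y ∉ box3 Λ) : φ3 pl ln p y = 0 := by
  unfold φ3
  by_cases h : y.1 ∈ box2 Λ
  · rw [ζ_out ln y.2 fun h2 => hy ⟨h, h2⟩, mul_zero]
  · rw [pl.φ_supp p _ h, zero_mul]

theorem cc_φ3 (pl : PL S v ε k hc err₂ CP θ η η' κ ν M Λ) (ln : LN ω L errz ηz Mz) (p : V) :
    Cc1 (φ3 pl ln p) :=
  cc_of_bd (k := 3) (φ3_bd pl ln p) (K := box3 Λ)
    ((isCompact_Icc.prod isCompact_Icc).prod isCompact_Icc) (φ3_supp pl ln p)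

theorem lin_φ3 (pl : PL S v ε k hc err₂ CP θ η η' κ ν M Λ) (ln : LN ω L errz ηz Mz) (a : V → ℝ) :
    lin (φ3 pl ln) a = fun y => lin pl.φ a y.1 * ln.ζ y.2 := lin_prod pl.φ ln.ζ a

theorem lin_e3 (pl : PL S v ε k hc err₂ CP θ η η' κ ν M Λ) (ln : LN ω L errz ηz Mz) (a : V → ℝ) :
    lin (e3 pl ln) a = fun y => lin pl.e a y.1 * ln.G y.2 := lin_prod pl.e ln.G a

theorem gram3 (pl : PL S v ε k hc err₂ CP θ η η' κ ν M Λ) (ln : LN ω L errz ηz Mz) (hη : 0 ≤ η)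
    (hη1 : η ≤ 1) (a : V → ℝ) : a ⬝ᵥ a ≤ ∫ y, lin (φ3 pl ln) a y ^ 2 ∧
      ∫ y, lin (φ3 pl ln) a y ^ 2 ≤ (1 + (η + 2 * ηz)) * (a ⬝ᵥ a) := by
  rw [lin_φ3, sq_prod]
  obtain ⟨g1, g2⟩ := pl.gram a
  obtain ⟨z1, z2⟩ := ln.ζ_norm
  have h0 := dot_self_nonneg a
  have hηz : 0 ≤ ηz := by linarith
  refine ⟨by nlinarith, ?_⟩
  calc _ ≤ (1 + η) * (a ⬝ᵥ a) * (1 + ηz) := mul_le_mul g2 z2 (by linarith) (by positivity)
    _ ≤ _ := by nlinarith [mul_nonneg (mul_nonneg hηz h0) (sub_nonneg.2 hη1)]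

theorem up3 (pl : PL S v ε k hc err₂ CP θ η η' κ ν M Λ) (ln : LN ω L errz ηz Mz) {νk err : ℝ}
    (hk : OpLe k νk) (hνk : 0 ≤ νk) (herr₂ : 0 ≤ err₂) (hη1 : η ≤ 1) (herrz : 0 ≤ errz)
    (hηz1 : ηz ≤ 1) (herr : 2 * err₂ + 2 * errz + νk * ηz ≤ err) (a : V → ℝ) :
    qf gsq3 (fun y => wOf S v ε y.1 + Wz ω L y.2) (lin (φ3 pl ln) a) ≤
      ω / 2 * (∫ y, lin (φ3 pl ln) a y ^ 2) + a ⬝ᵥ k *ᵥ a + err * (a ⬝ᵥ a) := by
  have hcc := cc_lin (cc_φ3 pl ln) a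
  rw [lin_φ3] at hcc ⊢
  rw [qf_prod (pl_S pl) pl.v_bd.1.continuous pl.ε_bd.1.continuous (cc_diff (cc_lin (cc_φ2 pl) a))
    (cc_diff (cc_ζ ln)) hcc, sq_prod]
  obtain ⟨g1, g2⟩ := pl.gram a
  obtain ⟨z1, z2⟩ := ln.ζ_norm
  have h0 := dot_self_nonneg a
  have hf := (abs_le.1 (hk.form_le hνk a)).2
  have u1 := mul_le_mul_of_nonneg_right (pl.up a) (by linarith : 0 ≤ ∫ z, ln.ζ z ^ 2)
  have u2 := mul_le_mul_of_nonneg_left ln.ζ_up (h0.trans g1)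
  generalize ∫ z, ln.ζ z ^ 2 = Z at *
  generalize ∫ y, lin pl.φ a y ^ 2 = F at *
  generalize a ⬝ᵥ k *ᵥ a = K at *
  generalize a ⬝ᵥ a = n at *
  have t1 : K * (Z - 1) ≤ νk * ηz * n := by
    have := mul_le_mul_of_nonneg_right hf (sub_nonneg.2 z1)
    have := mul_le_mul_of_nonneg_left (by linarith : Z - 1 ≤ ηz) (mul_nonneg hνk h0)
    nlinarith
  have t2 : err₂ * n * Z ≤ err₂ * n * 2 :=
    mul_le_mul_of_nonneg_left (by linarith) (mul_nonneg herr₂ h0)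
  have t3 : F * errz ≤ 2 * n * errz :=
    mul_le_mul_of_nonneg_right (by nlinarith) herrz
  have t4 := mul_le_mul_of_nonneg_right herr h0
  nlinarith

theorem X3_lin (pl : PL S v ε k hc err₂ CP θ η η' κ ν M Λ) (ln : LN ω L errz ηz Mz) {νk : ℝ}
    (hk : OpLe k νk) (hνk : 0 ≤ νk) (herr₂ : 0 ≤ err₂) (hη1 : η ≤ 1) (herrz : 0 ≤ errz)
    (hηz1 : ηz ≤ 1) (a : V → ℝ) :
    A3 S v (lin (φ3 pl ln) a) + B3 ln.sp ln.lo (lin (φ3 pl ln) a) ≤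
      2 * (νk + err₂ + 2 * ν + errz) * (a ⬝ᵥ a) := by
  have hcc := cc_lin (cc_φ2 pl) a
  rw [lin_φ3, A3_prod _ _ (cc_diff hcc) (cc_diff (cc_ζ ln)),
    B3_prod _ _ (cc_diff hcc) (cc_diff (cc_ζ ln))]
  obtain ⟨g1, g2⟩ := pl.gram a
  obtain ⟨z1, z2⟩ := ln.ζ_norm
  have h0 := dot_self_nonneg a
  have hf := (abs_le.1 (hk.form_le hνk a)).2
  have hν : 0 ≤ ν := (abs_nonneg _).trans (pl.ε_le 0)
  have hε := ((hi_sq (cc_l2 hcc)).cmul (-ν)).le (HI.of (int_cont_sq hcc pl.ε_bd.1.continuous))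
    fun y => mul_le_mul_of_nonneg_right (abs_le.1 (pl.ε_le y)).1 (sq_nonneg _)
  have u := pl.up a
  have hX := mul_le_mul_of_nonneg_left ln.ζ_X (h0.trans g1)
  generalize ∫ z, ln.ζ z ^ 2 = Z at *
  generalize ∫ y, lin pl.φ a y ^ 2 = F at *
  generalize a ⬝ᵥ k *ᵥ a = K at *
  generalize a ⬝ᵥ a = n at *
  have hF : F ≤ 2 * n := by nlinarith
  have t1 : X2 S v (lin pl.φ a) ≤ (νk + err₂ + 2 * ν) * n := by
    nlinarith [mul_le_mul_of_nonneg_left hF hν]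
  have t2 : X2 S v (lin pl.φ a) * Z ≤ (νk + err₂ + 2 * ν) * n * 2 :=
    (mul_le_mul_of_nonneg_right t1 (by linarith)).trans
      (mul_le_mul_of_nonneg_left (by linarith) (by positivity))
  have t3 := mul_le_mul_of_nonneg_right hF herrz
  nlinarith

theorem close3 (pl : PL S v ε k hc err₂ CP θ η η' κ ν M Λ) (ln : LN ω L errz ηz Mz) (hη1 : η ≤ 1)
    (a : V → ℝ) : ∃ a' : V → ℝ, a' ⬝ᵥ a' ≤ a ⬝ᵥ a ∧
      ∫ y, (lin (e3 pl ln) a y - lin (φ3 pl ln) a' y) ^ 2 ≤ (2 * η' + 4 * ηz) * (a ⬝ᵥ a) := by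
  obtain ⟨b, hb1, hb2⟩ := pl.close a
  obtain ⟨c, hc0, hc1, hc2⟩ := ln.close
  have h0 := dot_self_nonneg b
  obtain ⟨z1, z2⟩ := ln.ζ_norm
  have hηz : 0 ≤ ηz := by linarith
  refine ⟨c • b, ?_, ?_⟩
  · rw [smul_dotProduct, dotProduct_smul, smul_eq_mul, smul_eq_mul]
    nlinarith [mul_le_mul_of_nonneg_right hc1 h0, mul_le_mul_of_nonneg_right hc1 (mul_nonneg hc0 h0)]
  · have l1 : L2 fun x => lin pl.e a x - lin pl.φ b x :=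
      (l2_lin (pl_l2 pl) a).sub (cc_l2 (cc_lin (cc_φ2 pl) b))
    have l2 : L2 fun z => ln.G z - c * ln.ζ z := (ln_l2 ln).sub ((cc_l2 (cc_ζ ln)).const_mul c)
    have h := sq_add_le (l2_prod l1 (ln_l2 ln)) (l2_prod (cc_l2 (cc_lin (cc_φ2 pl) b)) l2)
    rw [sq_prod (fun x => lin pl.e a x - lin pl.φ b x) ln.G,
      sq_prod (lin pl.φ b) (fun z => ln.G z - c * ln.ζ z), ln.G_norm] at h
    have e : ∀ y : P3, lin pl.φ (c • b) y.1 = c * lin pl.φ b y.1 := fun y => by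
      simp only [lin, Pi.smul_apply, smul_eq_mul, Finset.mul_sum, mul_assoc]
    rw [lin_e3, lin_φ3]
    refine le_trans (le_of_eq (integral_congr_ae (ae_of_all _ fun y => ?_))) (h.trans ?_)
    · simp only [e]; ring
    · obtain ⟨g1, g2⟩ := pl.gram b
      have t : (∫ x, lin pl.φ b x ^ 2) * ∫ z, (ln.G z - c * ln.ζ z) ^ 2 ≤ 2 * (a ⬝ᵥ a) * ηz :=
        mul_le_mul (by nlinarith) hc2 (integral_nonneg fun z => sq_nonneg _) (by nlinarith)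
      nlinarith

theorem low_main (pl : PL S v ε k hc err₂ CP θ η η' κ ν M Λ) (ln : LN ω L errz ηz Mz)
    {νk γ θ' err : ℝ} (hk : OpLe k νk)
    (hνk : 0 ≤ νk) (herr₂ : 0 ≤ err₂) (hCP : 1 ≤ CP) (hθ : 0 < θ) (hθ1 : θ ≤ 1)
    (hη1 : η ≤ 1) (hη' : 0 ≤ η') (hω : 0 ≤ ω) (herrz : 0 ≤ errz)
    (hηz1 : ηz ≤ 1) (hγ : γ + νk ≤ θ / (2 * CP)) (hθ' : 0 < θ')
    (hθ'' : θ' * (2 * CP * (1 + 6 * M + ω) + 4) ≤ θ / 2)
    (herr : 2 * err₂ + 2 * errz + νk * ηz +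
      θ' * (2 * (1 + 6 * M + ω) * (2 * η' + 4 * ηz) + 8 * (νk + err₂ + 2 * ν + errz)) ≤ err)
    (ψ : P3 → ℝ) (hψ : Cc1 ψ) : ∃ α' : V → ℝ, α' ⬝ᵥ α' ≤ 2 * (∫ y, ψ y ^ 2) ∧
    (ω / 2 - err) * (∫ y, ψ y ^ 2) + coef (e3 pl ln) ψ ⬝ᵥ k *ᵥ coef (e3 pl ln) ψ +
      γ * ((∫ y, ψ y ^ 2) - coef (e3 pl ln) ψ ⬝ᵥ coef (e3 pl ln) ψ) +
      θ' * ((∫ y, (ψ y - lin (φ3 pl ln) α' y) ^ 2) +
        ∫ y, gsq3 (fun y => ψ y - lin (φ3 pl ln) α' y) y) +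
      ω ^ 2 * L ^ 2 / 2 * (∫ y in {y : P3 | 2 * L < |y.2|}, ψ y ^ 2) ≤
      qf gsq3 (fun y => wOf S v ε y.1 + Wz ω L y.2) ψ := by
  obtain ⟨a', ha1, ha2⟩ := close3 pl ln hη1 (coef (e3 pl ln) ψ)
  have hB := hi_bessel (e3_l2 pl ln) (e3_disj pl ln) (e3_norm pl ln) (cc_l2 hψ)
  have haN := bessel (e3_l2 pl ln) (e3_disj pl ln) (e3_norm pl ln) (cc_l2 hψ)
  have h0 := dot_self_nonneg (coef (e3 pl ln) ψ)
  have hΦ := cc_lin (cc_φ3 pl ln) a'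
  have hr := cc_sub hψ hΦ
  have hlo : ∀ z, 0 ≤ ln.lo z := by
    obtain ⟨C, hC⟩ := ln.lo_bdd
    exact fun z => (hC z).1
  have hηz : 0 ≤ ηz := by linarith [ln.ζ_norm.1, ln.ζ_norm.2]
  have hν : 0 ≤ ν := (abs_nonneg _).trans (pl.ε_le 0)
  refine ⟨a', by linarith, ?_⟩
  have l1 : L2 fun y => ψ y - lin (e3 pl ln) (coef (e3 pl ln) ψ) y :=
    (cc_l2 hψ).sub (l2_lin (e3_l2 pl ln) _)
  have l2 : L2 fun y => lin (e3 pl ln) (coef (e3 pl ln) ψ) y - lin (φ3 pl ln) a' y :=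
    (l2_lin (e3_l2 pl ln) _).sub (cc_l2 hΦ)
  have hR := sq_add_le l1 l2
  simp only [sub_add_sub_cancel] at hR
  rw [hB.2] at hR
  obtain ⟨p1, p2⟩ := F12_le (S := S) pl.v_nonneg ψ
  obtain ⟨p3, p4⟩ := F3_le (sp := ln.sp) hlo ψ
  obtain ⟨-, p5⟩ := F12_le (S := S) pl.v_nonneg (lin (φ3 pl ln) a')
  obtain ⟨-, p6⟩ := F3_le (sp := ln.sp) hlo (lin (φ3 pl ln) a')
  have q1 := F12_sub (pl_S pl) hψ hΦ
  have q2 := F3_sub ln.sp_cont hψ hΦ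
  exact arith h0 haN ha1 (by linarith) (by linarith) (integral_nonneg fun y => sq_nonneg _)
    (poin3 pl ln hψ) (by linarith) (grad3 pl ln hr)
    (X := A3 S v (lin (φ3 pl ln) a') + B3 ln.sp ln.lo (lin (φ3 pl ln) a')) (by linarith)
    (X3_lin pl ln hk hνk herr₂ hη1 herrz hηz1 a') (low3 pl ln hk hνk hψ) (by positivity)
    pl.S_bd.nonneg hνk herr₂ hCP hθ hθ1 hη' hηz hω herrz hγ hθ' hθ'' herr

theorem e3_bdd (pl : PL S v ε k hc err₂ CP θ η η' κ ν M Λ) (ln : LN ω L errz ηz Mz) :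
    ∃ C : ℝ, ∀ p y, |e3 pl ln p y| ≤ C ∧ (C < ‖y‖ → e3 pl ln p y = 0) := by
  refine ⟨max Mz (max Λ (2 * L)), fun p y => ⟨?_, fun h => ?_⟩⟩
  · unfold e3
    rw [abs_mul]
    exact (mul_le_of_le_one_left (abs_nonneg _) (pl.e_bdd p y.1).1).trans
      ((ln.G_bdd y.2).1.trans (le_max_left _ _))
  · unfold e3
    by_cases h1 : y.1 ∈ box2 Λ
    · by_cases h2 : 2 * L < |y.2|
      · rw [(ln.G_bdd y.2).2 h2, mul_zero]
      · exfalso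
        obtain ⟨⟨a1, a2⟩, b1, b2⟩ := h1
        have hΛ : Λ ≤ max Mz (max Λ (2 * L)) := (le_max_left _ _).trans (le_max_right _ _)
        have hL : 2 * L ≤ max Mz (max Λ (2 * L)) := (le_max_right _ _).trans (le_max_right _ _)
        refine absurd h (not_lt.2 ?_)
        rw [Prod.norm_def, Prod.norm_def]
        refine max_le (max_le ?_ ?_) ?_
        · rw [Real.norm_eq_abs, abs_of_nonneg (by linarith)]; linarith
        · rw [Real.norm_eq_abs, abs_of_nonneg (by linarith)]; linarith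
        · rw [Real.norm_eq_abs]; linarith [not_lt.1 h2]
    · rw [(pl.e_bdd p y.1).2 h1, zero_mul]

theorem diam3 {y y' : P3} (h : nrm2 (y.1 - y'.1) ≤ 2) (h1 : y.2 ∈ Icc (-1 : ℝ) 1)
    (h2 : y'.2 ∈ Icc (-1 : ℝ) 1) : nrm3 (y - y') ≤ 3 := by
  have h3 := (Real.sqrt_le_left (by norm_num : (0 : ℝ) ≤ 2)).1 h
  refine (Real.sqrt_le_left (by norm_num : (0 : ℝ) ≤ 3)).2 ?_
  have h4 : (y.2 - y'.2) ^ 2 ≤ 2 ^ 2 :=
    sq_le_sq' (by linarith [h1.1, h2.2]) (by linarith [h1.2, h2.1])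
  simp only [Prod.fst_sub, Prod.snd_sub] at h3 ⊢
  linarith

theorem mass3 (pl : PL S v ε k hc err₂ CP θ η η' κ ν M Λ) (ln : LN ω L errz ηz Mz) (p : V)
    (hp : hc p) : 1 / 4 ≤ ∫ y in pl.Rg p ×ˢ Icc (-1 : ℝ) 1, e3 pl ln p y ^ 2 := by
  have h := setIntegral_prod_mul (μ := (volume : Measure P2)) (ν := (volume : Measure ℝ))
    (fun x => pl.e p x ^ 2) (fun z => ln.G z ^ 2) (pl.Rg p) (Icc (-1 : ℝ) 1)
  have e : ∫ y in pl.Rg p ×ˢ Icc (-1 : ℝ) 1, e3 pl ln p y ^ 2 =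
      (∫ x in pl.Rg p, pl.e p x ^ 2) * ∫ z in Icc (-1 : ℝ) 1, ln.G z ^ 2 := by
    simp only [e3, mul_pow]
    exact h
  rw [e]
  nlinarith [pl.Rg_mass p hp, ln.G_mass]

end Crest.Agent.R338.Idl
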