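import Crest.Agent.R338.Bd
import Crest.Agent.R338.Op
import Crest.Agent.R338.Ideal_Main

/-! # Plane × line = the ideal three-dimensional package

`e p (x,z) = e₂ p x · G z`, `φ p (x,z) = φ₂ p x · ζ z`, `Rg p = Rg₂ p × [-1,1]`.  Ground state transform in the
plane (`gst2`, integration by parts: `integral_mul_fderiv_eq_neg_fderiv_mul_of_integrable` or similar).
Slices of a `Cc1` function on `P3` are `Cc1`; `X₃ ψ = ∫_z X2 (ψ(·,z)) + ∫_x X1 (ψ(x,·))`; Fubini for continuous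
compactly supported integrands (times bounded measurable ones).
* `q ψ ≥ ∫_z α₂(z)⬝kα₂(z) - err₂|ψ|² + θ∫X2 + (ω/2 - errz)|ψ|² + ∫X1 + tail`; `α₂(z) = G(z) α + rest(z)`, `∫ G rest = 0`, so
  `∫α₂⬝kα₂ ≥ α⬝kα - νk(|ψ|² - |α|²)`.
* Poincaré: `|ψ|² - |α|² = (|ψ|² - ∫|α₂|²) + (∫|α₂|² - |α|²) ≤ CP X₃` (Bessel for the second bracket applied to
  `x ↦ ψ(x,z) - G z ∫Gψ(x,·)`).
* remainder `r = ψ - lin φ α'`, `α' = c α''` (`close` twice): `|r|² ≤ 2 CP X₃ + 2(2η₂' + 4ηz)|α|²`,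
  `∫|∇r|² ≤ E₃ r + (6M + ω)|r|²` (`gst2` and `grad`), `E₃ r ≤ 4X₃ψ + 4X₃(lin φ α')`,
  `X₃(lin φ α') ≤ 2(νk + err₂ + 2ν + errz)|α'|²`.  Half of `θ X₃` pays for `γ + νk`, half for `θ'|r|²_{H¹}`.
* `up`, `gram`, `two` (`nrm3 ≥ nrm2`, the set `x = x'` is null) factorise. -/

set_option autoImplicit false
set_option linter.dupNamespace false
set_option linter.unusedVariables false

noncomputable section

namespace Crest.Agent.R338

open Matrix MeasureTheory Set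
open Crest.MathPhysics.ElectronicCoulomb

/-- Ground state transform. -/
theorem gst2 {S ψ : P2 → ℝ} (hS : ContDiff ℝ 2 S) (hψ : Cc1 ψ) :
    ∫ p, ((dx ψ p + ψ p * dx S p) ^ 2 + (dy ψ p + ψ p * dy S p) ^ 2) =
      (∫ p, (dx ψ p ^ 2 + dy ψ p ^ 2)) + ∫ p, (dx S p ^ 2 + dy S p ^ 2 - lap2 S p) * ψ p ^ 2 := by
  exact Idl.gst_plane hS hψ

theorem exists_ideal {V : Type} [Fintype V] [DecidableEq V] {S v ε : P2 → ℝ} {k : Matrix V V ℝ}
    {hc : V → Prop} {err₂ CP θ η η' κ ν M Λ ω L errz ηz Mz νk γ θ' err : ℝ}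
    (pl : PL S v ε k hc err₂ CP θ η η' κ ν M Λ) (ln : LN ω L errz ηz Mz) (hk : OpLe k νk)
    (hνk : 0 ≤ νk) (herr₂ : 0 ≤ err₂) (hCP : 1 ≤ CP) (hθ : 0 < θ) (hθ1 : θ ≤ 1) (hη : 0 ≤ η)
    (hη1 : η ≤ 1) (hη' : 0 ≤ η') (hκ : 0 ≤ κ) (hω : 0 ≤ ω) (hL : 2 ≤ L) (herrz : 0 ≤ errz)
    (hηz1 : ηz ≤ 1) (hγ0 : 0 ≤ γ) (hγ : γ + νk ≤ θ / (2 * CP)) (hθ' : 0 < θ')
    (hθ'' : θ' * (2 * CP * (1 + 6 * M + ω) + 4) ≤ θ / 2)
    (herr : 2 * err₂ + 2 * errz + νk * ηz +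
      θ' * (2 * (1 + 6 * M + ω) * (2 * η' + 4 * ηz) + 8 * (νk + err₂ + 2 * ν + errz)) ≤ err) :
    Nonempty (OB3 (fun y => wOf S v ε y.1 + Wz ω L y.2) k hc (ω / 2) err γ 3 (4 * κ) (η + 2 * ηz) θ'
      (16 * M * Mz) Λ (2 * L) (ω ^ 2 * L ^ 2 / 2)) := by
  have hηz : 0 ≤ ηz := by linarith [ln.ζ_norm.1, ln.ζ_norm.2]
  have hν : 0 ≤ ν := (abs_nonneg _).trans (pl.ε_le 0)
  have hM : 0 ≤ M := pl.S_bd.nonneg
  have hlow := Idl.low_main pl ln hk hνk herr₂ hCP hθ hθ1 hη1 hη' hω herrz hηz1 hγ hθ' hθ'' herr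
  have herr' : 2 * err₂ + 2 * errz + νk * ηz ≤ err := by
    have : 0 ≤ θ' * (2 * (1 + 6 * M + ω) * (2 * η' + 4 * ηz) + 8 * (νk + err₂ + 2 * ν + errz)) := by
      positivity
    linarith
  refine ⟨{ e := Idl.e3 pl ln
            Rg := fun p => pl.Rg p ×ˢ Icc (-1 : ℝ) 1
            φ := Idl.φ3 pl ln
            e_meas := fun p =>
              ((pl.e_meas p).comp measurable_fst).mul (ln.G_meas.comp measurable_snd)
            e_bdd := Idl.e3_bdd pl ln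
            e_disj := Idl.e3_disj pl ln
            e_norm := Idl.e3_norm pl ln
            Rg_meas := fun p => (pl.Rg_meas p).prod measurableSet_Icc
            Rg_disj := fun p q h => Set.disjoint_prod.2 (Or.inl (pl.Rg_disj p q h))
            Rg_other := fun p q h y hy => ?_
            Rg_diam := fun p hp y hy y' hy' =>
              Idl.diam3 (pl.Rg_diam p hp _ hy.1 _ hy'.1) hy.2 hy'.2
            Rg_mass := Idl.mass3 pl ln
            low := fun ψ hψ => ?_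
            φ_reg := Idl.cc_φ3 pl ln
            gram := Idl.gram3 pl ln hη hη1
            up := Idl.up3 pl ln hk hνk herr₂ hη1 herrz hηz1 herr'
            two := fun β hβ => ?_
            φ_bd := Idl.φ3_bd pl ln
            φ_supp := Idl.φ3_supp pl ln
            low' := hlow }⟩
  · unfold Idl.e3
    rw [pl.Rg_other p q h _ hy.1, zero_mul]
  · obtain ⟨a', -, h⟩ := hlow ψ hψ
    have h1 : 0 ≤ θ' * ((∫ y, (ψ y - lin (Idl.φ3 pl ln) a' y) ^ 2) +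
        ∫ y, gsq3 (fun y => ψ y - lin (Idl.φ3 pl ln) a' y) y) :=
      mul_nonneg hθ'.le (add_nonneg (integral_nonneg fun y => sq_nonneg _)
        (integral_nonneg fun y => add_nonneg (add_nonneg (sq_nonneg _) (sq_nonneg _)) (sq_nonneg _)))
    have h2 : 0 ≤ ω ^ 2 * L ^ 2 / 2 * (∫ y in {y : P3 | 2 * L < |y.2|}, ψ y ^ 2) :=
      mul_nonneg (by positivity) (integral_nonneg fun y => sq_nonneg _)
    linarith
  · rw [mul_assoc]
    exact Idl.two_prod (fun p => Idl.cc_cont (Idl.cc_φ2 pl p)) (Idl.cc_l2 (Idl.cc_ζ ln))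
      (Idl.cc_cont (Idl.cc_ζ ln)) (by linarith [ln.ζ_norm.2]) β (pl.two β hβ)

end Crest.Agent.R338
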