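import Crest.Agent.R338.Line_B

/-! # The line package

`ω' = ω - 1/L²`, `sp z = ω' · clamp z (-L) L`, `s = ∫₀ sp` (`ω' z²/2` for `|z| ≤ L`, `ω' L|z| - ω' L²/2` beyond),
`G₀ = exp (-s)`, `spp = ω' 1_{|z|<L}`.  Identity (integrate by parts on the three intervals) for `Cc1 g`:
`∫ (g' + sp g)² = ∫ g'² + ∫ (sp² - spp) g²`; it gives `grad` and, with
`lo = Wz - ω'/2 - (sp² - spp)/2 - (ω²L²/2) 1_{2L<|z|}` (`= (ω²-ω'²) z²/2` for `|z|<L`, `≥ 0` everywhere, `≥ 1` for `|z|>2L`),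
`½∫g'² + ∫Wz g² = (ω'/2)∫g² + X1 + tail`.  `G = G₀ 1_{|z| ≤ 2L}/norm`.  `poin`: with `f = g/G₀`,
`∫g² - (∫G g)² ≤ ∫ (g - f(0) G₀ 1_{≤2L})² = ∫_{≤2L} G₀²(f - f 0)² + ∫_{>2L} g²`, and on `[0, 2L]`
`∫G₀²(f - f 0)² ≤ ½∫G₀² f'²`, e.g. from `0 ≤ ∫G₀²(u' - u/z)²`, `u = f - f 0` (gives the factor `2 sp/z ≥ ω'`), or
from Cauchy-Schwarz `u(z)² ≤ ∫₀ᶻ G₀ f'² · ∫₀ᶻ 1/G₀ ≤ (z/G₀ z)∫₀ᶻ G₀ f'²` and `∫_t^{2L} z G₀ ≤ (2/ω') G₀ t` (as `z ≤ 2 sp z/ω'`, `sp G₀ = -G₀'`).
`ζ = G₀ · bump 1 (-1) 1 / n₁`, `n₁² = ∫_{-1}^{1} G₀² ≥ c/ω`; tails: `G₀² ≤ exp(-ω'|z|)` for `|z| ≥ 1`;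
`ζ' + sp ζ = G₀ χ'/n₁`.  On `[-2,2]`, `G₀ = exp(-ω' z²/2)`: for `Bd 4` write `ζ = exp(-ω' z² χ₂(z)/2) χ/n₁` with a wider
bump `χ₂` and use `Bd.exp_neg`. -/

set_option autoImplicit false
set_option linter.dupNamespace false
set_option linter.unusedVariables false

noncomputable section

namespace Crest.Agent.R338

open Matrix MeasureTheory Set
open Crest.MathPhysics.ElectronicCoulomb

namespace Ln

open Filter Topology

/-- the cutoff -/
def χ : ℝ → ℝ := bump 1 (-1) 1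

theorem χ_one {z : ℝ} (h : |z| ≤ 1) : χ z = 1 := bump_eq_one one_pos (abs_le.1 h).1 (abs_le.1 h).2

theorem χ_zero {z : ℝ} (h : 2 ≤ |z|) : χ z = 0 :=
  bump_eq_zero one_pos ((le_abs'.1 h).imp (fun h => by linarith) fun h => by linarith)

theorem χ_mem (z : ℝ) : 0 ≤ χ z ∧ χ z ≤ 1 := bump_mem _ _ _ _

theorem exists_q : ∃ (C M : ℝ) (q : ℝ → ℝ), 1 ≤ C ∧ 1 ≤ M ∧ Bd 4 C χ ∧ Bd 4 M q ∧ (∀ z, 0 ≤ q z) ∧
    ∀ z, |z| ≤ 2 → q z = z ^ 2 / 2 := by
  obtain ⟨C, hC, -, h⟩ := exists_sig_bd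
  have h1 := (h 1 (-1) 1 one_pos le_rfl 4 (by norm_num)).2.2.1
  have h2 := (h 1 (-2) 2 one_pos le_rfl 4 (by norm_num)).2.2.1.1
  have h3 : ∀ z : ℝ, 3 ≤ |z| → bump 1 (-2) 2 z = 0 := fun z h =>
    bump_eq_zero one_pos ((le_abs'.1 h).imp (fun h => by linarith) fun h => by linarith)
  obtain ⟨M, hM, h4⟩ := exists_bd (k := 4) (f := fun z : ℝ => z ^ 2 / 2 * bump 1 (-2) 2 z)
    (((contDiff_id.pow 2).div_const 2).mul h2) (isCompact_Icc (a := -3) (b := 3)) (fun x hx => by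
      have h5 : 3 < |x| := not_le.1 fun h => hx (abs_le.1 h)
      filter_upwards [continuous_abs.continuousAt.eventually_const_lt h5] with y hy
      rw [h3 y hy.le, h3 x h5.le, mul_zero, mul_zero]) (c := 9 / 2) fun x => by
      have h5 := bump_mem 1 (-2) 2 x
      rcases le_total 3 |x| with h6 | h6
      · rw [h3 x h6]; norm_num
      · have : x ^ 2 ≤ 3 ^ 2 := by rw [← sq_abs]; gcongr
        rw [abs_of_nonneg (mul_nonneg (by positivity) h5.1)]
        nlinarith [sq_nonneg x]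
  refine ⟨C, M, _, hC, hM, by simpa [χ] using h1, h4, fun z => mul_nonneg (by positivity)
    (bump_mem _ _ _ _).1, fun z hz => ?_⟩
  beta_reduce
  rw [bump_eq_one one_pos (abs_le.1 hz).1 (abs_le.1 hz).2, mul_one]

variable {ω L w : ℝ}

theorem Par.zeta_bd (h : Par ω L w) {C M n : ℝ} {q : ℝ → ℝ} (hC : 1 ≤ C) (hM : 1 ≤ M) (h1 : Bd 4 C χ)
    (h2 : Bd 4 M q) (h3 : ∀ z, 0 ≤ q z) (h4 : ∀ z, |z| ≤ 2 → q z = z ^ 2 / 2) (hn : 1 / ω ≤ n) :
    Bd 4 (384 * M ^ 4 * C * ω ^ 5) fun z => G0 w L z * χ z / n := by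
  have hω := h.hω
  have h5 := (h2.const_mul w).mono le_rfl (show |w| * M ≤ ω * M by
    rw [abs_of_nonneg h.w0]; gcongr; exact h.le)
  have h6 := ((h5.exp_neg (fun z => mul_nonneg h.w0 (h3 z))
    (one_le_mul_of_one_le_of_one_le (by linarith) hM)).mul h1).const_mul n⁻¹
  have h7 : |n⁻¹| ≤ ω := by
    have : 0 < n := lt_of_lt_of_le (by positivity) hn
    rw [abs_of_pos (by positivity), inv_le_comm₀ this (by positivity), inv_eq_one_div]
    exact hn
  have e : (fun z => G0 w L z * χ z / n) = fun z => n⁻¹ * (Real.exp (-(w * q z)) * χ z) := by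
    funext z
    rcases le_total |z| 2 with hz | hz
    · rw [h4 z hz, G0, ss_mid (hz.trans h.hL)]; ring
    · rw [χ_zero hz]; ring
  rw [e]
  refine h6.mono le_rfl ?_
  calc _ ≤ ω * (2 ^ 4 * ((Nat.factorial 4 : ℕ) * (ω * M) ^ 4) * C) := by gcongr
    _ = _ := by norm_num [Nat.factorial]; ring

theorem Par.zeta_h (h : Par ω L w) {C : ℝ} (h1 : Bd 4 C χ) (n : ℝ) :
    ∫ z, (deriv (fun z => G0 w L z * χ z / n) z + sp w L z * (G0 w L z * χ z / n)) ^ 2 ≤
      C ^ 2 * (64 * Real.exp (-ω)) / n ^ 2 := by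
  have h2 := h.tail (ψ := deriv χ) (B := C) (fun z => by
    rw [← Real.norm_eq_abs, norm_deriv_eq_norm_fderiv]
    exact Bd.norm_fderiv_le (k := 3) h1 z) fun z hz => by
    have : χ =ᶠ[𝓝 z] fun _ => 1 := by
      filter_upwards [continuous_abs.continuousAt.eventually_lt_const hz] with y hy using χ_one hy.le
    rw [this.deriv_eq, deriv_const]
  refine le_trans (le_of_eq ?_) (div_le_div_of_nonneg_right h2 (sq_nonneg n))
  rw [← integral_div]
  refine integral_congr_ae (.of_forall fun z => ?_)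
  beta_reduce
  rw [(((hasDerivAt_G0 w L z).fun_mul
    (h1.1.differentiable (by norm_num) z).hasDerivAt).div_const n).deriv]
  ring

theorem Par.zeta_up (h : Par ω L w) {g : ℝ → ℝ} (hg : Cc1 g) (h0 : ∀ z, 2 ≤ |z| → g z = 0) :
    1 / 2 * (∫ z, deriv g z ^ 2) + (∫ z, Wz ω L z * g z ^ 2) ≤
      1 / 2 * (∫ z, (deriv g z + sp w L z * g z) ^ 2) + (ω / 2 + 4 * (ω / L ^ 2)) * ∫ z, g z ^ 2 := by
  have i1 := (int_sq hg).const_mul (ω / 2 + 4 * (ω / L ^ 2))
  have i2 := (int_V hg w L).const_mul (1 / 2)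
  have h1 := integral_mono (int_mul_sq hg (continuous_Wz ω L)) (i1.fun_add i2) fun z => by
    beta_reduce
    rcases le_or_gt 2 |z| with hz | hz
    · simp [h0 z hz]
    · have h2 : |z| < L := hz.trans_le h.hL
      have h3 : z ^ 2 ≤ 2 ^ 2 := by rw [← sq_abs]; gcongr
      have h4 : w ^ 2 ≤ ω ^ 2 := by have := h.w0; gcongr; exact h.le
      have h5 : Wz ω L z ≤ ω / 2 + 4 * (ω / L ^ 2) + 1 / 2 * (sp w L z ^ 2 - spp w L z) := by
        rw [sp_mid h2.le, spp, if_pos h2, Wz, mul_pow]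
        nlinarith [h.le, h.sq2, mul_le_mul_of_nonneg_left (min_le_left (z ^ 2) (4 * L ^ 2))
          (sq_nonneg ω), mul_le_mul_of_nonneg_left h3 (sub_nonneg.2 h4)]
      exact (mul_le_mul_of_nonneg_right h5 (sq_nonneg _)).trans (le_of_eq (by ring))
  rw [integral_add i1 i2, integral_const_mul, integral_const_mul] at h1
  rw [ident hg w h.L0]
  linarith

end Ln

open Ln in
theorem exists_line : ∃ C : ℝ, 1 ≤ C ∧ ∀ ω L : ℝ, 10 ≤ ω → 2 ≤ L →
    Nonempty (LN ω L (C * (ω / L ^ 2 + ω * Real.exp (-ω / 2))) (C * ω * Real.exp (-ω / 2))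
      (C * ω ^ 5)) := by
  obtain ⟨C, M, q, hC, hM, h1, h2, h3, h4⟩ := exists_q
  have hD : 0 ≤ 384 * M ^ 4 * C := by positivity
  refine ⟨384 * M ^ 4 * C + 64 * C ^ 2 + 64, by nlinarith, fun ω L hω hL => ?_⟩
  have h := par hω hL
  generalize ω - 1 / L ^ 2 = w at h
  set D := 384 * M ^ 4 * C + 64 * C ^ 2 + 64 with hDe
  have hD1 : 64 * C ^ 2 ≤ D := by linarith
  have hD2 : 64 ≤ D := by nlinarith
  have hω0 : 0 < ω := by linarith
  have hA := h.AA_ge
  have hA0 : 0 < AA w L := lt_of_lt_of_le (by positivity) hA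
  have hmι : Measurable fun z => 1 - lo L z := (measurable_lo L).const_sub 1
  have hι : ∀ z, |z| ≤ 1 → 1 - lo L z = 1 := fun z hz => by
    rw [lo, if_neg (by linarith), sub_zero]
  have hχ : ∀ z, |χ z| ≤ 1 := fun z => by rw [abs_of_nonneg (χ_mem z).1]; exact (χ_mem z).2
  obtain ⟨hN1, hN2⟩ := h.mass hmι (abs_one_sub_lo L) hι
  obtain ⟨hZ1, hZ2⟩ := h.mass h1.1.continuous.measurable hχ fun z => χ_one
  set N := ∫ z, (G0 w L z * (1 - lo L z)) ^ 2 with hN
  have hN0 : 0 < N := hA0.trans_le hN1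
  have hω2 : 1 / ω ≤ √(AA w L) := Real.le_sqrt_of_sq_le (le_trans (by
    have : 1 / ω ≤ 1 := by rw [div_le_one hω0]; linarith
    have : 0 < 1 / ω := by positivity
    nlinarith) hA)
  have hs1 : √(AA w L) ≤ √N := Real.sqrt_le_sqrt hN1
  have hs0 : 0 < √(AA w L) := Real.sqrt_pos.2 hA0
  have hs0' : 0 < √N := Real.sqrt_pos.2 hN0
  have hE : 64 * Real.exp (-ω) ≤ 1 / ω := by
    have h5 := Real.pow_div_factorial_le_exp ω hω0.le 5
    have h6 : (10 : ℝ) ^ 4 ≤ ω ^ 4 := by gcongr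
    rw [Real.exp_neg, ← div_eq_mul_inv, div_le_div_iff₀ (by positivity) hω0]
    norm_num [Nat.factorial] at h5 h6
    nlinarith
  set δ := ω * Real.exp (-ω / 2) with hδ
  have hδ0 : 0 ≤ δ := by positivity
  have hδ1 : ∀ x, AA w L ≤ x → Real.exp (-ω) / x ≤ δ := fun x hx => by
    calc _ ≤ Real.exp (-ω / 2) / (1 / ω) := by gcongr; exacts [by linarith, hA.trans hx]
      _ = _ := by rw [hδ]; field_simp
  have hp : 0 ≤ ω / L ^ 2 := by positivity
  have hb := h.zeta_bd hC hM h1 h2 h3 h4 hω2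
  have hz0 : ∀ z, 2 ≤ |z| → G0 w L z * χ z / √(AA w L) = 0 := fun z hz => by
    rw [χ_zero hz, mul_zero, zero_div]
  have hcc : Cc1 fun z => G0 w L z * χ z / √(AA w L) := ⟨hb.1.of_le (by norm_num),
    HasCompactSupport.intro (isCompact_Icc (a := -2) (b := 2)) fun z hz =>
      hz0 z (not_le.1 fun h => hz (abs_le.1 h)).le⟩
  have hH := h.zeta_h h1 √(AA w L)
  rw [Real.sq_sqrt hA0.le, mul_div_assoc, mul_div_assoc] at hH
  have hH' : C ^ 2 * (64 * (Real.exp (-ω) / AA w L)) ≤ D * δ := by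
    rw [← mul_assoc, mul_comm _ 64]; gcongr; exact hδ1 _ le_rfl
  have hGn : ∫ z, (G0 w L z * (1 - lo L z) / √N) ^ 2 = 1 := by
    simp only [div_pow]
    rw [integral_div, Real.sq_sqrt hN0.le, div_self hN0.ne']
  have hZ : ∫ z, (G0 w L z * χ z / √(AA w L)) ^ 2 = (∫ z, (G0 w L z * χ z) ^ 2) / AA w L := by
    simp only [div_pow]
    rw [integral_div, Real.sq_sqrt hA0.le]
  have hZ3 : ∫ z, (G0 w L z * χ z / √(AA w L)) ^ 2 ≤ 1 + 64 * (Real.exp (-ω) / AA w L) := by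
    rw [hZ, div_le_iff₀ hA0, add_mul, mul_assoc, div_mul_cancel₀ _ hA0.ne']
    linarith
  have hDp : 8 * (ω / L ^ 2) ≤ D * (ω / L ^ 2) := by gcongr; linarith
  have hDδ : 64 * δ ≤ D * δ := by gcongr
  exact ⟨{
    sp := sp w L
    lo := lo L
    G := fun z => G0 w L z * (1 - lo L z) / √N
    ζ := fun z => G0 w L z * χ z / √(AA w L)
    sp_cont := continuous_sp w L
    lo_meas := measurable_lo L
    lo_bdd := ⟨1, lo_mem L⟩
    low := fun g hg => h.low (by linarith) hg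
    grad := fun g hg => h.grad hg
    poin := fun g hg => h.poin hs0' hGn hg
    G_meas := ((continuous_G0 w L).measurable.mul hmι).div_const _
    G_bdd := fun z => ⟨by
      have h5 : ω ≤ ω ^ 5 := le_self_pow₀ (by linarith) (by norm_num)
      rw [abs_div, abs_mul, abs_of_pos (G0_pos _ _ _), abs_of_pos hs0']
      calc _ ≤ 1 * 1 / (1 / ω) := by
            gcongr; exacts [h.G0_le z, abs_one_sub_lo L z, hω2.trans hs1]
        _ = ω := by field_simp
        _ ≤ _ := by nlinarith, fun hz => by rw [lo, if_pos hz]; simp⟩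
    G_norm := hGn
    G_mass := by
      have : ∫ z in Icc (-1 : ℝ) 1, (G0 w L z * (1 - lo L z) / √N) ^ 2 = AA w L / N := by
        rw [AA, ← integral_div]
        refine setIntegral_congr_fun measurableSet_Icc fun z hz => ?_
        beta_reduce
        rw [hι z (abs_le.2 hz), mul_one, div_pow, Real.sq_sqrt hN0.le]
      rw [this, le_div_iff₀ hN0]
      linarith
    ζ_bd := hb.mono le_rfl (by gcongr; nlinarith)
    ζ_supp := fun z hz => hz0 z hz.le
    ζ_norm := ⟨by rw [hZ, one_le_div hA0]; exact hZ1, by linarith [hδ1 _ le_rfl]⟩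
    ζ_up := by
      have h5 := h.zeta_up hcc hz0
      have h6 : 64 * (Real.exp (-ω) / AA w L) ≤ 1 := by
        rw [← mul_div_assoc, div_le_one hA0]; linarith
      have h7 : ω / L ^ 2 * ∫ z, (G0 w L z * χ z / √(AA w L)) ^ 2 ≤ ω / L ^ 2 * 2 := by
        gcongr; linarith
      nlinarith
    ζ_X := by
      have : ∫ z, lo L z * (G0 w L z * χ z / √(AA w L)) ^ 2 = 0 := by
        refine integral_eq_zero_of_ae (.of_forall fun z => ?_)
        by_cases hz : 2 * L < |z|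
        · simp [hz0 z (by linarith)]
        · simp [lo, hz]
      rw [X1, this]
      nlinarith
    close := ⟨√(AA w L) / √N, by positivity, (div_le_one hs0').2 hs1, by
      have h5 := h.tail (ψ := fun z => 1 - lo L z - χ z) (B := 1) (fun z => by
        have := lo_mem L z; have := χ_mem z
        rw [abs_le]
        by_cases hz : 2 * L < |z|
        · rw [χ_zero (by linarith)]; constructor <;> linarith
        · rw [lo, if_neg hz]; constructor <;> linarith) fun z hz => by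
        rw [hι z hz.le, χ_one hz.le, sub_self]
      calc _ = (∫ z, (G0 w L z * (1 - lo L z - χ z)) ^ 2) / √N ^ 2 := by
            rw [← integral_div]
            refine integral_congr_ae (.of_forall fun z => ?_)
            field_simp
        _ ≤ 64 * (Real.exp (-ω) / N) := by
            rw [Real.sq_sqrt hN0.le, ← mul_div_assoc]; gcongr; linarith
        _ ≤ _ := by linarith [hδ1 _ hN1]⟩ }⟩

end Crest.Agent.R338
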