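import Crest.Agent.R338.Bd

/-! # Adding the discretisation error of the atoms

`q ψ = q₀ ψ - c|ψ|² - ∫Δψ²`.  Upper bound: `weak` for `ρ = (lin φ α)²` (`Bd 4 (16 M² card |α|²)`).  Lower bound:
`ψ = φ + r`, `φ = lin φ α'` from `low'`; `∫Δψ² = ∫Δφ² + 2∫Δφr + ∫Δr²`;
`2|Δ||φ r| ≤ (ηp + Vc)(t r² + φ²/t)` with `t = θ/(4ηp)`, `∫(ηp + Vc) u² ≤ 2ηp |u|²_{H¹}`,
`|φ|²_{H¹} ≤ 4 · M² card |α'|² · 4Λ²` (volume of `box3 Λ ≤ 4Λ²`; `fderiv φ` vanishes outside the closed box);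
`Δ ≤ ηp + Vc + Cr 1_{Z<|z|}` and `r = ψ` for `|z| > Z ≥ 2`. -/

set_option autoImplicit false
set_option linter.dupNamespace false
set_option linter.unusedVariables false

noncomputable section

namespace Crest.Agent.R338

open Matrix MeasureTheory Set
open Crest.MathPhysics.ElectronicCoulomb

theorem p3_compact (Λ : ℝ) : IsCompact (box3 Λ) := (isCompact_Icc.prod isCompact_Icc).prod isCompact_Icc

theorem p3_vol {Λ : ℝ} (hΛ : 2 ≤ Λ) : volume.real (box3 Λ) ≤ 4 * Λ ^ 2 := by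
  rw [box3, box2, Measure.volume_eq_prod, measureReal_prod_prod, Measure.volume_eq_prod,
    measureReal_prod_prod, Real.volume_real_Icc_of_le hΛ, Real.volume_real_Icc_of_le (by norm_num)]
  nlinarith

theorem p3_int_box {Λ C : ℝ} (hΛ : 2 ≤ Λ) {f : P3 → ℝ} (h0 : ∀ y, 0 ≤ f y) (hC : ∀ y, f y ≤ C)
    (hs : ∀ y, y ∉ box3 Λ → f y = 0) : ∫ y, f y ≤ 4 * Λ ^ 2 * C := by
  have hm := (p3_compact Λ).measurableSet
  have hC0 : 0 ≤ C := (h0 0).trans (hC 0)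
  calc ∫ y, f y ≤ ∫ y, (box3 Λ).indicator (fun _ => C) y := by
        refine integral_mono_of_nonneg (Filter.Eventually.of_forall h0)
          ((integrable_indicator_iff hm).2 (integrableOn_const (p3_compact Λ).measure_lt_top.ne))
          (Filter.Eventually.of_forall fun y => ?_)
        by_cases hy : y ∈ box3 Λ
        · rw [indicator_of_mem hy]; exact hC y
        · rw [indicator_of_notMem hy, hs y hy]
    _ = volume.real (box3 Λ) * C := by rw [integral_indicator_const _ hm, smul_eq_mul]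
    _ ≤ _ := mul_le_mul_of_nonneg_right (p3_vol hΛ) hC0

theorem p3_gsq_nonneg (f : P3 → ℝ) (y : P3) : 0 ≤ gsq3 f y := by unfold gsq3; positivity

theorem p3_H1 {Λ B : ℝ} (hΛ : 2 ≤ Λ) {f : P3 → ℝ} (hf : Bd 4 B f)
    (hs : ∀ y, y ∉ box3 Λ → f y = 0) :
    (∫ y, f y ^ 2) + ∫ y, gsq3 f y ≤ 16 * Λ ^ 2 * B ^ 2 := by
  have h1 : ∫ y, f y ^ 2 ≤ 4 * Λ ^ 2 * B ^ 2 := p3_int_box hΛ (fun y => sq_nonneg _)
    (fun y => sq_le_sq' (abs_le.1 (hf.abs_le y)).1 (abs_le.1 (hf.abs_le y)).2)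
    (fun y hy => by rw [hs y hy]; ring)
  have hd : ∀ (y e : P3), ‖e‖ ≤ 1 → fderiv ℝ f y e ^ 2 ≤ B ^ 2 := fun y e he => by
    have := (Bd.fderiv_apply (k := 3) hf he).abs_le y
    exact sq_le_sq' (abs_le.1 this).1 (abs_le.1 this).2
  have h2 : ∫ y, gsq3 f y ≤ 4 * Λ ^ 2 * (3 * B ^ 2) := by
    refine p3_int_box hΛ (p3_gsq_nonneg f) (fun y => ?_) fun y hy => ?_
    · have a1 := hd y ((1, 0), 0) (by simp)
      have a2 := hd y ((0, 1), 0) (by simp)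
      have a3 := hd y ((0, 0), 1) (by simp)
      simp only [gsq3, d1, d2, d3]
      linarith
    · have : f =ᶠ[nhds y] fun _ => 0 :=
        Filter.eventually_of_mem ((p3_compact Λ).isClosed.isOpen_compl.mem_nhds hy) hs
      simp [gsq3, d1, d2, d3, this.fderiv_eq]
  linarith

theorem Cc1.p3_sq {ψ : P3 → ℝ} (h : Cc1 ψ) :
    Continuous (fun y => ψ y ^ 2) ∧ HasCompactSupport fun y => ψ y ^ 2 :=
  ⟨h.1.continuous.pow 2, h.2.comp_left (g := fun x : ℝ => x ^ 2) (by simp)⟩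

theorem Cc1.p3_int {ψ : P3 → ℝ} (h : Cc1 ψ) : Integrable fun y => ψ y ^ 2 :=
  h.p3_sq.1.integrable_of_hasCompactSupport h.p3_sq.2

theorem p3_qf {W₀ W Δ : P3 → ℝ} {c Λ Z ηp τ Cr' : ℝ} (hp : PotOK Δ Λ Z ηp τ Cr')
    (hW : ∀ y, W y = W₀ y - c - Δ y) (hW₀ : Continuous W₀) {ψ : P3 → ℝ} (h : Cc1 ψ) :
    qf gsq3 W ψ = qf gsq3 W₀ ψ - c * (∫ y, ψ y ^ 2) - ∫ y, Δ y * ψ y ^ 2 := by
  have h1 : Integrable fun y => W₀ y * ψ y ^ 2 :=
    (hW₀.mul h.p3_sq.1).integrable_of_hasCompactSupport h.p3_sq.2.mul_left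
  have h2 := h.p3_int.const_mul c
  have h3 := hp.int _ h.p3_sq.1 h.p3_sq.2
  have h4 : Integrable fun y => W₀ y * ψ y ^ 2 - c * ψ y ^ 2 := h1.sub h2
  simp only [qf, hW, sub_mul]
  rw [integral_sub h4 h3, integral_sub h1 h2, integral_const_mul]
  ring

theorem p3_weak {Δ : P3 → ℝ} {Λ Z ηp τ Cr' B : ℝ} (hp : PotOK Δ Λ Z ηp τ Cr') {f : P3 → ℝ}
    (hf : Bd 4 B f) (hs : ∀ y, y ∉ box3 Λ → f y = 0) :
    |∫ y, Δ y * f y ^ 2| ≤ 16 * τ * B ^ 2 := by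
  have := hp.weak _ _ (hf.mul hf) fun y hy => by rw [hs y hy, mul_zero]
  simp only [sq]
  refine this.trans (le_of_eq ?_)
  ring

theorem p3_Cc1 {Λ B : ℝ} {f : P3 → ℝ} (hf : Bd 4 B f) (hs : ∀ y, y ∉ box3 Λ → f y = 0) : Cc1 f :=
  ⟨hf.1.of_le (by norm_num), HasCompactSupport.intro (p3_compact Λ) hs⟩

theorem p3_main {Δ : P3 → ℝ} {Λ Z ηp τ Cr' B θ : ℝ} (hp : PotOK Δ Λ Z ηp τ Cr') (hΛ : 2 ≤ Λ)
    (hZ : 2 ≤ Z) (hθ : 0 < θ) (hηp : 0 < ηp) (hηθ : 4 * ηp ≤ θ) {f ψ : P3 → ℝ} (hψ : Cc1 ψ)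
    (hf : Bd 4 B f) (hs : ∀ y, y ∉ box3 Λ → f y = 0) :
    ∫ y, Δ y * ψ y ^ 2 ≤ 16 * τ * B ^ 2 + 128 * ηp ^ 2 / θ * Λ ^ 2 * B ^ 2 +
      θ * ((∫ y, (ψ y - f y) ^ 2) + ∫ y, gsq3 (fun y => ψ y - f y) y) +
      Cr' * ∫ y in {y : P3 | Z < |y.2|}, ψ y ^ 2 := by
  obtain ⟨Vc, -, hV0, hVi, h1, h2, h3, h4⟩ := hp.core
  have hfc := p3_Cc1 hf hs
  have hr : Cc1 fun y => ψ y - f y := ⟨hψ.1.sub hfc.1, hψ.2.sub hfc.2⟩
  have hU : ∀ u, Cc1 u → (Integrable fun y => (ηp + Vc y) * u y ^ 2) ∧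
      ∫ y, (ηp + Vc y) * u y ^ 2 ≤ 2 * ηp * ((∫ y, u y ^ 2) + ∫ y, gsq3 u y) := fun u hu => by
    have i1 := hu.p3_int.const_mul ηp
    have i2 := hVi _ hu.p3_sq.1 hu.p3_sq.2
    simp only [add_mul]
    refine ⟨i1.add i2, ?_⟩
    rw [integral_add i1 i2, integral_const_mul]
    have := h4 u hu
    have h5 : 0 ≤ ∫ y, gsq3 u y := integral_nonneg (p3_gsq_nonneg u)
    nlinarith [mul_nonneg hηp.le h5]
  have hT : MeasurableSet {y : P3 | Z < |y.2|} :=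
    (isOpen_lt continuous_const (by fun_prop)).measurableSet
  obtain ⟨t, ht⟩ : ∃ t, t = θ / (4 * ηp) := ⟨_, rfl⟩
  have ht0 : 0 < t := by rw [ht]; positivity
  have i1 := hp.int _ hfc.p3_sq.1 hfc.p3_sq.2
  have i2 := (hU _ hr).1.const_mul (t + 1)
  have i3 := (hU _ hfc).1.const_mul t⁻¹
  have i4 := (hψ.p3_int.indicator hT).const_mul Cr'
  have i12 : Integrable fun y => Δ y * f y ^ 2 + (t + 1) * ((ηp + Vc y) * (ψ y - f y) ^ 2) :=
    i1.add i2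
  have i123 : Integrable fun y => Δ y * f y ^ 2 + (t + 1) * ((ηp + Vc y) * (ψ y - f y) ^ 2) +
      t⁻¹ * ((ηp + Vc y) * f y ^ 2) := i12.add i3
  have hpt : ∀ y, Δ y * ψ y ^ 2 ≤ Δ y * f y ^ 2 + (t + 1) * ((ηp + Vc y) * (ψ y - f y) ^ 2) +
      t⁻¹ * ((ηp + Vc y) * f y ^ 2) +
      Cr' * indicator {y : P3 | Z < |y.2|} (fun y => ψ y ^ 2) y := fun y => by
    have hv : 0 ≤ ηp + Vc y := add_nonneg hηp.le (hV0 y)
    have a1 : 2 * Δ y * f y * (ψ y - f y) ≤ t * ((ηp + Vc y) * (ψ y - f y) ^ 2) +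
        t⁻¹ * ((ηp + Vc y) * f y ^ 2) := by
      by_cases hy : y ∈ box3 Λ
      · have b1 : 2 * |f y| * |ψ y - f y| ≤ t * (ψ y - f y) ^ 2 + t⁻¹ * f y ^ 2 := by
          have b2 : 0 ≤ t⁻¹ * (t * |ψ y - f y| - |f y|) ^ 2 := by positivity
          have b3 : t⁻¹ * (t * |ψ y - f y| - |f y|) ^ 2 =
              t * |ψ y - f y| ^ 2 + t⁻¹ * |f y| ^ 2 - 2 * |f y| * |ψ y - f y| := by
            field_simp; ring
          rw [b3, sq_abs, sq_abs] at b2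
          linarith
        calc 2 * Δ y * f y * (ψ y - f y) ≤ |2 * Δ y * f y * (ψ y - f y)| := le_abs_self _
          _ = |Δ y| * (2 * |f y| * |ψ y - f y|) := by
            simp only [abs_mul, abs_two]; ring
          _ ≤ (ηp + Vc y) * (t * (ψ y - f y) ^ 2 + t⁻¹ * f y ^ 2) :=
            mul_le_mul (h3 y hy) b1 (by positivity) hv
          _ = _ := by ring
      · rw [hs y hy]
        have : 0 ≤ t * ((ηp + Vc y) * (ψ y - 0) ^ 2) := by positivity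
        simpa using this
    have a2 : Δ y * (ψ y - f y) ^ 2 ≤ (ηp + Vc y) * (ψ y - f y) ^ 2 +
        Cr' * indicator {y : P3 | Z < |y.2|} (fun y => ψ y ^ 2) y := by
      by_cases hy : Z < |y.2|
      · have hb : y ∉ box3 Λ := fun hb => by
          have := abs_le.2 ⟨hb.2.1, hb.2.2⟩
          linarith
        rw [indicator_of_mem (show y ∈ {y : P3 | Z < |y.2|} from hy), hs y hb, sub_zero]
        nlinarith [mul_le_mul_of_nonneg_right (h2 y) (sq_nonneg (ψ y)),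
          mul_nonneg hηp.le (sq_nonneg (ψ y))]
      · rw [indicator_of_notMem (show y ∉ {y : P3 | Z < |y.2|} from hy), mul_zero, add_zero]
        exact mul_le_mul_of_nonneg_right (h1 y (not_lt.1 hy)) (sq_nonneg _)
    have e : Δ y * ψ y ^ 2 = Δ y * f y ^ 2 + 2 * Δ y * f y * (ψ y - f y) +
        Δ y * (ψ y - f y) ^ 2 := by ring
    rw [e]
    linarith
  have h5 := integral_mono (hp.int _ hψ.p3_sq.1 hψ.p3_sq.2) (i123.add i4) hpt
  simp only [Pi.add_apply] at h5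
  rw [integral_add i123 i4, integral_add i12 i3, integral_add i1 i2, integral_const_mul,
    integral_const_mul, integral_const_mul, integral_indicator hT] at h5
  have h6 := (abs_le.1 (p3_weak hp hf hs)).2
  have h7 := (hU _ hr).2
  have h8 := (hU _ hfc).2
  have h9 := p3_H1 hΛ hf hs
  have hH : 0 ≤ (∫ y, (ψ y - f y) ^ 2) + ∫ y, gsq3 (fun y => ψ y - f y) y :=
    add_nonneg (integral_nonneg fun y => sq_nonneg _) (integral_nonneg (p3_gsq_nonneg _))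
  generalize (∫ y, (ψ y - f y) ^ 2) + ∫ y, gsq3 (fun y => ψ y - f y) y = H at *
  have c1 : (t + 1) * ∫ y, (ηp + Vc y) * (ψ y - f y) ^ 2 ≤ θ * H := by
    refine (mul_le_mul_of_nonneg_left h7 (by positivity)).trans ?_
    rw [← mul_assoc]
    refine mul_le_mul_of_nonneg_right ?_ hH
    have : t * (2 * ηp) = θ / 2 := by rw [ht]; field_simp; ring
    linarith
  have c2 : t⁻¹ * ∫ y, (ηp + Vc y) * f y ^ 2 ≤ 128 * ηp ^ 2 / θ * Λ ^ 2 * B ^ 2 := by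
    refine (mul_le_mul_of_nonneg_left (h8.trans (mul_le_mul_of_nonneg_left h9 (by positivity)))
      (by positivity)).trans (le_of_eq ?_)
    rw [ht]; field_simp; ring
  linarith

theorem OB3.perturb {V : Type} [Fintype V] {W₀ W Δ : P3 → ℝ} {k : Matrix V V ℝ} {hc : V → Prop}
    {E0 err γ d0 κ η θ M Λ Z Cr c ηp τ Cr' err' : ℝ}
    (ob : OB3 W₀ k hc E0 err γ d0 κ η θ M Λ Z Cr) (hp : PotOK Δ Λ Z ηp τ Cr')
    (hW : ∀ y, W y = W₀ y - c - Δ y) (hW₀ : Continuous W₀) (hΛ : 2 ≤ Λ) (hZ : 2 ≤ Z)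
    (hθ : 0 < θ) (hηp : 0 < ηp) (hηθ : 4 * ηp ≤ θ) (hτ : 0 ≤ τ) (hCr' : 0 ≤ Cr') (hCr : Cr' ≤ Cr)
    (herr : err + 32 * τ * M ^ 2 * Fintype.card V +
      256 * ηp ^ 2 / θ * Λ ^ 2 * M ^ 2 * Fintype.card V ≤ err') :
    Nonempty (OB P3 gsq3 nrm3 W k hc (E0 - c) err' γ d0 κ η) := by
  have hb := fun α => Bd.lin ob.φ_bd α
  have hs : ∀ (α : V → ℝ) y, y ∉ box3 Λ → lin ob.φ α y = 0 := fun α y hy => by
    simp [lin, ob.φ_supp _ y hy]
  have hdot : ∀ α : V → ℝ, 0 ≤ α ⬝ᵥ α := fun α => Finset.sum_nonneg fun i _ => mul_self_nonneg _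
  have hB : ∀ α : V → ℝ, (√(Fintype.card V * (α ⬝ᵥ α)) * M) ^ 2 =
      M ^ 2 * Fintype.card V * (α ⬝ᵥ α) := fun α => by
    rw [mul_pow, Real.sq_sqrt (mul_nonneg (Nat.cast_nonneg _) (hdot α))]; ring
  have e1 : 0 ≤ τ * M ^ 2 * Fintype.card V := by positivity
  have e2 : 0 ≤ ηp ^ 2 / θ * Λ ^ 2 * M ^ 2 * Fintype.card V := by positivity
  refine ⟨{ ob.toOB with low := fun ψ hψ => ?_, up := fun α => ?_ }⟩
  · obtain ⟨α', h1, h2⟩ := ob.low' ψ hψ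
    have h3 := p3_main hp hΛ hZ hθ hηp hηθ hψ (hb α') (hs α')
    rw [hB] at h3
    rw [p3_qf hp hW hW₀ hψ]
    have h4 : 0 ≤ ∫ y, ψ y ^ 2 := integral_nonneg fun y => sq_nonneg _
    have h5 : 0 ≤ ∫ y in {y : P3 | Z < |y.2|}, ψ y ^ 2 := integral_nonneg fun y => sq_nonneg _
    have h6 := mul_le_mul_of_nonneg_right hCr h5
    have h7 := mul_le_mul_of_nonneg_right herr h4
    have h8 := mul_le_mul_of_nonneg_left h1 e1
    have h9 := mul_le_mul_of_nonneg_left h1 e2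
    simp only [div_eq_mul_inv] at *
    linarith
  · have h1 := ob.up α
    have h2 := (abs_le.1 (p3_weak hp (hb α) (hs α))).1
    rw [hB] at h2
    rw [p3_qf hp hW hW₀ (p3_Cc1 (hb α) (hs α))]
    have h7 := mul_le_mul_of_nonneg_right herr (hdot α)
    have h8 := mul_nonneg e1 (hdot α)
    have h9 := mul_nonneg e2 (hdot α)
    simp only [div_eq_mul_inv] at *
    linarith

end Crest.Agent.R338
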