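import Crest.Agent.R338.Plane_Cell

/-!
# Planar package: masses, the functions `eF`, cell decomposition

Helper prefix `pmass_`.
-/

set_option autoImplicit false
set_option linter.dupNamespace false
set_option linter.unusedVariables false

noncomputable section

namespace Crest.Agent.R338

open Matrix MeasureTheory Set
open Crest.MathPhysics.ElectronicCoulomb

variable {K : ℕ} {D D1 a η ν sea : ℝ} {s dH dV : ℕ → ℕ → ℝ} {ρ f : P2 → ℝ}

/-- the cells are disjoint (`ci_unique`) with union `allc` (`mem_allc`) -/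
theorem integral_allc {F : P2 → ℝ} (hD : 0 < D) (hF : ∀ i < K, ∀ j < K, IntegrableOn F (cell D i j)) :
    ∫ y in allc K D, F y = sum2 K fun i j => ∫ y in cell D i j, F y := by
  have hU : allc K D = ⋃ p ∈ (Finset.range K ×ˢ Finset.range K), cell D p.1 p.2 := by
    ext y
    rw [mem_allc hD]
    simp only [mem_iUnion, Finset.mem_product, Finset.mem_range, exists_prop, Prod.exists]
    constructor
    · rintro ⟨i, hi, j, hj, h⟩; exact ⟨i, j, ⟨hi, hj⟩, h⟩
    · rintro ⟨i, j, ⟨hi, hj⟩, h⟩; exact ⟨i, hi, j, hj, h⟩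
  rw [hU, integral_biUnion_finset]
  · rw [Finset.sum_product]; rfl
  · intro p _; exact measurableSet_cell _ _ _
  · intro p _ q _ hpq
    rw [Function.onFun, Set.disjoint_left]
    intro y hy hy'
    exact hpq (Prod.ext (ci_unique hy.1 hy'.1) (ci_unique hy.2 hy'.2))
  · intro p hp
    rw [Finset.mem_product, Finset.mem_range, Finset.mem_range] at hp
    exact hF _ hp.1 _ hp.2

theorem sum_cell_le {F : P2 → ℝ} (hD : 0 < D) (hF : Integrable F) (h0 : ∀ y, 0 ≤ F y) :
    (sum2 K fun i j => ∫ y in cell D i j, F y) ≤ ∫ y, F y := by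
  rw [← integral_allc hD fun i _ j _ => hF.integrableOn]
  exact setIntegral_le_integral hF (Filter.Eventually.of_forall h0)

theorem pmass_sub (hN : Num K D D1 a η ν s) {i j : ℕ} (hi : i < K) (hj : j < K) {r : ℝ}
    (hr : r ≤ s i j / 2 + 2 * a) : sqr D i j r ⊆ cell D i j := by
  apply sqr_subset_cell
  linarith [hN.s_le i hi j hj, hN.D_ge', hN.D_ge, hN.a_le, hN.η_le, hN.D1_ge]

theorem pmass_const (D : ℝ) (i j : ℕ) {r : ℝ} (hr : 0 ≤ r) (c : ℝ) :
    ∫ _ in sqr D i j r, c = (2 * r) ^ 2 * c := by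
  rw [setIntegral_const, volume_real_sqr D i j hr, smul_eq_mul]

theorem pmass_isl (hN : Num K D D1 a η ν s) (hR : Rho K D D1 a (3 * D * ν) sea s dH dV ρ) {i j : ℕ}
    (hi : i < K) (hj : j < K) : ∫ y in sqr D i j (s i j / 2), ρ y = s i j ^ 2 := by
  have hs := hN.s_ge i hi j hj
  rw [setIntegral_congr_fun (measurableSet_sqr D i j _) (g := fun _ => (1 : ℝ))
    fun y hy => hR.isl i hi j hj y hy, pmass_const D i j (by linarith)]
  ring

theorem mass_ge (hN : Num K D D1 a η ν s) (hR : Rho K D D1 a (3 * D * ν) sea s dH dV ρ) {i j : ℕ}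
    (hi : i < K) (hj : j < K) : s i j ^ 2 ≤ mass D ρ i j := by
  rw [← pmass_isl hN hR hi hj]
  exact setIntegral_mono_set (integrableOn_cell hR.cont D i j) (Filter.Eventually.of_forall hR.nonneg)
    (pmass_sub hN hi hj (by linarith [hN.a_pos])).eventuallyLE

/-- `ρ ≤ 1_{I⁺} + δ` on the cell, so `mass ≤ (s + 2a)² + 3 ν D³ ≤ (1 + 5 η) s²` (`Num.νD3`) -/
theorem mass_le (hN : Num K D D1 a η ν s) (hR : Rho K D D1 a (3 * D * ν) sea s dH dV ρ) {i j : ℕ}
    (hi : i < K) (hj : j < K) : mass D ρ i j ≤ (1 + 5 * η) * s i j ^ 2 := by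
  have hs := hN.s_ge i hi j hj
  have ha := hN.a_pos
  have hD := hN.D_ge
  have hsub : sqr D i j (s i j / 2 + a) ⊆ cell D i j := pmass_sub hN hi hj (by linarith)
  have hfin : volume (cell D i j) ≠ ⊤ :=
    ((measure_mono (cell_subset_sqr D i j)).trans_lt (isCompact_sqr D i j _).measure_lt_top).ne
  have hI1 : IntegrableOn ((sqr D i j (s i j / 2 + a)).indicator fun _ => (1 : ℝ)) (cell D i j) :=
    (integrableOn_const hfin).indicator (measurableSet_sqr D i j _)
  have hI2 : IntegrableOn (fun _ : P2 => 3 * D * ν) (cell D i j) := integrableOn_const hfin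
  have h1 : mass D ρ i j ≤ ∫ y in cell D i j,
      ((sqr D i j (s i j / 2 + a)).indicator (fun _ => (1 : ℝ)) y + 3 * D * ν) := by
    refine setIntegral_mono_on (integrableOn_cell hR.cont D i j) (hI1.add hI2)
      (measurableSet_cell D i j) fun y hy => ?_
    by_cases hy' : y ∈ sqr D i j (s i j / 2 + a)
    · rw [indicator_of_mem hy']; linarith [hR.le_one y, hR.δ_nonneg]
    · rw [indicator_of_notMem hy']; linarith [hR.small i hi j hj y hy hy']
  rw [integral_add hI1 hI2, setIntegral_indicator (measurableSet_sqr D i j _),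
    inter_eq_self_of_subset_right hsub, pmass_const D i j (by linarith), setIntegral_const,
    volume_real_cell (by linarith), smul_eq_mul] at h1
  have h2 := hN.νD3
  have h3 := hN.a_le
  have h4 := hN.η_le
  have h5 := hN.η_pos
  have h6 : a * s i j ≤ η * s i j ^ 2 := by nlinarith [mul_le_mul h3 hs zero_le_one h5.le]
  have h7 : a ^ 2 ≤ η ^ 2 := by gcongr
  have h8 : η ≤ η * s i j ^ 2 := by nlinarith [mul_le_mul hs hs zero_le_one (by linarith)]
  have h9 : η ^ 2 ≤ η / 100 := by nlinarith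
  nlinarith

theorem measurable_eF (hρ : Continuous ρ) (D : ℝ) (i j : ℕ) : Measurable (eF D ρ i j) := by
  unfold eF
  exact (hρ.sqrt.measurable.div_const _).indicator (measurableSet_cell D i j)

theorem eF_of_notMem {i j : ℕ} {y : P2} (hy : y ∉ cell D i j) : eF D ρ i j y = 0 := by
  unfold eF
  exact indicator_of_notMem hy _

theorem pmass_one_le (hN : Num K D D1 a η ν s) (hR : Rho K D D1 a (3 * D * ν) sea s dH dV ρ) {i j : ℕ}
    (hi : i < K) (hj : j < K) : 1 ≤ mass D ρ i j := by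
  have hs := hN.s_ge i hi j hj
  nlinarith [mass_ge hN hR hi hj]

theorem pmass_eF_sq (h0 : ∀ y, 0 ≤ ρ y) {i j : ℕ} (hm : 0 ≤ mass D ρ i j) (y : P2) :
    eF D ρ i j y ^ 2 = (cell D i j).indicator (fun y => ρ y / mass D ρ i j) y := by
  unfold eF
  by_cases hy : y ∈ cell D i j
  · rw [indicator_of_mem hy, indicator_of_mem hy, div_pow, Real.sq_sqrt (h0 y), Real.sq_sqrt hm]
  · rw [indicator_of_notMem hy, indicator_of_notMem hy]; ring

theorem abs_eF_le (hN : Num K D D1 a η ν s) (hR : Rho K D D1 a (3 * D * ν) sea s dH dV ρ) {i j : ℕ}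
    (hi : i < K) (hj : j < K) (y : P2) : |eF D ρ i j y| ≤ 1 := by
  have hm := pmass_one_le hN hR hi hj
  rw [← sq_le_one_iff_abs_le_one, pmass_eF_sq hR.nonneg (by linarith)]
  by_cases hy : y ∈ cell D i j
  · rw [indicator_of_mem hy, div_le_one (by linarith)]
    linarith [hR.le_one y]
  · rw [indicator_of_notMem hy]; norm_num

theorem eF_norm (hN : Num K D D1 a η ν s) (hR : Rho K D D1 a (3 * D * ν) sea s dH dV ρ) {i j : ℕ}
    (hi : i < K) (hj : j < K) : ∫ y, eF D ρ i j y ^ 2 = 1 := by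
  have hm := pmass_one_le hN hR hi hj
  simp_rw [pmass_eF_sq hR.nonneg (show 0 ≤ mass D ρ i j by linarith)]
  rw [integral_indicator (measurableSet_cell D i j), integral_div]
  exact div_self (show mass D ρ i j ≠ 0 by linarith)

/-- `= s² / mass ≥ 1 / (1 + 5 η)` -/
theorem eF_island (hN : Num K D D1 a η ν s) (hR : Rho K D D1 a (3 * D * ν) sea s dH dV ρ) {i j : ℕ}
    (hi : i < K) (hj : j < K) : 1 / 2 ≤ ∫ y in sqr D i j (s i j / 2), eF D ρ i j y ^ 2 := by
  have hm := pmass_one_le hN hR hi hj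
  have hs := hN.s_ge i hi j hj
  have hsub : sqr D i j (s i j / 2) ⊆ cell D i j := pmass_sub hN hi hj (by linarith [hN.a_pos])
  simp_rw [pmass_eF_sq hR.nonneg (show 0 ≤ mass D ρ i j by linarith)]
  rw [setIntegral_indicator (measurableSet_cell D i j), inter_eq_self_of_subset_left hsub, integral_div,
    pmass_isl hN hR hi hj, le_div_iff₀ (by linarith)]
  have h1 := mass_le hN hR hi hj
  have h2 := hN.η_le
  have h3 : η * s i j ^ 2 ≤ 1 / 100 * s i j ^ 2 := by gcongr
  nlinarith [sq_nonneg (s i j)]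

theorem alp_eq (h0 : ∀ y, 0 ≤ ρ y) (D : ℝ) (f : P2 → ℝ) (i j : ℕ) :
    alp D ρ f i j = (∫ y in cell D i j, ρ y * f y) / √(mass D ρ i j) := by
  unfold alp
  rw [← integral_div, ← integral_indicator (measurableSet_cell D i j)]
  congr 1
  funext y
  unfold eF
  by_cases hy : y ∈ cell D i j
  · rw [indicator_of_mem hy, indicator_of_mem hy]
    have := Real.mul_self_sqrt (h0 y)
    calc √(ρ y) / √(mass D ρ i j) * (√(ρ y) * f y) = (√(ρ y) * √(ρ y)) * f y / √(mass D ρ i j) := by ring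
      _ = ρ y * f y / √(mass D ρ i j) := by rw [this]
  · rw [indicator_of_notMem hy, indicator_of_notMem hy]; ring

/-- expand the square: `∫ρ(f-c)² = ∫ρf² - 2 c √m α + c² m = (∫ρf² - α²) + (α - c √m)²` -/
theorem var_eq (hρ : Continuous ρ) (h0 : ∀ y, 0 ≤ ρ y) (hf : Continuous f) {i j : ℕ} (hm : 0 < mass D ρ i j) (c : ℝ) :
    ∫ y in cell D i j, ρ y * (f y - c) ^ 2 =
      (∫ y in cell D i j, ρ y * f y ^ 2) - alp D ρ f i j ^ 2 + (alp D ρ f i j - c * √(mass D ρ i j)) ^ 2 := by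
  have i1 : IntegrableOn (fun y => ρ y * f y ^ 2) (cell D i j) := integrableOn_cell (by fun_prop) D i j
  have i2 : IntegrableOn (fun y => ρ y * f y) (cell D i j) := integrableOn_cell (by fun_prop) D i j
  have i3 : IntegrableOn ρ (cell D i j) := integrableOn_cell hρ D i j
  have e : ∀ y, ρ y * (f y - c) ^ 2 = (ρ y * f y ^ 2 - 2 * c * (ρ y * f y)) + c ^ 2 * ρ y := fun y => by ring
  simp_rw [e]
  have i4 : IntegrableOn (fun y => ρ y * f y ^ 2 - 2 * c * (ρ y * f y)) (cell D i j) := i1.sub (i2.const_mul _)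
  rw [integral_add i4 (i3.const_mul _), integral_sub i1 (i2.const_mul _),
    integral_const_mul, integral_const_mul, alp_eq h0]
  have hq : 0 < √(mass D ρ i j) := Real.sqrt_pos.2 hm
  have hq2 : √(mass D ρ i j) ^ 2 = mass D ρ i j := Real.sq_sqrt hm.le
  change _ + c ^ 2 * mass D ρ i j = _
  generalize √(mass D ρ i j) = q at hq hq2
  rw [← hq2]
  field_simp
  ring

theorem pmass_var (hρ : Continuous ρ) (h0 : ∀ y, 0 ≤ ρ y) (hf : Continuous f) {i j : ℕ}
    (hm : 0 < mass D ρ i j) :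
    ∫ y in cell D i j, ρ y * (f y - alp D ρ f i j / √(mass D ρ i j)) ^ 2 =
      (∫ y in cell D i j, ρ y * f y ^ 2) - alp D ρ f i j ^ 2 := by
  have hq : 0 < √(mass D ρ i j) := Real.sqrt_pos.2 hm
  rw [var_eq hρ h0 hf hm, div_mul_cancel₀ _ hq.ne']
  ring

/-- `var_eq` with `c = α / √m` -/
theorem alp_sq_le (hρ : Continuous ρ) (h0 : ∀ y, 0 ≤ ρ y) (hf : Continuous f) {i j : ℕ} (hm : 0 < mass D ρ i j) :
    alp D ρ f i j ^ 2 ≤ ∫ y in cell D i j, ρ y * f y ^ 2 := by
  have h := pmass_var hρ h0 hf hm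
  have h1 : 0 ≤ ∫ y in cell D i j, ρ y * (f y - alp D ρ f i j / √(mass D ρ i j)) ^ 2 :=
    integral_nonneg fun y => mul_nonneg (h0 y) (sq_nonneg _)
  linarith

/-- `var_eq` with `c = avg`, `cell_lemma` -/
theorem cell_var (hN : Num K D D1 a η ν s) (hR : Rho K D D1 a (3 * D * ν) sea s dH dV ρ) (hf : ContDiff ℝ 1 f)
    {i j : ℕ} (hi : i < K) (hj : j < K) :
    (∫ y in cell D i j, ρ y * f y ^ 2) - alp D ρ f i j ^ 2 ≤ 2 * D ^ 3 * enC D ρ f i j := by
  have hm := pmass_one_le hN hR hi hj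
  have h1 := var_eq hR.cont hR.nonneg hf.continuous (show 0 < mass D ρ i j by linarith) (avg D f i j)
  have h2 := cell_lemma hN.D_ge hR hf hi hj
  nlinarith [sq_nonneg (alp D ρ f i j - avg D f i j * √(mass D ρ i j))]

/-- `α/s - g = (α/s - α/√m) + (α - g √m)/√m`; `s ≤ √m ≤ (1 + 5η/2) s`, `1 ≤ s`; `(α - g√m)² ≤ 2 D³ E` by `var_eq`, `alp_sq_le`,
`cell_lemma`. -/
theorem cell_avg (hN : Num K D D1 a η ν s) (hR : Rho K D D1 a (3 * D * ν) sea s dH dV ρ) (hf : ContDiff ℝ 1 f)
    {i j : ℕ} (hi : i < K) (hj : j < K) :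
    (alp D ρ f i j / s i j - avg D f i j) ^ 2 ≤ 13 * η ^ 2 * alp D ρ f i j ^ 2 + 4 * D ^ 3 * enC D ρ f i j := by
  have hm := pmass_one_le hN hR hi hj
  have hs := hN.s_ge i hi j hj
  have hη := hN.η_pos
  have h1 := var_eq hR.cont hR.nonneg hf.continuous (show 0 < mass D ρ i j by linarith) (avg D f i j)
  have h2 := cell_lemma hN.D_ge hR hf hi hj
  have h3 := alp_sq_le hR.cont hR.nonneg hf.continuous (show 0 < mass D ρ i j by linarith)
  have h4 : (alp D ρ f i j - avg D f i j * √(mass D ρ i j)) ^ 2 ≤ 2 * D ^ 3 * enC D ρ f i j := by linarith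
  have hq1 : s i j ≤ √(mass D ρ i j) := Real.le_sqrt_of_sq_le (mass_ge hN hR hi hj)
  have hq2 : √(mass D ρ i j) ≤ (1 + 5 * η / 2) * s i j := by
    rw [Real.sqrt_le_left (by positivity)]
    have := mass_le hN hR hi hj
    nlinarith [sq_nonneg (η * s i j)]
  have hE : 4 * D ^ 3 * enC D ρ f i j = 2 * (2 * D ^ 3 * enC D ρ f i j) := by ring
  rw [hE]
  generalize √(mass D ρ i j) = q at h4 hq1 hq2
  generalize alp D ρ f i j = α at h4 ⊢
  generalize avg D f i j = g at h4 ⊢
  generalize 2 * D ^ 3 * enC D ρ f i j = E at h4 ⊢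
  generalize s i j = S at hs hq1 hq2 ⊢
  have hq : 1 ≤ q := hs.trans hq1
  have hA : (α / S - α / q) ^ 2 ≤ 25 / 4 * η ^ 2 * α ^ 2 := by
    have e : α / S - α / q = (q - S) / (S * q) * α := by field_simp
    have t0 : 0 ≤ (q - S) / (S * q) := div_nonneg (by linarith) (by positivity)
    have t1 : (q - S) / (S * q) ≤ 5 * η / 2 := by
      rw [div_le_iff₀ (by positivity)]
      have : η * S * 1 ≤ η * S * q := by gcongr
      nlinarith
    rw [e, mul_pow]
    have : ((q - S) / (S * q)) ^ 2 ≤ (5 * η / 2) ^ 2 := by gcongr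
    nlinarith [sq_nonneg α]
  have hB : (α / q - g) ^ 2 ≤ E := by
    have e : α / q - g = (α - g * q) / q := by field_simp
    rw [e, div_pow]
    exact (div_le_self (sq_nonneg _) (one_le_pow₀ hq)).trans h4
  have e : α / S - g = (α / S - α / q) + (α / q - g) := by ring
  rw [e]
  nlinarith [sq_nonneg ((α / S - α / q) - (α / q - g)), mul_nonneg (sq_nonneg η) (sq_nonneg α)]

theorem pmass_chi (hN : Num K D D1 a η ν s) {χ : ℕ → ℕ → P2 → ℝ} (hχ : Chi K D a s χ) {i j : ℕ}
    (hi : i < K) (hj : j < K) {F : P2 → ℝ} (hF : Continuous F) (h0 : ∀ y, 0 ≤ F y) :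
    ∫ y in sqr D i j (s i j / 2), F y ≤ ∫ y, χ i j y * F y ∧
      ∫ y, χ i j y * F y ≤ ∫ y in cell D i j, F y := by
  have ha := hN.a_pos
  have hc : Continuous fun y => χ i j y * F y := (hχ.cont i j).mul hF
  have e : ∫ y in cell D i j, χ i j y * F y = ∫ y, χ i j y * F y :=
    setIntegral_eq_integral_of_forall_compl_eq_zero fun y hy => by
      rw [hχ.zero i hi j hj y fun h => hy (pmass_sub hN hi hj le_rfl h), zero_mul]
  rw [← e]
  constructor
  · rw [← setIntegral_congr_fun (measurableSet_sqr D i j _) (f := fun y => χ i j y * F y)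
      fun y hy => by simp only [hχ.one i hi j hj y hy, one_mul]]
    exact setIntegral_mono_set (integrableOn_cell hc D i j)
      (Filter.Eventually.of_forall fun y => mul_nonneg (hχ.mem i j y).1 (h0 y))
      (pmass_sub hN hi hj (by linarith)).eventuallyLE
  · exact setIntegral_mono (integrableOn_cell hc D i j) (integrableOn_cell hF D i j) fun y =>
      mul_le_of_le_one_left (h0 y) (hχ.mem i j y).2

/-- Upper bound: `χ ≤ 1_cell` and `cell_var`.  Lower bound: `χ ≥ 1_I`, `ρ = 1` on `I`, with `b = α/√m`: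
`f² ≥ (1 - η) b² - (f - b)²/η`, `∫_I ρ = s² ≥ m/(1 + 5η)`, `∫_cell ρ (f - b)² = ∫ρf² - α² ≤ 2 D³ E`. -/
theorem cell_chi (hN : Num K D D1 a η ν s) (hR : Rho K D D1 a (3 * D * ν) sea s dH dV ρ) (hf : ContDiff ℝ 1 f)
    {χ : ℕ → ℕ → P2 → ℝ} (hχ : Chi K D a s χ) {i j : ℕ} (hi : i < K) (hj : j < K) :
    |(∫ y, χ i j y * (ρ y * f y ^ 2)) - alp D ρ f i j ^ 2| ≤
      6 * η * alp D ρ f i j ^ 2 + 2 * D ^ 3 / η * enC D ρ f i j := by
  have hm := pmass_one_le hN hR hi hj
  have hm0 : 0 < mass D ρ i j := by linarith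
  have hη := hN.η_pos
  have hη1 := hN.η_le
  have hD := hN.D_ge
  have hfc := hf.continuous
  have hρ := hR.cont
  obtain ⟨hlo, hup⟩ := pmass_chi hN hχ hi hj (F := fun y => ρ y * f y ^ 2) (by fun_prop)
    fun y => mul_nonneg (hR.nonneg y) (sq_nonneg _)
  have hvar := cell_var hN hR hf hi hj
  have hE0 : 0 ≤ enC D ρ f i j := integral_nonneg fun y => mul_nonneg (hR.nonneg y) (by positivity)
  have hv := pmass_var hρ hR.nonneg hfc hm0
  set b := alp D ρ f i j / √(mass D ρ i j) with hb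
  have hb2 : b ^ 2 * mass D ρ i j = alp D ρ f i j ^ 2 := by
    rw [hb, div_pow, Real.sq_sqrt hm0.le, div_mul_cancel₀ _ hm0.ne']
  have hsub : sqr D i j (s i j / 2) ⊆ cell D i j := pmass_sub hN hi hj (by linarith [hN.a_pos])
  have h1 : ∫ y in sqr D i j (s i j / 2), ρ y * (f y - b) ^ 2 ≤ ∫ y in cell D i j, ρ y * (f y - b) ^ 2 :=
    setIntegral_mono_set (integrableOn_cell (by fun_prop) D i j)
      (Filter.Eventually.of_forall fun y => mul_nonneg (hR.nonneg y) (sq_nonneg _)) hsub.eventuallyLE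
  have i1 : IntegrableOn ρ (sqr D i j (s i j / 2)) := integrableOn_sqr hρ D i j _
  have i2 : IntegrableOn (fun y => ρ y * (f y - b) ^ 2) (sqr D i j (s i j / 2)) :=
    integrableOn_sqr (by fun_prop) D i j _
  have h2 : ∫ y in sqr D i j (s i j / 2), ((1 - η) * b ^ 2 * ρ y - 1 / η * (ρ y * (f y - b) ^ 2)) ≤
      ∫ y in sqr D i j (s i j / 2), ρ y * f y ^ 2 := by
    refine setIntegral_mono ((i1.const_mul _).sub (i2.const_mul _)) (integrableOn_sqr (by fun_prop) D i j _)
      fun y => ?_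
    have e : ρ y * f y ^ 2 - ((1 - η) * b ^ 2 * ρ y - 1 / η * (ρ y * (f y - b) ^ 2)) =
        ρ y * ((η * b + (f y - b)) ^ 2 / η + (f y - b) ^ 2) := by
      field_simp
      ring
    have : 0 ≤ ρ y * ((η * b + (f y - b)) ^ 2 / η + (f y - b) ^ 2) :=
      mul_nonneg (hR.nonneg y) (by positivity)
    simp only
    linarith
  rw [integral_sub (i1.const_mul _) (i2.const_mul _), integral_const_mul, integral_const_mul,
    pmass_isl hN hR hi hj] at h2
  have h3 : 1 / η * ∫ y in sqr D i j (s i j / 2), ρ y * (f y - b) ^ 2 ≤ 2 * D ^ 3 / η * enC D ρ f i j := by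
    calc _ ≤ 1 / η * (2 * D ^ 3 * enC D ρ f i j) := by
          gcongr
          linarith
      _ = _ := by ring
  have h4 : (1 - 6 * η) * alp D ρ f i j ^ 2 ≤ (1 - η) * b ^ 2 * s i j ^ 2 := by
    rw [← hb2]
    have h5 := mass_le hN hR hi hj
    have h6 : (1 - 6 * η) * mass D ρ i j ≤ (1 - η) * s i j ^ 2 := by
      have : (1 - 6 * η) * mass D ρ i j ≤ (1 - 6 * η) * ((1 + 5 * η) * s i j ^ 2) := by
        gcongr
        linarith
      nlinarith [sq_nonneg (η * s i j)]
    nlinarith [mul_le_mul_of_nonneg_left h6 (sq_nonneg b)]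
  have h7 : 2 * D ^ 3 * enC D ρ f i j ≤ 2 * D ^ 3 / η * enC D ρ f i j := by
    gcongr
    rw [le_div_iff₀ hη]
    exact mul_le_of_le_one_right (by positivity) (by linarith)
  have h8 : 0 ≤ 6 * η * alp D ρ f i j ^ 2 := by positivity
  rw [abs_le]
  constructor <;> linarith

/-- `s² ≤ ∫ χ ρ ≤ mass` -/
theorem chi_mass (hN : Num K D D1 a η ν s) (hR : Rho K D D1 a (3 * D * ν) sea s dH dV ρ)
    {χ : ℕ → ℕ → P2 → ℝ} (hχ : Chi K D a s χ) {i j : ℕ} (hi : i < K) (hj : j < K) :
    |(∫ y, χ i j y * ρ y) - s i j ^ 2| ≤ 5 * η * s i j ^ 2 := by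
  obtain ⟨hlo, hup⟩ := pmass_chi hN hχ hi hj hR.cont hR.nonneg
  rw [pmass_isl hN hR hi hj] at hlo
  have h1 := mass_le hN hR hi hj
  have h2 : 0 ≤ 5 * η * s i j ^ 2 := by have := hN.η_pos; positivity
  change _ ≤ mass D ρ i j at hup
  rw [abs_le]
  constructor <;> linarith

end Crest.Agent.R338
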