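import Crest.Agent.R338.Plane_Hats
import Crest.Agent.R338.Plane_Mass

/-!
# Planar package: Gram matrix, closeness to `eF`, island energy of the trial functions

Helper prefix `pgram_`.  `B = ∑ β²`.
-/

set_option autoImplicit false
set_option linter.dupNamespace false
set_option linter.unusedVariables false

noncomputable section

namespace Crest.Agent.R338

open Matrix MeasureTheory Set
open Crest.MathPhysics.ElectronicCoulomb

variable {K : ℕ} {D D1 a η ν sea M : ℝ} {s dH dV : ℕ → ℕ → ℝ} {ρ : P2 → ℝ} {u : ℕ → ℝ → ℝ}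

theorem pgram_split (hD : 0 < D) {F : P2 → ℝ} (hF : ∀ i < K, ∀ j < K, IntegrableOn F (cell D i j))
    (h0 : ∀ y ∉ allc K D, F y = 0) : ∫ y, F y = sum2 K fun i j => ∫ y in cell D i j, F y := by
  rw [← integral_allc hD hF, setIntegral_eq_integral_of_forall_compl_eq_zero h0]

theorem pgram_const (K : ℕ) (c : ℝ) : (sum2 K fun _ _ => c) = K ^ 2 * c := by
  simp only [sum2, Finset.sum_const, Finset.card_range, nsmul_eq_mul]
  ring

theorem pgram_cell (hN : Num K D D1 a η ν s) {i j : ℕ} (hi : i < K) (hj : j < K) {F : P2 → ℝ}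
    (hF : IntegrableOn F (cell D i j)) {c e : ℝ} (he : 0 ≤ e)
    (h1 : ∀ y ∈ sqr D i j (s i j / 2 + a), F y ≤ c)
    (h2 : ∀ y ∈ cell D i j, y ∉ sqr D i j (s i j / 2 + a) → F y ≤ e) :
    ∫ y in cell D i j, F y ≤ (s i j + 2 * a) ^ 2 * c + D ^ 2 * e := by
  have hs := hN.s_ge i hi j hj
  have ha := hN.a_pos
  have hD := hN.D_ge
  have hsub : sqr D i j (s i j / 2 + a) ⊆ cell D i j := pmass_sub hN hi hj (by linarith)
  have hfin : volume (cell D i j) ≠ ⊤ :=
    ((measure_mono (cell_subset_sqr D i j)).trans_lt (isCompact_sqr D i j _).measure_lt_top).ne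
  have hI1 : IntegrableOn ((sqr D i j (s i j / 2 + a)).indicator fun _ => c) (cell D i j) :=
    (integrableOn_const hfin).indicator (measurableSet_sqr D i j _)
  have hI2 : IntegrableOn (fun _ : P2 => e) (cell D i j) := integrableOn_const hfin
  have h3 : ∫ y in cell D i j, F y ≤ ∫ y in cell D i j,
      ((sqr D i j (s i j / 2 + a)).indicator (fun _ => c) y + e) := by
    refine setIntegral_mono_on hF (hI1.add hI2) (measurableSet_cell D i j) fun y hy => ?_
    by_cases hy' : y ∈ sqr D i j (s i j / 2 + a)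
    · rw [indicator_of_mem hy']; linarith [h1 y hy']
    · rw [indicator_of_notMem hy']; linarith [h2 y hy hy']
  rw [integral_add hI1 hI2, setIntegral_indicator (measurableSet_sqr D i j _),
    inter_eq_self_of_subset_right hsub, pmass_const D i j (by linarith), setIntegral_const,
    volume_real_cell (by linarith), smul_eq_mul] at h3
  calc _ ≤ _ := h3
    _ = _ := by ring

theorem pgram_isl (hN : Num K D D1 a η ν s) (hu : Ramps K D D1 a η M u) (β : ℕ → ℕ → ℝ) {i j : ℕ} (hi : i < K)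
    (hj : j < K) {r : ℝ} (hr : r ≤ s i j / 2 + 2 * a) {y : P2} (hy : y ∈ sqr D i j r) :
    comb K u β y = β i j :=
  comb_isl hN hu β hi hj (sqr_mono (by linarith [hN.s_le i hi j hj]) i j hy)

theorem pgram_out (hN : Num K D D1 a η ν s) (hu : Ramps K D D1 a η M u) (β : ℕ → ℕ → ℝ) {y : P2}
    (hy : y ∉ allc K D) : comb K u β y = 0 :=
  comb_out hN hu β fun h => hy (inner4_subset_allc (by linarith [hN.D_ge]) h)

theorem pgram_le_sum {F : ℕ → ℕ → ℝ} (h : ∀ i j, 0 ≤ F i j) {i j : ℕ} (hi : i < K) (hj : j < K) :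
    F i j ≤ sum2 K F :=
  (Finset.single_le_sum (f := fun j => F i j) (fun j _ => h i j) (Finset.mem_range.2 hj)).trans
    (Finset.single_le_sum (f := fun i => ∑ j ∈ Finset.range K, F i j)
      (fun i _ => Finset.sum_nonneg fun j _ => h i j) (Finset.mem_range.2 hi))

theorem pgram_KD (hN : Num K D D1 a η ν s) : (K : ℝ) ^ 2 * (D ^ 2 * D) ≤ (K * D) ^ 3 := by
  have hD := hN.D_ge
  calc (K : ℝ) ^ 2 * (D ^ 2 * D) = (K * D) ^ 2 * D := by ring
    _ ≤ (K * D) ^ 2 * (K * D) := by gcongr; exact hN.D_le_KD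
    _ = _ := by ring

/-- `sum_cell_le`; on the island `ρ = 1`, `comb = β i j` -/
theorem gram_low (hN : Num K D D1 a η ν s) (hR : Rho K D D1 a (3 * D * ν) sea s dH dV ρ)
    (hu : Ramps K D D1 a η M u) (β : ℕ → ℕ → ℝ) :
    (sum2 K fun i j => s i j ^ 2 * β i j ^ 2) ≤ ∫ y, ρ y * comb K u β y ^ 2 := by
  have hD := hN.D_ge
  have hc : Continuous fun y => ρ y * comb K u β y ^ 2 := hR.cont.mul ((cc1_comb hN hu β).1.continuous.pow 2)
  rw [pgram_split (K := K) (D := D) (by linarith) (fun i _ j _ => integrableOn_cell hc D i j)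
    fun y hy => by rw [pgram_out hN hu β hy]; simp]
  refine sum2_le_sum2 fun i hi j hj => ?_
  have hs := hN.s_ge i hi j hj
  have ha := hN.a_pos
  have e : ∫ y in sqr D i j (s i j / 2), ρ y * comb K u β y ^ 2 = s i j ^ 2 * β i j ^ 2 := by
    rw [setIntegral_congr_fun (measurableSet_sqr D i j _) (g := fun _ => β i j ^ 2) fun y hy => by
      simp only [hR.isl i hi j hj y hy, pgram_isl hN hu β hi hj (by linarith) hy, one_mul],
      pmass_const D i j (by linarith)]
    ring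
  rw [← e]
  exact setIntegral_mono_set (integrableOn_cell hc D i j)
    (Filter.Eventually.of_forall fun y => mul_nonneg (hR.nonneg y) (sq_nonneg _))
    (pmass_sub hN hi hj (by linarith)).eventuallyLE

/-- The integrand vanishes outside `allc`; on a cell it is `≤ β i j ² 1_{I⁺} + δ B`, so the integral is
`≤ ∑ (s + 2a)² β² + 3 D ν (K D)² B`, with `(s + 2a)² ≤ (1 + 4.04 η) s²`, `Num.ν3`, `B ≤ ∑ s² β²`. -/
theorem gram_up (hN : Num K D D1 a η ν s) (hR : Rho K D D1 a (3 * D * ν) sea s dH dV ρ)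
    (hu : Ramps K D D1 a η M u) (β : ℕ → ℕ → ℝ) :
    ∫ y, ρ y * comb K u β y ^ 2 ≤ (1 + 5 * η) * sum2 K fun i j => s i j ^ 2 * β i j ^ 2 := by
  have hD := hN.D_ge
  have ha := hN.a_pos
  have hν := hN.ν_pos
  have hη := hN.η_pos
  have hc : Continuous fun y => ρ y * comb K u β y ^ 2 := hR.cont.mul ((cc1_comb hN hu β).1.continuous.pow 2)
  rw [pgram_split (K := K) (D := D) (by linarith) (fun i _ j _ => integrableOn_cell hc D i j)
    fun y hy => by rw [pgram_out hN hu β hy]; simp]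
  set B := sum2 K fun i j => β i j ^ 2 with hB
  set A := sum2 K fun i j => s i j ^ 2 * β i j ^ 2 with hA
  have hB0 : 0 ≤ B := sum2_nonneg fun i _ j _ => sq_nonneg _
  have hBA : B ≤ A := sum2_le_sum2 fun i hi j hj =>
    le_mul_of_one_le_left (sq_nonneg _) (one_le_pow₀ (hN.s_ge i hi j hj))
  have h1 : (sum2 K fun i j => ∫ y in cell D i j, ρ y * comb K u β y ^ 2) ≤
      sum2 K fun i j => (1 + 4 * η + 4 * η ^ 2) * (s i j ^ 2 * β i j ^ 2) + D ^ 2 * (3 * D * ν * B) := by
    refine sum2_le_sum2 fun i hi j hj => ?_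
    have hs := hN.s_ge i hi j hj
    refine (pgram_cell hN hi hj (integrableOn_cell hc D i j) (c := β i j ^ 2) (e := 3 * D * ν * B)
      (by positivity) (fun y hy => ?_) fun y hy hy' => ?_).trans ?_
    · rw [pgram_isl hN hu β hi hj (by linarith) hy]
      exact mul_le_of_le_one_left (sq_nonneg _) (hR.le_one y)
    · exact mul_le_mul (hR.small i hi j hj y hy hy') (comb_sq_le hN hu β y) (sq_nonneg _) hR.δ_nonneg
    · have h2 : s i j + 2 * a ≤ (1 + 2 * η) * s i j := by nlinarith [hN.a_le]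
      have h3 : (s i j + 2 * a) ^ 2 ≤ ((1 + 2 * η) * s i j) ^ 2 := by gcongr
      nlinarith [mul_le_mul_of_nonneg_right h3 (sq_nonneg (β i j))]
  refine h1.trans ?_
  rw [sum2_add, sum2_mul, pgram_const, ← hA]
  have h2 : (K : ℝ) ^ 2 * (D ^ 2 * (3 * D * ν * B)) ≤ 3 * (η ^ 2 / 10000) * A := by
    calc (K : ℝ) ^ 2 * (D ^ 2 * (3 * D * ν * B)) = 3 * (ν * (K ^ 2 * (D ^ 2 * D))) * B := by ring
      _ ≤ 3 * (ν * (K * D) ^ 3) * B := by gcongr; exact pgram_KD hN
      _ ≤ 3 * (η ^ 2 / 10000) * A := by gcongr; exact hN.ν3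
  have h3 : η ^ 2 ≤ η / 100 := by nlinarith [hN.η_le]
  nlinarith [mul_le_mul_of_nonneg_right h3 (hB0.trans hBA), mul_nonneg hη.le (hB0.trans hBA)]

theorem pgram_lin_cell (α : Fin K × Fin K → ℝ) {i j : ℕ} (hi : i < K) (hj : j < K) {y : P2}
    (hy : y ∈ cell D i j) :
    lin (fun p : Fin K × Fin K => eF D ρ p.1 p.2) α y = √(ρ y) * (ext α i j / √(mass D ρ i j)) := by
  unfold lin
  rw [Finset.sum_eq_single ((⟨i, hi⟩, ⟨j, hj⟩) : Fin K × Fin K)]
  · have e := ext_coe α (⟨i, hi⟩, ⟨j, hj⟩)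
    simp only at e ⊢
    rw [e]
    unfold eF
    rw [indicator_of_mem hy]
    ring
  · intro p _ hp
    simp only
    rw [eF_of_notMem, mul_zero]
    intro hy'
    exact hp (Prod.ext (Fin.ext (ci_unique hy'.1 hy.1)) (Fin.ext (ci_unique hy'.2 hy.2)))
  · intro h; exact absurd (Finset.mem_univ _) h

theorem pgram_lin_out (hD : 0 < D) (α : Fin K × Fin K → ℝ) {y : P2} (hy : y ∉ allc K D) :
    lin (fun p : Fin K × Fin K => eF D ρ p.1 p.2) α y = 0 := by
  unfold lin
  refine Finset.sum_eq_zero fun p _ => ?_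
  simp only
  rw [eF_of_notMem, mul_zero]
  exact fun hy' => hy ((mem_allc hD).2 ⟨p.1, p.1.2, p.2, p.2.2, hy'⟩)

/-- `α' p = α p s p / √(mass p)`; with `β = ext α / √mass`: on the cell `(i,j)` the difference is `√ρ (β i j - comb β)`, which is
`0` on `I⁺` and has square `≤ δ (2 β² + 2 B) ≤ 4 δ B` elsewhere; outside `allc` both functions vanish. -/
theorem close_abs (hN : Num K D D1 a η ν s) (hR : Rho K D D1 a (3 * D * ν) sea s dH dV ρ)
    (hu : Ramps K D D1 a η M u) (α : Fin K × Fin K → ℝ) :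
    ∃ α' : Fin K × Fin K → ℝ, α' ⬝ᵥ α' ≤ α ⬝ᵥ α ∧
      ∫ y, (lin (fun p : Fin K × Fin K => eF D ρ p.1 p.2) α y -
        lin (fun p : Fin K × Fin K => φF ρ s u p.1 p.2) α' y) ^ 2 ≤ 12 * ν * (K * D) ^ 3 * (α ⬝ᵥ α) := by
  have hD := hN.D_ge
  have ha := hN.a_pos
  have hν := hN.ν_pos
  refine ⟨fun p => α p * s p.1 p.2 / √(mass D ρ p.1 p.2), ?_, ?_⟩
  · refine Finset.sum_le_sum fun p _ => ?_
    have hm := pmass_one_le hN hR p.1.2 p.2.2
    have h1 := mass_ge hN hR p.1.2 p.2.2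
    rw [← sq, ← sq, div_pow, mul_pow, Real.sq_sqrt (by linarith), div_le_iff₀ (by linarith)]
    gcongr
  set β : ℕ → ℕ → ℝ := fun i j => ext α i j / √(mass D ρ i j) with hβ
  have hlin : lin (fun p : Fin K × Fin K => φF ρ s u p.1 p.2)
      (fun p => α p * s p.1 p.2 / √(mass D ρ p.1 p.2)) = fun y => √(ρ y) * comb K u β y := by
    rw [lin_φF]
    funext y
    congr 1
    refine sum2_congr fun i hi j hj => ?_
    have hs := hN.s_ge i hi j hj
    congr 1
    simp only [hβ, ext, dif_pos (And.intro hi hj)]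
    field_simp
  rw [hlin]
  set B := sum2 K fun i j => β i j ^ 2 with hB
  have hB0 : 0 ≤ B := sum2_nonneg fun i _ j _ => sq_nonneg _
  have hBA : B ≤ α ⬝ᵥ α := by
    rw [dot_eq_sum2]
    refine sum2_le_sum2 fun i hi j hj => ?_
    have hm := pmass_one_le hN hR hi hj
    simp only [hβ]
    rw [div_pow, Real.sq_sqrt (by linarith)]
    exact div_le_self (sq_nonneg _) hm
  have hcc := (cc1_comb hN hu β).1.continuous
  have hρ := hR.cont
  have hcell : ∀ i < K, ∀ j < K, ∀ y ∈ cell D i j,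
      (lin (fun p : Fin K × Fin K => eF D ρ p.1 p.2) α y - √(ρ y) * comb K u β y) ^ 2 =
        ρ y * (β i j - comb K u β y) ^ 2 := by
    intro i hi j hj y hy
    rw [pgram_lin_cell α hi hj hy, ← mul_sub, mul_pow, Real.sq_sqrt (hR.nonneg y)]
  have hint : ∀ i < K, ∀ j < K, IntegrableOn
      (fun y => (lin (fun p : Fin K × Fin K => eF D ρ p.1 p.2) α y - √(ρ y) * comb K u β y) ^ 2) (cell D i j) := by
    intro i hi j hj
    exact (integrableOn_cell (F := fun y => ρ y * (β i j - comb K u β y) ^ 2) (by fun_prop) D i j).congr_fun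
      (fun y hy => (hcell i hi j hj y hy).symm) (measurableSet_cell D i j)
  rw [pgram_split (K := K) (D := D) (by linarith) hint fun y hy => by
    rw [pgram_out hN hu β hy, pgram_lin_out (by linarith) α hy]; simp]
  refine (sum2_le_sum2 (G := fun _ _ => D ^ 2 * (3 * D * ν * (4 * B))) fun i hi j hj => ?_).trans ?_
  · refine (pgram_cell hN hi hj (hint i hi j hj) (c := 0) (e := 3 * D * ν * (4 * B))
      (by positivity) (fun y hy => ?_) fun y hy hy' => ?_).trans (by simp)
    · rw [hcell i hi j hj y (pmass_sub hN hi hj (by linarith) hy), pgram_isl hN hu β hi hj (by linarith) hy]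
      simp
    · rw [hcell i hi j hj y hy]
      refine mul_le_mul (hR.small i hi j hj y hy hy') ?_ (sq_nonneg _) hR.δ_nonneg
      have h1 := comb_sq_le hN hu β y
      have h2 : β i j ^ 2 ≤ B := pgram_le_sum (F := fun i j => β i j ^ 2) (fun _ _ => sq_nonneg _) hi hj
      nlinarith [sq_nonneg (β i j + comb K u β y)]
  · rw [pgram_const]
    calc (K : ℝ) ^ 2 * (D ^ 2 * (3 * D * ν * (4 * B))) = 12 * ν * (K ^ 2 * (D ^ 2 * D)) * B := by ring
      _ ≤ 12 * ν * (K * D) ^ 3 * (α ⬝ᵥ α) := by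
        gcongr
        exact pgram_KD hN

/-- where `χ i j ≠ 0`, `comb = β i j`; `chi_mass` -/
theorem eps_up (hN : Num K D D1 a η ν s) (hR : Rho K D D1 a (3 * D * ν) sea s dH dV ρ)
    (hu : Ramps K D D1 a η M u) {χ : ℕ → ℕ → P2 → ℝ} (hχ : Chi K D a s χ) {ep : ℕ → ℕ → ℝ}
    (hep : ∀ i < K, ∀ j < K, |ep i j| ≤ ν) (β : ℕ → ℕ → ℝ) :
    ∫ y, (sum2 K fun i j => ep i j * χ i j y) * (ρ y * comb K u β y ^ 2) ≤
      (sum2 K fun i j => ep i j * (s i j ^ 2 * β i j ^ 2)) +
        5 * η * ν * sum2 K fun i j => s i j ^ 2 * β i j ^ 2 := by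
  have ha := hN.a_pos
  have hη := hN.η_pos
  have e : ∀ y, (sum2 K fun i j => ep i j * χ i j y) * (ρ y * comb K u β y ^ 2) =
      ∑ i ∈ Finset.range K, ∑ j ∈ Finset.range K, ep i j * β i j ^ 2 * (χ i j y * ρ y) := by
    intro y
    rw [mul_comm, ← sum2_mul]
    refine sum2_congr fun i hi j hj => ?_
    by_cases hy : y ∈ sqr D i j (s i j / 2 + 2 * a)
    · rw [pgram_isl hN hu β hi hj le_rfl hy]; ring
    · rw [hχ.zero i hi j hj y hy]; ring
  have hint : ∀ i < K, ∀ j < K, Integrable fun y => ep i j * β i j ^ 2 * (χ i j y * ρ y) := by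
    intro i hi j hj
    refine Integrable.const_mul ?_ _
    exact ((hχ.cont i j).mul hR.cont).integrable_of_hasCompactSupport
      (HasCompactSupport.intro (isCompact_sqr D i j (s i j / 2 + 2 * a)) fun y hy => by
        simp only [Pi.mul_apply, hχ.zero i hi j hj y hy, zero_mul])
  simp_rw [e]
  rw [integral_finsetSum _ fun i hi => integrable_finsetSum _ fun j hj =>
    hint i (Finset.mem_range.1 hi) j (Finset.mem_range.1 hj), ← sum2_mul, ← sum2_add]
  refine Finset.sum_le_sum fun i hi => ?_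
  rw [integral_finsetSum _ fun j hj => hint i (Finset.mem_range.1 hi) j (Finset.mem_range.1 hj)]
  refine Finset.sum_le_sum fun j hj => ?_
  rw [Finset.mem_range] at hi hj
  rw [integral_const_mul]
  have h1 := chi_mass hN hR hχ hi hj
  have h2 : ep i j * ((∫ y, χ i j y * ρ y) - s i j ^ 2) ≤ ν * (5 * η * s i j ^ 2) := by
    refine (le_abs_self _).trans ?_
    rw [abs_mul]
    exact mul_le_mul (hep i hi j hj) h1 (abs_nonneg _) hN.ν_pos.le
  nlinarith [mul_le_mul_of_nonneg_right h2 (sq_nonneg (β i j))]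

end Crest.Agent.R338
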