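import Crest.Agent.R338.Plane_Defs
import Crest.Agent.R338.Bar_Grid

/-!
# Planar package: the quadratic form of `gridMat`

Helper prefix `pform_`.  Pure finite sums.
-/

set_option autoImplicit false
set_option linter.dupNamespace false
set_option linter.unusedVariables false

noncomputable section

namespace Crest.Agent.R338

open Matrix MeasureTheory Set
open Crest.MathPhysics.ElectronicCoulomb

variable {K : ℕ}

theorem pform_drop (K : ℕ) (f : ℕ → ℝ) (h : ∀ i, i + 1 = K → f i = 0) :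
    ∑ i ∈ Finset.range K, f i = ∑ i ∈ Finset.range (K - 1), f i := by
  cases K with
  | zero => rfl
  | succ L => rw [Finset.sum_range_succ, h L rfl, add_zero, Nat.add_sub_cancel]

theorem pform_up (K : ℕ) (f : ℕ → ℝ) :
    ∑ i ∈ Finset.range K, (if i + 1 < K then f i else 0) = ∑ i ∈ Finset.range (K - 1), f i := by
  rw [pform_drop K _ fun i hi => if_neg (by omega)]
  exact Finset.sum_congr rfl fun i hi => if_pos (by have := Finset.mem_range.1 hi; omega)

theorem pform_dn (K : ℕ) (f : ℕ → ℝ) :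
    ∑ i ∈ Finset.range K, (if 0 < i then f i else 0) = ∑ i ∈ Finset.range (K - 1), f (i + 1) := by
  cases K with
  | zero => rfl
  | succ L => simp [Finset.sum_range_succ']

theorem pform_line (K : ℕ) (s t U : ℕ → ℝ) (hs : ∀ i < K, s i ≠ 0) :
    ∑ i ∈ Finset.range (K - 1), s i * s (i + 1) * t i * (U i / s i - U (i + 1) / s (i + 1)) ^ 2 =
      ∑ i ∈ Finset.range K, ((if i + 1 < K then t i * s (i + 1) else 0) +
        (if 0 < i then t (i - 1) * s (i - 1) else 0)) / s i * U i ^ 2 -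
      2 * ∑ i ∈ Finset.range (K - 1), t i * (U i * U (i + 1)) := by
  have e : ∀ i, ((if i + 1 < K then t i * s (i + 1) else 0) +
      (if 0 < i then t (i - 1) * s (i - 1) else 0)) / s i * U i ^ 2 =
      (if i + 1 < K then t i * s (i + 1) / s i * U i ^ 2 else 0) +
        (if 0 < i then t (i - 1) * s (i - 1) / s i * U i ^ 2 else 0) := fun i => by
    split_ifs <;> ring
  simp only [e]
  rw [Finset.sum_add_distrib, pform_up, pform_dn, Finset.mul_sum, ← Finset.sum_add_distrib,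
    ← Finset.sum_sub_distrib]
  refine Finset.sum_congr rfl fun i hi => ?_
  have hi := Finset.mem_range.1 hi
  have h1 := hs i (by omega)
  have h2 := hs (i + 1) (by omega)
  rw [Nat.add_sub_cancel]
  field_simp
  ring

/-- `α ⬝ k α = ∑ ε α² - 2 ∑_{hor} tH α α' - 2 ∑_{ver} tV α α'` (write `gridMat` as the sum of five indicator matrices: the five
conditions exclude each other; `sum_eq_sum2`, `ext_coe`, `Finset.sum_ite_eq`). -/
theorem gridMat_form (tH tV ε : ℕ → ℕ → ℝ) (α : Fin K × Fin K → ℝ) :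
    α ⬝ᵥ gridMat K tH tV ε *ᵥ α = (sum2 K fun i j => ε i j * ext α i j ^ 2) -
      2 * (∑ i ∈ Finset.range (K - 1), ∑ j ∈ Finset.range K, tH i j * (ext α i j * ext α (i + 1) j)) -
      2 * ∑ i ∈ Finset.range K, ∑ j ∈ Finset.range (K - 1), tV i j * (ext α i j * ext α i (j + 1)) := by
  have h0 : ∀ i j, K ≤ i ∨ K ≤ j → ext α i j = 0 := fun i j h => ext0_out α h
  rw [bar_gridMat_form, ← pform_drop K _ fun i hi => Finset.sum_eq_zero fun j _ => by
    rw [h0 (i + 1) j (Or.inl hi.ge), mul_zero, mul_zero]]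
  have e : ∀ i, ∑ j ∈ Finset.range (K - 1), tV i j * (ext α i j * ext α i (j + 1)) =
      ∑ j ∈ Finset.range K, tV i j * (ext α i j * ext α i (j + 1)) := fun i =>
    (pform_drop K _ fun j hj => by rw [h0 i (j + 1) (Or.inr hj.ge), mul_zero, mul_zero]).symm
  simp only [e, sum2, Finset.mul_sum, ← Finset.sum_sub_distrib]
  refine Finset.sum_congr rfl fun i _ => Finset.sum_congr rfl fun j _ => ?_
  change ε i j * ext α i j ^ 2 - 2 * tH i j * ext α i j * ext α (i + 1) j -
    2 * tV i j * ext α i j * ext α i (j + 1) = _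
  ring

/-- `s s' t (x/s - x'/s')² = t (s'/s) x² + t (s/s') x'² - 2 t x x'`; reindex with `Finset.sum_range_succ`, `Finset.sum_range_succ'`
(write `K = L + 1`). -/
theorem form_identity (s tH tV ε : ℕ → ℕ → ℝ) (hs : ∀ i < K, ∀ j < K, s i j ≠ 0) (α : Fin K × Fin K → ℝ) :
    α ⬝ᵥ gridMat K tH tV ε *ᵥ α =
      QH K (fun i j => s i j * s (i + 1) j * tH i j) (fun i j => ext α i j / s i j) +
      QV K (fun i j => s i j * s i (j + 1) * tV i j) (fun i j => ext α i j / s i j) +
      sum2 K fun i j => epOf K s tH tV ε i j * ext α i j ^ 2 := by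
  have hH : QH K (fun i j => s i j * s (i + 1) j * tH i j) (fun i j => ext α i j / s i j) =
      (sum2 K fun i j => ((if i + 1 < K then tH i j * s (i + 1) j else 0) +
        (if 0 < i then tH (i - 1) j * s (i - 1) j else 0)) / s i j * ext α i j ^ 2) -
      2 * ∑ i ∈ Finset.range (K - 1), ∑ j ∈ Finset.range K,
        tH i j * (ext α i j * ext α (i + 1) j) := by
    rw [QH, ← sum2_swap, sum2, Finset.sum_comm (s := Finset.range (K - 1)),
      Finset.sum_comm (s := Finset.range (K - 1)), Finset.mul_sum, ← Finset.sum_sub_distrib]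
    exact Finset.sum_congr rfl fun j hj => pform_line K (fun i => s i j) (fun i => tH i j)
      (fun i => ext α i j) fun i hi => hs i hi j (Finset.mem_range.1 hj)
  have hV : QV K (fun i j => s i j * s i (j + 1) * tV i j) (fun i j => ext α i j / s i j) =
      (sum2 K fun i j => ((if j + 1 < K then tV i j * s i (j + 1) else 0) +
        (if 0 < j then tV i (j - 1) * s i (j - 1) else 0)) / s i j * ext α i j ^ 2) -
      2 * ∑ i ∈ Finset.range K, ∑ j ∈ Finset.range (K - 1),
        tV i j * (ext α i j * ext α i (j + 1)) := by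
    rw [QV, sum2, Finset.mul_sum, ← Finset.sum_sub_distrib]
    exact Finset.sum_congr rfl fun i hi => pform_line K (fun j => s i j) (fun j => tV i j)
      (fun j => ext α i j) fun j hj => hs i (Finset.mem_range.1 hi) j hj
  have hE : (sum2 K fun i j => ε i j * ext α i j ^ 2) =
      (sum2 K fun i j => ((if i + 1 < K then tH i j * s (i + 1) j else 0) +
        (if 0 < i then tH (i - 1) j * s (i - 1) j else 0)) / s i j * ext α i j ^ 2) +
      (sum2 K fun i j => ((if j + 1 < K then tV i j * s i (j + 1) else 0) +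
        (if 0 < j then tV i (j - 1) * s i (j - 1) else 0)) / s i j * ext α i j ^ 2) +
      sum2 K fun i j => epOf K s tH tV ε i j * ext α i j ^ 2 := by
    rw [← sum2_add, ← sum2_add]
    exact sum2_congr fun i _ j _ => by rw [epOf]; ring
  rw [gridMat_form, hH, hV, hE]
  ring

theorem QH_nonneg {c : ℕ → ℕ → ℝ} (hc : ∀ i j, i + 1 < K → j < K → 0 ≤ c i j) (x : ℕ → ℕ → ℝ) :
    0 ≤ QH K c x := by
  exact Finset.sum_nonneg fun i hi => Finset.sum_nonneg fun j hj =>
    mul_nonneg (hc i j (by have := Finset.mem_range.1 hi; omega) (Finset.mem_range.1 hj)) (sq_nonneg _)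

theorem QH_mono {c c' : ℕ → ℕ → ℝ} (hc : ∀ i j, i + 1 < K → j < K → c i j ≤ c' i j) (x : ℕ → ℕ → ℝ) :
    QH K c x ≤ QH K c' x := by
  exact Finset.sum_le_sum fun i hi => Finset.sum_le_sum fun j hj => mul_le_mul_of_nonneg_right
    (hc i j (by have := Finset.mem_range.1 hi; omega) (Finset.mem_range.1 hj)) (sq_nonneg _)

theorem QH_add_mul (c c' x : ℕ → ℕ → ℝ) (A B : ℝ) :
    QH K (fun i j => A * c i j + B * c' i j) x = A * QH K c x + B * QH K c' x := by
  simp only [QH, Finset.mul_sum, ← Finset.sum_add_distrib]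
  exact Finset.sum_congr rfl fun i _ => Finset.sum_congr rfl fun j _ => by ring

/-- `(x - x')² ≤ 2 x² + 2 x'²` -/
theorem QH_le {c : ℕ → ℕ → ℝ} {b : ℝ} (hb : 0 ≤ b) (hc : ∀ i j, i + 1 < K → j < K → c i j ≤ b) (x : ℕ → ℕ → ℝ) :
    QH K c x ≤ 4 * b * sum2 K fun i j => x i j ^ 2 := by
  set r : ℕ → ℝ := fun i => ∑ j ∈ Finset.range K, x i j ^ 2 with hr
  have hr0 : ∀ i, 0 ≤ r i := fun i => Finset.sum_nonneg fun j _ => sq_nonneg _
  have h1 : ∑ i ∈ Finset.range (K - 1), r i ≤ ∑ i ∈ Finset.range K, r i := by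
    rw [← pform_up]
    exact Finset.sum_le_sum fun i _ => by split_ifs; exacts [le_rfl, hr0 i]
  have h2 : ∑ i ∈ Finset.range (K - 1), r (i + 1) ≤ ∑ i ∈ Finset.range K, r i := by
    rw [← pform_dn]
    exact Finset.sum_le_sum fun i _ => by split_ifs; exacts [le_rfl, hr0 i]
  have h3 : QH K c x ≤ 2 * b * (∑ i ∈ Finset.range (K - 1), r i + ∑ i ∈ Finset.range (K - 1), r (i + 1)) := by
    simp only [QH, hr, ← Finset.sum_add_distrib, Finset.mul_sum]
    refine Finset.sum_le_sum fun i hi => Finset.sum_le_sum fun j hj => ?_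
    have h4 := mul_le_mul_of_nonneg_right
      (hc i j (by have := Finset.mem_range.1 hi; omega) (Finset.mem_range.1 hj))
      (sq_nonneg (x i j - x (i + 1) j))
    nlinarith [mul_nonneg hb (sq_nonneg (x i j + x (i + 1) j))]
  change _ ≤ 4 * b * ∑ i ∈ Finset.range K, r i
  nlinarith [mul_le_mul_of_nonneg_left (add_le_add h1 h2) hb]

/-- `(u + w)² ≤ (1 + η) u² + (2 / η) w²` and `QH_le` -/
theorem QH_pert {c : ℕ → ℕ → ℝ} {b η : ℝ} (hb : 0 ≤ b) (hη : 0 < η) (hη1 : η ≤ 1)
    (hc : ∀ i j, i + 1 < K → j < K → 0 ≤ c i j ∧ c i j ≤ b) (x z : ℕ → ℕ → ℝ) :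
    QH K c x ≤ (1 + η) * QH K c z + 8 * b / η * sum2 K fun i j => (x i j - z i j) ^ 2 := by
  have h1 := QH_le (K := K) (c := c) hb (fun i j hi hj => (hc i j hi hj).2) fun i j => x i j - z i j
  have h2 : QH K c x ≤ (1 + η) * QH K c z + 2 / η * QH K c fun i j => x i j - z i j := by
    simp only [QH, Finset.mul_sum, ← Finset.sum_add_distrib]
    refine Finset.sum_le_sum fun i hi => Finset.sum_le_sum fun j hj => ?_
    have h3 := (hc i j (by have := Finset.mem_range.1 hi; omega) (Finset.mem_range.1 hj)).1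
    set u := z i j - z (i + 1) j with hu
    set v := x i j - z i j - (x (i + 1) j - z (i + 1) j) with hv
    have e : x i j - x (i + 1) j = u + v := by rw [hu, hv]; ring
    have h4 : (u + v) ^ 2 ≤ (1 + η) * u ^ 2 + 2 / η * v ^ 2 := by
      refine le_of_mul_le_mul_left ?_ hη
      have : η * ((1 + η) * u ^ 2 + 2 / η * v ^ 2) = η * (1 + η) * u ^ 2 + 2 * v ^ 2 := by
        field_simp
      rw [this]
      nlinarith [sq_nonneg (η * u - v), mul_nonneg (sub_nonneg.2 hη1) (sq_nonneg v)]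
    rw [e]
    nlinarith [mul_le_mul_of_nonneg_left h4 h3]
  have h5 := mul_le_mul_of_nonneg_left h1 (by positivity : 0 ≤ 2 / η)
  have e : 2 / η * (4 * b * sum2 K fun i j => (x i j - z i j) ^ 2) =
      8 * b / η * sum2 K fun i j => (x i j - z i j) ^ 2 := by ring
  linarith

/-! the same for `QV`, through `QV_eq_QH` and `sum2_swap` -/

theorem QV_nonneg {c : ℕ → ℕ → ℝ} (hc : ∀ i j, i < K → j + 1 < K → 0 ≤ c i j) (x : ℕ → ℕ → ℝ) :
    0 ≤ QV K c x := by
  rw [QV_eq_QH]
  exact QH_nonneg (fun i j hi hj => hc j i hj hi) _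

theorem QV_mono {c c' : ℕ → ℕ → ℝ} (hc : ∀ i j, i < K → j + 1 < K → c i j ≤ c' i j) (x : ℕ → ℕ → ℝ) :
    QV K c x ≤ QV K c' x := by
  rw [QV_eq_QH, QV_eq_QH]
  exact QH_mono (fun i j hi hj => hc j i hj hi) _

theorem QV_add_mul (c c' x : ℕ → ℕ → ℝ) (A B : ℝ) :
    QV K (fun i j => A * c i j + B * c' i j) x = A * QV K c x + B * QV K c' x := by
  rw [QV_eq_QH, QV_eq_QH, QV_eq_QH]
  exact QH_add_mul _ _ _ A B

theorem QV_le {c : ℕ → ℕ → ℝ} {b : ℝ} (hb : 0 ≤ b) (hc : ∀ i j, i < K → j + 1 < K → c i j ≤ b) (x : ℕ → ℕ → ℝ) :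
    QV K c x ≤ 4 * b * sum2 K fun i j => x i j ^ 2 := by
  rw [QV_eq_QH, ← sum2_swap]
  exact QH_le hb (fun i j hi hj => hc j i hj hi) _

theorem QV_pert {c : ℕ → ℕ → ℝ} {b η : ℝ} (hb : 0 ≤ b) (hη : 0 < η) (hη1 : η ≤ 1)
    (hc : ∀ i j, i < K → j + 1 < K → 0 ≤ c i j ∧ c i j ≤ b) (x z : ℕ → ℕ → ℝ) :
    QV K c x ≤ (1 + η) * QV K c z + 8 * b / η * sum2 K fun i j => (x i j - z i j) ^ 2 := by
  rw [QV_eq_QH, QV_eq_QH, ← sum2_swap]
  exact QH_pert hb hη hη1 (fun i j hi hj => hc j i hj hi) _ _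

end Crest.Agent.R338
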