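import Crest.Agent.R338.Plane_Cell

/-!
# Planar package: the wire lemma

Helper prefix `pwire_`.
-/

set_option autoImplicit false
set_option linter.dupNamespace false
set_option linter.unusedVariables false

noncomputable section

namespace Crest.Agent.R338

open Matrix MeasureTheory Set
open Crest.MathPhysics.ElectronicCoulomb

variable {K : ℕ} {D D1 a η ν δ sea : ℝ} {s dH dV : ℕ → ℕ → ℝ} {ρ f : P2 → ℝ}

theorem pwire_shift (φ : ℝ → ℝ) (c r : ℝ) :
    ∫ x in Icc (c - r) (c + r), φ x = ∫ u in Icc (-r) r, φ (c + u) := by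
  rw [← (measurePreserving_add_left volume c).setIntegral_preimage_emb (measurableEmbedding_addLeft c)]
  simp

theorem pwire_avg (f : P2 → ℝ) (D : ℝ) (i j : ℕ) :
    avg D f (i + 1) j = avg D (fun z => f (z + (D, 0))) i j := by
  rw [avg, avg, ← (measurePreserving_add_right volume ((D, 0) : P2)).setIntegral_preimage_emb
    (measurableEmbedding_addRight _)]
  congr 2
  ext z
  simp only [mem_preimage, mem_sqr, cen_succ, Prod.fst_add, Prod.snd_add, add_zero]
  refine and_congr_left' (and_congr ?_ ?_) <;> constructor <;> intro h <;> linarith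

theorem pwire_cont {F : P2 → ℝ} (hF : Continuous F) (D : ℝ) :
    Continuous fun z : P2 => ∫ t in z.1..(z.1 + D), F (t, z.2) := by
  have e : (fun z : P2 => ∫ t in z.1..(z.1 + D), F (t, z.2)) =
      fun z : P2 => ∫ t in (0 : ℝ)..D, F (z.1 + t, z.2) := funext fun z => by
    rw [intervalIntegral.integral_comp_add_left (fun t => F (t, z.2)), add_zero]
  rw [e]
  exact intervalIntegral.continuous_parametric_intervalIntegral_of_continuous' (by fun_prop) _ _

theorem pwire_sum {F : P2 → ℝ} (hF : Integrable F) (h0 : ∀ z, 0 ≤ F z) (hD : 100 ≤ D) (m n : ℕ) (u : ℝ) :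
    ∑ p ∈ Finset.range m ×ˢ Finset.range n, ∫ y in Icc (cen D p.2 - 1 / 2) (cen D p.2 + 1 / 2),
      ∫ t in (cen D p.1 + u)..(cen D p.1 + u + D), F (t, y) ≤ ∫ z, F z := by
  have hD0 : 0 ≤ D := by linarith
  have e : ∀ p : ℕ × ℕ, ∫ y in Icc (cen D p.2 - 1 / 2) (cen D p.2 + 1 / 2),
      ∫ t in (cen D p.1 + u)..(cen D p.1 + u + D), F (t, y) =
      ∫ z in Ioc (cen D p.1 + u) (cen D p.1 + u + D) ×ˢ Icc (cen D p.2 - 1 / 2) (cen D p.2 + 1 / 2), F z :=
    fun p => by
      have h1 := hF.integrableOn (s := Ioc (cen D p.1 + u) (cen D p.1 + u + D) ×ˢ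
        Icc (cen D p.2 - 1 / 2) (cen D p.2 + 1 / 2))
      rw [IntegrableOn, Measure.volume_eq_prod, ← Measure.prod_restrict] at h1
      rw [Measure.volume_eq_prod, ← Measure.prod_restrict, integral_prod_symm F h1]
      simp only [intervalIntegral.integral_of_le (le_add_of_nonneg_right hD0)]
  simp only [e]
  rw [← integral_biUnion_finset _ (fun p _ => measurableSet_Ioc.prod measurableSet_Icc) ?_
    fun p _ => hF.integrableOn]
  · exact setIntegral_le_integral hF (Filter.Eventually.of_forall h0)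
  · intro p _ q _ hpq
    refine Set.disjoint_left.2 fun z hp hq => hpq (Prod.ext ?_ ?_)
    · rcases lt_trichotomy p.1 q.1 with h | h | h
      · linarith [cen_add_le hD0 h, hp.1.2, hq.1.1]
      · exact h
      · linarith [cen_add_le hD0 h, hp.1.1, hq.1.2]
    · rcases lt_trichotomy p.2 q.2 with h | h | h
      · linarith [cen_add_le hD0 h, hp.2.2, hq.2.1]
      · exact h
      · linarith [cen_add_le hD0 h, hp.2.1, hq.2.2]

/-- `avg i j - avg (i+1) j = ∫_{u ∈ [-½,½]} ∫_{y ∈ [c j ± ½]} (f (c i + u, y) - f (c i + D + u, y))` (translation), Jensen, and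
`weighted_ftc` with `l = c i + u`, `L = D`, `r = dH i j` (`coreH`). -/
theorem wire_one (hD : 100 ≤ D) (hR : Rho K D D1 a δ sea s dH dV ρ) (hf : ContDiff ℝ 1 f) {i j : ℕ}
    (hi : i + 1 < K) (hj : j < K) :
    dH i j * (avg D f i j - avg D f (i + 1) j) ^ 2 ≤
      D * ∫ u in Icc (-(1 / 2) : ℝ) (1 / 2), ∫ y in Icc (cen D j - 1 / 2) (cen D j + 1 / 2),
        ∫ t in (cen D i + u)..(cen D i + u + D), ρ (t, y) * dx f (t, y) ^ 2 := by
  have hc := hf.continuous
  have hc' : Continuous fun z : P2 => f (z + (D, 0)) := by fun_prop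
  have hF : Continuous fun z => ρ z * dx f z ^ 2 := hR.cont.mul ((continuous_dx hf).pow 2)
  have hH := pwire_cont hF D
  have h1 := sq_sub_avg_le (hc.sub hc') D i j 0
  have h2 : avg D (f - fun z => f (z + (D, 0))) i j = avg D f i j - avg D f (i + 1) j := by
    rw [pwire_avg]
    exact integral_sub (integrableOn_sqr hc D i j _) (integrableOn_sqr hc' D i j _)
  simp only [zero_sub, even_two, Even.neg_pow, h2] at h1
  refine (mul_le_mul_of_nonneg_left h1 (hR.dH_nonneg i j)).trans ?_
  have h3 := setIntegral_prod (μ := volume) (ν := volume) _ (integrableOn_sqr hH D i j (1 / 2))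
  rw [pwire_shift] at h3
  rw [← h3, ← integral_const_mul, ← integral_const_mul]
  refine setIntegral_mono_on (integrableOn_sqr (by fun_prop) D i j _)
    (integrableOn_sqr (hH.const_mul D) D i j _) (measurableSet_sqr D i j _) fun z hz => ?_
  obtain ⟨x, y⟩ := z
  have hD0 : 0 ≤ D := by linarith
  have h4 := weighted_ftc (u := fun t => f (t, y)) (u' := fun t => dx f (t, y)) (w := fun t => ρ (t, y))
    (fun t => hasDerivAt_dx (hf.differentiable (by norm_num)) t y)
    ((continuous_dx hf).comp (by fun_prop)) (hR.cont.comp (by fun_prop)) (fun t => hR.nonneg _)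
    (l := x) (L := D) (x := x) (x' := x + D) (r := dH i j) ⟨le_rfl, by linarith⟩ ⟨by linarith, le_rfl⟩
    fun t ht => by
      rw [uIcc_of_le (by linarith)] at ht
      rw [mem_sqr] at hz
      refine hR.coreH i j hi hj t y (by linarith [ht.1, hz.1.1]) ?_ (abs_le.2 ⟨?_, ?_⟩)
      · rw [cen_succ]
        linarith [ht.2, hz.1.2]
      · linarith [hz.2.1]
      · linarith [hz.2.2]
  simpa using h4

/-- For fixed `u, y` the intervals `[c i + u, c (i+1) + u]` are adjacent (`intervalIntegral.sum_integral_adjacent_intervals`),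
so the sum over `i` is at most `G y = ∫ t, ρ (t,y) (dx f (t,y))²`; the intervals `[c j ± ½]` are disjoint, so the sum over `j`
is at most `∫ y, G y = ∫ ρ (dx f)²` (Fubini). -/
theorem wire_H (hD : 100 ≤ D) (hR : Rho K D D1 a δ sea s dH dV ρ) (hf : Cc1 f) :
    QH K dH (avg D f) ≤ D * ∫ y, ρ y * dx f y ^ 2 := by
  have hD0 : 0 ≤ D := by linarith
  have hF : Continuous fun z => ρ z * dx f z ^ 2 := hR.cont.mul ((continuous_dx hf.1).pow 2)
  have hI : Integrable fun z => ρ z * dx f z ^ 2 := hF.integrable_of_hasCompactSupport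
    (HasCompactSupport.mul_left (by
      simp only [sq]
      exact hf.hasCompactSupport_dx.mul_left))
  have hH := pwire_cont hF D
  have hP : ∀ p : ℕ × ℕ, IntegrableOn (fun u => ∫ y in Icc (cen D p.2 - 1 / 2) (cen D p.2 + 1 / 2),
      ∫ t in (cen D p.1 + u)..(cen D p.1 + u + D), ρ (t, y) * dx f (t, y) ^ 2)
      (Icc (-(1 / 2) : ℝ) (1 / 2)) := fun p =>
    (continuous_parametric_integral_of_continuous (f := fun u y : ℝ =>
      ∫ t in (cen D p.1 + u)..(cen D p.1 + u + D), ρ (t, y) * dx f (t, y) ^ 2) (hH.comp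
      (show Continuous fun q : ℝ × ℝ => ((cen D p.1 + q.1, q.2) : P2) by fun_prop))
      isCompact_Icc).continuousOn.integrableOn_compact isCompact_Icc
  rw [QH, ← Finset.sum_product']
  refine (Finset.sum_le_sum fun p hp => wire_one hD hR hf.1 (i := p.1) (j := p.2) ?_ ?_).trans ?_
  · have := Finset.mem_range.1 (Finset.mem_product.1 hp).1
    omega
  · exact Finset.mem_range.1 (Finset.mem_product.1 hp).2
  rw [← Finset.mul_sum, ← integral_finsetSum _ fun p _ => hP p]
  refine mul_le_mul_of_nonneg_left ((setIntegral_mono_on (integrable_finsetSum _ fun p _ => hP p)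
    (integrableOn_const (C := ∫ y, ρ y * dx f y ^ 2) (by simp)) measurableSet_Icc fun u _ =>
      pwire_sum hI (fun z => mul_nonneg (hR.nonneg z) (sq_nonneg _)) hD _ _ u).trans_eq ?_) hD0
  rw [setIntegral_const, Real.volume_real_Icc_of_le (by norm_num)]
  norm_num

/-- `wire_H` for `hR.swap` and `hf.swap` (`QV_eq_QH`, `dx_swap`, `integral_swap2`). -/
theorem wire_V (hD : 100 ≤ D) (hR : Rho K D D1 a δ sea s dH dV ρ) (hf : Cc1 f) :
    QV K dV (avg D f) ≤ D * ∫ y, ρ y * dy f y ^ 2 := by
  have h := wire_H hD hR.swap hf.swap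
  simp only [dx_swap (hf.1.differentiable (by norm_num))] at h
  rw [integral_swap2 fun y => ρ y * dy f y ^ 2] at h
  rw [QV_eq_QH]
  refine le_of_eq_of_le ?_ h
  congr 1
  funext i j
  rw [avg, avg, Measure.volume_eq_prod]
  exact (setIntegral_prod_swap _ _ f).symm

end Crest.Agent.R338
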