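import Crest.Agent.R338.Plane_Mass
import Crest.Agent.R338.Plane_Wire
import Crest.Agent.R338.Plane_Form

/-!
# Planar package: Poincaré inequality and the lower bound

Helper prefix `plow_`.  `E = ∫ ρ (fx² + fy²)`, `A = ∑ α²`; `∑ enC ≤ E` and `A ≤ ∫ ρ f²` by `sum_cell_le`, `alp_sq_le`
(`mass_ge` gives `0 < mass`).
-/

set_option autoImplicit false
set_option linter.dupNamespace false
set_option linter.unusedVariables false

noncomputable section

namespace Crest.Agent.R338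

open Matrix MeasureTheory Set
open Crest.MathPhysics.ElectronicCoulomb

variable {K : ℕ} {D D1 a η ν sea : ℝ} {s dH dV : ℕ → ℕ → ℝ} {ρ f : P2 → ℝ}

theorem plow_int (hρ : Continuous ρ) {F : P2 → ℝ} (hF : Continuous F) (hc : HasCompactSupport F) :
    Integrable fun y => ρ y * F y ^ 2 := by
  refine (hρ.mul (hF.pow 2)).integrable_of_hasCompactSupport ?_
  refine HasCompactSupport.mul_left ?_
  simp only [pow_two]
  exact hc.mul_left

theorem plow_int_f (hρ : Continuous ρ) (hf : Cc1 f) : Integrable fun y => ρ y * f y ^ 2 :=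
  plow_int hρ hf.1.continuous hf.2

theorem plow_int_x (hρ : Continuous ρ) (hf : Cc1 f) : Integrable fun y => ρ y * dx f y ^ 2 :=
  plow_int hρ (continuous_dx hf.1) hf.hasCompactSupport_dx

theorem plow_int_y (hρ : Continuous ρ) (hf : Cc1 f) : Integrable fun y => ρ y * dy f y ^ 2 :=
  plow_int hρ (continuous_dy hf.1) hf.hasCompactSupport_dy

theorem plow_split (hρ : Continuous ρ) (hf : Cc1 f) :
    ∫ y, ρ y * (dx f y ^ 2 + dy f y ^ 2) = (∫ y, ρ y * dx f y ^ 2) + ∫ y, ρ y * dy f y ^ 2 := by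
  rw [← integral_add (plow_int_x hρ hf) (plow_int_y hρ hf)]
  simp only [mul_add]

theorem plow_en (hD : 0 < D) (hρ : Continuous ρ) (h0 : ∀ y, 0 ≤ ρ y) (hf : Cc1 f) :
    sum2 K (enC D ρ f) ≤ ∫ y, ρ y * (dx f y ^ 2 + dy f y ^ 2) := by
  refine sum_cell_le hD ?_ fun y => mul_nonneg (h0 y) (by positivity)
  simp only [mul_add]
  exact (plow_int_x hρ hf).add (plow_int_y hρ hf)

theorem plow_mass_pos (hN : Num K D D1 a η ν s) (hR : Rho K D D1 a (3 * D * ν) sea s dH dV ρ) {i j : ℕ}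
    (hi : i < K) (hj : j < K) : 0 < mass D ρ i j := by
  have := hN.s_ge i hi j hj
  exact lt_of_lt_of_le (by positivity) (mass_ge hN hR hi hj)

theorem bessel (hN : Num K D D1 a η ν s) (hR : Rho K D D1 a (3 * D * ν) sea s dH dV ρ) (hf : Cc1 f) :
    (sum2 K fun i j => alp D ρ f i j ^ 2) ≤ ∫ y, ρ y * f y ^ 2 := by
  refine le_trans (sum2_le_sum2 fun i hi j hj =>
    alp_sq_le hR.cont hR.nonneg hf.1.continuous (plow_mass_pos hN hR hi hj)) ?_
  exact sum_cell_le (by linarith [hN.D_ge]) (plow_int_f hR.cont hf)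
    fun y => mul_nonneg (hR.nonneg y) (sq_nonneg _)

/-- `∫ρf² = ∑ ∫_cell ρf² + ∫_{allcᶜ} ρf²` (`integral_allc`, `integral_add_compl`), `cell_var` on the cells, `v = 1` outside. -/
theorem poin_abs (hN : Num K D D1 a η ν s) (hR : Rho K D D1 a (3 * D * ν) sea s dH dV ρ) (hf : Cc1 f)
    {v : P2 → ℝ} (hv : Continuous v) (hv0 : ∀ y, 0 ≤ v y) (hv1 : ∀ y ∉ allc K D, v y = 1) :
    (∫ y, ρ y * f y ^ 2) - (sum2 K fun i j => alp D ρ f i j ^ 2) ≤
      4 * D ^ 3 * (1 / 2 * (∫ y, ρ y * (dx f y ^ 2 + dy f y ^ 2)) + ∫ y, v y * (ρ y * f y ^ 2)) := by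
  have hD := hN.D_ge
  have hD0 : 0 < D := by linarith
  have hI := plow_int_f hR.cont hf
  have h0 : ∀ y, 0 ≤ ρ y * f y ^ 2 := fun y => mul_nonneg (hR.nonneg y) (sq_nonneg _)
  have hvI : Integrable fun y => v y * (ρ y * f y ^ 2) := by
    refine (hv.mul (hR.cont.mul (hf.1.continuous.pow 2))).integrable_of_hasCompactSupport ?_
    refine HasCompactSupport.mul_left (HasCompactSupport.mul_left ?_)
    simp only [pow_two]
    exact hf.2.mul_left
  have h1 := integral_add_compl (measurableSet_allc K D) hI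
  rw [integral_allc hD0 fun i _ j _ => hI.integrableOn] at h1
  have h2 : ∫ y in (allc K D)ᶜ, ρ y * f y ^ 2 ≤ ∫ y, v y * (ρ y * f y ^ 2) := by
    rw [← setIntegral_congr_fun (measurableSet_allc K D).compl
      (f := fun y => v y * (ρ y * f y ^ 2)) fun y hy => by simp only [hv1 y hy, one_mul]]
    exact setIntegral_le_integral hvI (Filter.Eventually.of_forall fun y => mul_nonneg (hv0 y) (h0 y))
  have h3 : (sum2 K fun i j => ∫ y in cell D i j, ρ y * f y ^ 2) ≤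
      sum2 K fun i j => alp D ρ f i j ^ 2 + 2 * D ^ 3 * enC D ρ f i j :=
    sum2_le_sum2 fun i hi j hj => by linarith [cell_var hN hR hf.1 hi hj]
  rw [sum2_add, sum2_mul] at h3
  have h4 := plow_en (K := K) hD0 hR.cont hR.nonneg hf
  have h5 : 0 ≤ ∫ y, v y * (ρ y * f y ^ 2) := integral_nonneg fun y => mul_nonneg (hv0 y) (h0 y)
  have h6 : 1 ≤ 4 * D ^ 3 := by nlinarith [one_le_pow₀ (show 1 ≤ D by linarith) (n := 3)]
  have h7 : 2 * D ^ 3 * sum2 K (enC D ρ f) ≤ 2 * D ^ 3 * ∫ y, ρ y * (dx f y ^ 2 + dy f y ^ 2) := by gcongr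
  have h8 := le_mul_of_one_le_left h5 h6
  rw [mul_add]
  linarith

theorem plow_alg {η ν D Q Qz A N E Se P : ℝ} (hη : 0 < η) (hη1 : η ≤ 1 / 100) (hν : 0 < ν) (hA : 0 ≤ A)
    (hE : 0 ≤ E) (hD : ν * D ^ 3 ≤ η ^ 2 / 10000) (h1 : Q ≤ 4 * ν * A)
    (h2 : Q ≤ (1 + η) * Qz + 8 * ν / η * P) (h3 : 2 * (1 - η) * Qz ≤ E)
    (h4 : P ≤ 13 * η ^ 2 * A + 4 * D ^ 3 * E) (h5 : Se ≤ ν * (6 * η * A + 2 * D ^ 3 / η * E)) (h6 : A ≤ N) :
    Q + Se - 126 * η * ν * N ≤ (1 - η) * (1 / 2 * E) := by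
  have hw : ν * D ^ 3 / η ≤ η / 10000 := by
    rw [div_le_iff₀ hη]; nlinarith
  have a1 : 8 * ν / η * P ≤ 104 * η * ν * A + 32 * (η / 10000) * E := by
    calc 8 * ν / η * P ≤ 8 * ν / η * (13 * η ^ 2 * A + 4 * D ^ 3 * E) := by gcongr
      _ = 104 * η * ν * A + 32 * (ν * D ^ 3 / η) * E := by field_simp; ring
      _ ≤ _ := by gcongr
  have a2 : Se ≤ 6 * η * ν * A + 2 * (η / 10000) * E := by
    calc Se ≤ ν * (6 * η * A + 2 * D ^ 3 / η * E) := h5
      _ = 6 * η * ν * A + 2 * (ν * D ^ 3 / η) * E := by ring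
      _ ≤ _ := by gcongr
  have a3 : (1 - 4 * η) * ((1 + η) * Qz) ≤ (1 - 2 * η) * (E / 2) := by
    by_cases hQ : 0 ≤ Qz
    · calc (1 - 4 * η) * ((1 + η) * Qz) = ((1 - 4 * η) * (1 + η)) * Qz := by ring
        _ ≤ ((1 - 2 * η) * (1 - η)) * Qz := mul_le_mul_of_nonneg_right (by nlinarith) hQ
        _ = (1 - 2 * η) * (2 * (1 - η) * Qz / 2) := by ring
        _ ≤ _ := by gcongr; linarith
    · have : (1 - 4 * η) * ((1 + η) * Qz) ≤ 0 :=
        mul_nonpos_of_nonneg_of_nonpos (by linarith) (mul_nonpos_of_nonneg_of_nonpos (by linarith) (by linarith))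
      have : 0 ≤ (1 - 2 * η) * (E / 2) := mul_nonneg (by linarith) (by linarith)
      linarith
  have hηνA : 0 ≤ η * ν * A := by positivity
  have hηE : 0 ≤ η * E := by positivity
  have a4 : (1 - 4 * η) * Q ≤ (1 - 4 * η) * ((1 + η) * Qz + (104 * η * ν * A + 32 * (η / 10000) * E)) := by
    gcongr
    · linarith
    · linarith
  have a5 : (1 - 4 * η) * (104 * η * ν * A + 32 * (η / 10000) * E) ≤ 104 * η * ν * A + 32 * (η / 10000) * E :=
    mul_le_of_le_one_left (by positivity) (by linarith)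
  have a6 : 4 * η * Q ≤ 4 * η * (4 * ν * A) := by gcongr
  have a7 : η * ν * A ≤ η * ν * N := by gcongr
  rw [mul_add] at a4
  nlinarith

/-- `x = α / s`, `Q = QH cH x + QV cV x`.  (i) `Q ≤ 4 ν A` (`QH_le` with `b = ν / 2`, `1 ≤ s`).  (ii) `QH_pert` with `z = avg`:
`Q ≤ (1 + η) Q(z) + (8 ν / η) ∑ (x - z)²`; `2 (1 - η) D Q(z) ≤ QH dH z + QV dV z ≤ D E` (`QH_mono`, `QH_add_mul`, `wire_H`, `wire_V`);
`∑ (x - z)² ≤ 13 η² A + 4 D³ E` (`cell_avg`).  (iii) `Q = (1 - 4η) Q + 4η Q`, use (ii) in the first and (i) in the second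
term; `ν D³ ≤ η² / 10⁴` (`Num.νD3`), `(1 - 4η)(1 + η) ≤ (1 - η)(1 - 2η)`.  (iv) `∑ ep α² - ∫ ε ρ f² = ∑ ep (α² - ∫ χ ρ f²)
≤ 6 η ν A + (2 ν D³ / η) E` (`cell_chi`, `integral_finsetSum`).  Total: `≤ (1 - η) E / 2 + 126 η ν A`, and `bessel`. -/
theorem low_abs (hN : Num K D D1 a η ν s) (hR : Rho K D D1 a (3 * D * ν) sea s dH dV ρ) (hf : Cc1 f)
    {χ : ℕ → ℕ → P2 → ℝ} (hχ : Chi K D a s χ) {cH cV ep : ℕ → ℕ → ℝ}
    (hH : ∀ i j, i + 1 < K → j < K → 0 ≤ cH i j ∧ 2 * cH i j ≤ ν ∧ (1 - η) * (D * (2 * cH i j)) ≤ dH i j)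
    (hV : ∀ i j, i < K → j + 1 < K → 0 ≤ cV i j ∧ 2 * cV i j ≤ ν ∧ (1 - η) * (D * (2 * cV i j)) ≤ dV i j)
    (hep : ∀ i < K, ∀ j < K, |ep i j| ≤ ν) :
    QH K cH (fun i j => alp D ρ f i j / s i j) + QV K cV (fun i j => alp D ρ f i j / s i j) +
        (sum2 K fun i j => ep i j * alp D ρ f i j ^ 2) - 126 * η * ν * (∫ y, ρ y * f y ^ 2) ≤
      (1 - η) * (1 / 2 * ∫ y, ρ y * (dx f y ^ 2 + dy f y ^ 2)) +
        ∫ y, (sum2 K fun i j => ep i j * χ i j y) * (ρ y * f y ^ 2) := by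
  have hD := hN.D_ge
  have hD0 : 0 < D := by linarith
  have hη := hN.η_pos
  have hη1 := hN.η_le
  have hν := hN.ν_pos
  have hen := plow_en (K := K) hD0 hR.cont hR.nonneg hf
  have hA : 0 ≤ sum2 K fun i j => alp D ρ f i j ^ 2 := sum2_nonneg fun i _ j _ => sq_nonneg _
  have hE : 0 ≤ ∫ y, ρ y * (dx f y ^ 2 + dy f y ^ 2) :=
    integral_nonneg fun y => mul_nonneg (hR.nonneg y) (by positivity)
  have hx : (sum2 K fun i j => (alp D ρ f i j / s i j) ^ 2) ≤ sum2 K fun i j => alp D ρ f i j ^ 2 :=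
    sum2_le_sum2 fun i hi j hj => by
      rw [div_pow]
      exact div_le_self (sq_nonneg _) (one_le_pow₀ (hN.s_ge i hi j hj))
  have q1 := QH_le (c := cH) (b := ν / 2) (by positivity) (fun i j hi hj => by linarith [(hH i j hi hj).2.1])
    fun i j => alp D ρ f i j / s i j
  have q2 := QV_le (c := cV) (b := ν / 2) (by positivity) (fun i j hi hj => by linarith [(hV i j hi hj).2.1])
    fun i j => alp D ρ f i j / s i j
  have q3 := QH_pert (c := cH) (b := ν / 2) (by positivity) hη (by linarith)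
    (fun i j hi hj => ⟨(hH i j hi hj).1, by linarith [(hH i j hi hj).2.1]⟩)
    (fun i j => alp D ρ f i j / s i j) (avg D f)
  have q4 := QV_pert (c := cV) (b := ν / 2) (by positivity) hη (by linarith)
    (fun i j hi hj => ⟨(hV i j hi hj).1, by linarith [(hV i j hi hj).2.1]⟩)
    (fun i j => alp D ρ f i j / s i j) (avg D f)
  have w1 := (QH_mono (c := fun i j => (2 * (1 - η) * D) * cH i j + 0 * cH i j) (c' := dH)
    (fun i j hi hj => by linarith [(hH i j hi hj).2.2]) (avg D f)).trans (wire_H hD hR hf)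
  have w2 := (QV_mono (c := fun i j => (2 * (1 - η) * D) * cV i j + 0 * cV i j) (c' := dV)
    (fun i j hi hj => by linarith [(hV i j hi hj).2.2]) (avg D f)).trans (wire_V hD hR hf)
  rw [QH_add_mul] at w1
  rw [QV_add_mul] at w2
  have h3 : 2 * (1 - η) * (QH K cH (avg D f) + QV K cV (avg D f)) ≤ ∫ y, ρ y * (dx f y ^ 2 + dy f y ^ 2) := by
    rw [plow_split hR.cont hf]
    refine le_of_mul_le_mul_left ?_ hD0
    linarith
  have h4 : (sum2 K fun i j => (alp D ρ f i j / s i j - avg D f i j) ^ 2) ≤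
      13 * η ^ 2 * (sum2 K fun i j => alp D ρ f i j ^ 2) + 4 * D ^ 3 * ∫ y, ρ y * (dx f y ^ 2 + dy f y ^ 2) := by
    refine (sum2_le_sum2 fun i hi j hj => cell_avg hN hR hf.1 hi hj).trans ?_
    rw [sum2_add, sum2_mul, sum2_mul]
    gcongr
  have hχI : ∀ i j, Integrable fun y => ep i j * (χ i j y * (ρ y * f y ^ 2)) := by
    intro i j
    refine Integrable.const_mul ?_ _
    refine ((hχ.cont i j).mul (hR.cont.mul (hf.1.continuous.pow 2))).integrable_of_hasCompactSupport ?_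
    refine HasCompactSupport.mul_left (HasCompactSupport.mul_left ?_)
    simp only [pow_two]
    exact hf.2.mul_left
  have e5 : ∫ y, (sum2 K fun i j => ep i j * χ i j y) * (ρ y * f y ^ 2) =
      sum2 K fun i j => ep i j * ∫ y, χ i j y * (ρ y * f y ^ 2) := by
    unfold sum2
    simp only [Finset.sum_mul, mul_assoc]
    rw [integral_finsetSum _ fun i _ => integrable_finsetSum _ fun j _ => hχI i j]
    refine Finset.sum_congr rfl fun i _ => ?_
    rw [integral_finsetSum _ fun j _ => hχI i j]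
    exact Finset.sum_congr rfl fun j _ => integral_const_mul _ _
  have h5 : (sum2 K fun i j => ep i j * alp D ρ f i j ^ 2) ≤
      sum2 K fun i j => ep i j * (∫ y, χ i j y * (ρ y * f y ^ 2)) +
        ν * (6 * η * alp D ρ f i j ^ 2 + 2 * D ^ 3 / η * enC D ρ f i j) := by
    refine sum2_le_sum2 fun i hi j hj => ?_
    have b1 := cell_chi hN hR hf.1 hχ hi hj
    have b2 : |ep i j * ((∫ y, χ i j y * (ρ y * f y ^ 2)) - alp D ρ f i j ^ 2)| ≤
        ν * (6 * η * alp D ρ f i j ^ 2 + 2 * D ^ 3 / η * enC D ρ f i j) := by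
      rw [abs_mul]
      exact mul_le_mul (hep i hi j hj) b1 (abs_nonneg _) hν.le
    have b3 := neg_abs_le (ep i j * ((∫ y, χ i j y * (ρ y * f y ^ 2)) - alp D ρ f i j ^ 2))
    linarith
  rw [sum2_add, sum2_mul, sum2_add, sum2_mul, sum2_mul, ← e5] at h5
  have h5' : ν * (6 * η * (sum2 K fun i j => alp D ρ f i j ^ 2) + 2 * D ^ 3 / η * sum2 K (enC D ρ f)) ≤
      ν * (6 * η * (sum2 K fun i j => alp D ρ f i j ^ 2) +
        2 * D ^ 3 / η * ∫ y, ρ y * (dx f y ^ 2 + dy f y ^ 2)) := by gcongr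
  have hx' : ν * (sum2 K fun i j => (alp D ρ f i j / s i j) ^ 2) ≤ ν * sum2 K fun i j => alp D ρ f i j ^ 2 := by
    gcongr
  have key := plow_alg (Q := QH K cH (fun i j => alp D ρ f i j / s i j) + QV K cV fun i j => alp D ρ f i j / s i j)
    (Qz := QH K cH (avg D f) + QV K cV (avg D f))
    (Se := (sum2 K fun i j => ep i j * alp D ρ f i j ^ 2) -
      ∫ y, (sum2 K fun i j => ep i j * χ i j y) * (ρ y * f y ^ 2))
    hη hη1 hν hA hE hN.νD3 (by linarith) (by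
      have e : 8 * ν / η = 8 * (ν / 2) / η + 8 * (ν / 2) / η := by ring
      rw [e]; linarith) h3 h4 (by linarith) (bessel hN hR hf)
  linarith

end Crest.Agent.R338
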