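import Crest.Agent.R338.Plane_Hats

/-!
# Planar package: the two-body term

Helper prefix `ptwo_`.
-/

set_option autoImplicit false
set_option linter.dupNamespace false
set_option linter.unusedVariables false

noncomputable section

namespace Crest.Agent.R338

open Matrix MeasureTheory Set
open Crest.MathPhysics.ElectronicCoulomb

variable {K : ℕ} {D D1 a η ν sea M : ℝ} {s dH dV : ℕ → ℕ → ℝ} {ρ : P2 → ℝ} {u : ℕ → ℝ → ℝ}

theorem ptwo_half {r : ℝ} (hr : 0 < r) :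
    ∫⁻ t in Icc (0 : ℝ) r, ENNReal.ofReal (√|t|)⁻¹ = ENNReal.ofReal (2 * √r) := by
  have h1 : IntegrableOn (fun t : ℝ => t ^ (-(1 / 2) : ℝ)) (Icc 0 r) :=
    (intervalIntegrable_iff_integrableOn_Icc_of_le hr.le).1
      (intervalIntegral.intervalIntegrable_rpow' (by norm_num))
  have h2 : ∫ t in Icc (0 : ℝ) r, t ^ (-(1 / 2) : ℝ) = 2 * √r := by
    rw [integral_Icc_eq_integral_Ioc, ← intervalIntegral.integral_of_le hr.le,
      integral_rpow (Or.inl (by norm_num)), Real.zero_rpow (by norm_num), Real.sqrt_eq_rpow]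
    norm_num
    ring
  rw [← h2, ofReal_integral_eq_lintegral_ofReal h1
    ((ae_restrict_mem measurableSet_Icc).mono fun t ht => Real.rpow_nonneg ht.1 _)]
  refine setLIntegral_congr_fun measurableSet_Icc fun t ht => ?_
  rw [abs_of_nonneg ht.1, Real.rpow_neg ht.1, Real.sqrt_eq_rpow]

theorem ptwo_meas : Measurable fun t : ℝ => ENNReal.ofReal (√|t|)⁻¹ := by fun_prop

theorem ptwo_line (c : ℝ) {r : ℝ} (hr : 0 < r) :
    ∫⁻ t in Icc (c - r) (c + r), ENNReal.ofReal (√|c - t|)⁻¹ ≤ ENNReal.ofReal (4 * √r) := by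
  have h1 := (Measure.measurePreserving_sub_left (volume : Measure ℝ) c).setLIntegral_comp_preimage
    (s := Icc 0 r) measurableSet_Icc ptwo_meas
  have h2 := (measurePreserving_sub_right (volume : Measure ℝ) c).setLIntegral_comp_preimage
    (s := Icc 0 r) measurableSet_Icc ptwo_meas
  rw [ptwo_half hr] at h1 h2
  simp only [abs_sub_comm _ c] at h2
  have h3 : Icc (c - r) (c + r) ⊆ (fun t => c - t) ⁻¹' Icc 0 r ∪ (fun t => t - c) ⁻¹' Icc 0 r := by
    intro t ht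
    rcases le_total t c with h | h
    · exact Or.inl ⟨by linarith, by linarith [ht.1]⟩
    · exact Or.inr ⟨by linarith, by linarith [ht.2]⟩
  refine (lintegral_mono_set h3).trans ((lintegral_union_le _ _ _).trans ?_)
  rw [h1, h2, ← ENNReal.ofReal_add (by positivity) (by positivity)]
  exact ENNReal.ofReal_le_ofReal (by linarith)

theorem ptwo_pt {p : P2} (h1 : p.1 ≠ 0) (h2 : p.2 ≠ 0) :
    1 / nrm2 p ≤ (√|p.1|)⁻¹ * (√|p.2|)⁻¹ := by
  have a1 : 0 < |p.1| := abs_pos.2 h1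
  have a2 : 0 < |p.2| := abs_pos.2 h2
  rw [← mul_inv, ← Real.sqrt_mul a1.le, one_div]
  refine inv_anti₀ (Real.sqrt_pos.2 (mul_pos a1 a2)) (Real.sqrt_le_sqrt ?_)
  nlinarith [sq_abs p.1, sq_abs p.2, sq_nonneg (|p.1| - |p.2|), mul_pos a1 a2]

/-- For `u, v ≠ 0` (almost everywhere) `1 / √(u² + v²) ≤ |u|^(-1/2) |v|^(-1/2)`; `lintegral_prod_mul`,
`∫_{-r}^{r} |u|^(-1/2) = 4 √r` (`integral_rpow`, `intervalIntegral.intervalIntegrable_rpow'`).  Any other proof is fine. -/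
theorem lint_inv_nrm2 (x : P2) {r : ℝ} (hr : 0 < r) :
    ∫⁻ y in Icc (x.1 - r) (x.1 + r) ×ˢ Icc (x.2 - r) (x.2 + r), ENNReal.ofReal (1 / nrm2 (x - y)) ≤
      ENNReal.ofReal (16 * r) := by
  have hae : ∀ᵐ y : P2, y.1 ≠ x.1 ∧ y.2 ≠ x.2 := by
    rw [Measure.volume_eq_prod]
    exact (Measure.quasiMeasurePreserving_fst.ae (Measure.ae_ne volume x.1)).and
      (Measure.quasiMeasurePreserving_snd.ae (Measure.ae_ne volume x.2))
  have m1 : Measurable fun t : ℝ => ENNReal.ofReal (√|x.1 - t|)⁻¹ := by fun_prop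
  have m2 : Measurable fun t : ℝ => ENNReal.ofReal (√|x.2 - t|)⁻¹ := by fun_prop
  calc _ ≤ ∫⁻ y in Icc (x.1 - r) (x.1 + r) ×ˢ Icc (x.2 - r) (x.2 + r),
        ENNReal.ofReal (√|x.1 - y.1|)⁻¹ * ENNReal.ofReal (√|x.2 - y.2|)⁻¹ := by
        refine lintegral_mono_ae (ae_restrict_of_ae (hae.mono fun y hy => ?_))
        rw [← ENNReal.ofReal_mul (by positivity)]
        exact ENNReal.ofReal_le_ofReal
          (ptwo_pt (p := x - y) (sub_ne_zero.2 hy.1.symm) (sub_ne_zero.2 hy.2.symm))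
    _ = (∫⁻ t in Icc (x.1 - r) (x.1 + r), ENNReal.ofReal (√|x.1 - t|)⁻¹) *
        ∫⁻ t in Icc (x.2 - r) (x.2 + r), ENNReal.ofReal (√|x.2 - t|)⁻¹ := by
        rw [Measure.volume_eq_prod, ← Measure.prod_restrict]
        exact lintegral_prod_mul m1.aemeasurable m2.aemeasurable
    _ ≤ ENNReal.ofReal (4 * √r) * ENNReal.ofReal (4 * √r) :=
        mul_le_mul' (ptwo_line _ hr) (ptwo_line _ hr)
    _ = _ := by
        rw [← ENNReal.ofReal_mul (by positivity)]
        congr 1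
        nlinarith [Real.mul_self_sqrt hr.le]

/-- a set `A` inside a square of side `r`: `∫_A ∫_A 1/|y - y'| ≤ r² · 16 r` -/
theorem lint_square {A : Set P2} (hA : MeasurableSet A) {l l' r : ℝ} (hr : 0 < r)
    (h : A ⊆ Icc l (l + r) ×ˢ Icc l' (l' + r)) :
    ∫⁻ y in A, ∫⁻ y' in A, ENNReal.ofReal (1 / nrm2 (y - y')) ≤ ENNReal.ofReal (16 * r ^ 3) := by
  have hv : volume A ≤ ENNReal.ofReal (r ^ 2) := by
    refine (measure_mono h).trans (le_of_eq ?_)
    rw [Measure.volume_eq_prod, Measure.prod_prod, Real.volume_Icc, Real.volume_Icc,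
      ← ENNReal.ofReal_mul (by linarith)]
    congr 1
    ring
  calc _ ≤ ∫⁻ y in A, ENNReal.ofReal (16 * r) := by
        refine setLIntegral_mono' hA fun y hy => le_trans (lintegral_mono_set fun y' hy' => ?_)
          (lint_inv_nrm2 y hr)
        obtain ⟨⟨a1, a2⟩, a3, a4⟩ := h hy
        obtain ⟨⟨b1, b2⟩, b3, b4⟩ := h hy'
        exact ⟨⟨by linarith, by linarith⟩, by linarith, by linarith⟩
    _ ≤ ENNReal.ofReal (16 * r) * ENNReal.ofReal (r ^ 2) := by
        rw [setLIntegral_const]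
        exact mul_le_mul_right hv _
    _ = _ := by
        rw [← ENNReal.ofReal_mul (by positivity)]
        congr 1
        ring

theorem ptwo_abs_fst (p : P2) : |p.1| ≤ nrm2 p := Real.abs_le_sqrt (by nlinarith [sq_nonneg p.2])

theorem ptwo_abs_snd (p : P2) : |p.2| ≤ nrm2 p := Real.abs_le_sqrt (by nlinarith [sq_nonneg p.1])

theorem ptwo_nrm2_nonneg (p : P2) : 0 ≤ nrm2 p := Real.sqrt_nonneg _

theorem ptwo_sep {D x x' r r' : ℝ} (hD : 0 ≤ D) {i i' : ℕ} (h : i ≠ i') (hr : r ≤ D / 4)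
    (hr' : r' ≤ D / 4) (hx : cen D i - r ≤ x ∧ x ≤ cen D i + r)
    (hx' : cen D i' - r' ≤ x' ∧ x' ≤ cen D i' + r') : D / 2 ≤ |x - x'| := by
  rcases lt_or_gt_of_ne h with h | h
  · exact le_abs.2 (Or.inr (by linarith [cen_add_le hD h, hx.2, hx'.1]))
  · exact le_abs.2 (Or.inl (by linarith [cen_add_le hD h, hx.1, hx'.2]))

theorem ptwo_vol_sqr (D : ℝ) (i j : ℕ) {r : ℝ} (hr : 0 ≤ r) :
    volume (sqr D i j r) = ENNReal.ofReal ((2 * r) ^ 2) := by
  unfold sqr
  rw [Measure.volume_eq_prod, Measure.prod_prod, Real.volume_Icc, Real.volume_Icc,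
    ← ENNReal.ofReal_mul (by linarith)]
  congr 1
  ring

/-- different enlarged islands are at distance `≥ D / 2` in one coordinate -/
theorem lint_far (hN : Num K D D1 a η ν s) {i j i' j' : ℕ} (hi : i < K) (hj : j < K) (hi' : i' < K) (hj' : j' < K)
    (hne : ¬ (i = i' ∧ j = j')) :
    ∫⁻ y in sqr D i j (s i j / 2 + a), ∫⁻ y' in sqr D i' j' (s i' j' / 2 + a), ENNReal.ofReal (1 / nrm2 (y - y')) ≤
      ENNReal.ofReal (2 / D * (s i j + 2 * a) ^ 2 * (s i' j' + 2 * a) ^ 2) := by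
  have hD := hN.D_ge
  have hD' := hN.D_ge'
  have ha := hN.a_pos
  have ha' : a ≤ 1 / 100 := hN.a_le.trans hN.η_le
  have s1 := hN.s_ge i hi j hj
  have s2 := hN.s_le i hi j hj
  have s3 := hN.s_ge i' hi' j' hj'
  have s4 := hN.s_le i' hi' j' hj'
  have r1 : s i j / 2 + a ≤ D / 4 := by linarith
  have r2 : s i' j' / 2 + a ≤ D / 4 := by linarith
  calc _ ≤ ∫⁻ y in sqr D i j (s i j / 2 + a), ∫⁻ y' in sqr D i' j' (s i' j' / 2 + a),
        ENNReal.ofReal (2 / D) := by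
        refine setLIntegral_mono' (measurableSet_sqr _ _ _ _) fun y hy =>
          setLIntegral_mono' (measurableSet_sqr _ _ _ _) fun y' hy' => ENNReal.ofReal_le_ofReal ?_
        rw [mem_sqr] at hy hy'
        have h1 : D / 2 ≤ nrm2 (y - y') := by
          by_cases h : i = i'
          · exact (ptwo_sep (by linarith) (fun h' => hne ⟨h, h'⟩) r1 r2 hy.2 hy'.2).trans
              (ptwo_abs_snd (y - y'))
          · exact (ptwo_sep (by linarith) h r1 r2 hy.1 hy'.1).trans (ptwo_abs_fst (y - y'))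
        rw [div_le_div_iff₀ (by linarith) (by linarith)]
        linarith
    _ = _ := by
        rw [setLIntegral_const, setLIntegral_const, ptwo_vol_sqr _ _ _ (by linarith),
          ptwo_vol_sqr _ _ _ (by linarith), ← ENNReal.ofReal_mul (by positivity),
          ← ENNReal.ofReal_mul (by positivity)]
        congr 1
        ring

/-- the coefficients on `ℕ⁴` -/
def ptwoB (s : ℕ → ℕ → ℝ) (β : Fin K × Fin K → Fin K × Fin K → ℝ) (i j i' j' : ℕ) : ℝ :=
  ext (fun p => ext (β p) i' j') i j / (s i j * s i' j')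

theorem ptwoB_coe (β : Fin K × Fin K → Fin K × Fin K → ℝ) (p q : Fin K × Fin K) :
    ptwoB s β p.1 p.2 q.1 q.2 = β p q / (s p.1 p.2 * s q.1 q.2) := by
  rw [ptwoB, ext_coe, ext_coe]

theorem ptwo_lin2 (β : Fin K × Fin K → Fin K × Fin K → ℝ) (y y' : P2) :
    lin2 (fun p : Fin K × Fin K => φF ρ s u p.1 p.2) β y y' =
      √(ρ y) * √(ρ y') * comb K u (fun i j => comb K u (ptwoB s β i j) y') y := by
  unfold comb
  rw [← sum_eq_sum2, lin2, Finset.mul_sum]
  refine Finset.sum_congr rfl fun p _ => ?_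
  beta_reduce
  rw [← sum_eq_sum2, Finset.sum_mul, Finset.mul_sum]
  refine Finset.sum_congr rfl fun q _ => ?_
  rw [ptwoB_coe]
  unfold φF
  ring

theorem ptwo_H_sq (hN : Num K D D1 a η ν s) (hu : Ramps K D D1 a η M u)
    (β : Fin K × Fin K → Fin K × Fin K → ℝ) (y y' : P2) :
    comb K u (fun i j => comb K u (ptwoB s β i j) y') y ^ 2 ≤ ∑ p, ∑ q, β p q ^ 2 := by
  refine (comb_sq_le hN hu _ y).trans ?_
  rw [← sum_eq_sum2]
  refine Finset.sum_le_sum fun p _ => (comb_sq_le hN hu _ y').trans ?_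
  rw [← sum_eq_sum2 K fun i j => ptwoB s β p.1 p.2 i j ^ 2]
  refine Finset.sum_le_sum fun q _ => ?_
  rw [ptwoB_coe, div_pow]
  exact div_le_self (sq_nonneg _) (one_le_pow₀ (one_le_mul_of_one_le_of_one_le
    (hN.s_ge _ p.1.2 _ p.2.2) (hN.s_ge _ q.1.2 _ q.2.2)))

theorem ptwo_small (hN : Num K D D1 a η ν s) (hR : Rho K D D1 a (3 * D * ν) sea s dH dV ρ) {y : P2}
    (hy : y ∈ allc K D) (h : ¬ ∃ p : Fin K × Fin K, y ∈ sqr D p.1 p.2 (s p.1 p.2 / 2 + a)) :
    ρ y ≤ 3 * D * ν := by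
  obtain ⟨i, hi, j, hj, hc⟩ := (mem_allc (by linarith [hN.D_ge])).1 hy
  exact hR.small i hi j hj y hc fun h' => h ⟨(⟨i, hi⟩, ⟨j, hj⟩), h'⟩

theorem ptwo_ind_nonneg (A : Set P2) (y : P2) : (0 : ℝ) ≤ A.indicator 1 y :=
  indicator_nonneg (fun _ _ => zero_le_one) y

/-- `lin2 = √ρ(y) √ρ(y') H`, `H = ∑ β p q / (s p s q) h p y h q y'` with `h p y = hat hat ≥ 0`, `∑ h p y ≤ 1`; `H² ≤ ∑ β²`
(`sq_sum_le`), `H = β p q / (s p s q)` on `I⁺ p × I⁺ q` (`hat_eq_ite`), `H = 0` unless `y, y' ∈ allc` (`hat_out`); if `y ∈ allc` is in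
no `I⁺ p` then `ρ y ≤ 3 D ν` (`mem_allc`, `small`). -/
theorem lin2_sq_le (hN : Num K D D1 a η ν s) (hR : Rho K D D1 a (3 * D * ν) sea s dH dV ρ)
    (hu : Ramps K D D1 a η M u) (β : Fin K × Fin K → Fin K × Fin K → ℝ) (y y' : P2) :
    lin2 (fun p : Fin K × Fin K => φF ρ s u p.1 p.2) β y y' ^ 2 ≤
      (∑ p : Fin K × Fin K, ∑ q : Fin K × Fin K, (β p q / (s p.1 p.2 * s q.1 q.2)) ^ 2 *
        ((sqr D p.1 p.2 (s p.1 p.2 / 2 + a)).indicator 1 y * (sqr D q.1 q.2 (s q.1 q.2 / 2 + a)).indicator 1 y')) +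
      3 * D * ν * (∑ p, ∑ q, β p q ^ 2) * ((allc K D).indicator 1 y * (allc K D).indicator 1 y') := by
  have hD : 0 < D := by linarith [hN.D_ge]
  have t0 : ∀ p q : Fin K × Fin K, 0 ≤ (β p q / (s p.1 p.2 * s q.1 q.2)) ^ 2 *
      ((sqr D p.1 p.2 (s p.1 p.2 / 2 + a)).indicator 1 y *
        (sqr D q.1 q.2 (s q.1 q.2 / 2 + a)).indicator 1 y') := fun p q =>
    mul_nonneg (sq_nonneg _) (mul_nonneg (ptwo_ind_nonneg _ _) (ptwo_ind_nonneg _ _))
  have n1 : 0 ≤ ∑ p : Fin K × Fin K, ∑ q : Fin K × Fin K, (β p q / (s p.1 p.2 * s q.1 q.2)) ^ 2 *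
      ((sqr D p.1 p.2 (s p.1 p.2 / 2 + a)).indicator 1 y *
        (sqr D q.1 q.2 (s q.1 q.2 / 2 + a)).indicator 1 y') :=
    Finset.sum_nonneg fun p _ => Finset.sum_nonneg fun q _ => t0 p q
  have n2 : 0 ≤ 3 * D * ν * (∑ p, ∑ q, β p q ^ 2) *
      ((allc K D).indicator 1 y * (allc K D).indicator 1 y') :=
    mul_nonneg (mul_nonneg hR.δ_nonneg (by positivity))
      (mul_nonneg (ptwo_ind_nonneg _ _) (ptwo_ind_nonneg _ _))
  rw [ptwo_lin2]
  by_cases hy : y ∈ allc K D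
  swap
  · rw [comb_out hN hu _ fun h => hy (inner4_subset_allc hD h)]
    simpa using add_nonneg n1 n2
  by_cases hy' : y' ∈ allc K D
  swap
  · have h0 : comb K u (fun i j => comb K u (ptwoB s β i j) y') y = 0 := by
      simp only [comb_out hN hu _ fun h => hy' (inner4_subset_allc hD h)]
      simp [comb, sum2]
    rw [h0]
    simpa using add_nonneg n1 n2
  rw [mul_pow, mul_pow, Real.sq_sqrt (hR.nonneg y), Real.sq_sqrt (hR.nonneg y')]
  have r0 := hR.nonneg y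
  have r0' := hR.nonneg y'
  have r1 := hR.le_one y
  have r1' := hR.le_one y'
  by_cases hb : (∃ p : Fin K × Fin K, y ∈ sqr D p.1 p.2 (s p.1 p.2 / 2 + a)) ∧
      ∃ q : Fin K × Fin K, y' ∈ sqr D q.1 q.2 (s q.1 q.2 / 2 + a)
  · obtain ⟨⟨p, hp⟩, q, hq⟩ := hb
    have ha := hN.a_pos
    rw [comb_isl hN hu _ p.1.2 p.2.2 (sqr_mono (by linarith [hN.s_le _ p.1.2 _ p.2.2]) _ _ hp),
      comb_isl hN hu _ q.1.2 q.2.2 (sqr_mono (by linarith [hN.s_le _ q.1.2 _ q.2.2]) _ _ hq),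
      ptwoB_coe]
    refine le_add_of_le_of_nonneg ?_ n2
    refine le_trans ?_ ((Finset.single_le_sum (fun q _ => t0 p q) (Finset.mem_univ q)).trans
      (Finset.single_le_sum (fun p _ => Finset.sum_nonneg fun q _ => t0 p q) (Finset.mem_univ p)))
    rw [indicator_of_mem hp, indicator_of_mem hq, Pi.one_apply, Pi.one_apply, mul_one, mul_one]
    exact mul_le_of_le_one_left (sq_nonneg _) (mul_le_one₀ r1 r0' r1')
  · refine le_add_of_nonneg_of_le n1 ?_
    rw [indicator_of_mem hy, indicator_of_mem hy', Pi.one_apply, Pi.one_apply, mul_one, mul_one]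
    refine mul_le_mul ?_ (ptwo_H_sq hN hu β y y') (sq_nonneg _) hR.δ_nonneg
    rcases not_and_or.1 hb with h | h
    · nlinarith [ptwo_small hN hR hy h]
    · nlinarith [ptwo_small hN hR hy' h]

theorem ptwo_ofReal_sum_le {ι : Type} (S : Finset ι) (f : ι → ℝ) :
    ENNReal.ofReal (∑ i ∈ S, f i) ≤ ∑ i ∈ S, ENNReal.ofReal (f i) := by
  classical
  induction S using Finset.induction_on with
  | empty => simp
  | insert i S hi ih =>
    rw [Finset.sum_insert hi, Finset.sum_insert hi]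
    exact ENNReal.ofReal_add_le.trans (add_le_add le_rfl ih)

/-- one term -/
def ptwoT (c : ℝ) (A B : Set P2) (z : P2 × P2) : ENNReal :=
  ENNReal.ofReal (c * (A.indicator 1 z.1 * B.indicator 1 z.2) / nrm2 (z.1 - z.2))

theorem ptwoT_meas (c : ℝ) {A B : Set P2} (hA : MeasurableSet A) (hB : MeasurableSet B) :
    Measurable (ptwoT c A B) := by
  have h1 : Measurable (A.indicator (1 : P2 → ℝ)) := measurable_one.indicator hA
  have h2 : Measurable (B.indicator (1 : P2 → ℝ)) := measurable_one.indicator hB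
  unfold ptwoT nrm2
  fun_prop

theorem ptwoT_int {c : ℝ} (hc : 0 ≤ c) {A B : Set P2} (hA : MeasurableSet A)
    (hB : MeasurableSet B) : ∫⁻ z, ptwoT c A B z ∂(volume.prod volume) =
      ENNReal.ofReal c * ∫⁻ y in A, ∫⁻ y' in B, ENNReal.ofReal (1 / nrm2 (y - y')) := by
  rw [lintegral_prod _ (ptwoT_meas c hA hB).aemeasurable,
    ← lintegral_const_mul' _ _ ENNReal.ofReal_ne_top, ← lintegral_indicator hA]
  refine lintegral_congr fun y => ?_
  by_cases hy : y ∈ A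
  · rw [indicator_of_mem hy, ← lintegral_const_mul' _ _ ENNReal.ofReal_ne_top,
      ← lintegral_indicator hB]
    refine lintegral_congr fun y' => ?_
    by_cases hy' : y' ∈ B
    · rw [indicator_of_mem hy', ← ENNReal.ofReal_mul hc]
      simp [ptwoT, hy, hy', div_eq_mul_inv]
    · simp [ptwoT, hy']
  · simp [ptwoT, hy]

theorem ptwo_term (hN : Num K D D1 a η ν s) (β : Fin K × Fin K → Fin K × Fin K → ℝ)
    (hβ : ∀ p : Fin K × Fin K, β p p = 0 ∨ s p.1 p.2 = D1) (p q : Fin K × Fin K) :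
    ∫⁻ z, ptwoT ((β p q / (s p.1 p.2 * s q.1 q.2)) ^ 2) (sqr D p.1 p.2 (s p.1 p.2 / 2 + a))
      (sqr D q.1 q.2 (s q.1 q.2 / 2 + a)) z ∂(volume.prod volume) ≤
      ENNReal.ofReal (17 / D1 * β p q ^ 2) := by
  have hD := hN.D_ge
  have hD' := hN.D_ge'
  have hD1 := hN.D1_ge
  have ha := hN.a_pos
  have ha' : a ≤ 1 / 100 := hN.a_le.trans hN.η_le
  rw [ptwoT_int (sq_nonneg _) (measurableSet_sqr _ _ _ _) (measurableSet_sqr _ _ _ _)]
  by_cases hpq : p = q
  · subst hpq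
    rcases hβ p with h | h
    · simp [h]
    rw [h]
    have h1 := lint_square (measurableSet_sqr D p.1 p.2 (D1 / 2 + a)) (l := cen D p.1 - (D1 / 2 + a))
      (l' := cen D p.2 - (D1 / 2 + a)) (r := D1 + 2 * a) (by linarith) fun y hy => by
        rw [mem_sqr] at hy
        exact ⟨⟨hy.1.1, by linarith [hy.1.2]⟩, hy.2.1, by linarith [hy.2.2]⟩
    refine (mul_le_mul_right h1 _).trans ?_
    rw [← ENNReal.ofReal_mul (sq_nonneg _)]
    refine ENNReal.ofReal_le_ofReal ?_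
    have h2 : (D1 + 2 * a) ^ 3 ≤ (51 / 50 * D1) ^ 3 := pow_le_pow_left₀ (by linarith) (by linarith) 3
    calc (β p p / (D1 * D1)) ^ 2 * (16 * (D1 + 2 * a) ^ 3)
        ≤ (β p p / (D1 * D1)) ^ 2 * (16 * (51 / 50 * D1) ^ 3) := by gcongr
      _ = 16 * (51 / 50) ^ 3 / D1 * β p p ^ 2 := by field_simp
      _ ≤ _ := by gcongr; norm_num
  · have h1 := lint_far hN p.1.2 p.2.2 q.1.2 q.2.2 fun h => hpq (Prod.ext (Fin.ext h.1) (Fin.ext h.2))
    refine (mul_le_mul_right h1 _).trans ?_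
    rw [← ENNReal.ofReal_mul (sq_nonneg _)]
    refine ENNReal.ofReal_le_ofReal ?_
    have s1 := hN.s_ge _ p.1.2 _ p.2.2
    have s3 := hN.s_ge _ q.1.2 _ q.2.2
    generalize s p.1 p.2 = σ at s1
    generalize s q.1 q.2 = τ at s3
    have h2 : (σ + 2 * a) ^ 2 ≤ (2 * σ) ^ 2 := pow_le_pow_left₀ (by linarith) (by linarith) 2
    have h3 : (τ + 2 * a) ^ 2 ≤ (2 * τ) ^ 2 := pow_le_pow_left₀ (by linarith) (by linarith) 2
    calc (β p q / (σ * τ)) ^ 2 * (2 / D * (σ + 2 * a) ^ 2 * (τ + 2 * a) ^ 2)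
        ≤ (β p q / (σ * τ)) ^ 2 * (2 / D * (2 * σ) ^ 2 * (2 * τ) ^ 2) := by gcongr
      _ = 32 / D * β p q ^ 2 := by field_simp; norm_num
      _ ≤ _ := by
        refine mul_le_mul_of_nonneg_right ?_ (sq_nonneg _)
        rw [div_le_div_iff₀ (by linarith) (by linarith)]
        linarith

theorem ptwo_rest (hN : Num K D D1 a η ν s) {S : ℝ} (hS : 0 ≤ S) :
    ∫⁻ z, ptwoT (3 * D * ν * S) (allc K D) (allc K D) z ∂(volume.prod volume) ≤
      ENNReal.ofReal (1 / D1 * S) := by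
  have hD := hN.D_ge
  have hD' := hN.D_ge'
  have hD1 := hN.D1_ge
  have hK := hN.D_le_KD
  have hν := hN.ν_pos
  have hc : 0 ≤ 3 * D * ν * S := by positivity
  rw [ptwoT_int hc (measurableSet_allc _ _) (measurableSet_allc _ _)]
  have h1 := lint_square (measurableSet_allc K D) (l := D / 2) (l' := D / 2) (r := K * D)
    (by linarith) fun y hy =>
      ⟨⟨hy.1.1, by linarith [hy.1.2]⟩, hy.2.1, by linarith [hy.2.2]⟩
  refine (mul_le_mul_right h1 _).trans ?_
  rw [← ENNReal.ofReal_mul hc]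
  refine ENNReal.ofReal_le_ofReal ?_
  have h2 : η ^ 2 ≤ (1 / 100) ^ 2 := pow_le_pow_left₀ hN.η_pos.le hN.η_le 2
  have h3 : D * D1 ≤ (K * D) ^ 2 := by nlinarith
  have h4 : D * D1 * (ν * (K * D) ^ 3) ≤ (K * D) ^ 2 * (ν * (K * D) ^ 3) :=
    mul_le_mul_of_nonneg_right h3 (mul_nonneg hν.le (pow_nonneg (by linarith) 3))
  have h5 : 3 * D * ν * (16 * (K * D) ^ 3) ≤ 1 / D1 := by
    rw [le_div_iff₀ (by linarith)]
    nlinarith [hN.ν_small]
  calc _ = 3 * D * ν * (16 * (K * D) ^ 3) * S := by ring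
    _ ≤ _ := mul_le_mul_of_nonneg_right h5 hS

/-- Divide `lin2_sq_le` by `nrm2`, integrate term by term.  `p = q`: `β p p = 0` or `s p = D1` and
`16 (D1 + 2a)³ / D1⁴ ≤ 17 / D1`; `p ≠ q`: `(2/D) 1.02⁴ ≤ 17 / D1`; rest: `3 D ν · 16 (K D)³ ≤ 48 η² / (K D) ≤ 1 / D1`. -/
theorem two_abs (hN : Num K D D1 a η ν s) (hR : Rho K D D1 a (3 * D * ν) sea s dH dV ρ)
    (hu : Ramps K D D1 a η M u) (β : Fin K × Fin K → Fin K × Fin K → ℝ)
    (hβ : ∀ p : Fin K × Fin K, β p p = 0 ∨ s p.1 p.2 = D1) :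
    ∫⁻ y, ∫⁻ y', ENNReal.ofReal (lin2 (fun p : Fin K × Fin K => φF ρ s u p.1 p.2) β y y' ^ 2 / nrm2 (y - y')) ≤
      ENNReal.ofReal (18 / D1 * ∑ p, ∑ q, β p q ^ 2) := by
  have hD1 : 0 < D1 := by linarith [hN.D1_ge]
  have hS : 0 ≤ ∑ p, ∑ q, β p q ^ 2 := by positivity
  set T : Fin K × Fin K → Fin K × Fin K → P2 × P2 → ENNReal := fun p q =>
    ptwoT ((β p q / (s p.1 p.2 * s q.1 q.2)) ^ 2) (sqr D p.1 p.2 (s p.1 p.2 / 2 + a))
      (sqr D q.1 q.2 (s q.1 q.2 / 2 + a)) with hT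
  set T₀ := ptwoT (3 * D * ν * ∑ p, ∑ q, β p q ^ 2) (allc K D) (allc K D) with hT₀
  have mT : ∀ p q, Measurable (T p q) := fun p q =>
    ptwoT_meas _ (measurableSet_sqr _ _ _ _) (measurableSet_sqr _ _ _ _)
  have mT₀ : Measurable T₀ := ptwoT_meas _ (measurableSet_allc _ _) (measurableSet_allc _ _)
  have mS : ∀ p, Measurable fun z => ∑ q, T p q z := fun p =>
    Finset.measurable_sum _ fun q _ => mT p q
  have mS' : Measurable fun z => ∑ p, ∑ q, T p q z := Finset.measurable_sum _ fun p _ => mS p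
  calc _ ≤ ∫⁻ y, ∫⁻ y', ((∑ p, ∑ q, T p q (y, y')) + T₀ (y, y')) := by
        refine lintegral_mono fun y => lintegral_mono fun y' => ?_
        refine (ENNReal.ofReal_le_ofReal (div_le_div_of_nonneg_right
          (lin2_sq_le hN hR hu β y y') (ptwo_nrm2_nonneg _))).trans ?_
        rw [add_div]
        refine ENNReal.ofReal_add_le.trans (add_le_add ?_ le_rfl)
        rw [Finset.sum_div]
        refine (ptwo_ofReal_sum_le _ _).trans (Finset.sum_le_sum fun p _ => ?_)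
        rw [Finset.sum_div]
        exact ptwo_ofReal_sum_le _ _
    _ = ∫⁻ z, ((∑ p, ∑ q, T p q z) + T₀ z) ∂(volume.prod volume) :=
        (lintegral_prod _ (mS'.add mT₀).aemeasurable).symm
    _ = (∑ p, ∑ q, ∫⁻ z, T p q z ∂(volume.prod volume)) + ∫⁻ z, T₀ z ∂(volume.prod volume) := by
        rw [lintegral_add_left mS', lintegral_finsetSum _ fun p _ => mS p]
        congr 1
        exact Finset.sum_congr rfl fun p _ => lintegral_finsetSum _ fun q _ => mT p q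
    _ ≤ (∑ p, ∑ q, ENNReal.ofReal (17 / D1 * β p q ^ 2)) +
          ENNReal.ofReal (1 / D1 * ∑ p, ∑ q, β p q ^ 2) :=
        add_le_add (Finset.sum_le_sum fun p _ => Finset.sum_le_sum fun q _ => ptwo_term hN β hβ p q)
          (ptwo_rest hN hS)
    _ = _ := by
        have h1 : (∑ p, ∑ q, ENNReal.ofReal (17 / D1 * β p q ^ 2)) =
            ENNReal.ofReal (17 / D1 * ∑ p, ∑ q, β p q ^ 2) := by
          rw [Finset.mul_sum, ENNReal.ofReal_sum_of_nonneg fun p _ => by positivity]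
          refine Finset.sum_congr rfl fun p _ => ?_
          rw [Finset.mul_sum, ENNReal.ofReal_sum_of_nonneg fun q _ => by positivity]
        rw [h1, ← ENNReal.ofReal_add (by positivity) (by positivity)]
        congr 1
        ring

end Crest.Agent.R338
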