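import Crest.Agent.R338.Plane_Hats
import Crest.Agent.R338.Plane_Form

/-!
# Planar package: kinetic energy of the trial functions

Helper prefix `pup_`.
-/

set_option autoImplicit false
set_option linter.dupNamespace false
set_option linter.unusedVariables false

noncomputable section

namespace Crest.Agent.R338

open Matrix MeasureTheory Set
open Crest.MathPhysics.ElectronicCoulomb

variable {K : ℕ} {D D1 a η ν δ sea M : ℝ} {s dH dV : ℕ → ℕ → ℝ} {ρ : P2 → ℝ} {u : ℕ → ℝ → ℝ}

/-- jump of `β` across the ramp number `i ≤ K` -/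
def jmp (K : ℕ) (β : ℕ → ℕ → ℝ) (i j : ℕ) : ℝ :=
  (if i < K then β i j else 0) - if 0 < i then β (i - 1) j else 0

/-- level of the wire that crosses the ramp number `i` -/
def dW (K : ℕ) (dH : ℕ → ℕ → ℝ) (i j : ℕ) : ℝ := if 0 < i ∧ i < K then dH (i - 1) j else 0

theorem pup_abel (K : ℕ) (d B : ℕ → ℝ) :
    ∑ i ∈ Finset.range (K + 1), d i * ((if i < K then B i else 0) - if 0 < i then B (i - 1) else 0) =
      ∑ i ∈ Finset.range K, B i * (d i - d (i + 1)) := by
  simp only [mul_sub, Finset.sum_sub_distrib]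
  congr 1
  · rw [Finset.sum_range_succ, if_neg (lt_irrefl _), mul_zero, add_zero]
    exact Finset.sum_congr rfl fun i hi => by rw [if_pos (Finset.mem_range.1 hi), mul_comm]
  · rw [Finset.sum_range_succ', if_neg (lt_irrefl _), mul_zero, add_zero]
    exact Finset.sum_congr rfl fun i _ => by
      rw [if_pos (Nat.succ_pos i), Nat.add_sub_cancel, mul_comm]

theorem pup_dW_nonneg (hR : Rho K D D1 a δ sea s dH dV ρ) (i j : ℕ) : 0 ≤ dW K dH i j := by
  unfold dW
  split_ifs
  exacts [hR.dH_nonneg _ _, le_rfl]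

theorem pup_ind_int (l r : ℝ) : Integrable ((Icc l r).indicator (1 : ℝ → ℝ)) :=
  (integrableOn_const (by simp)).integrable_indicator measurableSet_Icc

theorem pup_ind_val {l r : ℝ} (h : l ≤ r) : ∫ y, (Icc l r).indicator (1 : ℝ → ℝ) y = r - l := by
  rw [integral_indicator_one measurableSet_Icc, Real.volume_real_Icc_of_le h]

theorem pup_int {F : P2 → ℝ} (hρ : Continuous ρ) (hF : Continuous F) (hc : HasCompactSupport F) :
    Integrable fun y => ρ y * F y ^ 2 := by
  refine (hρ.mul (hF.pow 2)).integrable_of_hasCompactSupport (hc.mono fun y hy h => hy ?_)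
  simp [h]

theorem pup_num {D η ν sea B Q Qc Q1 : ℝ} (hD : 100 ≤ D) (hη : 0 < η) (hη1 : η ≤ 1 / 100)
    (hs : 0 ≤ sea) (hB : 0 ≤ B) (a1 : Q ≤ 2 * (1 + η) * D * Qc + sea * Q1) (b1 : Q1 ≤ 4 * 1 * B)
    (c1 : Qc ≤ 4 * (ν / 2) * B) (d1 : 0 ≤ Qc) :
    (1 + 2 * η) ^ 2 / D * Q ≤ 2 * Qc + 24 * (η * ν * B) + sea * B := by
  have hD0 : 0 < D := by linarith
  have h1 : Q ≤ 2 * (1 + η) * D * Qc + 4 * (sea * B) := by
    have := mul_le_mul_of_nonneg_left b1 hs
    linarith
  have h2 : (1 + 2 * η) ^ 2 / D * Q ≤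
      (1 + 2 * η) ^ 2 / D * (2 * (1 + η) * D * Qc + 4 * (sea * B)) :=
    mul_le_mul_of_nonneg_left h1 (by positivity)
  have h3 : (1 + 2 * η) ^ 2 / D * (2 * (1 + η) * D * Qc + 4 * (sea * B)) =
      2 * ((1 + 2 * η) ^ 2 * (1 + η)) * Qc + 4 * (1 + 2 * η) ^ 2 / D * (sea * B) := by
    field_simp
  have h4 : (1 + 2 * η) ^ 2 * (1 + η) ≤ 1 + 6 * η := by nlinarith [mul_pos hη hη]
  have h5 : 4 * (1 + 2 * η) ^ 2 / D ≤ 1 := by
    rw [div_le_one hD0]
    nlinarith
  have h6 := mul_le_mul_of_nonneg_right h4 d1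
  have h7 := mul_le_mul_of_nonneg_right h5 (mul_nonneg hs hB)
  have h8 := mul_le_mul_of_nonneg_left c1 hη.le
  rw [h3] at h2
  linarith

/-- Abel summation and `hasDerivAt_dx` -/
theorem dx_comb (hN : Num K D D1 a η ν s) (hu : Ramps K D D1 a η M u) (β : ℕ → ℕ → ℝ) (x y : ℝ) :
    dx (comb K u β) (x, y) =
      ∑ i ∈ Finset.range (K + 1), deriv (u i) x * ∑ j ∈ Finset.range K, jmp K β i j * hat u j y := by
  have hd : ∀ i, Differentiable ℝ (u i) := fun i => (hu.bd i).1.differentiable (by norm_num)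
  have h1 := hasDerivAt_dx ((cc1_comb hN hu β).1.differentiable (by norm_num)) x y
  have h2 : HasDerivAt (fun t => comb K u β (t, y))
      (∑ i ∈ Finset.range K, ∑ j ∈ Finset.range K,
        β i j * ((deriv (u i) x - deriv (u (i + 1)) x) * hat u j y)) x := by
    simp only [comb, sum2, hat]
    refine HasDerivAt.fun_sum fun i _ => HasDerivAt.fun_sum fun j _ => ?_
    exact (((hd i x).hasDerivAt.sub (hd (i + 1) x).hasDerivAt).mul_const _).const_mul _
  rw [h1.unique h2, Finset.sum_comm]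
  simp only [Finset.mul_sum]
  rw [Finset.sum_comm (s := Finset.range (K + 1))]
  refine Finset.sum_congr rfl fun j _ => ?_
  have h3 := pup_abel K (fun i => deriv (u i) x) (fun i => β i j)
  simp only [← mul_assoc]
  rw [← Finset.sum_mul, ← Finset.sum_mul, ← h3]
  rfl

/-- `u i` is locally constant outside `[rl i, rr i]` -/
theorem deriv_ramp_eq_zero (hu : Ramps K D D1 a η M u) {i : ℕ} (hi : i ≤ K) {x : ℝ}
    (hx : x ∉ Icc (rl D D1 a i) (rr K D D1 a i)) : deriv (u i) x = 0 := by
  rw [mem_Icc, not_and_or, not_le, not_le] at hx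
  rcases hx with hx | hx
  · have : u i =ᶠ[nhds x] fun _ => 0 :=
      (eventually_lt_nhds hx).mono fun z hz => hu.zero i hi z hz.le
    rw [this.deriv_eq, deriv_const]
  · have : u i =ᶠ[nhds x] fun _ => 1 :=
      (eventually_gt_nhds hx).mono fun z hz => hu.one i hi z hz.le
    rw [this.deriv_eq, deriv_const]

/-- For `x` in the ramp `i`: if `i = 0` or `i = K` use `outH`.  Otherwise, if `|y - c j'| ≤ ½ + a` for some `j' < K` then either
`j' = j` (`gapH`) or `hat u j y = 0` (`hat_eq_ite`); if there is no such `j'` use `seaH`; `hat_far`, `hat_mem`. -/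
theorem rho_hat_le (hN : Num K D D1 a η ν s) (hR : Rho K D D1 a δ sea s dH dV ρ) (hu : Ramps K D D1 a η M u)
    {i j : ℕ} (hi : i ≤ K) (hj : j < K) {x : ℝ} (hx : x ∈ Icc (rl D D1 a i) (rr K D D1 a i)) (y : ℝ) :
    ρ (x, y) * hat u j y ≤
      dW K dH i j * (Icc (cen D j - (1 / 2 + a)) (cen D j + (1 / 2 + a))).indicator 1 y +
        sea * (Icc (cen D j - D) (cen D j + D)).indicator 1 y := by
  have hD := hN.D_ge
  have hD1 := hN.D1_ge
  have ha := hN.a_pos
  have hK := hN.K_pos
  have hW := pup_dW_nonneg hR i j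
  have hsea := hR.sea_nonneg
  have hI1 : 0 ≤ (Icc (cen D j - (1 / 2 + a)) (cen D j + (1 / 2 + a))).indicator (1 : ℝ → ℝ) y :=
    indicator_nonneg (fun _ _ => zero_le_one) _
  have hI2 : 0 ≤ (Icc (cen D j - D) (cen D j + D)).indicator (1 : ℝ → ℝ) y :=
    indicator_nonneg (fun _ _ => zero_le_one) _
  have hzero : hat u j y = 0 → ρ (x, y) * hat u j y ≤
      dW K dH i j * (Icc (cen D j - (1 / 2 + a)) (cen D j + (1 / 2 + a))).indicator 1 y +
        sea * (Icc (cen D j - D) (cen D j + D)).indicator 1 y := fun h => by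
    rw [h, mul_zero]
    positivity
  have hle : ρ (x, y) * hat u j y ≤ ρ (x, y) :=
    mul_le_of_le_one_right (hR.nonneg _) (hat_mem hN hu hj y).2
  by_cases hfar : D ≤ |y - cen D j|
  · exact hzero (hat_far hN hu hj hfar)
  have hy : y ∈ Icc (cen D j - D) (cen D j + D) := by
    have := abs_lt.1 (not_le.1 hfar)
    constructor <;> linarith [this.1, this.2]
  have hsea' : ρ (x, y) ≤ sea → ρ (x, y) * hat u j y ≤
      dW K dH i j * (Icc (cen D j - (1 / 2 + a)) (cen D j + (1 / 2 + a))).indicator 1 y +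
        sea * (Icc (cen D j - D) (cen D j + D)).indicator 1 y := fun h => by
    rw [indicator_of_mem hy, Pi.one_apply, mul_one]
    have := mul_nonneg hW hI1
    linarith
  obtain ⟨hx1, hx2⟩ := hx
  by_cases h0 : i = 0
  · subst h0
    refine hsea' (hR.outH x y (Or.inl ?_))
    unfold rr at hx2
    rw [if_neg (by omega)] at hx2
    linarith
  unfold rl at hx1
  rw [if_neg h0] at hx1
  by_cases hiK : i = K
  · subst hiK
    exact hsea' (hR.outH x y (Or.inr (by linarith)))
  unfold rr at hx2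
  rw [if_neg hiK] at hx2
  by_cases hex : ∃ j' < K, |y - cen D j'| ≤ 1 / 2 + a
  · obtain ⟨j', hj', hy'⟩ := hex
    by_cases hjj : j = j'
    · subst hjj
      have e : i - 1 + 1 = i := by omega
      have h1 := hR.gapH (i - 1) j (by omega) hj x y (by linarith) (by rw [e]; linarith) hy'
      have h2 : y ∈ Icc (cen D j - (1 / 2 + a)) (cen D j + (1 / 2 + a)) := by
        have := abs_le.1 hy'
        constructor <;> linarith [this.1, this.2]
      have h3 : dW K dH i j = dH (i - 1) j := if_pos ⟨by omega, by omega⟩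
      rw [indicator_of_mem h2, Pi.one_apply, mul_one, h3]
      have := mul_nonneg hsea hI2
      linarith
    · refine hzero ?_
      rw [hat_eq_ite hN hu hj' hj (hy'.trans (by linarith)), if_neg hjj]
  · push Not at hex
    refine hsea' (hR.seaH x y (fun i' hi' => ?_) fun j' hj' => (hex j' hj').le)
    rcases lt_or_ge i' i with h | h
    · have := cen_mono (D := D) (by linarith) (show i' ≤ i - 1 by omega)
      exact le_abs.2 (Or.inl (by linarith))
    · have := cen_mono (D := D) (by linarith) h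
      exact le_abs.2 (Or.inr (by linarith))

theorem sum_jmp_sq_le (β : ℕ → ℕ → ℝ) :
    ∑ i ∈ Finset.range (K + 1), ∑ j ∈ Finset.range K, jmp K β i j ^ 2 ≤ 4 * sum2 K fun i j => β i j ^ 2 := by
  have h1 : ∀ i j, jmp K β i j ^ 2 ≤
      2 * (if i < K then β i j ^ 2 else 0) + 2 * (if 0 < i then β (i - 1) j ^ 2 else 0) := by
    intro i j
    unfold jmp
    split_ifs
    · nlinarith [sq_nonneg (β i j + β (i - 1) j)]
    · nlinarith [sq_nonneg (β i j)]
    · nlinarith [sq_nonneg (β (i - 1) j)]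
    · simp
  refine (Finset.sum_le_sum fun i _ => Finset.sum_le_sum fun j _ => h1 i j).trans (le_of_eq ?_)
  simp only [Finset.sum_add_distrib, ← Finset.mul_sum]
  have e1 : ∑ i ∈ Finset.range (K + 1), ∑ j ∈ Finset.range K, (if i < K then β i j ^ 2 else 0) =
      sum2 K fun i j => β i j ^ 2 := by
    rw [Finset.sum_range_succ]
    simp only [lt_irrefl, if_false, Finset.sum_const_zero, add_zero, sum2]
    exact Finset.sum_congr rfl fun i hi => Finset.sum_congr rfl fun j _ =>
      if_pos (Finset.mem_range.1 hi)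
  have e2 : ∑ i ∈ Finset.range (K + 1), ∑ j ∈ Finset.range K,
      (if 0 < i then β (i - 1) j ^ 2 else 0) = sum2 K fun i j => β i j ^ 2 := by
    rw [Finset.sum_range_succ']
    simp [sum2]
  rw [e1, e2]
  ring

theorem sum_dW_jmp (β : ℕ → ℕ → ℝ) (hK : 1 ≤ K) :
    ∑ i ∈ Finset.range (K + 1), ∑ j ∈ Finset.range K, dW K dH i j * jmp K β i j ^ 2 = QH K dH β := by
  obtain ⟨L, rfl⟩ : ∃ L, K = L + 1 := ⟨K - 1, by omega⟩
  rw [Finset.sum_range_succ, Finset.sum_range_succ']
  have e0 : ∀ j, dW (L + 1) dH 0 j = 0 := fun j => if_neg (by omega)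
  have e1 : ∀ j, dW (L + 1) dH (L + 1) j = 0 := fun j => if_neg (by omega)
  simp only [e0, e1, zero_mul, Finset.sum_const_zero, add_zero, QH, Nat.add_sub_cancel]
  refine Finset.sum_congr rfl fun i hi => Finset.sum_congr rfl fun j _ => ?_
  have hi' := Finset.mem_range.1 hi
  unfold dW jmp
  rw [if_pos (by omega), if_pos (by omega), if_pos (by omega), Nat.add_sub_cancel]
  ring

theorem pup_deriv_int (hu : Ramps K D D1 a η M u) {i : ℕ} (hi : i ≤ K) :
    Integrable fun x => deriv (u i) x ^ 2 := by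
  have hc : Continuous (deriv (u i)) := (hu.bd i).1.continuous_deriv (by norm_num)
  refine (hc.pow 2).integrable_of_hasCompactSupport
    (HasCompactSupport.intro (isCompact_Icc (a := rl D D1 a i) (b := rr K D D1 a i)) fun x hx => ?_)
  simp [deriv_ramp_eq_zero hu hi hx]

/-- At most one `deriv (u i) x` is nonzero (`deriv_ramp_eq_zero`, `rr_le_rl`), so by `sq_sum_le` and `rho_hat_le`
`ρ (dx comb)² ≤ ∑_i ∑_j jmp² (u i)'(x)² W i j (y)`; integrate with `integral_prod_mul` (`deriv (u i)` is continuous with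
compact support): `∫ W i j = (1 + 2a) dW + 2 D sea`, `en_in` where `dW ≠ 0`, `en_out` for the `sea` part. -/
theorem energy_H (hN : Num K D D1 a η ν s) (hR : Rho K D D1 a δ sea s dH dV ρ) (hu : Ramps K D D1 a η M u)
    (β : ℕ → ℕ → ℝ) :
    ∫ y, ρ y * dx (comb K u β) y ^ 2 ≤
      (1 + 2 * η) ^ 2 / D * QH K dH β + 40 * sea * sum2 K fun i j => β i j ^ 2 := by
  have hD := hN.D_ge
  have ha := hN.a_pos
  have haη := hN.a_le
  have hsea := hR.sea_nonneg
  set W : ℕ → ℕ → ℝ → ℝ := fun i j y =>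
    dW K dH i j * (Icc (cen D j - (1 / 2 + a)) (cen D j + (1 / 2 + a))).indicator 1 y +
      sea * (Icc (cen D j - D) (cen D j + D)).indicator 1 y with hW
  have hW0 : ∀ i j y, 0 ≤ W i j y := fun i j y =>
    add_nonneg (mul_nonneg (pup_dW_nonneg hR i j) (indicator_nonneg (fun _ _ => zero_le_one) _))
      (mul_nonneg hsea (indicator_nonneg (fun _ _ => zero_le_one) _))
  have hWi : ∀ i j, Integrable (W i j) := fun i j =>
    ((pup_ind_int _ _).const_mul _).add ((pup_ind_int _ _).const_mul _)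
  have hWv : ∀ i j, ∫ y, W i j y = dW K dH i j * (1 + 2 * a) + sea * (2 * D) := fun i j => by
    simp only [hW]
    rw [integral_add ((pup_ind_int _ _).const_mul _) ((pup_ind_int _ _).const_mul _),
      integral_const_mul, integral_const_mul, pup_ind_val (by linarith), pup_ind_val (by linarith)]
    ring
  have hpt : ∀ p : P2, ρ p * dx (comb K u β) p ^ 2 ≤ ∑ i ∈ Finset.range (K + 1),
      ∑ j ∈ Finset.range K, jmp K β i j ^ 2 * (deriv (u i) p.1 ^ 2 * W i j p.2) := by
    rintro ⟨x, y⟩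
    have hnn : ∀ i ∈ Finset.range (K + 1), 0 ≤ ∑ j ∈ Finset.range K,
        jmp K β i j ^ 2 * (deriv (u i) x ^ 2 * W i j y) := fun i _ =>
      Finset.sum_nonneg fun j _ => mul_nonneg (sq_nonneg _) (mul_nonneg (sq_nonneg _) (hW0 _ _ _))
    rw [dx_comb hN hu]
    by_cases hex : ∃ i ≤ K, x ∈ Icc (rl D D1 a i) (rr K D D1 a i)
    · obtain ⟨i, hi, hx⟩ := hex
      have hi' : i ∈ Finset.range (K + 1) := Finset.mem_range.2 (by omega)
      rw [Finset.sum_eq_single_of_mem i hi']
      · refine le_trans ?_ (Finset.single_le_sum hnn hi')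
        have h1 := sq_sum_le (Finset.range K) (w := fun j => hat u j y)
          (fun j hj => (hat_mem hN hu (Finset.mem_range.1 hj) y).1) (sum_hat_le hu y)
          (fun j => jmp K β i j)
        calc ρ (x, y) * (deriv (u i) x * ∑ j ∈ Finset.range K, jmp K β i j * hat u j y) ^ 2
            = ρ (x, y) * deriv (u i) x ^ 2 *
              (∑ j ∈ Finset.range K, jmp K β i j * hat u j y) ^ 2 := by ring
          _ ≤ ρ (x, y) * deriv (u i) x ^ 2 *
              ∑ j ∈ Finset.range K, jmp K β i j ^ 2 * hat u j y :=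
            mul_le_mul_of_nonneg_left h1 (mul_nonneg (hR.nonneg _) (sq_nonneg _))
          _ = ∑ j ∈ Finset.range K,
              jmp K β i j ^ 2 * (deriv (u i) x ^ 2 * (ρ (x, y) * hat u j y)) := by
            rw [Finset.mul_sum]
            exact Finset.sum_congr rfl fun j _ => by ring
          _ ≤ _ := Finset.sum_le_sum fun j hj => mul_le_mul_of_nonneg_left
              (mul_le_mul_of_nonneg_left (rho_hat_le hN hR hu hi (Finset.mem_range.1 hj) hx y)
                (sq_nonneg _)) (sq_nonneg _)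
      · intro i' hi'' hne
        have hk : i' ≤ K := by have := Finset.mem_range.1 hi''; omega
        rw [deriv_ramp_eq_zero hu hk, zero_mul]
        intro hx'
        rcases lt_or_gt_of_ne hne with h | h
        · linarith [rr_le_rl hN h hi, hx.1, hx'.2]
        · linarith [rr_le_rl hN h hk, hx.2, hx'.1]
    · push Not at hex
      rw [Finset.sum_eq_zero fun i hi => by
        rw [deriv_ramp_eq_zero hu (show i ≤ K by have := Finset.mem_range.1 hi; omega)
          (hex i (by have := Finset.mem_range.1 hi; omega)), zero_mul]]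
      simpa using Finset.sum_nonneg hnn
  have hint : ∀ i ∈ Finset.range (K + 1), ∀ j, Integrable
      (fun p : P2 => jmp K β i j ^ 2 * (deriv (u i) p.1 ^ 2 * W i j p.2)) := fun i hi j => by
    refine Integrable.const_mul ?_ _
    rw [Measure.volume_eq_prod]
    exact (pup_deriv_int hu (by have := Finset.mem_range.1 hi; omega)).mul_prod (hWi i j)
  refine (integral_mono_of_nonneg
    (Filter.Eventually.of_forall fun p => mul_nonneg (hR.nonneg _) (sq_nonneg _))
    (integrable_finsetSum _ fun i hi => integrable_finsetSum _ fun j _ => hint i hi j)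
    (Filter.Eventually.of_forall hpt)).trans ?_
  rw [integral_finsetSum _ fun i hi => integrable_finsetSum _ fun j _ => hint i hi j]
  have hb : ∀ i ∈ Finset.range (K + 1),
      ∫ p : P2, ∑ j ∈ Finset.range K, jmp K β i j ^ 2 * (deriv (u i) p.1 ^ 2 * W i j p.2) ≤
      ∑ j ∈ Finset.range K, ((1 + 2 * η) ^ 2 / D * (dW K dH i j * jmp K β i j ^ 2) +
        10 * sea * jmp K β i j ^ 2) := by
    intro i hi
    have hk : i ≤ K := by have := Finset.mem_range.1 hi; omega
    rw [integral_finsetSum _ fun j _ => hint i hi j]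
    refine Finset.sum_le_sum fun j _ => ?_
    rw [integral_const_mul, Measure.volume_eq_prod,
      integral_prod_mul (fun x => deriv (u i) x ^ 2) (W i j), hWv]
    have h0 : 0 ≤ ∫ x, deriv (u i) x ^ 2 := integral_nonneg fun x => sq_nonneg _
    have h1 : (∫ x, deriv (u i) x ^ 2) * (sea * (2 * D)) ≤ 10 * sea := by
      have := mul_le_mul_of_nonneg_right (hu.en_out i hk) (show 0 ≤ sea * (2 * D) by positivity)
      refine this.trans (le_of_eq ?_)
      field_simp
      ring
    have h2 : (∫ x, deriv (u i) x ^ 2) * (dW K dH i j * (1 + 2 * a)) ≤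
        (1 + 2 * η) ^ 2 / D * dW K dH i j := by
      by_cases h : 0 < i ∧ i < K
      · have hw := pup_dW_nonneg hR i j
        calc _ ≤ (1 + 2 * η) / D * (dW K dH i j * (1 + 2 * η)) := by
              refine mul_le_mul (hu.en_in i h.1 h.2) ?_ (by positivity) ?_
              · exact mul_le_mul_of_nonneg_left (by linarith) hw
              · have := hN.η_pos
                positivity
          _ = _ := by ring
      · have : dW K dH i j = 0 := if_neg h
        simp [this]
    have h3 := mul_le_mul_of_nonneg_left (add_le_add h2 h1) (sq_nonneg (jmp K β i j))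
    calc _ = jmp K β i j ^ 2 * ((∫ x, deriv (u i) x ^ 2) * (dW K dH i j * (1 + 2 * a)) +
          (∫ x, deriv (u i) x ^ 2) * (sea * (2 * D))) := by ring
      _ ≤ _ := h3
      _ = _ := by ring
  refine (Finset.sum_le_sum hb).trans ?_
  simp only [Finset.sum_add_distrib, ← Finset.mul_sum]
  rw [sum_dW_jmp β hN.K_pos]
  have := mul_le_mul_of_nonneg_left (sum_jmp_sq_le (K := K) β) (show 0 ≤ 10 * sea by positivity)
  linarith

/-- `energy_H` for `hR.swap`, `hN.swap` (`comb_swap`, `dx_swap`, `integral_swap2`, `QV_eq_QH`, `sum2_swap`) -/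
theorem energy_V (hN : Num K D D1 a η ν s) (hR : Rho K D D1 a δ sea s dH dV ρ) (hu : Ramps K D D1 a η M u)
    (β : ℕ → ℕ → ℝ) :
    ∫ y, ρ y * dy (comb K u β) y ^ 2 ≤
      (1 + 2 * η) ^ 2 / D * QV K dV β + 40 * sea * sum2 K fun i j => β i j ^ 2 := by
  have h := energy_H hN.swap hR.swap hu fun i j => β j i
  have e : comb K u (fun i j => β j i) = fun y : P2 => comb K u β y.swap := funext (comb_swap β)
  have hd : Differentiable ℝ (comb K u β) := (cc1_comb hN hu β).1.differentiable (by norm_num)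
  rw [e] at h
  simp only [dx_swap hd] at h
  rw [integral_swap2 fun y => ρ y * dy (comb K u β) y ^ 2, ← QV_eq_QH,
    sum2_swap K fun i j => β i j ^ 2] at h
  exact h

/-- `QH dH ≤ 2 (1 + η) D QH cH + sea QH 1` (`QH_mono`, `QH_add_mul`), `QH 1 ≤ 4 B`, `QH cH ≤ 2 ν B` (`QH_le`),
`(1 + 2η)² (1 + η) ≤ 1 + 6 η`. -/
theorem energy_up (hN : Num K D D1 a η ν s) (hR : Rho K D D1 a δ sea s dH dV ρ) (hu : Ramps K D D1 a η M u)
    {cH cV : ℕ → ℕ → ℝ} (hsea : sea ≤ η * ν)
    (hH : ∀ i j, i + 1 < K → j < K → 0 ≤ cH i j ∧ 2 * cH i j ≤ ν ∧ dH i j ≤ (1 + η) * (D * (2 * cH i j)) + sea)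
    (hV : ∀ i j, i < K → j + 1 < K → 0 ≤ cV i j ∧ 2 * cV i j ≤ ν ∧ dV i j ≤ (1 + η) * (D * (2 * cV i j)) + sea)
    (β : ℕ → ℕ → ℝ) :
    1 / 2 * ∫ y, ρ y * (dx (comb K u β) y ^ 2 + dy (comb K u β) y ^ 2) ≤
      QH K cH β + QV K cV β + 70 * η * ν * sum2 K fun i j => β i j ^ 2 := by
  have hD := hN.D_ge
  have hη := hN.η_pos
  have hη1 := hN.η_le
  have hν := hN.ν_pos
  have hs0 := hR.sea_nonneg
  have hc := cc1_comb hN hu β
  have i1 : Integrable fun y => ρ y * dx (comb K u β) y ^ 2 :=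
    pup_int hR.cont (continuous_dx hc.1) hc.hasCompactSupport_dx
  have i2 : Integrable fun y => ρ y * dy (comb K u β) y ^ 2 :=
    pup_int hR.cont (continuous_dy hc.1) hc.hasCompactSupport_dy
  simp only [mul_add (ρ _)]
  rw [integral_add i1 i2]
  have e1 := energy_H hN hR hu β
  have e2 := energy_V hN hR hu β
  set B := sum2 K fun i j => β i j ^ 2 with hB
  have hB0 : 0 ≤ B := sum2_nonneg fun i _ j _ => sq_nonneg _
  have a1 : QH K dH β ≤ 2 * (1 + η) * D * QH K cH β + sea * QH K (fun _ _ => 1) β := by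
    rw [← QH_add_mul]
    exact QH_mono (fun i j hi hj => (hH i j hi hj).2.2.trans (le_of_eq (by ring))) β
  have a2 : QV K dV β ≤ 2 * (1 + η) * D * QV K cV β + sea * QV K (fun _ _ => 1) β := by
    rw [← QV_add_mul]
    exact QV_mono (fun i j hi hj => (hV i j hi hj).2.2.trans (le_of_eq (by ring))) β
  have b1 : QH K (fun _ _ => 1) β ≤ 4 * 1 * B := QH_le zero_le_one (fun _ _ _ _ => le_rfl) β
  have b2 : QV K (fun _ _ => 1) β ≤ 4 * 1 * B := QV_le zero_le_one (fun _ _ _ _ => le_rfl) β
  have c1 : QH K cH β ≤ 4 * (ν / 2) * B :=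
    QH_le (by positivity) (fun i j hi hj => by linarith [(hH i j hi hj).2.1]) β
  have c2 : QV K cV β ≤ 4 * (ν / 2) * B :=
    QV_le (by positivity) (fun i j hi hj => by linarith [(hV i j hi hj).2.1]) β
  have d1 : 0 ≤ QH K cH β := QH_nonneg (fun i j hi hj => (hH i j hi hj).1) β
  have d2 : 0 ≤ QV K cV β := QV_nonneg (fun i j hi hj => (hV i j hi hj).1) β
  have f1 := pup_num hD hη hη1 hs0 hB0 a1 b1 c1 d1
  have f2 := pup_num hD hη hη1 hs0 hB0 a2 b2 c2 d2
  have g := mul_le_mul_of_nonneg_right hsea hB0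
  have g0 : 0 ≤ η * ν * B := by positivity
  linarith

end Crest.Agent.R338
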