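import Crest.Agent.R338.Plane_Bd
import Crest.Agent.R338.Plane_Low
import Crest.Agent.R338.Plane_Gram
import Crest.Agent.R338.Plane_Up
import Crest.Agent.R338.Plane_Two

/-! # The planar package

Notation: `Φ = exp (-S)`, `ρ = Φ²`, `f = ψ exp S`, so `∇ψ + ψ∇S = Φ ∇f`; `E = ∫ρ|∇f|²`, `X2 = E/2 + ∫vψ²`;
`c i = cen D i`, `s = sd`; cell `p = [c i - D/2, c i + D/2) × [c j - D/2, c j + D/2)`, island
`I p = [c ± s/2]²`, `I⁺ p = [c ± (s/2 + a)]²`; `δ_e² = exp(-2 lv e)`, `c_e = 2 s_p s_q t_e`, `δ² = 3Dν ≥ δ_e², exp(-2Ssea)`.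
1. **Design facts.** `0 ≤ S ≤ Ssea`; in a cell only the island and its ≤ 4 wires contribute; `ρ = 1` on `I p`;
   `ρ ≤ δ²` on cell `\ I⁺`; *unimodality*: for `(x,y)` in cell `p` and `t` between `min(y, c j - ½)` and
   `max(y, c j + ½)`, `ρ(x,y) ≤ ρ(x,t)` (same in `x`); `ρ ≥ δ_e²` on the core `[c i, c (i+1)] × [c j ± ½]` of a wire;
   for `x` in the gap `[c i + D1/2 + a, c (i+1) - D1/2 - a]`: `ρ ≤ δ_e²` if `|y - c j| ≤ ½ + a`, and `ρ = exp(-2Ssea)` if no such `j`;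
   `ρ = exp(-2 Ssea)` for `x ≤ c 0 - D1/2 - a` or `x ≥ c (K-1) + D1/2 + a`.  `Bd` bounds from `exists_sig_bd`.
   Form identity: `α⬝kα = ∑_e (c_e/2)(α_p/s_p - α_q/s_q)² + ∑ ep α²`.
2. **Cell lemma.** `g p` = average of `f` over the unit square at the centre; along the uphill path
   `(x,y) → (x,y') → (x',y')`: `∫_cell ρ (f - g p)² ≤ 4 D³ ∫_cell ρ|∇f|²`.
   `e p = Φ 1_cell/√(m p)`, `m p = ∫_cell ρ ∈ [s², (s+2a)² + δ²D²]`, `α p = √(m p) f̄ p` (`f̄` = `ρ`-average),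
   `Rg p = I p` (or its interior).  `poin`: on cells `∫ρ f² - α² = min_c ∫ρ(f-c)²`; outside all cells `v = 1`.
3. **Wire lemma.** `δ_e² (g p - g q)² ≤ (1+η)(D+1) ∫_{strip e minus centre squares} ρ |∂f|² + small · E`, strips are disjoint.
   With `m p (f̄ p - g p)² ≤ 4D³E_cell`, `α/s = f̄ √m/s`, and `|∫χ_p ρ f² - α²| ≤ Cη α² + (C D³/η) E_cell` one gets `low`
   (all `E`-errors carry a factor `ν D³/η ≤ η`; `∑_e (c_e/2)(x_p - x_q)² ≤ 4ν|x|²`; Bessel `|α|² ≤ ∫ψ²`).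
4. **Trial functions.** Hats `F i` (`C⁴`, `≥ 0`, `∑ F i ≤ 1`), `F i = 1` on `[c i ± (D1/2 + 2a)]`, `F i + F (i+1) = 1` between,
   slope `≤ (1 + Cη)/D` in the gaps (normalised primitive of a `bump`), outer cut-off inside
   `[c 0 - D/4, c (K-1) + D/4]` (where `v = 0`) with slope `≤ C/D`.  `φ p = Φ F i (x) F j (y)/s p`.
   `gram`, `up`, `close` (`α' p = α p s p/√(m p)`), `two` (split into `I⁺ p × I⁺ q` and the rest, where one point has
   `ρ ≤ δ²`; `∫_{|x - x'| ≤ r} dx'/nrm2 (x - x') ≤ C r`) as computed in the usual way: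
   same big island `≤ C/D1`, different islands `≤ C/D`, rest `≤ C δ² (KD)³ ≤ C/D1`. -/

set_option autoImplicit false
set_option linter.dupNamespace false
set_option linter.unusedVariables false

noncomputable section

namespace Crest.Agent.R338

open Matrix MeasureTheory Set
open Crest.MathPhysics.ElectronicCoulomb

theorem plane_coef {K : ℕ} (D : ℝ) (ρ f : P2 → ℝ) {i j : ℕ} (hi : i < K) (hj : j < K) :
    ext (coef (fun p : Fin K × Fin K => eF D ρ p.1 p.2) fun y => √(ρ y) * f y) i j = alp D ρ f i j := by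
  unfold ext
  rw [dif_pos ⟨hi, hj⟩]
  rfl

theorem plane_QH_congr {K : ℕ} (c : ℕ → ℕ → ℝ) {x z : ℕ → ℕ → ℝ} (h : ∀ i < K, ∀ j < K, x i j = z i j) :
    QH K c x = QH K c z := by
  refine Finset.sum_congr rfl fun i hi => Finset.sum_congr rfl fun j hj => ?_
  rw [Finset.mem_range] at hi hj
  rw [h i (by omega) j hj, h (i + 1) (by omega) j hj]

theorem plane_QV_congr {K : ℕ} (c : ℕ → ℕ → ℝ) {x z : ℕ → ℕ → ℝ} (h : ∀ i < K, ∀ j < K, x i j = z i j) :
    QV K c x = QV K c z := by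
  refine Finset.sum_congr rfl fun i hi => Finset.sum_congr rfl fun j hj => ?_
  rw [Finset.mem_range] at hi hj
  rw [h i hi j (by omega), h i hi (j + 1) (by omega)]

theorem plane_sq {ρ : P2 → ℝ} (h0 : ∀ y, 0 ≤ ρ y) (f : P2 → ℝ) (y : P2) :
    (√(ρ y) * f y) ^ 2 = ρ y * f y ^ 2 := by
  rw [mul_pow, Real.sq_sqrt (h0 y)]

theorem plane_bd_φ {g : Geo ℝ} {D1 η Cb Cr X : ℝ} {u : ℕ → ℝ → ℝ} (hS : GeoS g D1) (hX : 1 ≤ X)
    (hXa : 1 / g.a ≤ X) (hCb : 1 ≤ Cb) (hCr : 1 ≤ Cr) (hb : Bd 8 (Cb * X ^ 40) g.S)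
    (hu : Ramps g.K g.D D1 g.a η (Cr / g.a ^ 8) u) {i j : ℕ} (hi : i < g.K) (hj : j < g.K) :
    Bd 4 (24576 * Cb ^ 4 * Cr ^ 2 * X ^ 200) (φF g.ρ g.sd u i j) := by
  have hM : 1 ≤ Cb * X ^ 40 := one_le_mul_of_one_le_of_one_le hCb (one_le_pow₀ hX)
  have h1 := (hb.mono (by norm_num : 4 ≤ 8) le_rfl).exp_neg (fun y => (hS.S_mem y).1) hM
  have h2 : Bd 4 _ fun y : P2 => hat u i y.1 * hat u j y.2 := (bd_hat hu i).fst.mul (bd_hat hu j).snd
  have h3 := h1.mul (h2.const_mul (g.sd i j)⁻¹)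
  have hs := hS.s_ge i hi j hj
  have e : φF g.ρ g.sd u i j =
      fun y => Real.exp (-g.S y) * ((g.sd i j)⁻¹ * (hat u i y.1 * hat u j y.2)) := by
    funext y
    unfold φF
    rw [g.sqrt_ρ, div_eq_inv_mul]
  rw [e]
  refine h3.mono le_rfl ?_
  have ha := hS.a_pos
  have hinv : |(g.sd i j)⁻¹| ≤ 1 := by
    rw [abs_of_pos (by positivity)]; exact inv_le_one_of_one_le₀ hs
  have hr : Cr / g.a ^ 8 ≤ Cr * X ^ 8 := by
    rw [div_eq_mul_one_div, ← _root_.one_div_pow]; gcongr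
  have h24 : ((Nat.factorial 4 : ℕ) : ℝ) = 24 := by norm_num [Nat.factorial]
  rw [h24]
  calc 2 ^ 4 * (24 * (Cb * X ^ 40) ^ 4) *
        (|(g.sd i j)⁻¹| * (2 ^ 4 * (2 * (Cr / g.a ^ 8)) * (2 * (Cr / g.a ^ 8))))
      ≤ 2 ^ 4 * (24 * (Cb * X ^ 40) ^ 4) * (1 * (2 ^ 4 * (2 * (Cr * X ^ 8)) * (2 * (Cr * X ^ 8)))) := by
        gcongr
    _ = 24576 * Cb ^ 4 * Cr ^ 2 * X ^ 176 := by ring
    _ ≤ 24576 * Cb ^ 4 * Cr ^ 2 * X ^ 200 := by gcongr; norm_num

theorem exists_plane : ∃ C : ℝ, 1 ≤ C ∧ ∀ (g : Geo ℝ) (tH tV ε : ℕ → ℕ → ℝ)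
    (hc : Fin g.K × Fin g.K → Prop) (D1 η ν : ℝ), GeoOK g tH tV ε hc D1 η ν →
    Nonempty (PL g.S g.v g.ε (gridMat g.K tH tV ε) hc (C * η * ν) (C * g.D ^ 3) η (C * η)
      (C * ν * (g.K * g.D) ^ 3) (C / D1) ν (C * (g.K * (1 + g.Ssea) / g.a) ^ 200)
      (g.D * (g.K + 1))) := by
  obtain ⟨Cb, hCb, Hb⟩ := exists_bd_S
  obtain ⟨Cr, hCr, Hr⟩ := exists_ramps
  have hCb4 : Cb ≤ Cb ^ 4 := le_self_pow₀ hCb (by norm_num)
  have hCr2 : 1 ≤ Cr ^ 2 := one_le_pow₀ hCr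
  have hCC : Cb ≤ Cb ^ 4 * Cr ^ 2 := hCb4.trans (le_mul_of_one_le_right (by positivity) hCr2)
  set C : ℝ := 24576 * Cb ^ 4 * Cr ^ 2 with hC
  have hC1 : Cb ≤ C := by rw [hC]; nlinarith
  have hC2 : 200 ≤ C := by rw [hC]; nlinarith
  refine ⟨C, by linarith, fun g tH tV ε hc D1 η ν h => ?_⟩
  have hN := h.num
  have hS := h.geoS
  have hR := h.rho
  have hχ := hS.chi
  have hη := hN.η_pos
  have hη1 := hN.η_le
  have hν := hN.ν_pos
  have hD := hN.D_ge
  have hD1 := hN.D1_ge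
  have ha := hN.a_pos
  have hK1 : (1 : ℝ) ≤ g.K := by exact_mod_cast h.K_pos
  have hKD : 100 ≤ g.K * g.D := hD.trans hN.D_le_KD
  have hν1 : ν ≤ 1 := by
    have h3 := hN.ν3
    have h4 : 1 ≤ (g.K * g.D) ^ 3 := one_le_pow₀ (by linarith)
    nlinarith
  have hep : ∀ i < g.K, ∀ j < g.K, |g.ep i j| ≤ ν := fun i hi j hj => (h.ep_eq i hi j hj).2
  obtain ⟨bS, bv, bε, bw⟩ := Hb g D1 hS fun i hi j hj => (hep i hi j hj).trans hν1
  obtain ⟨u, hu⟩ := Hr g.K g.D D1 g.a η ν g.sd hN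
  set X : ℝ := g.K * (1 + g.Ssea) / g.a with hX
  have hsea0 := h.sea_nonneg
  have hXa : 1 / g.a ≤ X := by
    rw [hX]; gcongr; nlinarith
  have hX1 : 1 ≤ X := by
    refine le_trans ?_ hXa
    rw [le_div_iff₀ ha]; linarith [hS.a_le]
  have m40 : Cb * X ^ 40 ≤ C * X ^ 200 := by gcongr; norm_num
  have m80 : Cb * X ^ 80 ≤ C * X ^ 200 := by gcongr; norm_num
  have hbox : allc g.K g.D ⊆ box2 (g.D * (g.K + 1)) := allc_subset_box (by linarith)
  have hisl : ∀ p : Fin g.K × Fin g.K, sqr g.D p.1 p.2 (g.sd p.1 p.2 / 2) ⊆ cell g.D p.1 p.2 := by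
    intro p
    have := hN.s_le _ p.1.2 _ p.2.2
    exact sqr_subset_cell (by linarith [hN.D_ge']) _ _
  have hcell : ∀ p q : Fin g.K × Fin g.K, p ≠ q → ∀ y ∈ cell g.D p.1 p.2, y ∉ cell g.D q.1 q.2 := by
    intro p q hpq y hy hy'
    exact hpq (Prod.ext (Fin.ext (ci_unique hy.1 hy'.1)) (Fin.ext (ci_unique hy.2 hy'.2)))
  have hs0 : ∀ i < g.K, ∀ j < g.K, g.sd i j ≠ 0 := fun i hi j hj => by
    linarith [hN.s_ge i hi j hj] |> fun (h : 0 < g.sd i j) => h.ne'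
  have hsea : Real.exp (-2 * g.Ssea) ≤ η * ν := by
    refine le_trans ?_ h.sea_small
    exact le_mul_of_one_le_right (Real.exp_pos _).le (one_le_pow₀ (by linarith))
  have hform : ∀ α : Fin g.K × Fin g.K → ℝ, α ⬝ᵥ gridMat g.K tH tV ε *ᵥ α =
      QH g.K (fun i j => g.sd i j * g.sd (i + 1) j * tH i j) (fun i j => ext α i j / g.sd i j) +
      QV g.K (fun i j => g.sd i j * g.sd i (j + 1) * tV i j) (fun i j => ext α i j / g.sd i j) +
      sum2 g.K fun i j => g.ep i j * ext α i j ^ 2 := by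
    intro α
    rw [form_identity g.sd tH tV ε hs0 α]
    congr 1
    exact sum2_congr fun i hi j hj => by rw [(h.ep_eq i hi j hj).1]
  have hcH : ∀ i j, i + 1 < g.K → j < g.K → 0 ≤ g.sd i j * g.sd (i + 1) j * tH i j := fun i j hi hj =>
    mul_nonneg (mul_nonneg (by linarith [hN.s_ge i (by omega) j hj]) (by linarith [hN.s_ge (i + 1) hi j hj]))
      (h.hor i j hi hj).1
  have hcV : ∀ i j, i < g.K → j + 1 < g.K → 0 ≤ g.sd i j * g.sd i (j + 1) * tV i j := fun i j hi hj =>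
    mul_nonneg (mul_nonneg (by linarith [hN.s_ge i hi j (by omega)]) (by linarith [hN.s_ge i hi (j + 1) hj]))
      (h.ver i j hi hj).1
  have hsq : ∀ α : Fin g.K × Fin g.K → ℝ,
      (sum2 g.K fun i j => g.sd i j ^ 2 * (ext α i j / g.sd i j) ^ 2) = α ⬝ᵥ α := by
    intro α
    rw [dot_eq_sum2]
    exact sum2_congr fun i hi j hj => by have := hs0 i hi j hj; field_simp
  have hvint : ∀ f : P2 → ℝ, 0 ≤ ∫ y, g.v y * (g.ρ y * f y ^ 2) := fun f =>
    integral_nonneg fun y => mul_nonneg (g.v_mem y).1 (mul_nonneg (hR.nonneg y) (sq_nonneg _))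
  have hEn : ∀ f : P2 → ℝ, 0 ≤ ∫ y, g.ρ y * (dx f y ^ 2 + dy f y ^ 2) := fun f =>
    integral_nonneg fun y => mul_nonneg (hR.nonneg y) (by positivity)
  refine ⟨{
    e := fun p => eF g.D g.ρ p.1 p.2
    Rg := fun p => sqr g.D p.1 p.2 (g.sd p.1 p.2 / 2)
    φ := fun p => φF g.ρ g.sd u p.1 p.2
    S_bd := bS.mono le_rfl m40
    v_bd := bv.mono le_rfl m40
    ε_bd := bε.mono le_rfl m40
    w_bd := bw.mono le_rfl m80
    v_nonneg := fun y => (g.v_mem y).1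
    ε_le := hS.ε_le hν.le hep
    w_out := fun y hy => hS.w_out hy
    e_meas := fun p => measurable_eF hR.cont _ _ _
    e_bdd := fun p y => ⟨abs_eF_le hN hR p.1.2 p.2.2 y, fun hy => eF_of_notMem fun hy' =>
      hy (hbox ((mem_allc (by linarith)).2 ⟨_, p.1.2, _, p.2.2, hy'⟩))⟩
    e_disj := ?_
    e_norm := fun p => eF_norm hN hR p.1.2 p.2.2
    Rg_meas := fun p => measurableSet_sqr _ _ _ _
    Rg_disj := fun p q hpq => Set.disjoint_left.2 fun y hy hy' => hcell p q hpq y (hisl p hy) (hisl q hy')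
    Rg_other := fun p q hpq y hy => eF_of_notMem (hcell p q hpq y (hisl p hy))
    Rg_diam := ?_
    Rg_mass := fun p _ => eF_island hN hR p.1.2 p.2.2
    poin := ?_
    low := ?_
    φ_bd := fun p => plane_bd_φ hS hX1 hXa hCb hCr bS hu p.1.2 p.2.2
    φ_supp := ?_
    gram := ?_
    up := ?_
    close := ?_
    two := ?_ }⟩
  · intro p q y hpq
    by_cases hy : y ∈ cell g.D p.1 p.2
    · rw [eF_of_notMem (hcell p q hpq y hy), mul_zero]
    · rw [eF_of_notMem hy, zero_mul]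
  · intro p hp y hy y' hy'
    rw [(h.sd_eq p).1 hp, mem_sqr] at hy hy'
    unfold nrm2
    rw [Real.sqrt_le_iff]
    refine ⟨by norm_num, ?_⟩
    simp only [Prod.fst_sub, Prod.snd_sub]
    have a1 : (y.1 - y'.1) ^ 2 ≤ 1 := by
      rw [sq_le_one_iff_abs_le_one, abs_le]
      constructor <;> linarith [hy.1.1, hy.1.2, hy'.1.1, hy'.1.2]
    have a2 : (y.2 - y'.2) ^ 2 ≤ 1 := by
      rw [sq_le_one_iff_abs_le_one, abs_le]
      constructor <;> linarith [hy.2.1, hy.2.2, hy'.2.1, hy'.2.2]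
    linarith
  · intro ψ hψ
    obtain ⟨f, hf, rfl⟩ := g.exists_f hψ
    rw [dot_eq_sum2, sum2_congr fun i hi j hj => by rw [plane_coef g.D g.ρ f hi hj], g.X2_eq hf.1]
    simp only [plane_sq hR.nonneg]
    refine (poin_abs hN hR hf g.continuous_v (fun y => (g.v_mem y).1) fun y hy => hS.v_out hy).trans ?_
    have := hvint f
    have := hEn f
    gcongr
    linarith
  · intro ψ hψ
    obtain ⟨f, hf, rfl⟩ := g.exists_f hψ
    have hl := low_abs hN hR hf hχ (cH := fun i j => g.sd i j * g.sd (i + 1) j * tH i j)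
      (cV := fun i j => g.sd i j * g.sd i (j + 1) * tV i j) (ep := g.ep)
      (fun i j hi hj => ⟨hcH i j hi hj, by linarith [(h.hor i j hi hj).2.1],
        by have := (h.hor i j hi hj).2.2.2.2.1; simp only [mul_assoc] at this ⊢; exact this⟩)
      (fun i j hi hj => ⟨hcV i j hi hj, by linarith [(h.ver i j hi hj).2.1],
        by have := (h.ver i j hi hj).2.2.2.2.1; simp only [mul_assoc] at this ⊢; exact this⟩) hep
    rw [hform, sum2_congr fun i hi j hj => by rw [plane_coef g.D g.ρ f hi hj],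
      plane_QH_congr _ fun i hi j hj => by rw [plane_coef g.D g.ρ f hi hj],
      plane_QV_congr _ fun i hi j hj => by rw [plane_coef g.D g.ρ f hi hj], g.X2_eq hf.1]
    simp only [plane_sq hR.nonneg, g.ε_eq]
    have h1 := hvint f
    have h2 : 0 ≤ ∫ y, g.ρ y * f y ^ 2 := integral_nonneg fun y => mul_nonneg (hR.nonneg y) (sq_nonneg _)
    have h3 : 126 * η * ν * (∫ y, g.ρ y * f y ^ 2) ≤ C * η * ν * ∫ y, g.ρ y * f y ^ 2 := by
      gcongr; linarith
    have h4 : 0 ≤ (1 - η) * ∫ y, g.v y * (g.ρ y * f y ^ 2) := mul_nonneg (by linarith) h1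
    rw [mul_add]
    linarith
  · intro p y hy
    have hy' : y ∉ inner4 g.K g.D := fun hc' => hy (hbox (inner4_subset_allc (by linarith) hc'))
    unfold φF
    rcases not_and_or.1 hy' with h1 | h1
    · rw [hat_out hN hu p.1.2 h1]; simp
    · rw [hat_out hN hu p.2.2 h1]; simp
  · intro α
    rw [lin_φF]
    simp only [plane_sq hR.nonneg]
    rw [← hsq α]
    refine ⟨gram_low hN hR hu _, (gram_up hN hR hu _).trans ?_⟩
    have : 0 ≤ sum2 g.K fun i j => g.sd i j ^ 2 * (ext α i j / g.sd i j) ^ 2 :=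
      sum2_nonneg fun i _ j _ => by positivity
    gcongr
    linarith
  · intro α
    have hcb := cc1_comb hN hu fun i j => ext α i j / g.sd i j
    have h1 := energy_up hN hR hu (cH := fun i j => g.sd i j * g.sd (i + 1) j * tH i j)
      (cV := fun i j => g.sd i j * g.sd i (j + 1) * tV i j) hsea
      (fun i j hi hj => ⟨hcH i j hi hj, by linarith [(h.hor i j hi hj).2.1],
        by have := (h.hor i j hi hj).2.2.2.2.2; simp only [mul_assoc] at this ⊢; exact this⟩)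
      (fun i j hi hj => ⟨hcV i j hi hj, by linarith [(h.ver i j hi hj).2.1],
        by have := (h.ver i j hi hj).2.2.2.2.2; simp only [mul_assoc] at this ⊢; exact this⟩)
      fun i j => ext α i j / g.sd i j
    have h2 := eps_up hN hR hu hχ hep fun i j => ext α i j / g.sd i j
    rw [hsq α] at h2
    have h3 : (sum2 g.K fun i j => g.ep i j * (g.sd i j ^ 2 * (ext α i j / g.sd i j) ^ 2)) =
        sum2 g.K fun i j => g.ep i j * ext α i j ^ 2 :=
      sum2_congr fun i hi j hj => by have := hs0 i hi j hj; field_simp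
    have h4 : (sum2 g.K fun i j => (ext α i j / g.sd i j) ^ 2) ≤ α ⬝ᵥ α := by
      rw [← hsq α]
      exact sum2_le_sum2 fun i hi j hj =>
        le_mul_of_one_le_left (sq_nonneg _) (one_le_pow₀ (hN.s_ge i hi j hj))
    have h5 : ∫ y, g.v y * (g.ρ y * comb g.K u (fun i j => ext α i j / g.sd i j) y ^ 2) = 0 := by
      rw [← integral_zero P2 ℝ]
      congr 1
      funext y
      by_cases hy : y ∈ inner4 g.K g.D
      · rw [hS.v_in hy, zero_mul]
      · rw [comb_out hN hu _ hy]; simp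
    rw [lin_φF, g.X2_eq hcb.1, hform, h5]
    simp only [plane_sq hR.nonneg, g.ε_eq]
    rw [h3] at h2
    have h6 := dot_self_nonneg α
    have h7 : 70 * η * ν * (sum2 g.K fun i j => (ext α i j / g.sd i j) ^ 2) ≤ 70 * η * ν * (α ⬝ᵥ α) := by
      gcongr
    have h8 : 75 * η * ν * (α ⬝ᵥ α) ≤ C * η * ν * (α ⬝ᵥ α) := by gcongr; linarith
    linarith
  · intro α
    obtain ⟨α', h1, h2⟩ := close_abs hN hR hu α
    refine ⟨α', h1, h2.trans ?_⟩
    have h6 := dot_self_nonneg α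
    gcongr
    linarith
  · intro β hβ
    refine (two_abs hN hR hu β fun p => ?_).trans (ENNReal.ofReal_le_ofReal ?_)
    · by_cases hp : hc p
      · exact Or.inl (hβ p hp)
      · exact Or.inr ((h.sd_eq p).2 hp)
    · have : 0 ≤ ∑ p, ∑ q, β p q ^ 2 := by positivity
      gcongr
      linarith

end Crest.Agent.R338
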