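import Crest.Agent.R338.Pot_D

/-! # Pot_Maj: integrals of the majorants
Keep the statements; auxiliary lemmas get the prefix `pmaj_`.
`wt ς y u ≤ (ς + |yᵢ - uᵢ|)⁻¹` for each coordinate, so `wt ^ 3 ≤` the product of the three; `setIntegral_prod_mul`.  All intervals
have length `≤ 4A` (`8 ≤ L ≤ A`), `ς ≥ h/8`, so `log (1 + 4A/ς) ≤ log (1 + 32 Ka) ≤ log (8 Ka) + log 5 ≤ 2 Λg`. -/

set_option autoImplicit false
set_option linter.dupNamespace false
set_option linter.unusedVariables false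

noncomputable section

namespace Crest.Agent.R338

open MeasureTheory Set Filter Topology

theorem wt_nonneg {ς : ℝ} (hς : 0 < ς) (y u : P3) : 0 ≤ wt ς y u := by
  unfold wt
  positivity
theorem continuous_wt {ς : ℝ} (hς : 0 < ς) (y : P3) : Continuous (wt ς y) := by
  unfold wt
  exact Continuous.inv₀ (f := fun u : P3 => ς + ‖y - u‖) (by fun_prop) fun u => by positivity
theorem maj_nonneg {ς : ℝ} (hς : 0 < ς) (Λ : ℝ) (y u : P3) : 0 ≤ maj ς Λ y u := by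
  exact add_nonneg (pow_nonneg (wt_nonneg hς y u) 3) (indicator_nonneg (fun u _ => wt_nonneg hς y u) u)
theorem pmaj_meas (Λ : ℝ) : MeasurableSet {u : P3 | ‖u.1‖ ≤ Λ + 3} :=
  (isClosed_le continuous_fst.norm continuous_const).measurableSet

theorem integrableOn_maj {ς : ℝ} (hς : 0 < ς) (Λ : ℝ) (y : P3) (A T : ℝ) : IntegrableOn (maj ς Λ y) (bx A T) := by
  exact (integrableOn_bx ((continuous_wt hς y).pow 3) A T).add
    ((integrableOn_bx (continuous_wt hς y) A T).indicator (pmaj_meas Λ))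

theorem pmaj_cont {ς : ℝ} (hς : 0 < ς) (t₀ : ℝ) : Continuous fun t : ℝ => (ς + |t₀ - t|)⁻¹ :=
  Continuous.inv₀ (f := fun t : ℝ => ς + |t₀ - t|) (by fun_prop) fun u => by positivity

/-- replace `t₀` by its projection `t₁` on `[α, β]` (the integrand increases), split at `t₁` -/
theorem int1 {ς α β : ℝ} (hς : 0 < ς) (h : α ≤ β) (t₀ : ℝ) :
    ∫ t in Ioc α β, (ς + |t₀ - t|)⁻¹ ≤ 2 * Real.log (1 + (β - α) / ς) := by
  obtain ⟨t₁, h1, h2, h3⟩ : ∃ t₁, α ≤ t₁ ∧ t₁ ≤ β ∧ ∀ t ∈ Ioc α β, |t₁ - t| ≤ |t₀ - t| := by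
    rcases le_total t₀ α with h1 | h1
    · refine ⟨α, le_rfl, h, fun t ht => ?_⟩
      rw [abs_of_nonpos (by linarith [ht.1]), abs_of_nonpos (by linarith [ht.1])]
      linarith
    rcases le_total β t₀ with h2 | h2
    · refine ⟨β, h, le_rfl, fun t ht => ?_⟩
      rw [abs_of_nonneg (by linarith [ht.2]), abs_of_nonneg (by linarith [ht.2])]
      linarith
    · exact ⟨t₀, h1, h2, fun t _ => le_rfl⟩
  have hlog : ∀ x, 0 ≤ x → x ≤ β - α → Real.log ((ς + x) / ς) ≤ Real.log (1 + (β - α) / ς) := by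
    intro x hx hx'
    refine Real.log_le_log (by positivity) ?_
    rw [add_div, div_self hς.ne']
    gcongr
  have e1 : ∫ t in α..t₁, (ς + |t₁ - t|)⁻¹ = Real.log ((ς + (t₁ - α)) / ς) := by
    rw [intervalIntegral.integral_congr (g := fun t => (fun x : ℝ => x⁻¹) (ς + t₁ - t)) fun t ht => by
      rw [uIcc_of_le h1] at ht
      simp only
      rw [abs_of_nonneg (by linarith [ht.2]), add_sub_assoc],
      intervalIntegral.integral_comp_sub_left (fun x : ℝ => x⁻¹), add_sub_cancel_right, add_sub_assoc,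
      integral_inv_of_pos hς (by linarith)]
  have e2 : ∫ t in t₁..β, (ς + |t₁ - t|)⁻¹ = Real.log ((ς + (β - t₁)) / ς) := by
    rw [intervalIntegral.integral_congr (g := fun t => (fun x : ℝ => x⁻¹) (t + (ς - t₁))) fun t ht => by
      rw [uIcc_of_le h2] at ht
      simp only
      rw [abs_of_nonpos (by linarith [ht.1])]
      congr 1
      ring,
      intervalIntegral.integral_comp_add_right (fun x : ℝ => x⁻¹), add_sub_cancel,
      show β + (ς - t₁) = ς + (β - t₁) by ring, integral_inv_of_pos hς (by linarith)]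
  calc ∫ t in Ioc α β, (ς + |t₀ - t|)⁻¹ ≤ ∫ t in Ioc α β, (ς + |t₁ - t|)⁻¹ :=
        setIntegral_mono_on (pmaj_cont hς t₀).integrableOn_Ioc (pmaj_cont hς t₁).integrableOn_Ioc
          measurableSet_Ioc fun t ht => inv_anti₀ (by positivity) (by linarith [h3 t ht])
    _ = (∫ t in α..t₁, (ς + |t₁ - t|)⁻¹) + ∫ t in t₁..β, (ς + |t₁ - t|)⁻¹ := by
        rw [intervalIntegral.integral_add_adjacent_intervals ((pmaj_cont hς t₁).intervalIntegrable _ _)
          ((pmaj_cont hς t₁).intervalIntegrable _ _), intervalIntegral.integral_of_le h]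
    _ ≤ _ := by
        rw [e1, e2]
        linarith [hlog (t₁ - α) (by linarith) (by linarith), hlog (β - t₁) (by linarith) (by linarith)]

theorem pmaj_int {a : Atoms} {w : P2 → ℝ} {ℓ ω L τ Λ M Λg : ℝ} (H : Hyp a w ℓ ω L τ Λ M Λg) {ς α β : ℝ}
    (hς : a.h / 8 ≤ ς) (h : α ≤ β) (hl : β - α ≤ 4 * a.A) (t₀ : ℝ) :
    ∫ t in Ioc α β, (ς + |t₀ - t|)⁻¹ ≤ 8 * Λg := by
  have h0 := H.ok.h_pos
  have hς0 : 0 < ς := by linarith
  have h1 : (8 : ℝ) ≤ a.Ka * a.h := H.L8.trans H.LA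
  have h2 : (a.Ka : ℝ) * a.h ≤ a.Ka := mul_le_of_le_one_right (Nat.cast_nonneg _) H.ok.h_le
  have h3 : (β - α) / ς ≤ 32 * a.Ka := by
    rw [div_le_iff₀ hς0]
    have : (32 * a.Ka : ℝ) * (a.h / 8) ≤ 32 * a.Ka * ς := mul_le_mul_of_nonneg_left hς (by positivity)
    unfold Atoms.A at hl
    linarith
  have h4 : Real.log (1 + (β - α) / ς) ≤ Real.log (5 * (8 * a.Ka)) :=
    Real.log_le_log (by have := div_nonneg (sub_nonneg.2 h) hς0.le; linarith) (by linarith)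
  rw [Real.log_mul (by norm_num) (by linarith)] at h4
  have h5 := Real.log_le_sub_one_of_pos (show (0 : ℝ) < 5 by norm_num)
  linarith [int1 hς0 h t₀, H.lg, H.Λg1]

theorem pmaj_one {α β : ℝ} (h : α ≤ β) : ∫ _t in Ioc α β, (1 : ℝ) = β - α := by
  simp [h]

/-- comparison with a product on a box -/
theorem pmaj_box {G : P3 → ℝ} {f₁ f₂ f₃ : ℝ → ℝ} {S : Set P3} {a₁ b₁ a₂ b₂ a₃ b₃ c₁ c₂ c₃ : ℝ}
    (hG : Continuous G) (hG0 : ∀ u, 0 ≤ G u) (h₁ : Continuous f₁) (h₂ : Continuous f₂) (h₃ : Continuous f₃)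
    (p₁ : ∀ t, 0 ≤ f₁ t) (p₂ : ∀ t, 0 ≤ f₂ t) (p₃ : ∀ t, 0 ≤ f₃ t)
    (hle : ∀ u, G u ≤ f₁ u.1.1 * f₂ u.1.2 * f₃ u.2)
    (hS : S ⊆ (Ioc a₁ b₁ ×ˢ Ioc a₂ b₂) ×ˢ Ioc a₃ b₃)
    (k₁ : ∫ t in Ioc a₁ b₁, f₁ t ≤ c₁) (k₂ : ∫ t in Ioc a₂ b₂, f₂ t ≤ c₂) (k₃ : ∫ t in Ioc a₃ b₃, f₃ t ≤ c₃) :
    ∫ u in S, G u ≤ c₁ * c₂ * c₃ := by
  have hb : Bornology.IsBounded ((Ioc a₁ b₁ ×ˢ Ioc a₂ b₂) ×ˢ Ioc a₃ b₃) :=
    ((Metric.isBounded_Ioc _ _).prod (Metric.isBounded_Ioc _ _)).prod (Metric.isBounded_Ioc _ _)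
  have n₁ : 0 ≤ ∫ t in Ioc a₁ b₁, f₁ t := integral_nonneg p₁
  have n₂ : 0 ≤ ∫ t in Ioc a₂ b₂, f₂ t := integral_nonneg p₂
  have n₃ : 0 ≤ ∫ t in Ioc a₃ b₃, f₃ t := integral_nonneg p₃
  calc ∫ u in S, G u ≤ ∫ u in (Ioc a₁ b₁ ×ˢ Ioc a₂ b₂) ×ˢ Ioc a₃ b₃, G u :=
        setIntegral_mono_set (integrableOn_of_bounded3 hG hb) (Eventually.of_forall hG0) hS.eventuallyLE
    _ ≤ ∫ u in (Ioc a₁ b₁ ×ˢ Ioc a₂ b₂) ×ˢ Ioc a₃ b₃, f₁ u.1.1 * f₂ u.1.2 * f₃ u.2 :=
        setIntegral_mono (integrableOn_of_bounded3 hG hb) (integrableOn_of_bounded3 (by fun_prop) hb) hle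
    _ = (∫ t in Ioc a₁ b₁, f₁ t) * (∫ t in Ioc a₂ b₂, f₂ t) * ∫ t in Ioc a₃ b₃, f₃ t := by
        rw [Measure.volume_eq_prod, setIntegral_prod_mul (fun p : P2 => f₁ p.1 * f₂ p.2) f₃,
          Measure.volume_eq_prod, setIntegral_prod_mul f₁ f₂]
    _ ≤ c₁ * c₂ * c₃ := mul_le_mul (mul_le_mul k₁ k₂ n₂ (n₁.trans k₁)) k₃ n₃
        (mul_nonneg (n₁.trans k₁) (n₂.trans k₂))

theorem pmaj_wt1 {ς : ℝ} (hς : 0 < ς) (y u : P3) : wt ς y u ≤ (ς + |y.1.1 - u.1.1|)⁻¹ :=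
  inv_anti₀ (by positivity) (add_le_add_right ((norm_fst_le (y - u).1).trans (norm_fst_le (y - u))) ς)

theorem pmaj_wt2 {ς : ℝ} (hς : 0 < ς) (y u : P3) : wt ς y u ≤ (ς + |y.1.2 - u.1.2|)⁻¹ :=
  inv_anti₀ (by positivity) (add_le_add_right ((norm_snd_le (y - u).1).trans (norm_fst_le (y - u))) ς)

theorem pmaj_wt3 {ς : ℝ} (hς : 0 < ς) (y u : P3) : wt ς y u ≤ (ς + |y.2 - u.2|)⁻¹ :=
  inv_anti₀ (by positivity) (add_le_add_right (norm_snd_le (y - u)) ς)

/-- integral of `wt` over a subset of a column -/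
theorem pmaj_col {a : Atoms} {w : P2 → ℝ} {ℓ ω L τ Λ M Λg : ℝ} (H : Hyp a w ℓ ω L τ Λ M Λg) {ς : ℝ}
    (hς : a.h / 8 ≤ ς) (y : P3) {S : Set P3} {α β T : ℝ} (h : α ≤ β) (hT : 0 ≤ T) (hT' : T ≤ 2 * a.A)
    (hS : S ⊆ (Ioc α β ×ˢ Ioc α β) ×ˢ Ioc (-T) T) : ∫ u in S, wt ς y u ≤ 8 * Λg * (β - α) ^ 2 := by
  have hς0 : 0 < ς := by linarith [H.ok.h_pos]
  refine (pmaj_box (continuous_wt hς0 y) (wt_nonneg hς0 y) continuous_const continuous_const
    (pmaj_cont hς0 y.2) (fun _ => zero_le_one) (fun _ => zero_le_one) (fun t => by positivity)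
    (fun u => by simpa using pmaj_wt3 hς0 y u) hS (pmaj_one h).le (pmaj_one h).le
    (pmaj_int H hς (by linarith) (by linarith) y.2)).trans (le_of_eq (by ring))

theorem pmaj_vol {L Λ : ℝ} (hΛ : 2 ≤ Λ) : volume.real (Mis L Λ) ≤ 48 * Λ ^ 2 := by
  have h1 : volume.real {z : ℝ | L - 3 ≤ |z| ∧ |z| ≤ L + 3} ≤ 12 := by
    have h2 : {z : ℝ | L - 3 ≤ |z| ∧ |z| ≤ L + 3} ⊆ Icc (-(L + 3)) (-(L - 3)) ∪ Icc (L - 3) (L + 3) := by
      intro z hz
      rcases le_total 0 z with h | h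
      · rw [mem_ofPred_eq, abs_of_nonneg h] at hz
        exact Or.inr hz
      · rw [mem_ofPred_eq, abs_of_nonpos h] at hz
        exact Or.inl ⟨by linarith [hz.2], by linarith [hz.1]⟩
    refine ((measureReal_mono h2 (measure_union_ne_top measure_Icc_lt_top.ne measure_Icc_lt_top.ne)).trans
      (measureReal_union_le _ _)).trans ?_
    rw [Real.volume_real_Icc_of_le (by linarith), Real.volume_real_Icc_of_le (by linarith)]
    linarith
  rw [Mis, Measure.volume_eq_prod, measureReal_prod_prod, Measure.volume_eq_prod, measureReal_prod_prod,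
    Real.volume_real_Icc_of_le (by linarith)]
  have h3 : (Λ + 2 - 0) * (Λ + 2 - 0) ≤ 4 * Λ ^ 2 := by nlinarith
  calc _ ≤ 4 * Λ ^ 2 * 12 := mul_le_mul h3 h1 measureReal_nonneg (by positivity)
    _ = _ := by ring

/-- Last item: `(L + ‖p‖)⁻¹ ^ 3 ≤ L⁻¹ (1 + |p.1|)⁻¹ (1 + |p.2|)⁻¹`.  On `Mis`, if `|y.2| ≤ L/2`: `wt ≤ 8 / L`, volume `≤ 12 (Λ+2)²`. -/
theorem exists_maj : ∃ C : ℝ, 1 ≤ C ∧ ∀ {a : Atoms} {w : P2 → ℝ} {ℓ ω L τ Λ M Λg : ℝ}, Hyp a w ℓ ω L τ Λ M Λg →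
    (∀ ς : ℝ, a.h / 8 ≤ ς → ς ≤ 1 → ∀ y : P3,
      ∫ u in bx a.A (L + 3), wt ς y u ≤ C * Λg * a.A ^ 2 ∧
      ∫ u in bx a.A (L + 3), maj ς Λ y u ≤ C * Λg ^ 3 * Λ ^ 2 ∧
      ∫ u in Mis L Λ, wt ς y u ≤ C * Λg * Λ ^ 2 ∧
      (|y.2| ≤ L / 2 → ∫ u in Mis L Λ, wt ς y u ≤ C * Λ ^ 2 / L)) ∧
    ∫ p in sq2 a.A, (L + ‖p‖)⁻¹ ^ 3 ≤ C * Λg ^ 2 / L := by
  refine ⟨800, by norm_num, fun {a w ℓ ω L τ Λ M Λg} H => ⟨fun ς hς hς1 y => ?_, ?_⟩⟩
  · have hς0 : 0 < ς := by linarith [H.ok.h_pos]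
    have hL := H.L8
    have hA := H.LA
    have hΛ := H.Λ2
    have hg := H.Λg1
    refine ⟨?_, ?_, ?_, fun hy => ?_⟩
    · refine (pmaj_col H hς y (α := -a.A) (β := a.A) (T := L + 3) (by linarith) (by linarith) (by linarith)
        subset_rfl).trans ?_
      have : 0 ≤ Λg * a.A ^ 2 := by positivity
      nlinarith
    · have h1 : ∫ u in bx a.A (L + 3), wt ς y u ^ 3 ≤ 8 * Λg * (8 * Λg) * (8 * Λg) :=
        pmaj_box ((continuous_wt hς0 y).pow 3) (fun u => pow_nonneg (wt_nonneg hς0 y u) 3)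
          (pmaj_cont hς0 y.1.1) (pmaj_cont hς0 y.1.2) (pmaj_cont hς0 y.2) (fun t => by positivity)
          (fun t => by positivity) (fun t => by positivity)
          (fun u => by
            have := wt_nonneg hς0 y u
            rw [pow_three']
            exact mul_le_mul (mul_le_mul (pmaj_wt1 hς0 y u) (pmaj_wt2 hς0 y u) this (by positivity))
              (pmaj_wt3 hς0 y u) this (by positivity))
          subset_rfl (pmaj_int H hς (by linarith) (by linarith) _) (pmaj_int H hς (by linarith) (by linarith) _)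
          (pmaj_int H hς (by linarith) (by linarith) _)
      have h2 : ∫ u in bx a.A (L + 3), indicator {u : P3 | ‖u.1‖ ≤ Λ + 3} (wt ς y) u ≤
          8 * Λg * (Λ + 4 - -(Λ + 4)) ^ 2 := by
        rw [setIntegral_indicator (pmaj_meas Λ)]
        refine pmaj_col H hς y (T := L + 3) (by linarith) (by linarith) (by linarith) fun u hu => ?_
        have k1 := abs_le.1 ((norm_fst_le u.1).trans hu.2)
        have k2 := abs_le.1 ((norm_snd_le u.1).trans hu.2)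
        exact ⟨⟨⟨by linarith [k1.1], by linarith [k1.2]⟩, ⟨by linarith [k2.1], by linarith [k2.2]⟩⟩, hu.1.2⟩
      unfold maj
      have i1 : IntegrableOn (fun u => wt ς y u ^ 3) (bx a.A (L + 3)) :=
        integrableOn_bx ((continuous_wt hς0 y).pow 3) _ _
      rw [integral_add i1 ((integrableOn_bx (continuous_wt hς0 y) _ _).indicator (pmaj_meas Λ))]
      have h3 : Λg ^ 3 * 1 ≤ Λg ^ 3 * Λ ^ 2 := mul_le_mul_of_nonneg_left (by nlinarith) (by positivity)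
      have h4 : (Λ + 4 - -(Λ + 4)) ^ 2 ≤ 36 * Λ ^ 2 := by nlinarith
      have h5 : Λg ≤ Λg ^ 3 := le_self_pow₀ hg (by norm_num)
      have h6 : Λg * (Λ + 4 - -(Λ + 4)) ^ 2 ≤ Λg ^ 3 * (36 * Λ ^ 2) :=
        mul_le_mul h5 h4 (by positivity) (by positivity)
      linarith
    · refine (pmaj_col H hς y (α := -1) (β := Λ + 2) (T := L + 4) (by linarith) (by linarith) (by linarith)
        fun u hu => ?_).trans ?_
      · have k := abs_le.1 hu.2.2
        exact ⟨⟨⟨by linarith [hu.1.1.1], hu.1.1.2⟩, ⟨by linarith [hu.1.2.1], hu.1.2.2⟩⟩,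
          ⟨by linarith [k.1], by linarith [k.2]⟩⟩
      · have h4 : (Λ + 2 - -1) ^ 2 ≤ 100 * Λ ^ 2 := by nlinarith
        have := mul_le_mul_of_nonneg_left h4 (show 0 ≤ 8 * Λg by linarith)
        linarith
    · have h1 : ∫ u in Mis L Λ, wt ς y u ≤ ∫ _u in Mis L Λ, 8 / L := by
        refine setIntegral_mono_on ((continuous_wt hς0 y).continuousOn.integrableOn_compact (isCompact_Mis L Λ))
          (continuousOn_const.integrableOn_compact (isCompact_Mis L Λ)) (isCompact_Mis L Λ).measurableSet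
          fun u hu => (pmaj_wt3 hς0 y u).trans ?_
        rw [← inv_div]
        refine inv_anti₀ (by positivity) ?_
        have k1 := abs_sub_abs_le_abs_sub u.2 y.2
        rw [abs_sub_comm u.2] at k1
        linarith [hu.2.1]
      rw [setIntegral_const, smul_eq_mul] at h1
      refine h1.trans ((mul_le_mul_of_nonneg_right (pmaj_vol hΛ) (by positivity)).trans ?_)
      rw [← mul_div_assoc]
      refine div_le_div_of_nonneg_right ?_ (by linarith)
      nlinarith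
  · have hL := H.L8
    have hA := H.LA
    have hg := H.Λg1
    have h1 : a.h / 8 ≤ 1 := by linarith [H.ok.h_le]
    have k := pmaj_int H h1 (α := -a.A) (β := a.A) (by linarith) (by linarith) 0
    have k0 : 0 ≤ ∫ t in Ioc (-a.A) a.A, (1 + |0 - t|)⁻¹ := integral_nonneg fun t => by positivity
    have c1 := pmaj_cont one_pos 0
    calc ∫ p in sq2 a.A, (L + ‖p‖)⁻¹ ^ 3
        ≤ ∫ p in sq2 a.A, L⁻¹ * ((1 + |0 - p.1|)⁻¹ * (1 + |0 - p.2|)⁻¹) := by
          refine setIntegral_mono (integrableOn_of_bounded2 ((Continuous.inv₀ (f := fun p : P2 => L + ‖p‖) (by fun_prop)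
            fun p => (add_pos_of_pos_of_nonneg (by linarith) (norm_nonneg _)).ne').pow 3) (isBounded_sq2 _))
            (integrableOn_of_bounded2 (continuous_const.mul ((c1.comp continuous_fst).mul
              (c1.comp continuous_snd))) (isBounded_sq2 _)) fun p => ?_
          have n1 : |p.1| ≤ ‖p‖ := norm_fst_le p
          have n2 : |p.2| ≤ ‖p‖ := norm_snd_le p
          have n0 := norm_nonneg p
          simp only [zero_sub, abs_neg]
          rw [pow_three]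
          exact mul_le_mul (inv_anti₀ (by linarith) (by linarith))
            (mul_le_mul (inv_anti₀ (by positivity) (by linarith)) (inv_anti₀ (by positivity) (by linarith))
              (by positivity) (by positivity)) (by positivity) (by positivity)
      _ = L⁻¹ * ((∫ t in Ioc (-a.A) a.A, (1 + |0 - t|)⁻¹) * ∫ t in Ioc (-a.A) a.A, (1 + |0 - t|)⁻¹) := by
          rw [integral_const_mul, sq2, Measure.volume_eq_prod,
            setIntegral_prod_mul (fun t : ℝ => (1 + |0 - t|)⁻¹) (fun t : ℝ => (1 + |0 - t|)⁻¹)]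
      _ ≤ L⁻¹ * (8 * Λg * (8 * Λg)) :=
          mul_le_mul_of_nonneg_left (mul_le_mul k k k0 (by linarith)) (by positivity)
      _ ≤ 800 * Λg ^ 2 / L := by
          rw [mul_comm, ← div_eq_mul_inv]
          refine div_le_div_of_nonneg_right ?_ (by linarith)
          nlinarith

end Crest.Agent.R338
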