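import Crest.Agent.R338.Pot_Ker
import Crest.Agent.R338.Pot_Maj

/-! # Pot_Leib: derivatives of `μ · kernel`
Keep the statements; auxiliary lemmas get the prefix `pleib_`. -/

set_option autoImplicit false
set_option linter.dupNamespace false
set_option linter.unusedVariables false

noncomputable section

namespace Crest.Agent.R338

open MeasureTheory Set Filter Topology

variable {a : Atoms} {w : P2 → ℝ} {ℓ ω L τ Λ M Λg : ℝ}

theorem pleib_loc {f : P2 → ℝ} {c : ℝ} (h : ∀ p, p ∉ box2 Λ → f p = c) {p : P2} (hp : p ∉ box2 Λ) :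
    fderiv ℝ f p = 0 := by
  have e : f =ᶠ[𝓝 p] fun _ => c :=
    eventually_of_mem ((isCompact_box2 Λ).isClosed.isOpen_compl.mem_nhds hp) h
  rw [e.fderiv_eq]
  simp

/-- the complement of `box2 Λ` is open, `w = 1` there -/
theorem Hyp.mu_out (H : Hyp a w ℓ ω L τ Λ M Λg) {p : P2} (hp : p ∉ box2 Λ) : mu ω w p = ω ^ 2 / (4 * Real.pi) := by
  have h1 : dx (dx w) p = 0 := by
    rw [dx, pleib_loc (c := 0) (fun q hq => by rw [dx, pleib_loc H.out hq]; rfl) hp]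
    rfl
  have h2 : dy (dy w) p = 0 := by
    rw [dy, pleib_loc (c := 0) (fun q hq => by rw [dy, pleib_loc H.out hq]; rfl) hp]
    rfl
  rw [mu, lap2, h1, h2, add_zero, add_zero]

/-- `Bd.lap2`, `(M + 2M) / (4π) ≤ M` -/
theorem Hyp.den (H : Hyp a w ℓ ω L τ Λ M Λg) : Den (mu ω w) M Λ := by
  refine ⟨?_, _, fun p hp => H.mu_out hp⟩
  have h := ((Bd.const 4 (ω ^ 2)).add (H.bd.lap2 (k := 4))).const_mul (4 * Real.pi)⁻¹
  have e : mu ω w = fun p => (4 * Real.pi)⁻¹ * (ω ^ 2 + lap2 w p) := funext fun p => by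
    rw [mu, div_eq_inv_mul]
  rw [e]
  refine h.mono le_rfl ?_
  have := Real.pi_gt_three
  rw [abs_of_pos (by positivity), abs_of_nonneg (sq_nonneg ω), inv_mul_le_iff₀ (by positivity)]
  nlinarith [H.ωM, H.M1]

theorem Den.contDiff_mf {μ : P2 → ℝ} (D : Den μ M Λ) {F : P3 → ℝ} (hF : ContDiff ℝ 4 F) : ContDiff ℝ 4 (mf μ F) := by
  exact (D.bd.1.comp contDiff_fst).mul hF

/-- off `box2 Λ` the density is locally constant -/
theorem Den.iteratedFDeriv_out {μ : P2 → ℝ} (D : Den μ M Λ) {F : P3 → ℝ} (hF : ContDiff ℝ 4 F) {u : P3}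
    (hu : u.1 ∉ box2 Λ) {j : ℕ} (hj : j ≤ 4) : ‖iteratedFDeriv ℝ j (mf μ F) u‖ ≤ M * ‖iteratedFDeriv ℝ j F u‖ := by
  obtain ⟨c, hc⟩ := D.out
  have e : mf μ F =ᶠ[𝓝 u] fun v => c • F v := by
    filter_upwards [continuous_fst.continuousAt.preimage_mem_nhds
      ((isCompact_box2 Λ).isClosed.isOpen_compl.mem_nhds hu)] with v hv
    rw [mf, hc _ hv, smul_eq_mul]
  rw [(e.iteratedFDeriv ℝ j).eq_of_nhds,
    iteratedFDeriv_const_smul_apply' (hF.of_le (m := j) (by exact_mod_cast hj)).contDiffAt, norm_smul,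
    Real.norm_eq_abs, ← hc _ hu]
  exact mul_le_mul_of_nonneg_right (D.bd.abs_le _) (norm_nonneg _)

/-- `norm_iteratedFDeriv_mul_le`, `Bd.fst`, `∑ choose = 2 ^ j ≤ 16` -/
theorem Den.iteratedFDeriv_le {μ : P2 → ℝ} (D : Den μ M Λ) {F : P3 → ℝ} (hF : ContDiff ℝ 4 F) {u : P3} {j : ℕ}
    (hj : j ≤ 4) {B : ℝ} (hB : ∀ i ≤ j, ‖iteratedFDeriv ℝ i F u‖ ≤ B) : ‖iteratedFDeriv ℝ j (mf μ F) u‖ ≤ 16 * M * B := by
  have hf := D.bd.fst (F := ℝ)
  have h0 := hf.nonneg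
  have h0' : 0 ≤ B := (norm_nonneg _).trans (hB 0 (Nat.zero_le _))
  refine (norm_iteratedFDeriv_mul_le hf.1 hF u (n := j) (by exact_mod_cast hj)).trans ?_
  calc _ ≤ ∑ i ∈ Finset.range (j + 1), (j.choose i : ℝ) * M * B := by
        refine Finset.sum_le_sum fun i hi => ?_
        have := Finset.mem_range.1 hi
        gcongr
        · exact hf.2 i (by omega) u
        · exact hB (j - i) (by omega)
    _ = 2 ^ j * M * B := by
        rw [← Finset.sum_mul, ← Finset.sum_mul, ← Nat.cast_sum, Nat.sum_range_choose]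
        push_cast
        rfl
    _ ≤ 2 ^ 4 * M * B := by
        gcongr
        norm_num
    _ = _ := by norm_num

/-- `‖D^j (ks ς (y - ·)) u‖ = ‖D^j (ks ς) (y - u)‖` (`iteratedFDeriv_comp_sub`/`_neg`, or `LinearIsometryEquiv.neg`) -/
theorem exists_ker' : ∃ C : ℝ, 1 ≤ C ∧ ∀ ς : ℝ, 0 < ς → ∀ j ≤ 4, ∀ y u : P3,
    ‖iteratedFDeriv ℝ j (fun u => ks ς (y - u)) u‖ ≤ C * wt ς y u ^ (j + 1) := by
  obtain ⟨C, hC, h⟩ := exists_ker
  refine ⟨C, hC, fun ς hς j hj y u => ?_⟩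
  have e : (fun u => ks ς (y - u)) = (fun z => ks ς (y + z)) ∘ LinearIsometryEquiv.neg ℝ :=
    funext fun u => by simp [sub_eq_add_neg]
  rw [e, LinearIsometryEquiv.norm_iteratedFDeriv_comp_right, iteratedFDeriv_comp_add_left]
  simpa [wt, sub_eq_add_neg] using h ς hς j hj (y - u)

theorem pleib_wt {ς : ℝ} (hς : 0 < ς) (y : P3) {u u' : P3} (h : ‖u - u'‖ ≤ 24 * ς) :
    wt ς y u ≤ 25 * wt ς y u' := by
  have h1 : ‖y - u'‖ ≤ ‖y - u‖ + ‖u - u'‖ := norm_sub_le_norm_sub_add_norm_sub y u u'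
  have h2 := norm_nonneg (y - u)
  have h3 := norm_nonneg (y - u')
  rw [wt, wt, ← div_eq_mul_inv, inv_eq_one_div, div_le_div_iff₀ (by positivity) (by positivity)]
  linarith

theorem pleib_wt_le (y u : P3) : wt 1 y u ≤ 1 :=
  inv_le_one_of_one_le₀ (le_add_of_nonneg_right (norm_nonneg _))

theorem pleib_maj {μ : P2 → ℝ} (D : Den μ M Λ) {F : P3 → ℝ} (hF : ContDiff ℝ 4 F) {ς C : ℝ} (hς : 0 < ς)
    (hC : 0 ≤ C) {y u u' : P3} (h1 : ‖u - u'‖ ≤ 24 * ς) (h2 : ‖u - u'‖ ≤ 3) {j : ℕ} (hj : j ≤ 4)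
    (h3 : ‖iteratedFDeriv ℝ j F u‖ ≤ C * wt ς y u ^ 3)
    (h4 : ∀ i ≤ j, ‖iteratedFDeriv ℝ i F u‖ ≤ C * (wt ς y u ^ 3 + wt ς y u)) :
    ‖iteratedFDeriv ℝ j (mf μ F) u‖ ≤ 250000 * C * M * maj ς Λ y u' := by
  have hM := D.bd.nonneg
  have a0 := wt_nonneg hς y u
  have a1 := wt_nonneg hς y u'
  have a2 := pleib_wt hς y h1
  have a3 : wt ς y u ^ 3 ≤ 15625 * wt ς y u' ^ 3 :=
    (pow_le_pow_left₀ a0 a2 3).trans_eq (by ring)
  have a4 : 0 ≤ wt ς y u' ^ 3 := by positivity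
  have hCM : 0 ≤ C * M := mul_nonneg hC hM
  by_cases hu : u.1 ∈ box2 Λ
  · have b1 : ‖u.1‖ ≤ Λ := by
      obtain ⟨⟨c1, c2⟩, c3, c4⟩ := hu
      rw [Prod.norm_def, Real.norm_of_nonneg (by linarith), Real.norm_of_nonneg (by linarith)]
      exact max_le c2 c4
    have b2 : ‖u'.1‖ ≤ Λ + 3 := by
      have c1 : ‖u.1 - u'.1‖ ≤ ‖u - u'‖ := norm_fst_le (u - u')
      have c2 := norm_sub_norm_le u'.1 u.1
      rw [norm_sub_rev] at c2
      linarith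
    rw [maj, indicator_of_mem (show u' ∈ {u : P3 | ‖u.1‖ ≤ Λ + 3} from b2)]
    refine (D.iteratedFDeriv_le hF hj h4).trans ?_
    have : 16 * (wt ς y u ^ 3 + wt ς y u) ≤ 250000 * (wt ς y u' ^ 3 + wt ς y u') := by linarith
    nlinarith [mul_le_mul_of_nonneg_left this hCM]
  · have b1 : 0 ≤ indicator {u : P3 | ‖u.1‖ ≤ Λ + 3} (wt ς y) u' :=
      indicator_nonneg (fun v _ => wt_nonneg hς y v) _
    refine (D.iteratedFDeriv_out hF hu hj).trans ((mul_le_mul_of_nonneg_left h3 hM).trans ?_)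
    have : wt ς y u ^ 3 ≤ 250000 * maj ς Λ y u' := by
      rw [maj]
      linarith
    nlinarith [mul_le_mul_of_nonneg_left this hCM]

/-- If `‖u - u'‖ ≤ 24 ς` then `wt ς y u ≤ 25 wt ς y u'`.  If `u.1 ∉ box2 Λ` use `iteratedFDeriv_out`; otherwise `‖u'.1‖ ≤ Λ + 3` and
`x, x², x³ ≤ x³ + x` (`x = wt ≥ 0`).  For `ς = 1`: `wt ≤ 1`, so `x⁵ ≤ x³` and `x^(i+1) ≤ x`. -/
theorem exists_leib : ∃ C : ℝ, 1 ≤ C ∧ ∀ {μ : P2 → ℝ} {M Λ : ℝ}, Den μ M Λ → ∀ y : P3,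
    (∀ ς δ : ℝ, 0 < ς → δ ≤ 24 * ς → δ ≤ 3 →
      Maj δ (fun u => |ks ς (y - u)|) (fun u => C * wt ς y u) ∧
      Maj δ (fun u => ‖iteratedFDeriv ℝ 2 (mf μ fun u => ks ς (y - u)) u‖) (fun u => C * M * maj ς Λ y u) ∧
      ∀ u, |mf μ (fun u => ks ς (y - u)) u| ≤ C * M * wt ς y u) ∧
    Maj 3 (fun u => ‖iteratedFDeriv ℝ 4 (mf μ fun u => kfar (y - u)) u‖) (fun u => C * M * maj 1 Λ y u) ∧
    ∀ j ≤ 4, ∀ u, ‖iteratedFDeriv ℝ j (mf μ fun u => kfar (y - u)) u‖ ≤ C * M * wt 1 y u := by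
  obtain ⟨C, hC, h⟩ := exists_ker'
  have hC0 : 0 ≤ C := by linarith
  refine ⟨250000 * C, by linarith, fun {μ M Λ} D y => ?_⟩
  have hM := D.bd.nonneg
  have hF : ∀ ς : ℝ, ContDiff ℝ 4 fun u => ks ς (y - u) := fun ς =>
    (contDiff_ks ς).comp (contDiff_const.sub contDiff_id)
  have h0 : ∀ ς : ℝ, 0 < ς → ∀ u, |ks ς (y - u)| ≤ C * wt ς y u := fun ς hς u => by
    simpa using h ς hς 0 (by norm_num) y u
  have h1 : ∀ i ≤ 4, ∀ u, ‖iteratedFDeriv ℝ i (fun u => ks 1 (y - u)) u‖ ≤ C * wt 1 y u :=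
    fun i hi u => (h 1 one_pos i hi y u).trans (mul_le_mul_of_nonneg_left
      (pow_le_of_le_one (wt_nonneg one_pos y u) (pleib_wt_le y u) (by omega)) hC0)
  refine ⟨fun ς δ hς d1 d2 => ⟨fun u u' hu => ?_, fun u u' hu => ?_, fun u => ?_⟩, fun u u' hu => ?_,
    fun j hj u => ?_⟩
  · have a1 := pleib_wt hς y (hu.trans d1)
    have a2 := wt_nonneg hς y u'
    refine (h0 ς hς u).trans ?_
    show C * wt ς y u ≤ 250000 * C * wt ς y u'
    nlinarith [mul_le_mul_of_nonneg_left a1 hC0, mul_nonneg hC0 a2]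
  · refine pleib_maj D (hF ς) hς hC0 (hu.trans d1) (hu.trans d2) (by norm_num)
      (h ς hς 2 (by norm_num) y u) fun i hi => (h ς hς i (by omega) y u).trans
        (mul_le_mul_of_nonneg_left ?_ hC0)
    have a1 := wt_nonneg hς y u
    generalize wt ς y u = x at a1
    have a2 : 0 ≤ x ^ 3 := by positivity
    interval_cases i
    · simpa using a2
    · rw [one_add_one_eq_two]
      nlinarith [mul_nonneg a1 (sq_nonneg (x - 1)), sq_nonneg x]
    · simpa using a1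
  · have a1 := wt_nonneg hς y u
    rw [mf, abs_mul]
    refine (mul_le_mul (D.bd.abs_le _) (h0 ς hς u) (abs_nonneg _) hM).trans ?_
    nlinarith [mul_nonneg (mul_nonneg hC0 hM) a1]
  · rw [← ks_one]
    have a1 := wt_nonneg one_pos y u
    refine pleib_maj D (hF 1) one_pos hC0 (hu.trans (by norm_num)) hu le_rfl
      ((h 1 one_pos 4 le_rfl y u).trans (mul_le_mul_of_nonneg_left
        (pow_le_pow_of_le_one a1 (pleib_wt_le y u) (by norm_num)) hC0)) fun i hi =>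
      (h1 i hi u).trans (mul_le_mul_of_nonneg_left (le_add_of_nonneg_left (by positivity)) hC0)
  · rw [← ks_one]
    have a1 := wt_nonneg one_pos y u
    refine (D.iteratedFDeriv_le (hF 1) hj fun i hi => h1 i (hi.trans hj) u).trans ?_
    nlinarith [mul_nonneg (mul_nonneg hC0 hM) a1]

/-- Mean value inequality for `fderiv kfar` on the segment from `-u` to `y - u` (`Convex.norm_image_sub_le_of_norm_fderiv_le`),
where `‖D² kfar v‖ ≤ C (1 + ‖v‖)⁻¹ ^ 3 ≤ 8 C ‖u‖⁻¹ ^ 3` (`‖v‖ ≥ ‖u‖ / 2`; `u = 0` forces `y = 0`). -/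
theorem exists_diff : ∃ C : ℝ, 1 ≤ C ∧ ∀ y u : P3, 2 * ‖y‖ ≤ ‖u‖ →
    ‖fderiv ℝ (fun u => kfar (y - u) - kfar (0 - u)) u‖ ≤ C * ‖y‖ * ‖u‖⁻¹ ^ 3 := by
  obtain ⟨C, hC, h⟩ := exists_ker
  refine ⟨8 * C, by linarith, fun y u hyu => ?_⟩
  rcases eq_or_ne u 0 with rfl | hu
  · have : y = 0 := norm_le_zero_iff.1 (by rw [norm_zero] at hyu; linarith)
    simp [this]
  have hu0 : 0 < ‖u‖ := norm_pos_iff.2 hu
  have hd : Differentiable ℝ kfar := contDiff_kfar.differentiable (by norm_num)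
  have hd2 : Differentiable ℝ (fderiv ℝ kfar) :=
    (contDiff_kfar.fderiv_right (m := 1) (by norm_num)).differentiable (by norm_num)
  have h1 : ∀ z : P3, HasFDerivAt (fun u => kfar (z - u)) (-fderiv ℝ kfar (z - u)) u := fun z => by
    have := (hd (z - u)).hasFDerivAt.comp u ((hasFDerivAt_id u).const_sub z)
    rw [ContinuousLinearMap.comp_neg, ContinuousLinearMap.comp_id] at this
    exact this
  rw [((h1 y).fun_sub (h1 0)).fderiv, neg_sub_neg, norm_sub_rev]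
  have h2 := (convex_closedBall (0 - u) ‖y‖).norm_image_sub_le_of_norm_fderiv_le (𝕜 := ℝ)
    (f := fderiv ℝ kfar) (C := 8 * C * ‖u‖⁻¹ ^ 3) (x := 0 - u) (y := y - u) (fun v _ => hd2 v)
    (fun v hv => ?_) (Metric.mem_closedBall_self (norm_nonneg _))
    (by rw [mem_closedBall_iff_norm]; simp)
  · rw [sub_sub_sub_cancel_right, sub_zero] at h2
    linarith
  · rw [mem_closedBall_iff_norm, zero_sub, sub_neg_eq_add] at hv
    have a1 : ‖u‖ ≤ ‖v + u‖ + ‖v‖ := by simpa using norm_sub_le (v + u) v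
    have a2 : (1 + ‖v‖)⁻¹ ≤ 2 * ‖u‖⁻¹ := by
      rw [← div_eq_mul_inv, inv_eq_one_div, div_le_div_iff₀ (by positivity) hu0]
      linarith
    have a3 := h 1 one_pos 2 (by norm_num) v
    rw [ks_one] at a3
    rw [← norm_iteratedFDeriv_one, norm_iteratedFDeriv_fderiv]
    refine a3.trans ?_
    calc C * (1 + ‖v‖)⁻¹ ^ (2 + 1) ≤ C * (2 * ‖u‖⁻¹) ^ (2 + 1) := by gcongr
      _ = _ := by ring

end Crest.Agent.R338
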