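import Crest.Agent.R338.Pot_Rad

/-! # Pot_SlabA: moving the point inside the homogeneous box
Keep the statements; auxiliary lemmas get the prefix `psa_`.
Work with `∫⁻` and the kernel `κ u = (ENNReal.ofReal (nrm3 u))⁻¹` (`= ofReal (1 / nrm3 u)` for `u ≠ 0`, hence a.e.); it is antitone
in each `|uᵢ|`.  `Pb A L y = (∫⁻ u in bx A L, κ (y - u)).toReal`, finite (`integrableOn_inv`).  Tonelli reduces a change of one
coordinate of `y` to `bathtub` on the line (`lintegral_prod`, `lintegral_prod_symm`, `Measure.prod_restrict`). -/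

set_option autoImplicit false
set_option linter.dupNamespace false
set_option linter.unusedVariables false

noncomputable section

namespace Crest.Agent.R338

open MeasureTheory Set Filter Topology

/-- split both sets along `S₀ ∩ S₁` -/
theorem bathtub {S₀ S₁ : Set ℝ} (h₀ : MeasurableSet S₀) (h₁ : MeasurableSet S₁) {k : ℝ → ENNReal} {α β γ : ENNReal}
    (hv : volume (S₁ \ S₀) = volume (S₀ \ S₁)) (hα : ∀ s ∈ S₁ \ S₀, k s ≤ α) (hβ : ∀ s ∈ S₀ \ S₁, β ≤ k s)
    (h : α ≤ β + γ) : ∫⁻ s in S₁, k s ≤ (∫⁻ s in S₀, k s) + γ * volume (S₁ \ S₀) := by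
  rw [← lintegral_inter_add_sdiff k S₁ h₀, ← lintegral_inter_add_sdiff k S₀ h₁, inter_comm S₁ S₀,
    add_assoc]
  refine add_le_add le_rfl ?_
  have a1 : ∫⁻ s in S₁ \ S₀, k s ≤ α * volume (S₁ \ S₀) :=
    (setLIntegral_mono' (h₁.diff h₀) hα).trans_eq (setLIntegral_const _ _)
  have a2 : β * volume (S₀ \ S₁) ≤ ∫⁻ s in S₀ \ S₁, k s :=
    (setLIntegral_const _ _).ge.trans (setLIntegral_mono' (h₀.diff h₁) hβ)
  refine a1.trans ((mul_le_mul_left h _).trans ?_)
  rw [add_mul]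
  exact add_le_add (hv ▸ a2) le_rfl

theorem psa_vol (a a' A : ℝ) : volume (Ico (a - A) (a + A) \ Ico (a' - A) (a' + A)) =
    volume (Ico (a' - A) (a' + A) \ Ico (a - A) (a + A)) := by
  have h1 := measure_inter_add_sdiff (μ := volume) (Ico (a - A) (a + A))
    (measurableSet_Ico (a := a' - A) (b := a' + A))
  have h2 := measure_inter_add_sdiff (μ := volume) (Ico (a' - A) (a' + A))
    (measurableSet_Ico (a := a - A) (b := a + A))
  have h3 : volume (Ico (a - A) (a + A)) = volume (Ico (a' - A) (a' + A)) := by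
    rw [Real.volume_Ico, Real.volume_Ico]; congr 1; ring
  rw [h3, ← h2, inter_comm] at h1
  exact (ENNReal.add_right_inj
    ((measure_mono inter_subset_left).trans_lt measure_Ico_lt_top).ne).1 h1

theorem psa_abs {k : ℝ → ENNReal} (hk : ∀ s, k (-s) = k s) (A x : ℝ) :
    ∫⁻ s in Ioc (-A) A, k (x - s) = ∫⁻ t in Ico (|x| - A) (|x| + A), k t := by
  rcases le_total 0 x with hx | hx
  · rw [abs_of_nonneg hx, ← lintegral_indicator measurableSet_Ioc,
      ← lintegral_indicator measurableSet_Ico,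
      ← lintegral_sub_left_eq_self ((Ico (x - A) (x + A)).indicator k) x]
    refine lintegral_congr fun s => ?_
    have : x - s ∈ Ico (x - A) (x + A) ↔ s ∈ Ioc (-A) A :=
      ⟨fun h => ⟨by linarith [h.2], by linarith [h.1]⟩, fun h => ⟨by linarith [h.2], by linarith [h.1]⟩⟩
    simp only [indicator, this]
  · rw [abs_of_nonpos hx, restrict_Ico_eq_restrict_Ioc, ← lintegral_indicator measurableSet_Ioc,
      ← lintegral_indicator measurableSet_Ioc,
      ← lintegral_add_left_eq_self ((Ioc (-x - A) (-x + A)).indicator k) (-x)]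
    refine lintegral_congr fun s => ?_
    have : -x + s ∈ Ioc (-x - A) (-x + A) ↔ s ∈ Ioc (-A) A :=
      ⟨fun h => ⟨by linarith [h.1], by linarith [h.2]⟩, fun h => ⟨by linarith [h.1], by linarith [h.2]⟩⟩
    simp only [indicator, this]
    rw [← hk (x - s), show -(x - s) = -x + s by ring]

/-- `k` even, antitone in `|s|`; WLOG `0 ≤ x' ≤ x`; substitute `s ↦ x - s`; on `I' = x' + [-A, A)`, `|s| ≤ x' + A`, on `I \ I'`,
`|s| ≥ x' + A`. -/
theorem shift_le {k : ℝ → ENNReal} (hk : ∀ s s', |s| ≤ |s'| → k s' ≤ k s) {A x x' : ℝ} (h : |x'| ≤ |x|) :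
    ∫⁻ s in Ioc (-A) A, k (x - s) ≤ ∫⁻ s in Ioc (-A) A, k (x' - s) := by
  have he : ∀ s, k (-s) = k s := fun s =>
    le_antisymm (hk _ _ (abs_neg s).ge) (hk _ _ (abs_neg s).le)
  rw [psa_abs he, psa_abs he]
  have h0 := abs_nonneg x'
  refine (bathtub (γ := 0) (α := k (|x'| + A)) (β := k (|x'| + A)) measurableSet_Ico
    measurableSet_Ico (psa_vol |x| |x'| A) (fun s hs => hk _ _ ?_) (fun s hs => hk _ _ ?_)
    (by simp)).trans_eq (by simp)
  · obtain ⟨⟨h1, h2⟩, h3⟩ := hs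
    have h4 : |x'| + A ≤ s := by
      by_contra hc
      exact h3 ⟨by linarith, not_le.1 hc⟩
    rw [abs_of_nonneg (by linarith : 0 ≤ |x'| + A)]
    exact h4.trans (le_abs_self s)
  · obtain ⟨⟨h1, h2⟩, -⟩ := hs
    rw [abs_of_nonneg (by linarith : 0 ≤ |x'| + A)]
    exact abs_le.2 ⟨by linarith, h2.le⟩

theorem psa_anti (b : ℝ) {s s' : ℝ} (h : |s| ≤ |s'|) :
    (ENNReal.ofReal (Real.sqrt (s' ^ 2 + b)))⁻¹ ≤ (ENNReal.ofReal (Real.sqrt (s ^ 2 + b)))⁻¹ :=
  ENNReal.inv_le_inv.2 (ENNReal.ofReal_le_ofReal (Real.sqrt_le_sqrt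
    (add_le_add (sq_le_sq.2 h) le_rfl)))

theorem psa_gap {A a b : ℝ} (hA : 0 < A) (hb : 0 ≤ b) (h0 : 0 ≤ a) (h : a ≤ A / 2) :
    (Real.sqrt ((A - a) ^ 2 + b))⁻¹ ≤ (Real.sqrt ((A + a) ^ 2 + b))⁻¹ + 8 * a / A ^ 2 := by
  set u := Real.sqrt ((A - a) ^ 2 + b) with hu
  set v := Real.sqrt ((A + a) ^ 2 + b) with hv
  have u1 : A - a ≤ u := Real.le_sqrt_of_sq_le (by linarith)
  have v1 : A + a ≤ v := Real.le_sqrt_of_sq_le (by linarith)
  have u2 : u ^ 2 = (A - a) ^ 2 + b := Real.sq_sqrt (by positivity)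
  have v2 : v ^ 2 = (A + a) ^ 2 + b := Real.sq_sqrt (by positivity)
  have u0 : 0 < u := by linarith
  have v0 : 0 < v := by linarith
  have d : v - u ≤ 2 * a := by
    by_contra hc
    have h1 : 2 * a * (2 * A) < (v - u) * (v + u) := by
      rcases h0.eq_or_lt with h0 | h0
      · subst h0
        have : v = u := by rw [hu, hv]; simp
        simp [this] at hc
      · exact mul_lt_mul (not_le.1 hc) (by linarith) (by linarith) (by linarith)
    nlinarith
  have e : u⁻¹ = v⁻¹ + (v - u) / (u * v) := by field_simp; ring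
  rw [e]
  refine add_le_add le_rfl ?_
  rw [div_le_div_iff₀ (by positivity) (by positivity)]
  have h2 : A / 2 * (A / 2) ≤ u * v := mul_le_mul (by linarith) (by linarith) (by linarith) u0.le
  have h3 := mul_le_mul_of_nonneg_right d (sq_nonneg A)
  have h4 := mul_le_mul_of_nonneg_left h2 h0
  nlinarith

/-- `k s = (ofReal √(s² + b))⁻¹`: `α = k (A - |x|)`, `β = k (A + |x|)`, `α - β ≤ 2|x| / (A/2)²`, the difference sets have
measure `|x|`. -/
theorem shift_ge {A x b : ℝ} (hA : 0 < A) (hb : 0 ≤ b) (h : |x| ≤ A / 2) :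
    ∫⁻ s in Ioc (-A) A, (ENNReal.ofReal (Real.sqrt ((0 - s) ^ 2 + b)))⁻¹ ≤
      (∫⁻ s in Ioc (-A) A, (ENNReal.ofReal (Real.sqrt ((x - s) ^ 2 + b)))⁻¹) + ENNReal.ofReal (8 * x ^ 2 / A ^ 2) := by
  set k : ℝ → ENNReal := fun s => (ENNReal.ofReal (Real.sqrt (s ^ 2 + b)))⁻¹ with hk
  have he : ∀ s, k (-s) = k s := fun s => by simp only [hk, neg_sq]
  have e1 := psa_abs he A 0
  have e2 := psa_abs he A x
  simp only [hk] at e1 e2
  rw [e1, e2]
  have h0 := abs_nonneg x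
  refine (bathtub (k := k) (γ := ENNReal.ofReal (8 * |x| / A ^ 2)) (α := k (A - |x|))
    (β := k (A + |x|)) measurableSet_Ico measurableSet_Ico (psa_vol |0| |x| A)
    (fun s hs => psa_anti b ?_) (fun s hs => psa_anti b ?_) ?_).trans (add_le_add le_rfl ?_)
  · obtain ⟨⟨h1, h2⟩, h3⟩ := hs
    rw [abs_zero] at h1 h2
    have h4 : s < |x| - A := by
      by_contra hc
      exact h3 ⟨not_lt.1 hc, by linarith⟩
    rw [abs_of_nonneg (by linarith : 0 ≤ A - |x|)]
    exact le_trans (by linarith) (neg_le_abs s)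
  · obtain ⟨⟨h1, h2⟩, -⟩ := hs
    rw [abs_of_nonneg (by linarith : 0 ≤ A + |x|)]
    exact abs_le.2 ⟨by linarith, by linarith⟩
  · have p1 : 0 < Real.sqrt ((A - |x|) ^ 2 + b) :=
      Real.sqrt_pos.2 (add_pos_of_pos_of_nonneg (pow_pos (by linarith) 2) hb)
    have p2 : 0 < Real.sqrt ((A + |x|) ^ 2 + b) :=
      Real.sqrt_pos.2 (add_pos_of_pos_of_nonneg (pow_pos (by linarith) 2) hb)
    simp only [hk]
    rw [← ENNReal.ofReal_inv_of_pos p1, ← ENNReal.ofReal_inv_of_pos p2,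
      ← ENNReal.ofReal_add (by positivity) (by positivity)]
    exact ENNReal.ofReal_le_ofReal (psa_gap hA hb h0 h)
  · have v : volume (Ico (|(0 : ℝ)| - A) (|(0 : ℝ)| + A) \ Ico (|x| - A) (|x| + A)) ≤
        ENNReal.ofReal |x| := by
      have : Ico (|(0 : ℝ)| - A) (|(0 : ℝ)| + A) \ Ico (|x| - A) (|x| + A) ⊆ Ico (-A) (|x| - A) := by
        rintro s ⟨⟨h1, h2⟩, h3⟩
        rw [abs_zero] at h1 h2
        refine ⟨by linarith, ?_⟩
        by_contra hc
        exact h3 ⟨not_lt.1 hc, by linarith⟩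
      refine (measure_mono this).trans_eq ?_
      rw [Real.volume_Ico]; congr 1; ring
    refine (mul_le_mul_right v _).trans_eq ?_
    rw [← ENNReal.ofReal_mul (by positivity), ← sq_abs x]
    congr 1; ring

/-- the kernel -/
def psa_K (p q r : ℝ) : ENNReal := (ENNReal.ofReal (Real.sqrt (p ^ 2 + q ^ 2 + r ^ 2)))⁻¹

theorem psa_K_anti {p q r p' q' r' : ℝ} (h1 : |p| ≤ |p'|) (h2 : |q| ≤ |q'|) (h3 : |r| ≤ |r'|) :
    psa_K p' q' r' ≤ psa_K p q r :=
  ENNReal.inv_le_inv.2 (ENNReal.ofReal_le_ofReal (Real.sqrt_le_sqrt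
    (add_le_add (add_le_add (sq_le_sq.2 h1) (sq_le_sq.2 h2)) (sq_le_sq.2 h3))))

theorem psa_meas (y : P3) :
    Measurable fun u : P3 => psa_K (y.1.1 - u.1.1) (y.1.2 - u.1.2) (y.2 - u.2) := by
  unfold psa_K
  exact (ENNReal.measurable_ofReal.comp (Continuous.measurable (by fun_prop))).inv

theorem psa_Pb_nonneg (A L : ℝ) (y : P3) : 0 ≤ Pb A L y :=
  integral_nonneg fun u => by unfold nrm3; positivity

theorem psa_Pb (A L : ℝ) (y : P3) : ENNReal.ofReal (Pb A L y) =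
    ∫⁻ u in bx A L, psa_K (y.1.1 - u.1.1) (y.1.2 - u.1.2) (y.2 - u.2) := by
  rw [Pb, ofReal_integral_eq_lintegral_ofReal (integrableOn_inv y (volume_bx_ne_top A L))
    (Eventually.of_forall fun u => by unfold nrm3; positivity)]
  refine lintegral_congr_ae (ae_restrict_of_ae ?_)
  haveI : NullSingletonClass (volume : Measure P3) := by
    rw [Measure.volume_eq_prod]; infer_instance
  filter_upwards [Measure.ae_ne volume y] with u hu
  have h : 0 < nrm3 (y - u) := by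
    refine Real.sqrt_pos.2 (lt_of_le_of_ne (by positivity) fun h0 => hu ?_)
    simp only [Prod.fst_sub, Prod.snd_sub] at h0
    have a1 : y.1.1 - u.1.1 = 0 := by
      nlinarith [sq_nonneg (y.1.1 - u.1.1), sq_nonneg (y.1.2 - u.1.2), sq_nonneg (y.2 - u.2)]
    have a2 : y.1.2 - u.1.2 = 0 := by
      nlinarith [sq_nonneg (y.1.1 - u.1.1), sq_nonneg (y.1.2 - u.1.2), sq_nonneg (y.2 - u.2)]
    have a3 : y.2 - u.2 = 0 := by
      nlinarith [sq_nonneg (y.1.1 - u.1.1), sq_nonneg (y.1.2 - u.1.2), sq_nonneg (y.2 - u.2)]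
    exact Prod.ext (Prod.ext (by linarith) (by linarith)) (by linarith)
  rw [one_div, ENNReal.ofReal_inv_of_pos h]
  rfl

theorem psa_iter1 (A L : ℝ) {F : P3 → ENNReal} (hF : Measurable F) : ∫⁻ u in bx A L, F u =
    ∫⁻ r in Ioc (-L) L, ∫⁻ p in Ioc (-A) A, ∫⁻ q in Ioc (-A) A, F ((p, q), r) := by
  rw [bx, Measure.volume_eq_prod, ← Measure.prod_restrict, lintegral_prod_symm' _ hF]
  refine lintegral_congr fun r => ?_
  rw [sq2, Measure.volume_eq_prod, ← Measure.prod_restrict]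
  exact lintegral_prod _ (hF.comp measurable_prodMk_right).aemeasurable

theorem psa_iter2 (A L : ℝ) {F : P3 → ENNReal} (hF : Measurable F) : ∫⁻ u in bx A L, F u =
    ∫⁻ r in Ioc (-L) L, ∫⁻ q in Ioc (-A) A, ∫⁻ p in Ioc (-A) A, F ((p, q), r) := by
  rw [bx, Measure.volume_eq_prod, ← Measure.prod_restrict, lintegral_prod_symm' _ hF]
  refine lintegral_congr fun r => ?_
  rw [sq2, Measure.volume_eq_prod, ← Measure.prod_restrict]
  exact lintegral_prod_symm' _ (hF.comp measurable_prodMk_right)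

theorem Pb_mono (A L : ℝ) {y y' : P3} (h1 : |y'.1.1| ≤ |y.1.1|) (h2 : |y'.1.2| ≤ |y.1.2|) (h3 : |y'.2| ≤ |y.2|) :
    Pb A L y ≤ Pb A L y' := by
  rw [← ENNReal.ofReal_le_ofReal_iff (psa_Pb_nonneg A L y'), psa_Pb, psa_Pb,
    psa_iter1 A L (psa_meas y), psa_iter1 A L (psa_meas y')]
  refine (shift_le (k := fun s => ∫⁻ p in Ioc (-A) A, ∫⁻ q in Ioc (-A) A,
    psa_K (y.1.1 - p) (y.1.2 - q) s) (fun s s' hs => lintegral_mono fun p => lintegral_mono fun q =>
      psa_K_anti le_rfl le_rfl hs) h3).trans (lintegral_mono fun r => ?_)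
  refine (shift_le (k := fun s => ∫⁻ q in Ioc (-A) A, psa_K s (y.1.2 - q) (y'.2 - r))
    (fun s s' hs => lintegral_mono fun q => psa_K_anti hs le_rfl le_rfl) h1).trans
    (lintegral_mono fun p => ?_)
  exact shift_le (k := fun s => psa_K (y'.1.1 - p) s (y'.2 - r))
    (fun s s' hs => psa_K_anti le_rfl hs le_rfl) h2

theorem psa_two {A L c : ℝ} (hA : 0 ≤ A) (hL : 0 ≤ L) (hc : 0 ≤ c) {f g : ℝ → ℝ → ENNReal}
    (h : ∀ r q, f r q ≤ g r q + ENNReal.ofReal c) :
    ∫⁻ r in Ioc (-L) L, ∫⁻ q in Ioc (-A) A, f r q ≤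
      (∫⁻ r in Ioc (-L) L, ∫⁻ q in Ioc (-A) A, g r q) + ENNReal.ofReal (c * (2 * A) * (2 * L)) := by
  refine (lintegral_mono fun r => lintegral_mono fun q => h r q).trans_eq ?_
  simp only [lintegral_add_right _ measurable_const, setLIntegral_const, Real.volume_Ioc]
  rw [← ENNReal.ofReal_mul hc, ← ENNReal.ofReal_mul (mul_nonneg hc (by linarith))]
  congr 2; ring

/-- twice `8 x² / A² · (2A) (2L)` -/
theorem Pb_near {A L : ℝ} (hA : 0 < A) (hL : 0 ≤ L) {y : P3} (h : ‖y.1‖ ≤ A / 2) :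
    Pb A L (0, y.2) ≤ Pb A L y + 64 * ‖y.1‖ ^ 2 * L / A := by
  have n1 : |y.1.1| ≤ ‖y.1‖ := norm_fst_le y.1
  have n2 : |y.1.2| ≤ ‖y.1‖ := norm_snd_le y.1
  have s1 : ENNReal.ofReal (Pb A L (0, y.2)) ≤ ENNReal.ofReal (Pb A L ((y.1.1, 0), y.2)) +
      ENNReal.ofReal (8 * y.1.1 ^ 2 / A ^ 2 * (2 * A) * (2 * L)) := by
    rw [psa_Pb, psa_Pb, psa_iter2 A L (psa_meas _), psa_iter2 A L (psa_meas _)]
    refine psa_two hA.le hL (by positivity) fun r q => ?_
    have := shift_ge (x := y.1.1) (b := (0 - q) ^ 2 + (y.2 - r) ^ 2) hA (by positivity) (n1.trans h)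
    simpa only [psa_K, add_assoc, Prod.fst_zero, Prod.snd_zero] using this
  have s2 : ENNReal.ofReal (Pb A L ((y.1.1, 0), y.2)) ≤ ENNReal.ofReal (Pb A L y) +
      ENNReal.ofReal (8 * y.1.2 ^ 2 / A ^ 2 * (2 * A) * (2 * L)) := by
    rw [psa_Pb, psa_Pb, psa_iter1 A L (psa_meas _), psa_iter1 A L (psa_meas _)]
    refine psa_two hA.le hL (by positivity) fun r p => ?_
    have := shift_ge (x := y.1.2) (b := (y.1.1 - p) ^ 2 + (y.2 - r) ^ 2) hA (by positivity)
      (n2.trans h)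
    simpa only [psa_K, add_assoc, add_left_comm ((y.1.1 - p) ^ 2)] using this
  have s3 := s1.trans (add_le_add s2 le_rfl)
  have p0 := psa_Pb_nonneg A L y
  rw [← ENNReal.ofReal_add p0 (by positivity), ← ENNReal.ofReal_add (by positivity) (by positivity),
    ENNReal.ofReal_le_ofReal_iff (by positivity)] at s3
  refine s3.trans ?_
  have q1 : y.1.1 ^ 2 ≤ ‖y.1‖ ^ 2 := by rw [← sq_abs]; exact pow_le_pow_left₀ (abs_nonneg _) n1 2
  have q2 : y.1.2 ^ 2 ≤ ‖y.1‖ ^ 2 := by rw [← sq_abs]; exact pow_le_pow_left₀ (abs_nonneg _) n2 2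
  have e : ∀ t : ℝ, 8 * t / A ^ 2 * (2 * A) * (2 * L) = t * (32 * L / A) := fun t => by
    field_simp; ring
  rw [e, e, show 64 * ‖y.1‖ ^ 2 * L / A = 2 * (‖y.1‖ ^ 2 * (32 * L / A)) by ring]
  have c0 : 0 ≤ 32 * L / A := by positivity
  linarith [mul_le_mul_of_nonneg_right q1 c0, mul_le_mul_of_nonneg_right q2 c0]

end Crest.Agent.R338
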