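import Crest.Agent.R338.Pot_Rad

/-! # Pot_SlabB: the homogeneous box on the axis
Keep the statements; auxiliary lemmas get the prefix `psb_`. -/

set_option autoImplicit false
set_option linter.dupNamespace false
set_option linter.unusedVariables false

noncomputable section

namespace Crest.Agent.R338

open MeasureTheory Set Filter Topology

theorem psb_rad {f : ℝ → ℝ} (hi : IntegrableOn (fun r => r * f r) (Ioi 0)) :
    Integrable (fun p : P2 => f (nrm2 p)) ∧ ∫ p : P2, f (nrm2 p) = 2 * Real.pi * ∫ r in Ioi (0 : ℝ), r * f r := by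
  have hm := Complex.volume_preserving_equiv_real_prod
  have e : ∀ z : ℂ, nrm2 (Complex.measurableEquivRealProd z) = ‖z‖ := fun z => by
    rw [Complex.norm_eq_sqrt_sq_add_sq]; rfl
  constructor
  · rw [← hm.integrable_comp_emb Complex.measurableEquivRealProd.measurableEmbedding]
    simp only [Function.comp_def, e]
    rw [integrable_fun_norm_addHaar]
    simpa using hi
  · rw [← hm.integral_comp']
    simp only [e]
    rw [integral_fun_norm_addHaar]
    simp [Measure.real, mul_assoc]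

/-- the radial profile of `1 / |p| - 1 / |(p, t)|` -/
def psb_g (t r : ℝ) : ℝ := 1 / r - 1 / Real.sqrt (r ^ 2 + t ^ 2)

theorem psb_g_nonneg (t : ℝ) {r : ℝ} (hr : 0 < r) : 0 ≤ psb_g t r :=
  sub_nonneg.2 (one_div_le_one_div_of_le hr (Real.le_sqrt_of_sq_le (by nlinarith [sq_nonneg t])))

theorem psb_sqrt_le (t : ℝ) {r : ℝ} (hr : 0 < r) : Real.sqrt (r ^ 2 + t ^ 2) - r ≤ t ^ 2 / (2 * r) := by
  rw [sub_le_iff_le_add]
  refine Real.sqrt_le_iff.2 ⟨by positivity, ?_⟩
  have : (t ^ 2 / (2 * r) + r) ^ 2 = (t ^ 2 / (2 * r)) ^ 2 + (r ^ 2 + t ^ 2) := by field_simp; ring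
  rw [this]
  exact le_add_of_nonneg_left (sq_nonneg _)

theorem psb_tail (t : ℝ) {a : ℝ} (ha : 0 ≤ a) : IntegrableOn (fun r => r * psb_g t r) (Ioi a) ∧
    ∫ r in Ioi a, r * psb_g t r = Real.sqrt (a ^ 2 + t ^ 2) - a := by
  have hc : ContinuousWithinAt (fun r : ℝ => r - Real.sqrt (r ^ 2 + t ^ 2)) (Ici a) a := by
    refine Continuous.continuousWithinAt ?_
    fun_prop
  have hd : ∀ r ∈ Ioi a, HasDerivAt (fun r : ℝ => r - Real.sqrt (r ^ 2 + t ^ 2)) (r * psb_g t r) r := by
    intro r hr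
    have h0 : 0 < r := ha.trans_lt hr
    have h1 : 0 < r ^ 2 + t ^ 2 := by positivity
    refine ((hasDerivAt_id r).sub (((hasDerivAt_pow 2 r).add_const _).sqrt h1.ne')).congr_deriv ?_
    have := Real.sqrt_pos.2 h1
    rw [psb_g]
    field_simp
    simp [mul_sub]
  have hp : ∀ r ∈ Ioi a, 0 ≤ r * psb_g t r := fun r hr =>
    mul_nonneg (ha.trans (le_of_lt hr)) (psb_g_nonneg t (ha.trans_lt hr))
  have hl : Tendsto (fun r : ℝ => r - Real.sqrt (r ^ 2 + t ^ 2)) atTop (𝓝 0) := by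
    have h1 : Tendsto (fun r : ℝ => -(t ^ 2 / (2 * r))) atTop (𝓝 0) := by
      simpa using (tendsto_const_nhds.div_atTop (tendsto_id.const_mul_atTop (two_pos (α := ℝ)))).neg
    refine tendsto_of_tendsto_of_tendsto_of_le_of_le' h1 tendsto_const_nhds ?_ ?_
    · filter_upwards [eventually_gt_atTop 0] with r hr
      linarith [psb_sqrt_le t hr]
    · filter_upwards with r
      exact sub_nonpos.2 (Real.le_sqrt_of_sq_le (by nlinarith [sq_nonneg t]))
  exact ⟨integrableOn_Ioi_deriv_of_nonneg hc hd hp hl, by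
    rw [integral_Ioi_of_hasDerivAt_of_nonneg hc hd hp hl]; ring⟩

theorem psb_sq (p : P2) : nrm2 p ^ 2 = p.1 ^ 2 + p.2 ^ 2 := Real.sq_sqrt (by positivity)

theorem psb_nrm3 (p : P2) (t : ℝ) : 1 / nrm3 (p, t) = 1 / nrm2 p - psb_g t (nrm2 p) := by
  simp [psb_g, psb_sq, nrm3]

theorem psb_ae (t : ℝ) : ∀ᵐ p : P2, 0 ≤ psb_g t (nrm2 p) := by
  have : ∀ᵐ p : P2, p ≠ 0 := by
    rw [ae_iff]
    simp only [not_not, ofPred_eq_eq_singleton]
    exact measure_singleton _
  filter_upwards [this] with p hp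
  refine psb_g_nonneg t (Real.sqrt_pos.2 ?_)
  by_contra h
  exact hp (Prod.ext (show p.1 = 0 by nlinarith [sq_nonneg p.1, sq_nonneg p.2])
    (show p.2 = 0 by nlinarith [sq_nonneg p.1, sq_nonneg p.2]))

/-- `D t p = 1 / nrm2 p - 1 / √(nrm2 p ² + t²) ≥ 0`; polar coordinates (`integral_comp_polarCoord_symm`, `lintegral_comp_polarCoord_symm`):
`∫ D t = 2π ∫₀^∞ (1 - r / √(r² + t²)) dr = 2π |t|` (primitive `r - √(r² + t²)`), and off the square `nrm2 p ≥ A`,
`D t p ≤ t² / (2 nrm2 p ³)`, `∫_{nrm2 ≥ A} = π t² / A`. -/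
theorem Q_bounds {A : ℝ} (hA : 0 < A) (t : ℝ) :
    IntegrableOn (fun p : P2 => 1 / nrm2 p) (sq2 A) ∧
    (∫ p in sq2 A, 1 / nrm2 p) - 2 * Real.pi * |t| ≤ (∫ p in sq2 A, 1 / nrm3 (p, t)) ∧
    ∫ p in sq2 A, 1 / nrm3 (p, t) ≤ (∫ p in sq2 A, 1 / nrm2 p) - 2 * Real.pi * |t| + Real.pi * t ^ 2 / A := by
  have hD := fun s => psb_rad (psb_tail s le_rfl).1
  have hI : IntegrableOn (fun p : P2 => 1 / nrm2 p) (sq2 A) := by
    have h1 : Continuous fun p : P2 => 1 / nrm3 (p, 1) :=
      continuous_const.div (continuous_nrm3.comp (Continuous.prodMk_left 1)) fun p =>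
        (Real.sqrt_pos.2 (by positivity)).ne'
    refine ((integrableOn_of_bounded2 h1 (isBounded_sq2 A)).add (hD 1).1.integrableOn).congr
      (Eventually.of_forall fun p => ?_)
    simp only [Pi.add_apply, psb_nrm3, sub_add_cancel]
  have h1 := (hD t).2
  rw [(psb_tail t le_rfl).2] at h1
  simp only [ne_eq, OfNat.ofNat_ne_zero, not_false_eq_true, zero_pow, zero_add, Real.sqrt_sq_eq_abs, sub_zero] at h1
  have h2 := setIntegral_le_integral (s := sq2 A) (hD t).1 (psb_ae t)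
  have h3 := integral_add_compl (measurableSet_sq2 A) (hD t).1
  have e : ∀ r : ℝ, r * (Ici A).indicator (psb_g t) r = (Ici A).indicator (fun r => r * psb_g t r) r := fun r =>
    (indicator_mul_right (Ici A) (fun r => r) (psb_g t)).symm
  have h4 := psb_rad (f := (Ici A).indicator (psb_g t)) (by
    simp only [e]
    exact (psb_tail t le_rfl).1.indicator measurableSet_Ici)
  have h5 : ∫ r in Ioi (0 : ℝ), r * (Ici A).indicator (psb_g t) r ≤ t ^ 2 / (2 * A) := by
    simp only [e]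
    rw [setIntegral_indicator measurableSet_Ici, inter_eq_right.2 (Ici_subset_Ioi.2 hA), integral_Ici_eq_integral_Ioi,
      (psb_tail t hA.le).2]
    exact psb_sqrt_le t hA
  have h6 : ∫ p in (sq2 A)ᶜ, psb_g t (nrm2 p) ≤ ∫ p : P2, (Ici A).indicator (psb_g t) (nrm2 p) := by
    rw [← integral_indicator (measurableSet_sq2 A).compl]
    refine integral_mono ((hD t).1.indicator (measurableSet_sq2 A).compl) h4.1 fun p => ?_
    by_cases hp : p ∈ (sq2 A)ᶜ
    · have : A ≤ nrm2 p := by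
        refine Real.le_sqrt_of_sq_le ?_
        by_contra h
        refine hp ⟨⟨?_, ?_⟩, ?_, ?_⟩ <;> nlinarith [sq_nonneg p.1, sq_nonneg p.2]
      rw [indicator_of_mem hp]
      exact (indicator_of_mem (s := Ici A) this _).ge
    · rw [indicator_of_notMem hp]
      exact indicator_apply_nonneg fun h => psb_g_nonneg t (hA.trans_le h)
  have h7 : 2 * Real.pi * (t ^ 2 / (2 * A)) = Real.pi * t ^ 2 / A := by field_simp
  have h8 := mul_le_mul_of_nonneg_left h5 (by positivity : 0 ≤ 2 * Real.pi)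
  simp only [psb_nrm3]
  rw [integral_sub hI (hD t).1.integrableOn]
  exact ⟨hI, by linarith, by linarith [h4.2]⟩

theorem psb_abs {L z : ℝ} (hz : |z| ≤ L) : ∫ x in Ioc (-L) L, |z - x| = z ^ 2 + L ^ 2 := by
  obtain ⟨h1, h2⟩ := abs_le.1 hz
  have hc : Continuous fun x : ℝ => |z - x| := by fun_prop
  rw [← intervalIntegral.integral_of_le (by linarith),
    ← intervalIntegral.integral_add_adjacent_intervals (b := z) (hc.intervalIntegrable _ _) (hc.intervalIntegrable _ _),
    intervalIntegral.integral_congr (g := fun x => z - x) fun x hx =>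
      abs_of_nonneg (by rw [uIcc_of_le h1] at hx; linarith [hx.2]),
    intervalIntegral.integral_congr (a := z) (g := fun x => x - z) fun x hx => by
      rw [uIcc_of_le h2] at hx
      simp only [abs_sub_comm z]
      exact abs_of_nonneg (by linarith [hx.1]),
    intervalIntegral.integral_sub (by simp) (by simp), intervalIntegral.integral_sub (by simp) (by simp)]
  simp
  ring

theorem psb_axis {A L z : ℝ} (hA : 0 < A) (hz : |z| ≤ L) :
    2 * L * (∫ p in sq2 A, 1 / nrm2 p) - 2 * Real.pi * (z ^ 2 + L ^ 2) ≤ Pb A L (0, z) ∧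
      Pb A L (0, z) ≤ 2 * L * (∫ p in sq2 A, 1 / nrm2 p) - 2 * Real.pi * (z ^ 2 + L ^ 2) + 8 * Real.pi * L ^ 3 / A := by
  have hL := (abs_nonneg z).trans hz
  have hi : Integrable (fun u : P3 => 1 / nrm3 ((0, z) - u))
      ((volume.restrict (sq2 A)).prod (volume.restrict (Ioc (-L) L))) := by
    rw [Measure.prod_restrict]
    exact integrableOn_inv (0, z) (volume_bx_ne_top A L)
  have e : ∀ (p : P2) (x : ℝ), nrm3 ((0, z) - (p, x)) = nrm3 (p, z - x) := fun p x => by simp [nrm3]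
  have h1 : Pb A L (0, z) = ∫ x in Ioc (-L) L, ∫ p in sq2 A, 1 / nrm3 (p, z - x) := by
    have := integral_prod_symm _ hi
    rw [Measure.prod_restrict] at this
    refine Eq.trans this ?_
    simp only [e]
  have h2 := hi.integral_prod_right
  simp only [e] at h2
  set Q := ∫ p in sq2 A, 1 / nrm2 p
  have hc : IntegrableOn (fun x : ℝ => |z - x|) (Ioc (-L) L) :=
    (by fun_prop : Continuous fun x : ℝ => |z - x|).integrableOn_Ioc
  have h3 : ∀ c : ℝ, ∫ x in Ioc (-L) L, (c - 2 * Real.pi * |z - x|) = 2 * L * c - 2 * Real.pi * (z ^ 2 + L ^ 2) := by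
    intro c
    rw [integral_sub (by simp) (hc.const_mul _), integral_const_mul, psb_abs hz, setIntegral_const,
      Real.volume_real_Ioc_of_le (by linarith), smul_eq_mul]
    ring
  have h4 : ∀ c : ℝ, IntegrableOn (fun x => c - 2 * Real.pi * |z - x|) (Ioc (-L) L) := fun c =>
    Integrable.sub (by simp) (hc.const_mul _)
  rw [h1]
  constructor
  · rw [← h3]
    exact integral_mono (h4 _) h2 fun x => (Q_bounds hA (z - x)).2.1
  · have h5 := h3 (Q + Real.pi * (2 * L) ^ 2 / A)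
    refine (setIntegral_mono_on h2 (h4 (Q + Real.pi * (2 * L) ^ 2 / A)) measurableSet_Ioc fun x hx => ?_).trans
      (le_of_eq (by rw [h5]; ring))
    have h6 : (z - x) ^ 2 ≤ (2 * L) ^ 2 := by
      obtain ⟨h7, h8⟩ := abs_le.1 hz
      exact sq_le_sq' (by linarith [hx.2]) (by linarith [hx.1])
    have h7 : Real.pi * (z - x) ^ 2 / A ≤ Real.pi * (2 * L) ^ 2 / A := by gcongr
    linarith [(Q_bounds hA (z - x)).2.2]

/-- Fubini: `Pb A L (0, z) = ∫_{-L}^{L} Q (z - z') dz'`, `Q t = ∫_sq 1 / nrm3 (p, t)` (`nrm3 ((0, z) - (p, z')) = nrm3 (p, z - z')`);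
`∫_{-L}^{L} |z - z'| dz' = z² + L²`; `|z - z'| ≤ 2L`, `2L · π (2L)² / A ≤ 26 L³ / A`. -/
theorem Pb_axis {A L z : ℝ} (hA : 0 < A) (hz : |z| ≤ L) :
    |Pb A L (0, z) - Pb A L 0 + 2 * Real.pi * z ^ 2| ≤ 26 * L ^ 3 / A := by
  have hL := (abs_nonneg z).trans hz
  have h1 := psb_axis hA hz
  have h2 := psb_axis (z := 0) hA (by simpa using hL)
  have h3 : 8 * Real.pi * L ^ 3 / A ≤ 26 * L ^ 3 / A := by
    gcongr
    linarith [Real.pi_lt_d2]
  have e : ((0, 0) : P3) = 0 := rfl
  rw [e] at h2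
  rw [abs_le]
  constructor <;> linarith [h1.1, h1.2, h2.1, h2.2]

end Crest.Agent.R338
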