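import Crest.Agent.R338.Pot_Nw
import Crest.Agent.R338.Pot_SlabA
import Crest.Agent.R338.Pot_SlabB
import Crest.Agent.R338.Pot_Leib

/-! # Pot_B: the continuous potential, the splitting identity
Keep the statements; auxiliary lemmas get the prefix `pb_`. -/

set_option autoImplicit false
set_option linter.dupNamespace false
set_option linter.unusedVariables false

noncomputable section

namespace Crest.Agent.R338

open MeasureTheory Set Filter Topology

variable {a : Atoms} {w : P2 → ℝ} {ℓ ω L τ Λ M Λg : ℝ}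

/-- `1 / nrm3 = kn ς + ks ς`; `∫_box μ u.1 * kn 1 (0 - u) = ω²/(4π) · 3π/2` (where `kn 1 ≠ 0`, `‖u‖ < 1`, so `u ∈ bx`,
`u.1 ∉ box2 Λ`); `kfar (0 - u) = kfar u`.  Integrability: `μ` bounded continuous. -/
theorem Hyp.split (H : Hyp a w ℓ ω L τ Λ M Λg) {ς : ℝ} (hς : 0 < ς) (y : P3) :
    (ℓ * a.sum fun Y => 1 / nrm3 (y - Y)) - (ℓ * a.sum kfar + 3 * ω ^ 2 / 8) =
      (Err a (mu ω w) ℓ L fun u => kn ς (y - u)) + (Err a (mu ω w) ℓ L fun u => ks ς (y - u)) -
        (Err a (mu ω w) ℓ L fun u => kfar (0 - u)) + (Vb (mu ω w) a.A L y - Vb (mu ω w) a.A L 0) := by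
  have hμ := H.den.bd
  have hc : Continuous fun u : P3 => mu ω w u.1 := hμ.1.continuous.comp continuous_fst
  have key : ∀ {ς : ℝ}, 0 < ς → ∀ y : P3, Vb (mu ω w) a.A L y =
      (∫ u in bx a.A L, mf (mu ω w) (fun u => kn ς (y - u)) u) +
        ∫ u in bx a.A L, mf (mu ω w) (fun u => ks ς (y - u)) u := fun {ς} hς y => by
    rw [← integral_add]
    · exact integral_congr_ae (.of_forall fun u => by simp only [mf, kn]; ring)
    · exact (((integrable_kn hς).comp_sub_left y).bdd_mul hc.aestronglyMeasurable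
        (.of_forall fun u => hμ.abs_le u.1)).integrableOn
    · exact integrableOn_bx (hc.mul ((contDiff_ks ς).continuous.comp (continuous_const.sub continuous_id))) _ _
  have h0 : ∫ u in bx a.A L, mf (mu ω w) (fun u => kn 1 (0 - u)) u = 3 * ω ^ 2 / 8 := by
    have hz : ∀ u : P3, 1 ≤ ‖u‖ → kn 1 (0 - u) = 0 := fun u hu => by
      rw [zero_sub, kn_neg]; exact kn_eq_zero one_pos (hu.trans (norm_le_nrm3 u))
    have hA := H.L8.trans H.LA
    have hL := H.L8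
    rw [setIntegral_eq_integral_of_forall_compl_eq_zero, show (fun u => mf (mu ω w) (fun u => kn 1 (0 - u)) u) =
      fun u => ω ^ 2 / (4 * Real.pi) * kn 1 u from funext fun u => ?_, integral_const_mul, integral_kn_one]
    · field_simp; ring
    · rcases le_or_gt 1 ‖u‖ with hu | hu
      · rw [mf, hz u hu, kn_eq_zero one_pos (hu.trans (norm_le_nrm3 u)), mul_zero, mul_zero]
      · rw [mf, zero_sub, kn_neg, H.mu_out fun h => ?_]
        have := (le_abs_self _).trans ((norm_fst_le u.1).trans (norm_fst_le u))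
        linarith [h.1.1]
    · intro u hu
      rw [mf, hz u (not_lt.1 fun h => hu ?_), mul_zero]
      have h1 := abs_le.1 ((norm_fst_le u.1).trans (norm_fst_le u))
      have h2 := abs_le.1 ((norm_snd_le u.1).trans (norm_fst_le u))
      have h3 := abs_le.1 (norm_snd_le u)
      exact ⟨⟨⟨by linarith, by linarith⟩, by linarith, by linarith⟩, by linarith, by linarith⟩
  have e1 : (a.sum fun Y => 1 / nrm3 (y - Y)) = (a.sum fun u => kn ς (y - u)) + a.sum fun u => ks ς (y - u) := by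
    rw [← Atoms.sum_add]; simp only [kn, sub_add_cancel]
  have e2 : (a.sum fun u => kfar (0 - u)) = a.sum kfar := by simp only [zero_sub, ← ks_one, ks_neg]
  rw [key hς y, key one_pos 0, h0, e1, Err, Err, Err, e2, ks_one]
  ring

/-- `|∫_box μ kn ς (y - ·)| ≤ M ∫ kn ς ≤ 7 M ς²` -/
theorem Hyp.err_kn (H : Hyp a w ℓ ω L τ Λ M Λg) (y : P3) :
    |(Err a (mu ω w) ℓ L fun u => kn (a.h / 8) (y - u)) - Vc a ℓ y| ≤ M * a.h ^ 2 := by
  have h0 := H.ok.h_pos
  have hς : 0 < a.h / 8 := by positivity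
  have hi := (integrable_kn hς).comp_sub_left y
  rw [Err, Vc, sub_sub_cancel_left, abs_neg, ← Real.norm_eq_abs]
  refine le_trans (norm_integral_le_of_norm_le (hi.const_mul M).integrableOn (.of_forall fun u => ?_)) ?_
  · rw [mf, norm_mul, Real.norm_of_nonneg (kn_nonneg hς _)]
    exact mul_le_mul_of_nonneg_right (H.den.bd.abs_le _) (kn_nonneg hς _)
  · have hM := H.M1
    refine (setIntegral_le_integral (hi.const_mul M) (.of_forall fun u => mul_nonneg (by linarith)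
      (kn_nonneg hς _))).trans ?_
    rw [integral_const_mul, integral_sub_left_eq_self (kn (a.h / 8))]
    refine mul_le_mul_of_nonneg_left ((integral_kn_le hς).trans (by nlinarith)) (by linarith)

/-- `Vb = ω²/(4π) Pb + Nw`; `w 0 = 1`; `t = min |z| (2 L₀)`, `Pb y ≤ Pb (0, t)` (`Pb_mono`), `Pb_axis`, `Wz = ω² t² / 2`;
on `box3 Λ`: `Pb_near`, `‖y.1‖ ≤ Λ ≤ L/4`, `|z| ≤ 2 ≤ 2 L₀`. -/
theorem exists_B : ∃ C : ℝ, 1 ≤ C ∧ ∀ {a : Atoms} {w : P2 → ℝ} {ℓ ω L τ Λ M Λg : ℝ}, Hyp a w ℓ ω L τ Λ M Λg →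
    ∀ L₀ : ℝ, 2 ≤ L₀ → 4 * L₀ ≤ L → ∀ y : P3,
      (|y.2| ≤ 2 * L₀ → Vb (mu ω w) a.A L y - Vb (mu ω w) a.A L 0 + (w y.1 - 1) + Wz ω L₀ y.2 ≤
        C * M * Λ ^ 2 * (1 / L + L ^ 3 / a.A)) ∧
      Vb (mu ω w) a.A L y - Vb (mu ω w) a.A L 0 + (w y.1 - 1) + Wz ω L₀ y.2 ≤ C * M * Λ ^ 2 * (1 + L ^ 3 / a.A) ∧
      (y ∈ box3 Λ → |Vb (mu ω w) a.A L y - Vb (mu ω w) a.A L 0 + (w y.1 - 1) + Wz ω L₀ y.2| ≤
        C * M * Λ ^ 2 * (1 / L + L ^ 3 / a.A)) := by
  obtain ⟨C, hC, nw⟩ := exists_nw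
  refine ⟨2 * C + 30, by linarith, fun {a w ℓ ω L τ Λ M Λg} H L₀ h2 h4 y => ?_⟩
  have hL := H.L8
  have hA := H.LA
  have hΛ := H.Λ2
  have hM := H.M1
  have hΛL := H.ΛL
  have hA0 : 0 < a.A := by linarith
  have nw := nw w M Λ a.A L (H.bd.mono (by norm_num) le_rfl) H.out hM hΛ hΛL hA
  have e : ∀ y, Vb (mu ω w) a.A L y = ω ^ 2 / (4 * Real.pi) * Pb a.A L y + Nw w a.A L y := fun y => by
    have hi := integrableOn_inv y (volume_bx_ne_top a.A L)
    have hb := (H.bd.mono (k' := 0 + 2) (by norm_num) le_rfl).lap2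
    rw [Pb, Nw, ← integral_const_mul, ← integral_add (hi.const_mul _) (hi.bdd_mul
      (f := fun u : P3 => lap2 w u.1 / (4 * Real.pi)) (c := 2 * M / (4 * Real.pi))
      ((hb.1.continuous.comp continuous_fst).div_const _).aestronglyMeasurable (.of_forall fun u => ?_))]
    · exact integral_congr_ae (.of_forall fun u => by simp only [mu]; ring)
    · rw [Real.norm_eq_abs, abs_div, abs_of_pos (by positivity : 0 < 4 * Real.pi)]
      gcongr
      exact hb.abs_le _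
  have n0 := (nw 0).1 (by simp; linarith)
  rw [Prod.fst_zero, H.out 0 fun h => by linarith [show (2 : ℝ) ≤ 0 from h.1.1], sub_self, add_zero] at n0
  obtain ⟨t, ht⟩ : ∃ t, t = min |y.2| (2 * L₀) := ⟨_, rfl⟩
  have t0 : 0 ≤ t := ht ▸ le_min (abs_nonneg _) (by linarith)
  have t1 : t ≤ |y.2| := ht ▸ min_le_left _ _
  have t2 : t ≤ 2 * L₀ := ht ▸ min_le_right _ _
  have hW : Wz ω L₀ y.2 = ω ^ 2 / (4 * Real.pi) * (2 * Real.pi * t ^ 2) := by
    have : min (y.2 ^ 2) (4 * L₀ ^ 2) = t ^ 2 := by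
      rcases le_total |y.2| (2 * L₀) with h | h
      · rw [ht, min_eq_left h, sq_abs, min_eq_left (by nlinarith [sq_abs y.2, abs_nonneg y.2])]
      · rw [ht, min_eq_right h, min_eq_right (by nlinarith [sq_abs y.2])]; ring
    rw [Wz, this]; field_simp; ring
  have m0 : 0 ≤ ω ^ 2 / (4 * Real.pi) := by positivity
  have m1 : ω ^ 2 / (4 * Real.pi) ≤ M * Λ ^ 2 := by
    rw [div_le_iff₀ (by positivity)]
    have : 1 ≤ Λ ^ 2 * (4 * Real.pi) := by nlinarith [Real.pi_gt_three]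
    nlinarith [H.ωM]
  have p0 : 0 ≤ L ^ 3 / a.A := by positivity
  have ax := abs_le.1 (Pb_axis (A := a.A) (L := L) (z := t) (by linarith) (by rw [abs_of_nonneg t0]; linarith))
  have mo : Pb a.A L y ≤ Pb a.A L (0, t) := Pb_mono _ _ (by simp) (by simp) (by rwa [abs_of_nonneg t0])
  have up : ω ^ 2 / (4 * Real.pi) * (Pb a.A L y - Pb a.A L 0 + 2 * Real.pi * t ^ 2) ≤ M * Λ ^ 2 * (30 * (L ^ 3 / a.A)) :=
    (mul_le_mul_of_nonneg_left (c := 30 * (L ^ 3 / a.A)) (by linarith [mul_div_assoc 26 (L ^ 3) a.A]) m0).trans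
      (by gcongr)
  have q0 : 0 ≤ M * Λ ^ 2 := by positivity
  have q1 : 0 ≤ C * (M * Λ ^ 2 * (L ^ 3 / a.A)) := by positivity
  have q2 : 0 ≤ M * Λ ^ 2 * (1 / L) := by positivity
  have q3 : C * M * Λ ^ 2 / L = C * (M * Λ ^ 2 * (1 / L)) := by ring
  rw [e y, e 0, hW]
  refine ⟨fun hy => ?_, ?_, fun hy => ?_⟩
  · linarith [abs_le.1 n0, abs_le.1 ((nw y).1 (by linarith))]
  · have q4 : C * M * Λ ^ 2 / L ≤ C * M * Λ ^ 2 := div_le_self (by positivity) (by linarith)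
    have q5 : M * 2 ≤ M * Λ ^ 2 := by gcongr; nlinarith
    linarith [abs_le.1 n0, abs_le.1 (nw y).2, abs_le.1 (H.bd.abs_le y.1)]
  · have hy2 : |y.2| ≤ 2 := abs_le.2 hy.2
    have hy1 : ‖y.1‖ ≤ Λ := max_le (abs_le.2 ⟨by linarith [hy.1.1.1], hy.1.1.2⟩) (abs_le.2 ⟨by linarith [hy.1.2.1], hy.1.2.2⟩)
    have ne := Pb_near (A := a.A) (L := L) (by linarith) (by linarith) (y := y) (by linarith)
    have mo' : Pb a.A L (0, t) ≤ Pb a.A L (0, y.2) := Pb_mono _ _ le_rfl le_rfl (by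
      rw [abs_of_nonneg t0, ht, min_eq_left (by linarith)])
    have q6 : 64 * ‖y.1‖ ^ 2 * L / a.A ≤ 4 * (L ^ 3 / a.A) := by
      rw [← mul_div_assoc]
      refine div_le_div_of_nonneg_right ?_ hA0.le
      nlinarith [mul_le_mul_of_nonneg_right (pow_le_pow_left₀ (norm_nonneg _) (show ‖y.1‖ ≤ L / 4 by linarith) 2)
        (show 0 ≤ L by linarith)]
    have lo : -(M * Λ ^ 2 * (30 * (L ^ 3 / a.A))) ≤
        ω ^ 2 / (4 * Real.pi) * (Pb a.A L y - Pb a.A L 0 + 2 * Real.pi * t ^ 2) := by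
      refine le_trans ?_ (mul_le_mul_of_nonneg_left (b := -(30 * (L ^ 3 / a.A)))
        (by linarith [mul_div_assoc 26 (L ^ 3) a.A]) m0)
      rw [mul_neg, neg_le_neg_iff]
      gcongr
    have := abs_le.1 ((nw y).1 (by linarith))
    exact abs_le.2 ⟨by linarith [abs_le.1 n0], by linarith [abs_le.1 n0]⟩

end Crest.Agent.R338
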