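import Crest.Agent.R338.Pot_D

/-! # Pot_Sum: the cells tile the columns, the columns tile the box
Keep the statements; auxiliary lemmas get the prefix `psum_`. -/

set_option autoImplicit false
set_option linter.dupNamespace false
set_option linter.unusedVariables false

noncomputable section

namespace Crest.Agent.R338

open MeasureTheory Set Filter Topology

variable {a : Atoms} {w : P2 → ℝ} {ℓ ω L τ Λ M Λg : ℝ}

theorem psum_iv (s : ℝ) (n k : ℕ) : iv (xc s n k) s = Ioc ((k - n) * s) ((k + 1 - n) * s) := by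
  unfold iv xc; congr 1 <;> ring

theorem psum_iv_sub {s : ℝ} (hs : 0 < s) {n k : ℕ} (hk : k < 2 * n) :
    iv (xc s n k) s ⊆ Ioc (-(n * s)) (n * s) := by
  have h1 : (k : ℝ) + 1 ≤ 2 * n := by exact_mod_cast hk
  have h0 : (0 : ℝ) ≤ k := Nat.cast_nonneg _
  rw [psum_iv]
  exact Ioc_subset_Ioc (by nlinarith) (by nlinarith)

theorem psum_meas (c s : ℝ) : MeasurableSet (iv c s) := measurableSet_Ioc

/-- The intervals `iv (xc s n k) s = Ioc ((k - n) s) ((k + 1 - n) s)`, `k < 2n`, tile `Ioc (-ns) (ns)`: induction on the number of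
intervals (`setIntegral_union`, `Ioc_union_Ioc_eq_Ioc`), or `integral_biUnion_finset`. -/
theorem part {E : Type} [MeasureSpace E] {π : E → ℝ} (hπ : Measurable π) {R : Set E} (hR : MeasurableSet R)
    {s : ℝ} (hs : 0 < s) (n : ℕ) {G : E → ℝ} (hG : IntegrableOn G (R ∩ π ⁻¹' Ioc (-(n * s)) (n * s))) :
    ∑ k ∈ Finset.range (2 * n), ∫ u in R ∩ π ⁻¹' iv (xc s n k) s, G u =
      ∫ u in R ∩ π ⁻¹' Ioc (-(n * s)) (n * s), G u := by
  have key : ∀ m ≤ 2 * n, ∑ k ∈ Finset.range m, ∫ u in R ∩ π ⁻¹' iv (xc s n k) s, G u =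
      ∫ u in R ∩ π ⁻¹' Ioc (-(n * s)) ((m - n) * s), G u := by
    intro m hm
    induction m with
    | zero => simp
    | succ m ih =>
      have h1 : (m : ℝ) + 1 ≤ 2 * n := by exact_mod_cast hm
      have h0 : (0 : ℝ) ≤ m := Nat.cast_nonneg _
      have hu : R ∩ π ⁻¹' Ioc (-(n * s)) ((((m + 1 : ℕ) : ℝ) - n) * s) =
          (R ∩ π ⁻¹' Ioc (-(n * s)) ((m - n) * s)) ∪ (R ∩ π ⁻¹' iv (xc s n m) s) := by
        rw [psum_iv, ← inter_union_distrib_left, ← preimage_union,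
          Ioc_union_Ioc_eq_Ioc (by nlinarith) (by nlinarith)]
        push_cast; rfl
      have hd : Disjoint (R ∩ π ⁻¹' Ioc (-(n * s)) ((m - n) * s)) (R ∩ π ⁻¹' iv (xc s n m) s) := by
        rw [psum_iv, Set.disjoint_left]
        rintro u ⟨-, h2⟩ ⟨-, h3⟩
        exact absurd h2.2 (not_le.2 h3.1)
      rw [Finset.sum_range_succ, ih (by omega), hu, setIntegral_union hd (hR.inter (hπ (psum_meas _ _)))
        (hG.mono_set (inter_subset_inter_right _ (preimage_mono (Ioc_subset_Ioc_right (by nlinarith)))))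
        (hG.mono_set (inter_subset_inter_right _ (preimage_mono (psum_iv_sub hs (by omega)))))]
  rw [key _ le_rfl, show (((2 * n : ℕ) : ℝ) - n) * s = n * s by push_cast; ring]

theorem psum_two {E : Type} [MeasureSpace E] {π π' : E → ℝ} (hπ : Measurable π) (hπ' : Measurable π')
    {R : Set E} (hR : MeasurableSet R) {s : ℝ} (hs : 0 < s) (n : ℕ) {G : E → ℝ}
    (hG : IntegrableOn G (R ∩ π ⁻¹' Ioc (-(n * s)) (n * s) ∩ π' ⁻¹' Ioc (-(n * s)) (n * s))) :
    ∑ i ∈ Finset.range (2 * n), ∑ j ∈ Finset.range (2 * n),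
        ∫ u in R ∩ π ⁻¹' iv (xc s n i) s ∩ π' ⁻¹' iv (xc s n j) s, G u =
      ∫ u in R ∩ π ⁻¹' Ioc (-(n * s)) (n * s) ∩ π' ⁻¹' Ioc (-(n * s)) (n * s), G u := by
  rw [inter_right_comm] at hG ⊢
  rw [← part hπ (hR.inter (hπ' measurableSet_Ioc)) hs n hG]
  refine Finset.sum_congr rfl fun i hi => ?_
  rw [inter_right_comm R (π' ⁻¹' _)]
  refine part hπ' (hR.inter (hπ (psum_meas _ _))) hs n ?_
  rw [inter_right_comm]
  exact hG.mono_set (inter_subset_inter_right _ (preimage_mono (psum_iv_sub hs (Finset.mem_range.1 hi))))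

theorem base_subset (hh : 0 < a.h) {i j : ℕ} (hi : i < 2 * a.Ka) (hj : j < 2 * a.Ka) : base a i j ⊆ sq2 a.A :=
  prod_mono (psum_iv_sub hh hi) (psum_iv_sub hh hj)

theorem sum_base (hh : 0 < a.h) {b : P2 → ℝ} (hb : IntegrableOn b (sq2 a.A)) :
    ∑ i ∈ Finset.range (2 * a.Ka), ∑ j ∈ Finset.range (2 * a.Ka), ∫ p in base a i j, b p =
      ∫ p in sq2 a.A, b p := by
  have e : ∀ S T : Set ℝ, S ×ˢ T = (univ : Set P2) ∩ Prod.fst ⁻¹' S ∩ Prod.snd ⁻¹' T := by
    intro S T; ext p; simp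
  unfold base
  unfold sq2 Atoms.A at hb ⊢
  simp only [e] at hb ⊢
  exact psum_two measurable_fst measurable_snd MeasurableSet.univ hh a.Ka hb

theorem sum_col (hh : 0 < a.h) {T : Set ℝ} (hT : MeasurableSet T) {G : P3 → ℝ}
    (hG : IntegrableOn G (sq2 a.A ×ˢ T)) :
    ∑ i ∈ Finset.range (2 * a.Ka), ∑ j ∈ Finset.range (2 * a.Ka), ∫ u in base a i j ×ˢ T, G u =
      ∫ u in sq2 a.A ×ˢ T, G u := by
  have e : ∀ S S' : Set ℝ, (S ×ˢ S') ×ˢ T =
      (Prod.snd ⁻¹' T : Set P3) ∩ (fun u : P3 => u.1.1) ⁻¹' S ∩ (fun u : P3 => u.1.2) ⁻¹' S' := by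
    intro S S'; ext p; simp only [mem_prod, mem_inter_iff, mem_preimage]; tauto
  unfold base
  unfold sq2 Atoms.A at hG ⊢
  simp only [e] at hG ⊢
  exact psum_two measurable_fst.fst measurable_fst.snd (measurable_snd hT) hh a.Ka hG

theorem psum_sp (ok : AtomsOK a w ℓ ω L τ Λ) {i j : ℕ} (hi : i < 2 * a.Ka) (hj : j < 2 * a.Ka) :
    0 < a.sp i j ∧ L - 3 ≤ a.nc i j * a.sp i j ∧ a.nc i j * a.sp i j ≤ L + 3 := by
  obtain ⟨h1, h2, -, h3, -⟩ := ok.col i hi j hj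
  have h4 := ok.h_pos
  have h5 := ok.h_le
  rw [abs_le] at h3
  exact ⟨by linarith, by linarith [h3.1], by linarith [h3.2]⟩

theorem psum_col_sub (ok : AtomsOK a w ℓ ω L τ Λ) {i j : ℕ} (hi : i < 2 * a.Ka) (hj : j < 2 * a.Ka) :
    base a i j ×ˢ Ioc (-(a.nc i j * a.sp i j)) (a.nc i j * a.sp i j) ⊆
      base a i j ×ˢ Ioc (-(L + 3)) (L + 3) := by
  obtain ⟨-, -, h⟩ := psum_sp ok hi hj
  exact prod_mono Subset.rfl (Ioc_subset_Ioc (by linarith) h)

theorem psum_col_sub' (hh : 0 < a.h) {i j : ℕ} (hi : i < 2 * a.Ka) (hj : j < 2 * a.Ka) (L : ℝ) :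
    base a i j ×ˢ Ioc (-L) L ⊆ bx a.A L :=
  prod_mono (base_subset hh hi hj) Subset.rfl

theorem sum_cell (ok : AtomsOK a w ℓ ω L τ Λ) {i j : ℕ} (hi : i < 2 * a.Ka) (hj : j < 2 * a.Ka) {G : P3 → ℝ}
    (hG : IntegrableOn G (bx a.A (L + 3))) :
    ∑ k ∈ Finset.range (2 * a.nc i j), ∫ u in cell (ctr a i j k) a.h (a.sp i j), G u =
      ∫ u in base a i j ×ˢ Ioc (-(a.nc i j * a.sp i j)) (a.nc i j * a.sp i j), G u := by
  have e : ∀ T : Set ℝ, base a i j ×ˢ T = (Prod.fst ⁻¹' base a i j : Set P3) ∩ Prod.snd ⁻¹' T := fun T => rfl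
  have e' : ∀ k, cell (ctr a i j k) a.h (a.sp i j) =
      (Prod.fst ⁻¹' base a i j : Set P3) ∩ Prod.snd ⁻¹' iv (xc (a.sp i j) (a.nc i j) k) (a.sp i j) := fun k => rfl
  have hG' := hG.mono_set ((psum_col_sub ok hi hj).trans (psum_col_sub' ok.h_pos hi hj _))
  rw [e] at hG' ⊢
  simp only [e']
  exact part measurable_snd (measurable_fst (measurableSet_base a i j)) (psum_sp ok hi hj).1 _ hG'

theorem cell_subset (ok : AtomsOK a w ℓ ω L τ Λ) {i j k : ℕ} (hi : i < 2 * a.Ka) (hj : j < 2 * a.Ka)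
    (hk : k < 2 * a.nc i j) : cell (ctr a i j k) a.h (a.sp i j) ⊆ bx a.A (L + 3) := by
  refine Subset.trans ?_ ((psum_col_sub ok hi hj).trans (psum_col_sub' ok.h_pos hi hj _))
  exact prod_mono Subset.rfl (psum_iv_sub (psum_sp ok hi hj).1 hk)

theorem ci_le (ok : AtomsOK a w ℓ ω L τ Λ) {m : P3 → ℝ} (h0 : ∀ u, 0 ≤ m u)
    (hm : IntegrableOn m (bx a.A (L + 3))) : Ci a m ≤ ∫ u in bx a.A (L + 3), m u := by
  unfold Ci csum
  rw [bx, ← sum_col ok.h_pos measurableSet_Ioc hm]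
  refine Finset.sum_le_sum fun i hi => Finset.sum_le_sum fun j hj => ?_
  have hi' := Finset.mem_range.1 hi
  have hj' := Finset.mem_range.1 hj
  rw [sum_cell ok hi' hj' hm]
  exact setIntegral_mono_set (hm.mono_set (psum_col_sub' ok.h_pos hi' hj' _)) (ae_of_all _ h0)
    (psum_col_sub ok hi' hj').eventuallyLE

theorem psum_diff {B : Set P2} (hB : MeasurableSet B) (hb : Bornology.IsBounded B)
    (hs : B ⊆ Icc 0 (Λ + 2) ×ˢ Icc 0 (Λ + 2)) {H : ℝ} (h1 : L - 3 ≤ H) (h2 : H ≤ L + 3) {G : P3 → ℝ}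
    (hG : Continuous G) :
    |(∫ u in B ×ˢ Ioc (-H) H, G u) - ∫ u in B ×ˢ Ioc (-L) L, G u| ≤
      ∫ u in B ×ˢ (univ : Set ℝ), indicator (Mis L Λ) (fun u => |G u|) u := by
  have m1 : ∀ H : ℝ, MeasurableSet (B ×ˢ Ioc (-H) H) := fun H => hB.prod measurableSet_Ioc
  have i1 : ∀ H : ℝ, Integrable (indicator (B ×ˢ Ioc (-H) H) G) := fun H =>
    (integrable_indicator_iff (m1 H)).2 (integrableOn_of_bounded3 hG (hb.prod (Metric.isBounded_Ioc _ _)))
  have i2 : Integrable (indicator (Mis L Λ) fun u => |G u|) :=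
    (integrable_indicator_iff (isCompact_Mis L Λ).measurableSet).2
      (integrableOn_of_bounded3 hG.abs (isCompact_Mis L Λ).isBounded)
  rw [← integral_indicator (m1 H), ← integral_indicator (m1 L), ← integral_sub (i1 H) (i1 L),
    ← integral_indicator (hB.prod MeasurableSet.univ), ← Real.norm_eq_abs]
  refine norm_integral_le_of_norm_le (i2.indicator (hB.prod MeasurableSet.univ)) (ae_of_all _ fun u => ?_)
  have n0 : 0 ≤ indicator (B ×ˢ (univ : Set ℝ)) (indicator (Mis L Λ) fun u => |G u|) u :=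
    indicator_nonneg (fun v _ => indicator_nonneg (fun _ _ => abs_nonneg _) v) u
  by_cases c1 : u ∈ B ×ˢ Ioc (-H) H <;> by_cases c2 : u ∈ B ×ˢ Ioc (-L) L
  · rw [indicator_of_mem c1, indicator_of_mem c2, sub_self, norm_zero]; exact n0
  · have hM : u ∈ Mis L Λ := by
      refine ⟨hs c1.1, ?_, abs_le.2 ⟨by linarith [c1.2.1], by linarith [c1.2.2]⟩⟩
      by_contra hc
      rw [not_le, abs_lt] at hc
      exact c2 ⟨c1.1, by linarith [hc.1], by linarith [hc.2]⟩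
    rw [indicator_of_mem c1, indicator_of_notMem c2, sub_zero,
      indicator_of_mem (show u ∈ B ×ˢ (univ : Set ℝ) from ⟨c1.1, trivial⟩), indicator_of_mem hM, Real.norm_eq_abs]
  · have hM : u ∈ Mis L Λ := by
      refine ⟨hs c2.1, ?_, abs_le.2 ⟨by linarith [c2.2.1], by linarith [c2.2.2]⟩⟩
      by_contra hc
      rw [not_le, abs_lt] at hc
      exact c1 ⟨c2.1, by linarith [hc.1], by linarith [hc.2]⟩
    rw [indicator_of_notMem c1, indicator_of_mem c2, zero_sub, norm_neg,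
      indicator_of_mem (show u ∈ B ×ˢ (univ : Set ℝ) from ⟨c2.1, trivial⟩), indicator_of_mem hM, Real.norm_eq_abs]
  · rw [indicator_of_notMem c1, indicator_of_notMem c2, sub_self, norm_zero]; exact n0

theorem psum_iv_Icc {c s : ℝ} (hs : s ≤ 1) (hc : c ∈ Icc 1 (Λ + 1)) : iv c s ⊆ Icc 0 (Λ + 2) := fun x hx =>
  ⟨by linarith [hx.1, hc.1], by linarith [hx.2, hc.2]⟩

/-- Column by column: the difference is `0` unless the centre of the base lies in `[1, Λ+1]²`; then `base ⊆ [0, Λ+2]²` and the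
difference is at most `∫ |G|` over `base ×ˢ Z`, `Z = {L - 3 ≤ |z| ≤ L + 3}`, i.e. `∫ indicator (Mis L Λ) |G|` over `base ×ˢ univ`;
`sum_col` with `T = univ`. -/
theorem ci_sub (ok : AtomsOK a w ℓ ω L τ Λ) (hL : 0 ≤ L) {G : P3 → ℝ} (hG : Continuous G) :
    |Ci a G - ∫ u in bx a.A L, G u| ≤ ∫ u in Mis L Λ, |G u| := by
  have hM := (isCompact_Mis L Λ).measurableSet
  have i2 : Integrable (indicator (Mis L Λ) fun u => |G u|) :=
    (integrable_indicator_iff hM).2 (integrableOn_of_bounded3 hG.abs (isCompact_Mis L Λ).isBounded)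
  have n0 : ∀ u, 0 ≤ indicator (Mis L Λ) (fun u => |G u|) u := indicator_nonneg fun _ _ => abs_nonneg _
  have h1 : ∫ u in sq2 a.A ×ˢ (univ : Set ℝ), indicator (Mis L Λ) (fun u => |G u|) u ≤ ∫ u in Mis L Λ, |G u| := by
    rw [← integral_indicator hM]
    exact setIntegral_le_integral i2 (ae_of_all _ n0)
  refine le_trans ?_ h1
  unfold Ci csum
  rw [bx, ← sum_col ok.h_pos measurableSet_Ioc (integrableOn_bx hG a.A L),
    ← sum_col ok.h_pos MeasurableSet.univ i2.integrableOn, ← Finset.sum_sub_distrib]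
  refine (Finset.abs_sum_le_sum_abs _ _).trans (Finset.sum_le_sum fun i hi => ?_)
  rw [← Finset.sum_sub_distrib]
  refine (Finset.abs_sum_le_sum_abs _ _).trans (Finset.sum_le_sum fun j hj => ?_)
  have hi' := Finset.mem_range.1 hi
  have hj' := Finset.mem_range.1 hj
  rw [sum_cell ok hi' hj' (integrableOn_bx hG _ _)]
  by_cases hc : (xc a.h a.Ka i, xc a.h a.Ka j) ∈ Icc 1 (Λ + 1) ×ˢ Icc 1 (Λ + 1)
  · exact psum_diff (measurableSet_base a i j) (isBounded_base a i j)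
      (prod_mono (psum_iv_Icc ok.h_le hc.1) (psum_iv_Icc ok.h_le hc.2)) (psum_sp ok hi' hj').2.1
      (psum_sp ok hi' hj').2.2 hG
  · rw [(ok.col i hi' j hj').2.2.2.2 hc, sub_self, abs_zero]
    exact integral_nonneg n0

/-- `h² s e = ∫_cell e ≤ ∫_cell m` (`volume_cell`), `ci_le` -/
theorem csum_le (ok : AtomsOK a w ℓ ω L τ Λ) {e : ℕ → ℕ → ℕ → ℝ} {m : P3 → ℝ} (h0 : ∀ u, 0 ≤ m u)
    (hm : IntegrableOn m (bx a.A (L + 3)))
    (h : ∀ i < 2 * a.Ka, ∀ j < 2 * a.Ka, ∀ k < 2 * a.nc i j, ∀ u ∈ cell (ctr a i j k) a.h (a.sp i j),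
      e i j k ≤ m u) :
    (csum a fun i j k => a.h ^ 2 * a.sp i j * e i j k) ≤ ∫ u in bx a.A (L + 3), m u := by
  refine le_trans ?_ (ci_le ok h0 hm)
  unfold Ci csum
  refine Finset.sum_le_sum fun i hi => Finset.sum_le_sum fun j hj => Finset.sum_le_sum fun k hk => ?_
  have hi' := Finset.mem_range.1 hi
  have hj' := Finset.mem_range.1 hj
  have hk' := Finset.mem_range.1 hk
  have hsub := cell_subset ok hi' hj' hk'
  dsimp only
  rw [← volume_cell (ctr a i j k) ok.h_pos.le (psum_sp ok hi' hj').1.le, ← smul_eq_mul, ← setIntegral_const]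
  exact setIntegral_mono_on (integrableOn_const (((measure_mono hsub).trans_lt (volume_bx_ne_top _ _).lt_top).ne))
    (hm.mono_set hsub) (measurableSet_cell _ _ _) (h i hi' j hj' k hk')

end Crest.Agent.R338
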