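import Crest.Agent.R338.Pot_Hardy
import Crest.Agent.R338.Pot_Sum
import Crest.Agent.R338.Pot_Leib

/-! # Pot_Core: the singular part of the potential
Keep the statements; auxiliary lemmas get the prefix `pcore_`. -/

set_option autoImplicit false
set_option linter.dupNamespace false
set_option linter.unusedVariables false

noncomputable section

namespace Crest.Agent.R338

open MeasureTheory Set Filter Topology

variable {a : Atoms} {w : P2 → ℝ} {ℓ ω L τ Λ M Λg : ℝ}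

theorem pcore_int (a : Atoms) (ℓ : ℝ) (K : P3 → P3 → ℝ) (F : P3 → ℝ)
    (h : ∀ Y, Integrable fun y => K Y y * F y) :
    Integrable (fun y => (ℓ * a.sum fun Y => K Y y) * F y) ∧
      ∫ y, (ℓ * a.sum fun Y => K Y y) * F y = ℓ * a.sum fun Y => ∫ y, K Y y * F y := by
  have e : (fun y => (ℓ * a.sum fun Y => K Y y) * F y) =
      fun y => ℓ * a.sum fun Y => K Y y * F y := by
    funext y
    simp only [Atoms.sum, mul_assoc, Finset.sum_mul]
  rw [e]
  simp only [Atoms.sum]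
  refine ⟨(integrable_finsetSum _ fun i _ => integrable_finsetSum _ fun j _ =>
    integrable_finsetSum _ fun k _ => h _).const_mul ℓ, ?_⟩
  rw [integral_const_mul, integral_finsetSum _ fun i _ => integrable_finsetSum _ fun j _ =>
    integrable_finsetSum _ fun k _ => h _]
  congr 1
  refine Finset.sum_congr rfl fun i _ => ?_
  rw [integral_finsetSum _ fun j _ => integrable_finsetSum _ fun k _ => h _]
  exact Finset.sum_congr rfl fun j _ => integral_finsetSum _ fun k _ => h _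

theorem pcore_sq {f : P3 → ℝ} (hf : Continuous f) (hc : HasCompactSupport f) :
    Continuous (fun y => f y ^ 2) ∧ HasCompactSupport fun y => f y ^ 2 :=
  ⟨hf.pow 2, hc.comp_left (g := fun x : ℝ => x ^ 2) (by simp)⟩

theorem pcore_gsq {ψ : P3 → ℝ} (hψ : Cc1 ψ) : Integrable (gsq3 ψ) := by
  have h : ∀ e : P3, Integrable fun y => fderiv ℝ ψ y e ^ 2 := fun e => by
    obtain ⟨h1, h2⟩ := pcore_sq (contDiff_dv (n := 0) hψ.1 e).continuous (hψ.2.fderiv_apply ℝ e)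
    exact h1.integrable_of_hasCompactSupport h2
  exact ((h _).add (h _)).add (h _)

theorem pcore_ball {c : P3} {h s : ℝ} (hh : 0 < h) (hs : h / 2 ≤ s) :
    Metric.ball c (2 * (h / 8)) ⊆ cell c h s := by
  intro u hu
  rw [mem_ball_iff_norm] at hu
  simp only [Prod.norm_def, Prod.fst_sub, Prod.snd_sub, Real.norm_eq_abs, max_lt_iff, abs_lt] at hu
  obtain ⟨⟨⟨h1, h2⟩, h3, h4⟩, h5, h6⟩ := hu
  refine ⟨⟨⟨?_, ?_⟩, ?_, ?_⟩, ?_, ?_⟩ <;> linarith

theorem pcore_ell (H : Hyp a w ℓ ω L τ Λ M Λg) : ℓ ≤ 6 * M * a.h ^ 3 := by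
  have hh := H.ok.h_pos
  have hK : 0 < 2 * a.Ka := by
    have h1 : (8 : ℝ) ≤ a.Ka * a.h := H.L8.trans H.LA
    rcases Nat.eq_zero_or_pos a.Ka with h | h
    · rw [h] at h1; norm_num at h1
    · omega
  obtain ⟨h1, h2, h3, -⟩ := H.ok.col 0 hK 0 hK
  have h4 := (abs_le.1 (H.den.bd.abs_le (xc a.h a.Ka 0, xc a.h a.Ka 0))).2
  have h5 : ℓ / (a.h ^ 2 * a.sp 0 0) ≤ 2 * M := by
    have := (abs_le.1 h3).2
    unfold mu at h4
    linarith [H.τ1, H.M1]
  have h6 : 0 < a.sp 0 0 := by linarith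
  rw [div_le_iff₀ (by positivity)] at h5
  have hM : 0 < M := by linarith [H.M1]
  calc ℓ ≤ 2 * M * (a.h ^ 2 * a.sp 0 0) := h5
    _ ≤ 2 * M * (a.h ^ 2 * (3 * a.h)) := by gcongr
    _ = _ := by ring

theorem measurable_Vc (a : Atoms) (ℓ : ℝ) : Measurable (Vc a ℓ) := by
  unfold Vc Atoms.sum
  exact (Finset.measurable_sum _ fun i _ => Finset.measurable_sum _ fun j _ =>
    Finset.measurable_sum _ fun k _ => (measurable_kn _).comp (measurable_id.sub_const _)).const_mul ℓ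

theorem Hyp.Vc_nonneg (H : Hyp a w ℓ ω L τ Λ M Λg) (y : P3) : 0 ≤ Vc a ℓ y := by
  have hh := H.ok.h_pos
  exact mul_nonneg H.ℓ0.le (Finset.sum_nonneg fun i _ => Finset.sum_nonneg fun j _ =>
    Finset.sum_nonneg fun k _ => kn_nonneg (by positivity) _)

theorem Hyp.integrable_Vc (H : Hyp a w ℓ ω L τ Λ M Λg) {F : P3 → ℝ} (hF : Continuous F) (hc : HasCompactSupport F) :
    Integrable fun y => Vc a ℓ y * F y := by
  have hh := H.ok.h_pos
  exact (pcore_int a ℓ (fun Y y => kn (a.h / 8) (y - Y)) F fun Y =>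
    integrable_kn_mul (by positivity) Y hF hc).1

theorem integrable_pot (a : Atoms) (ℓ : ℝ) {F : P3 → ℝ} (hF : Continuous F) (hc : HasCompactSupport F) :
    Integrable fun y => (ℓ * a.sum fun Y => 1 / nrm3 (y - Y)) * F y := by
  exact (pcore_int a ℓ (fun Y y => 1 / nrm3 (y - Y)) F fun Y => integrable_inv_mul Y hF hc).1

/-- `exists_hardy` with `ς = h/8` at every atom; `ball (ctr ..) (h/4) ⊆ cell ..` (`sp ≥ h/2`), `ci_le`, `setIntegral_le_integral`;
`ℓ ≤ h² sp (M + 1) ≤ 6 M h³` (column `(0,0)`, `Ka ≥ 1`, `Hyp.den`). -/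
theorem exists_core : ∃ C : ℝ, 1 ≤ C ∧ ∀ {a : Atoms} {w : P2 → ℝ} {ℓ ω L τ Λ M Λg : ℝ}, Hyp a w ℓ ω L τ Λ M Λg →
    ∀ ψ, Cc1 ψ → ∫ y, Vc a ℓ y * ψ y ^ 2 ≤ C * M * a.h ^ 2 * ((∫ y, ψ y ^ 2) + ∫ y, gsq3 ψ y) := by
  obtain ⟨C, hC, hH⟩ := exists_hardy
  refine ⟨48 * C, by linarith, fun {a w ℓ ω L τ Λ M Λg} H ψ hψ => ?_⟩
  have hh := H.ok.h_pos
  have hς : 0 < a.h / 8 := by positivity
  obtain ⟨hc1, hc2⟩ := pcore_sq hψ.1.continuous hψ.2
  have hi1 := hc1.integrable_of_hasCompactSupport (μ := volume) hc2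
  have hi2 := pcore_gsq hψ
  have hi : Integrable fun y => ψ y ^ 2 + gsq3 ψ y := hi1.add hi2
  have h0 : ∀ y, 0 ≤ ψ y ^ 2 + gsq3 ψ y := fun y => by unfold gsq3; positivity
  have e := (pcore_int a ℓ (fun Y y => kn (a.h / 8) (y - Y)) (fun y => ψ y ^ 2) fun Y =>
    integrable_kn_mul hς Y hc1 hc2).2
  have h1 : (a.sum fun Y => ∫ y, kn (a.h / 8) (y - Y) * ψ y ^ 2) ≤
      C / (a.h / 8) * Ci a fun y => ψ y ^ 2 + gsq3 ψ y := by
    rw [Atoms.sum_eq]
    simp only [Ci, csum, Finset.mul_sum]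
    refine Finset.sum_le_sum fun i hi' => Finset.sum_le_sum fun j hj => Finset.sum_le_sum fun k _ => ?_
    refine (hH _ hς (by linarith [H.ok.h_le]) _ ψ hψ).trans (mul_le_mul_of_nonneg_left ?_ (by positivity))
    exact setIntegral_mono_set hi.integrableOn (.of_forall h0) (pcore_ball hh
      (H.ok.col i (Finset.mem_range.1 hi') j (Finset.mem_range.1 hj)).1).eventuallyLE
  have h2 : (Ci a fun y => ψ y ^ 2 + gsq3 ψ y) ≤ (∫ y, ψ y ^ 2) + ∫ y, gsq3 ψ y := by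
    rw [← integral_add hi1 hi2]
    exact (ci_le H.ok h0 hi.integrableOn).trans (setIntegral_le_integral hi (.of_forall h0))
  have h3 : 0 ≤ (∫ y, ψ y ^ 2) + ∫ y, gsq3 ψ y := by
    rw [← integral_add hi1 hi2]; exact integral_nonneg h0
  have h4 := h1.trans (mul_le_mul_of_nonneg_left h2 (by positivity))
  unfold Vc
  rw [e]
  calc _ ≤ ℓ * (C / (a.h / 8) * ((∫ y, ψ y ^ 2) + ∫ y, gsq3 ψ y)) :=
        mul_le_mul_of_nonneg_left h4 H.ℓ0.le
    _ ≤ 6 * M * a.h ^ 3 * (C / (a.h / 8) * ((∫ y, ψ y ^ 2) + ∫ y, gsq3 ψ y)) :=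
        mul_le_mul_of_nonneg_right (pcore_ell H) (by positivity)
    _ = _ := by field_simp; ring

end Crest.Agent.R338
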