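import Crest.Agent.R338.Pot_Disc
import Crest.Agent.R338.Pot_Leib

/-! # Pot_E4: fourth order error, far part
Keep the statements; auxiliary lemmas get the prefix `pe4_`. -/

set_option autoImplicit false
set_option linter.dupNamespace false
set_option linter.unusedVariables false

noncomputable section

namespace Crest.Agent.R338

open MeasureTheory Set Filter Topology

theorem pe4_norm_box2 {Λ : ℝ} {p : P2} (hp : p ∈ box2 Λ) : ‖p‖ ≤ Λ := by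
  obtain ⟨⟨h1, h2⟩, h3, h4⟩ := hp
  rw [Prod.norm_def, max_le_iff, Real.norm_eq_abs, Real.norm_eq_abs, abs_le, abs_le]
  refine ⟨⟨?_, ?_⟩, ?_, ?_⟩ <;> linarith

theorem pe4_norm_box3 {Λ : ℝ} (hΛ : 2 ≤ Λ) {y : P3} (hy : y ∈ box3 Λ) : ‖y‖ ≤ Λ := by
  obtain ⟨h1, h2, h3⟩ := hy
  rw [Prod.norm_def, max_le_iff, Real.norm_eq_abs, abs_le]
  exact ⟨pe4_norm_box2 h1, by linarith, by linarith⟩

theorem pe4_contDiff (y : P3) : ContDiff ℝ 4 fun u : P3 => kfar (y - u) :=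
  contDiff_kfar.comp (contDiff_const.sub contDiff_id)

theorem pe4_mf_sub (μ : P2 → ℝ) (F G : P3 → ℝ) :
    (mf μ fun u => F u - G u) = mf μ F - mf μ G := by
  funext u
  simp only [mf, Pi.sub_apply]
  ring

theorem pe4_iter_sub {μ : P2 → ℝ} {M Λ : ℝ} (D : Den μ M Λ) {F G : P3 → ℝ} (hF : ContDiff ℝ 4 F)
    (hG : ContDiff ℝ 4 G) {j : ℕ} (hj : j ≤ 4) (u : P3) :
    ‖iteratedFDeriv ℝ j (mf μ fun u => F u - G u) u‖ ≤
      ‖iteratedFDeriv ℝ j (mf μ F) u‖ + ‖iteratedFDeriv ℝ j (mf μ G) u‖ := by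
  have hj' : (j : WithTop ℕ∞) ≤ 4 := by exact_mod_cast hj
  rw [pe4_mf_sub, iteratedFDeriv_sub_apply ((D.contDiff_mf hF).of_le hj').contDiffAt
    ((D.contDiff_mf hG).of_le hj').contDiffAt]
  exact norm_sub_le _ _

theorem pe4_mis {L Λ c B : ℝ} {y y' : P3} {g : P3 → ℝ} (hg : Continuous g) (hc : 0 ≤ c)
    (h : ∀ u, |g u| ≤ c * wt 1 y u + c * wt 1 y' u)
    (h1 : ∫ u in Mis L Λ, wt 1 y u ≤ B) (h2 : ∫ u in Mis L Λ, wt 1 y' u ≤ B) :
    ∫ u in Mis L Λ, |g u| ≤ 2 * c * B := by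
  have hb := (isCompact_Mis L Λ).isBounded
  have i1 : IntegrableOn (wt 1 y) (Mis L Λ) := integrableOn_of_bounded3 (continuous_wt one_pos y) hb
  have i2 : IntegrableOn (wt 1 y') (Mis L Λ) := integrableOn_of_bounded3 (continuous_wt one_pos y') hb
  have i3 : IntegrableOn (fun u => |g u|) (Mis L Λ) := integrableOn_of_bounded3 hg.abs hb
  calc ∫ u in Mis L Λ, |g u| ≤ ∫ u in Mis L Λ, (c * wt 1 y u + c * wt 1 y' u) :=
        integral_mono i3 ((i1.const_mul c).add (i2.const_mul c)) h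
    _ = c * (∫ u in Mis L Λ, wt 1 y u) + c * ∫ u in Mis L Λ, wt 1 y' u := by
        rw [integral_add (i1.const_mul c) (i2.const_mul c), integral_const_mul, integral_const_mul]
    _ ≤ c * B + c * B := by gcongr
    _ = 2 * c * B := by ring

theorem pe4_int_add {S : Set P3} {c B : ℝ} {f g : P3 → ℝ} (hc : 0 ≤ c) (hf : IntegrableOn f S)
    (hg : IntegrableOn g S) (h1 : ∫ u in S, f u ≤ B) (h2 : ∫ u in S, g u ≤ B) :
    ∫ u in S, (c * f u + c * g u) ≤ 2 * c * B := by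
  rw [integral_add (hf.const_mul c) (hg.const_mul c), integral_const_mul, integral_const_mul]
  calc _ ≤ c * B + c * B := by gcongr
    _ = 2 * c * B := by ring

/-- The difference is `Err F`, `F u = kfar (y - u) - kfar (0 - u)` (`Err_sub`), `G = mf μ F = mf μ F₁ - mf μ F₀`.
`disc0` with `m = C (wt 1 y + wt 1 0)`; `disc4` with `m = C M (maj 1 Λ y + maj 1 Λ 0)` (`iteratedFDeriv_sub_apply`).
On `Mis`: `|G|, |d1 (d1 G)|, |d2 (d2 G)| ≤ C M (wt 1 y + wt 1 0)` (`abs_d1_d1_le`), `|y.2| ≤ 2 ≤ L/2`.  `‖y‖ ≤ Λ ≤ L/4 ≤ A/4`.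
If `A ≤ ‖u.1‖` then `u.1 ∉ box2 Λ`, `‖fderiv G u‖ ≤ M C Λ A⁻³ =: K` (`iteratedFDeriv_out`, `norm_iteratedFDeriv_one`, `exists_diff`),
`K A L ≤ C M Λ / L`.  If `L - 3 ≤ |u.2|` then `‖u‖ ≥ 5L/8`, `4 ‖u‖ ≥ L + ‖u.1‖`, `d3 G u = μ u.1 * d3 F u` (`d3_mf`), so
`b p = 64 C M Λ (L + ‖p‖)⁻¹ ^ 3`. -/
theorem exists_e4 : ∃ C : ℝ, 1 ≤ C ∧ ∀ {a : Atoms} {w : P2 → ℝ} {ℓ ω L τ Λ M Λg : ℝ}, Hyp a w ℓ ω L τ Λ M Λg →
    ∀ y ∈ box3 Λ, |(Err a (mu ω w) ℓ L fun u => kfar (y - u)) - Err a (mu ω w) ℓ L fun u => kfar (0 - u)| ≤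
      C * M * Λg ^ 3 * Λ ^ 3 * (a.h ^ 4 + 1 / L + τ * a.A ^ 2) := by
  obtain ⟨Cl, hCl, hl⟩ := exists_leib
  obtain ⟨Cd, hCd, hd⟩ := exists_diff
  obtain ⟨Cm, hCm, hm⟩ := exists_maj
  refine ⟨162 * (Cl * Cm * Cd), ?_, ?_⟩
  · have : 1 * 1 * 1 ≤ Cl * Cm * Cd := by gcongr
    linarith
  intro a w ℓ ω L τ Λ M Λg H y hy
  have D := H.den
  have hh0 := H.ok.h_pos
  have hh1 := H.ok.h_le
  have hM := H.M1
  have hΛ := H.Λ2
  have hΛ1 : 1 ≤ Λ := by linarith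
  have hL := H.L8
  have hΛL := H.ΛL
  have hLA := H.LA
  have hg := H.Λg1
  have hτ := H.τ0
  have hL0 : 0 < L := by linarith
  have hA0 : 0 < a.A := by linarith
  have hyn : ‖y‖ ≤ Λ := pe4_norm_box3 hΛ hy
  have hy2 : |y.2| ≤ L / 2 := by
    obtain ⟨_, h2, h3⟩ := hy
    rw [abs_le]; constructor <;> linarith
  have h02 : |(0 : P3).2| ≤ L / 2 := by simp; linarith
  set μ := mu ω w with hμ
  have hμc : ContDiff ℝ 4 μ := D.bd.1
  have c1 := pe4_contDiff y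
  have c0 := pe4_contDiff 0
  have cF : ContDiff ℝ 4 fun u : P3 => kfar (y - u) - kfar (0 - u) := c1.sub c0
  rw [← Err_sub a ℓ L hμc.continuous c1.continuous c0.continuous]
  set F : P3 → ℝ := fun u => kfar (y - u) - kfar (0 - u) with hF
  have cG : ContDiff ℝ 4 (mf μ F) := D.contDiff_mf cF
  obtain ⟨hm1, hm2⟩ := hm H
  obtain ⟨my1, my2, -, my4⟩ := hm1 1 (by linarith) le_rfl y
  obtain ⟨m01, m02, -, m04⟩ := hm1 1 (by linarith) le_rfl 0
  obtain ⟨ly1, ly2, ly3⟩ := hl D y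
  obtain ⟨l01, l02, l03⟩ := hl D 0
  have ly1' := (ly1 1 (3 * a.h) one_pos (by linarith) (by linarith)).1
  have l01' := (l01 1 (3 * a.h) one_pos (by linarith) (by linarith)).1
  rw [ks_one] at ly1' l01'
  have hCl0 : 0 ≤ Cl := by linarith
  have hClM : 0 ≤ Cl * M := by positivity
  -- zeroth order
  have iwy : IntegrableOn (wt 1 y) (bx a.A (L + 3)) := integrableOn_bx (continuous_wt one_pos y) _ _
  have iw0 : IntegrableOn (wt 1 0) (bx a.A (L + 3)) := integrableOn_bx (continuous_wt one_pos 0) _ _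
  have T0 := disc0 H.ok hτ (F := F) (m := fun u => Cl * wt 1 y u + Cl * wt 1 0 u)
    (fun u => add_nonneg (mul_nonneg hCl0 (wt_nonneg one_pos _ _)) (mul_nonneg hCl0 (wt_nonneg one_pos _ _)))
    ((iwy.const_mul Cl).add (iw0.const_mul Cl))
    (fun u u' huu => (abs_sub _ _).trans (add_le_add (ly1' u u' huu) (l01' u u' huu)))
  have T0' := pe4_int_add hCl0 iwy iw0 my1 m01
  -- fourth order
  have imy := integrableOn_maj one_pos Λ y a.A (L + 3)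
  have im0 := integrableOn_maj one_pos Λ 0 a.A (L + 3)
  have hbc : Continuous fun p : P2 => (L + ‖p‖)⁻¹ ^ 3 := by
    refine (Continuous.inv₀ (by fun_prop) fun p => ?_).pow 3
    have := norm_nonneg p
    linarith
  have ib : IntegrableOn (fun p : P2 => (L + ‖p‖)⁻¹ ^ 3) (sq2 a.A) :=
    integrableOn_of_bounded2 hbc (isBounded_sq2 _)
  have T4 := disc4 H.ok hL0.le (G := mf μ F)
    (m := fun u => Cl * M * maj 1 Λ y u + Cl * M * maj 1 Λ 0 u)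
    (b := fun p => 64 * (M * Cd * Λ) * (L + ‖p‖)⁻¹ ^ 3) (K := M * (Cd * Λ * a.A⁻¹ ^ 3)) cG
    (fun u => add_nonneg (mul_nonneg hClM (maj_nonneg one_pos _ _ _)) (mul_nonneg hClM (maj_nonneg one_pos _ _ _)))
    ((imy.const_mul _).add (im0.const_mul _))
    (fun u u' huu => (pe4_iter_sub D c1 c0 le_rfl u).trans
      (add_le_add (ly2 u u' (by linarith)) (l02 u u' (by linarith))))
    (fun u hu => by
      have hu1 : u.1 ∉ box2 Λ := fun hb => by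
        have := pe4_norm_box2 hb
        linarith
      have h1 := D.iteratedFDeriv_out cF hu1 (j := 1) (by norm_num)
      rw [norm_iteratedFDeriv_one, norm_iteratedFDeriv_one] at h1
      have hu2 : a.A ≤ ‖u‖ := hu.trans (norm_fst_le u)
      have h2 := hd y u (by linarith)
      refine h1.trans ?_
      gcongr
      refine h2.trans ?_
      gcongr)
    (fun p => by
      have := norm_nonneg p
      positivity)
    (ib.const_mul _)
    (fun u hu => by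
      have hu2 : |u.2| ≤ ‖u‖ := norm_snd_le u
      have hu1 : ‖u.1‖ ≤ ‖u‖ := norm_fst_le u
      have hn := norm_nonneg u.1
      have h2 := hd y u (by linarith)
      rw [d3_mf (hμc.differentiable (by norm_num) _) (cF.differentiable (by norm_num) _), abs_mul]
      have h3 := D.bd.abs_le u.1
      have h4 := (abs_d3_le F u).trans h2
      have hu0 : 0 < ‖u‖ := by linarith
      have h5 : ‖u‖⁻¹ ≤ 4 * (L + ‖u.1‖)⁻¹ := by
        rw [← div_eq_mul_inv, inv_eq_one_div, div_le_div_iff₀ hu0 (by linarith)]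
        linarith
      calc |μ u.1| * |d3 F u| ≤ M * (Cd * ‖y‖ * ‖u‖⁻¹ ^ 3) := by gcongr
        _ ≤ M * (Cd * Λ * (4 * (L + ‖u.1‖)⁻¹) ^ 3) := by gcongr
        _ = 64 * (M * Cd * Λ) * (L + ‖u.1‖)⁻¹ ^ 3 := by ring)
  have T41 := pe4_int_add hClM imy im0 my2 m02
  have hG2 : ContDiff ℝ 2 (mf μ F) := cG.of_le (by norm_num)
  have hiter : ∀ j ≤ 4, ∀ u, ‖iteratedFDeriv ℝ j (mf μ F) u‖ ≤ Cl * M * wt 1 y u + Cl * M * wt 1 0 u :=
    fun j hj u => (pe4_iter_sub D c1 c0 hj u).trans (add_le_add (ly3 j hj u) (l03 j hj u))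
  have T42 := pe4_mis (g := mf μ F) cG.continuous hClM
    (fun u => by
      have := hiter 0 (by norm_num) u
      rwa [norm_iteratedFDeriv_zero, Real.norm_eq_abs] at this) (my4 hy2) (m04 h02)
  have hG2' : ContDiff ℝ ((1 + 1 : ℕ) : ℕ) (mf μ F) := hG2
  have T43 := pe4_mis (g := d1 (d1 (mf μ F)))
    (contDiff_d1 (n := 0) (contDiff_d1 (n := 1) hG2')).continuous hClM
    (fun u => (abs_d1_d1_le hG2 u).trans (hiter 2 (by norm_num) u)) (my4 hy2) (m04 h02)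
  have T44 := pe4_mis (g := d2 (d2 (mf μ F)))
    (contDiff_d2 (n := 0) (contDiff_d2 (n := 1) hG2')).continuous hClM
    (fun u => (abs_d2_d2_le hG2 u).trans (hiter 2 (by norm_num) u)) (my4 hy2) (m04 h02)
  rw [integral_const_mul] at T4
  have T45 : M * (Cd * Λ * a.A⁻¹ ^ 3) * a.A * L ≤ M * Cd * Λ * (1 / L) := by
    have e : M * (Cd * Λ * a.A⁻¹ ^ 3) * a.A * L = M * Cd * Λ * (L / (a.A * a.A)) := by
      field_simp
    rw [e]
    gcongr ?_ * ?_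
    rw [div_le_div_iff₀ (by positivity) hL0]
    nlinarith
  have T46 : 64 * (M * Cd * Λ) * ∫ p in sq2 a.A, (L + ‖p‖)⁻¹ ^ 3 ≤ 64 * (M * Cd * Λ) * (Cm * Λg ^ 2 / L) := by
    gcongr
  -- collecting
  set X := Cl * Cm * Cd * M * Λg ^ 3 * Λ ^ 3 with hX
  have x1 : Cl * Cm * Λg ≤ X := by
    calc Cl * Cm * Λg = Cl * Cm * 1 * 1 * Λg ^ 1 * Λ ^ 0 := by ring
      _ ≤ X := by rw [hX]; gcongr <;> norm_num
  have x2 : Cl * Cm * M * Λg ^ 3 * Λ ^ 2 ≤ X := by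
    calc _ = Cl * Cm * 1 * M * Λg ^ 3 * Λ ^ 2 := by ring
      _ ≤ X := by rw [hX]; gcongr; norm_num
  have x3 : Cl * Cm * M * Λ ^ 2 ≤ X := by
    calc _ = Cl * Cm * 1 * M * Λg ^ 0 * Λ ^ 2 := by ring
      _ ≤ X := by rw [hX]; gcongr <;> norm_num
  have x4 : M * Cd * Λ ≤ X := by
    calc _ = 1 * 1 * Cd * M * Λg ^ 0 * Λ ^ 1 := by ring
      _ ≤ X := by rw [hX]; gcongr <;> norm_num
  have x5 : M * Cd * Λ * Cm * Λg ^ 2 ≤ X := by
    calc _ = 1 * Cm * Cd * M * Λg ^ 2 * Λ ^ 1 := by ring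
      _ ≤ X := by rw [hX]; gcongr <;> norm_num
  have hX0 : 0 ≤ X := by positivity
  have iL : 0 < 1 / L := by positivity
  have tA : 0 ≤ τ * a.A ^ 2 := by positivity
  have h4 : 0 ≤ a.h ^ 4 := by positivity
  have y0 : |ℓ * a.sum F - Rs a (mf μ F)| ≤ 2 * X * (τ * a.A ^ 2) := by
    refine T0.trans ((mul_le_mul_of_nonneg_left T0' hτ).trans ?_)
    calc τ * (2 * Cl * (Cm * Λg * a.A ^ 2)) = 2 * (Cl * Cm * Λg) * (τ * a.A ^ 2) := by ring
      _ ≤ _ := by gcongr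
  have y1 : 81 * a.h ^ 4 * (∫ u in bx a.A (L + 3), (Cl * M * maj 1 Λ y u + Cl * M * maj 1 Λ 0 u)) ≤
      162 * X * a.h ^ 4 := by
    refine (mul_le_mul_of_nonneg_left T41 (by positivity)).trans ?_
    calc 81 * a.h ^ 4 * (2 * (Cl * M) * (Cm * Λg ^ 3 * Λ ^ 2)) =
        162 * (Cl * Cm * M * Λg ^ 3 * Λ ^ 2) * a.h ^ 4 := by ring
      _ ≤ _ := by gcongr
  have y2 : 2 * (Cl * M) * (Cm * Λ ^ 2 / L) ≤ 2 * X * (1 / L) := by
    calc 2 * (Cl * M) * (Cm * Λ ^ 2 / L) = 2 * (Cl * Cm * M * Λ ^ 2) * (1 / L) := by ring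
      _ ≤ _ := by gcongr
  have y3 : M * Cd * Λ * (1 / L) ≤ X * (1 / L) := by gcongr
  have y4 : 64 * (M * Cd * Λ) * (Cm * Λg ^ 2 / L) ≤ 64 * X * (1 / L) := by
    calc 64 * (M * Cd * Λ) * (Cm * Λg ^ 2 / L) = 64 * (M * Cd * Λ * Cm * Λg ^ 2) * (1 / L) := by ring
      _ ≤ _ := by gcongr
  have e : Err a μ ℓ L F = (ℓ * a.sum F - Rs a (mf μ F)) + (Rs a (mf μ F) - ∫ u in bx a.A L, mf μ F u) := by
    unfold Err; ring
  have z1 : 0 ≤ X * (1 / L) := by positivity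
  have z2 : 0 ≤ X * (τ * a.A ^ 2) := by positivity
  rw [e]
  refine (abs_add_le _ _).trans ?_
  have e2 : 162 * (Cl * Cm * Cd) * M * Λg ^ 3 * Λ ^ 3 * (a.h ^ 4 + 1 / L + τ * a.A ^ 2) =
      162 * X * a.h ^ 4 + 162 * (X * (1 / L)) + 162 * (X * (τ * a.A ^ 2)) := by
    rw [hX]; ring
  rw [e2]
  linarith

end Crest.Agent.R338
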