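import Crest.Agent.R338.Pot_Rad

/-! # Pot_NearB: Fubini for the near part
Keep the statements; auxiliary lemmas get the prefix `pnb_`. -/

set_option autoImplicit false
set_option linter.dupNamespace false
set_option linter.unusedVariables false

noncomputable section

namespace Crest.Agent.R338

open MeasureTheory Set Filter Topology

theorem pnb_sum (a : Atoms) {f : P3 → P3 → ℝ} (hf : ∀ Y, Integrable (f Y)) :
    Integrable (fun y => a.sum fun Y => f Y y) ∧ ∫ y, (a.sum fun Y => f Y y) = a.sum fun Y => ∫ y, f Y y := by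
  unfold Atoms.sum
  refine ⟨integrable_finsetSum _ fun i _ => integrable_finsetSum _ fun j _ => integrable_finsetSum _ fun k _ => hf _, ?_⟩
  rw [integral_finsetSum _ fun i _ => integrable_finsetSum _ fun j _ => integrable_finsetSum _ fun k _ => hf _]
  refine Finset.sum_congr rfl fun i _ => ?_
  rw [integral_finsetSum _ fun j _ => integrable_finsetSum _ fun k _ => hf _]
  exact Finset.sum_congr rfl fun j _ => integral_finsetSum _ fun k _ => hf _

theorem pnb_mul (a : Atoms) (F : P3 → ℝ) (c : ℝ) : a.sum F * c = a.sum fun Y => F Y * c := by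
  simp only [Atoms.sum, Finset.sum_mul]

/-- Sum part: `∫ kn 1 (y - Y) ρ y dy = ∫ kn 1 v ρ (Y + v) dv` (translation).  Integral part: `(u, v) ↦ μ u.1 * (kn 1 v * ρ (u + v))`
is integrable for `(volume.restrict box).prod volume` (bounded times `1 ⊗ kn 1`: `Integrable.mul_prod`, `.bdd_mul`), the shear
`(u, y) ↦ (u, y - u)` preserves this measure (`measurePreserving_prod_sub`-like, or `Integrable` via `integrable_prod_iff`);
`integral_integral_swap` twice. -/
theorem near_fubini {μ : P2 → ℝ} {ρ : P3 → ℝ} (a : Atoms) (ℓ L : ℝ) (hμ : Continuous μ) (hρ : Continuous ρ)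
    (hc : HasCompactSupport ρ) :
    Integrable (fun y => (Err a μ ℓ L fun u => kn 1 (y - u)) * ρ y) ∧
      ∫ y, (Err a μ ℓ L fun u => kn 1 (y - u)) * ρ y = ∫ v, kn 1 v * Err a μ ℓ L fun u => ρ (u + v) := by
  obtain ⟨C, hC⟩ := hρ.bounded_above_of_compact_support hc
  have hk := integrable_kn one_pos
  have H1 : Integrable (fun z : P3 × P3 => μ z.1.1 * kn 1 z.2) ((volume.restrict (bx a.A L)).prod volume) :=
    Integrable.mul_prod (f := fun u : P3 => μ u.1) (integrableOn_bx (hμ.comp continuous_fst) _ _) hk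
  have HG : Integrable (fun z : P3 × P3 => μ z.1.1 * kn 1 z.2 * ρ (z.1 + z.2))
      ((volume.restrict (bx a.A L)).prod volume) :=
    H1.mul_bdd (hρ.comp continuous_add).aestronglyMeasurable (.of_forall fun z => hC _)
  have HF : Integrable (fun z : P3 × P3 => μ z.1.1 * kn 1 (z.2 - z.1) * ρ z.2)
      ((volume.restrict (bx a.A L)).prod volume) :=
    ((measurePreserving_prod_sub _ _).integrable_comp_of_integrable H1).mul_bdd
      (hρ.comp continuous_snd).aestronglyMeasurable (.of_forall fun z => hC _)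
  have tr : ∀ u : P3, ∫ y, kn 1 (y - u) * ρ y = ∫ v, kn 1 v * ρ (u + v) := fun u => by
    rw [← integral_add_left_eq_self _ u]
    simp only [add_sub_cancel_left]
  obtain ⟨s1, s2⟩ := pnb_sum a (f := fun Y y => kn 1 (y - Y) * ρ y) fun Y => integrable_kn_mul one_pos Y hρ hc
  obtain ⟨t1, t2⟩ := pnb_sum a (f := fun Y v => kn 1 v * ρ (Y + v)) fun Y =>
    hk.mul_bdd (hρ.comp (continuous_const.add continuous_id)).aestronglyMeasurable (.of_forall fun z => hC _)
  have e1 : ∀ y, (Err a μ ℓ L fun u => kn 1 (y - u)) * ρ y =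
      ℓ * (a.sum fun Y => kn 1 (y - Y) * ρ y) - ∫ u in bx a.A L, μ u.1 * kn 1 (y - u) * ρ y := fun y => by
    rw [Err, sub_mul, mul_assoc, pnb_mul, ← integral_mul_const]
    rfl
  have e2 : ∀ v, (kn 1 v * Err a μ ℓ L fun u => ρ (u + v)) =
      ℓ * (a.sum fun Y => kn 1 v * ρ (Y + v)) - ∫ u in bx a.A L, μ u.1 * kn 1 v * ρ (u + v) := fun v => by
    rw [mul_comm, Err, sub_mul, mul_assoc, pnb_mul, ← integral_mul_const]
    simp only [mf, mul_comm (kn 1 v), mul_right_comm _ (kn 1 v)]
  simp only [e1, e2]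
  refine ⟨(s1.const_mul ℓ).sub HF.integral_prod_right, ?_⟩
  rw [integral_sub (s1.const_mul ℓ) HF.integral_prod_right, integral_sub (t1.const_mul ℓ) HG.integral_prod_right,
    integral_const_mul, integral_const_mul, s2, t2,
    ← integral_integral_swap (f := fun u y : P3 => μ u.1 * kn 1 (y - u) * ρ y) HF,
    ← integral_integral_swap (f := fun u v : P3 => μ u.1 * kn 1 v * ρ (u + v)) HG]
  simp only [mul_assoc, integral_const_mul, tr]

end Crest.Agent.R338
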