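import Crest.Agent.R338.Pot_NearA
import Crest.Agent.R338.Pot_NearB

/-! # Pot_Near: fourth order error, near part
Keep the statements; auxiliary lemmas get the prefix `pnear_`. -/

set_option autoImplicit false
set_option linter.dupNamespace false
set_option linter.unusedVariables false

noncomputable section

namespace Crest.Agent.R338

open MeasureTheory Set Filter Topology

variable {a : Atoms} {w : P2 → ℝ} {ℓ ω L τ Λ M Λg : ℝ}

/-- `kn 1 v = 0` unless `‖v‖ ≤ nrm3 v < 1`; `∫ kn 1 ≤ 7` -/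
theorem exists_near : ∃ C : ℝ, 1 ≤ C ∧ ∀ {a : Atoms} {w : P2 → ℝ} {ℓ ω L τ Λ M Λg : ℝ}, Hyp a w ℓ ω L τ Λ M Λg →
    ∀ (ρ : P3 → ℝ) (M' : ℝ), Bd 4 M' ρ → (∀ y, y ∉ box3 Λ → ρ y = 0) →
      Integrable (fun y => (Err a (mu ω w) ℓ L fun u => kn 1 (y - u)) * ρ y) ∧
      |∫ y, (Err a (mu ω w) ℓ L fun u => kn 1 (y - u)) * ρ y| ≤ C * M * M' * Λ ^ 2 * (a.h ^ 4 + τ) := by
  obtain ⟨C, hC, h⟩ := exists_near1
  refine ⟨7 * C, by linarith, fun {a w ℓ ω L τ Λ M Λg} H ρ M' hρ h0 => ?_⟩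
  obtain ⟨i1, i2⟩ := near_fubini a ℓ L H.den.bd.1.continuous hρ.1.continuous
    (HasCompactSupport.intro (isCompact_box3 Λ) h0)
  refine ⟨i1, ?_⟩
  have hK : 0 ≤ C * M * M' * Λ ^ 2 * (a.h ^ 4 + τ) := (abs_nonneg _).trans (h H ρ M' hρ h0 0 (by simp))
  rw [i2, ← Real.norm_eq_abs]
  refine le_trans (norm_integral_le_of_norm_le ((integrable_kn one_pos).mul_const
    (C * M * M' * Λ ^ 2 * (a.h ^ 4 + τ))) (.of_forall fun v => ?_)) ?_
  · rcases le_or_gt 1 (nrm3 v) with hv | hv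
    · simp [kn_eq_zero one_pos hv]
    · rw [norm_mul, Real.norm_of_nonneg (kn_nonneg one_pos v)]
      exact mul_le_mul_of_nonneg_left (h H ρ M' hρ h0 v ((norm_le_nrm3 v).trans hv.le)) (kn_nonneg one_pos v)
  · rw [integral_mul_const]
    refine (mul_le_mul_of_nonneg_right (integral_kn_le one_pos) hK).trans (le_of_eq (by ring))

end Crest.Agent.R338
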