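import Crest.Agent.R338.Pot_E2
import Crest.Agent.R338.Pot_E4
import Crest.Agent.R338.Pot_Near
import Crest.Agent.R338.Pot_Core
import Crest.Agent.R338.Pot_B

/-! # The potential of the atoms

`A = Ka h`, `μ = (ω² + lap2 w)/(4π) = μ₀ + μw` (`μw` vanishes off `box2 Λ`), `box = [-A,A]² × [-L,L]`,
`V y = ℓ ∑ 1/nrm3 (y - Y)`, `V̄ y = ∫_box μ(y'.1)/nrm3 (y - y')`, `c₀ = ℓ∑kfar Y - ∫_box μ kfar`, `c₁ = μ₀∫_box 1/nrm3`.
* **Midpoint rule** on `[-ns, ns]`: `|s∑F(xc s n k) - ∫F| ≤ s²∫|F''|` (`C²`), and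
  `|s∑F - ∫F + (s²/24)(F'(ns) - F'(-ns))| ≤ s⁴∫|F''''|` (`C⁴`).  Apply it in `z` column by column (weight
  `ℓ/s = h²(μ ± τ)`, replace `[-nc s, nc s]` by `[-L, L]`: a mismatch only for columns in `[1,Λ+1]²`), then in `x`, then
  in `y`, to `x ↦ μ(x,y) ∫K dz` (Leibniz; differentiate under the integral).
* **Kernels.** `kfar` is `C⁴`, `‖D^j kfar u‖ ≤ C (1 + nrm3 u)^{-(j+1)}` (homogeneity of `1/nrm3` + compactness), equals `1/nrm3` for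
  `nrm3 ≥ 1`; `kς u = kfar(u/ς)/ς`, `ς = h/8`; `knear = 1/nrm3 - kfar`, `∫knear = 3π/2` (polar coordinates, `integral_sig`).
  Majorise `(ς + nrm3 u)^{-3} ≤ ∏ᵢ (ς + |uᵢ|)⁻¹`; 1D sums and integrals of `(ς + |t - t₀|)⁻¹` over a range of length `≤ 4A` are `≤ CΛg` for
  every `t₀`.
* **Core.** `Vc y = ℓ∑ 1_{nrm3(y-Y) ≤ ς}/nrm3(y-Y)`, `0 ≤ 1/nrm3 - kς ≤ 1_{≤ς}/nrm3`, continuous part `≤ C M ς²`.  Hardy:
  vector field `X = ∑_Y χ((y-Y)/ς)(y-Y)/√(|y-Y|²+ε²)` (disjoint supports: atoms are `h/2` apart),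
  `∫ div X ψ² = -2∫ψ X·∇ψ`, `ε → 0`: `∫Vcψ² ≤ Cℓ/ς (|ψ|² + |∇ψ|²)`, `ℓ ≤ 3h³(M+1)`.
* **Second order, pointwise** (kernel `kς(y - ·)`, and `kfar` for `c₀`): `|V - V̄ - c₀| ≤ η + Vc` if `|z| ≤ L/2`, `≤ Cr + Vc` always.
* **Fourth order, weak.** `∫(V - V̄)ρ` = near + far.  Near: `∫knear(u)[ℓ∑ρ(Y+u) - ∫μρ(·+u)]du`, compact support, no boundary terms.
  Far: pointwise for the difference kernel `kfar(y - Y) - kfar(-Y)`; the boundary terms are `≤ C h² M |y| Λg²/L` because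
  `|D kfar(y-Y) - D kfar(-Y)| ≤ C|y|(1+|Y|)^{-3}` on the faces.
* **Newton.** `∫ Δu(y')/nrm3(y-y') = -4π u y` for `u ∈ C²_c` (regularise `(|·|²+ε²)^{-1/2}`, Laplacian `-3ε²(|·|²+ε²)^{-5/2}` of mass `-4π`);
  with `u = (w-1)(x) ζ(z)`, `ζ = bump 1 (-L+1) (L-1)`: `∫_box μw/nrm3(y-·) = -(w y.1 - 1) ± C M Λ²/L` for `|z| ≤ L/2`, and `≤ C M Λ²Λg` always.
  At `y = 0` it shows `c₀ + c₁ = ℓ∑kfar + 3ω²/8 ± …` (`kfar = 1/nrm3` over `box2 Λ`).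
* **Slab.** For even `k` decreasing on `[0,∞)`, `x₀ ↦ ∫_{-A}^{A} k(x - x₀)` is even, decreasing in `|x₀|`, and within
  `2x₀² sup_{[A/2,2A]}|k'|` of its value at `0` for `|x₀| ≤ A/2`.  `∫_{[-A,A]²} dx/√(|x|²+t²) = Q₀ - 2π|t| ± 4t²/A` (disc in polar coordinates + corners),
  `∫_{-L}^{L}|z - z'| = z² + L²`.  Hence `μ₀∫_box 1/nrm3(y-·) ≤ c₁ - Wz + C M L³/A` for all `y`, with `≈` on `box3 Λ`. -/

set_option autoImplicit false
set_option linter.dupNamespace false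
set_option linter.unusedVariables false

noncomputable section

namespace Crest.Agent.R338

open Matrix MeasureTheory Set
open Crest.MathPhysics.ElectronicCoulomb

theorem volume_box3 {Λ : ℝ} (hΛ : 2 ≤ Λ) : volume.real (box3 Λ) ≤ 4 * Λ ^ 2 := by
  simp only [Measure.real, box3, box2, Measure.volume_eq_prod, Measure.prod_prod, Real.volume_Icc, ENNReal.toReal_mul]
  rw [ENNReal.toReal_ofReal (by linarith), ENNReal.toReal_ofReal (by linarith)]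
  nlinarith

set_option maxHeartbeats 800000 in
theorem exists_pot : ∃ C : ℝ, 1 ≤ C ∧ ∀ (a : Atoms) (w : P2 → ℝ) (ℓ ω L L₀ τ Λ M Λg : ℝ),
    AtomsOK a w ℓ ω L τ Λ → Bd 6 M w → (∀ p, p ∉ box2 Λ → w p = 1) → 1 ≤ M → ω ^ 2 ≤ M → 0 < ℓ →
    0 ≤ τ → τ ≤ 1 → 2 ≤ Λ → 2 ≤ L₀ → 4 * L₀ ≤ L → 4 * Λ ≤ L → L ≤ a.Ka * a.h →
    1 + Real.log (8 * a.Ka) ≤ Λg →
    PotOK (fun y => ℓ * a.sum (fun Y => 1 / nrm3 (y - Y)) - (ℓ * a.sum kfar + 3 * ω ^ 2 / 8) +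
        (w y.1 - 1) + Wz ω L₀ y.2) Λ (2 * L₀)
      (C * M * Λg ^ 3 * Λ ^ 5 * (a.h ^ 2 + (1 / L + L ^ 3 / (a.Ka * a.h) + τ * (a.Ka * a.h) ^ 2)))
      (C * M * Λg ^ 3 * Λ ^ 5 * (a.h ^ 4 + (1 / L + L ^ 3 / (a.Ka * a.h) + τ * (a.Ka * a.h) ^ 2)))
      (C * M * Λg ^ 3 * Λ ^ 5 * (1 + (1 / L + L ^ 3 / (a.Ka * a.h) + τ * (a.Ka * a.h) ^ 2))) := by
  obtain ⟨C1, c1, e2⟩ := exists_e2
  obtain ⟨C2, c2, e4⟩ := exists_e4
  obtain ⟨C3, c3, near⟩ := exists_near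
  obtain ⟨C4, c4, core⟩ := exists_core
  obtain ⟨C5, c5, hB⟩ := exists_B
  refine ⟨2 * C1 + 4 * C2 + C3 + C4 + 4 * C5 + 1, by linarith, ?_⟩
  intro a w ℓ ω L L₀ τ Λ M Λg ok bd out M1 ωM ℓ0 τ0 τ1 Λ2 L2 LL ΛL LA lg
  have H : Hyp a w ℓ ω L τ Λ M Λg := ⟨ok, bd, out, M1, ωM, ℓ0, τ0, τ1, Λ2, by linarith, ΛL, LA, lg⟩
  have g1 := H.Λg1
  have h0 := ok.h_pos
  have h1 := ok.h_le
  have hA : 1 ≤ a.A := by linarith [H.LA]
  change PotOK _ _ _ (_ * (_ + (_ + _ / a.A + τ * a.A ^ 2))) (_ * (_ + (_ + _ / a.A + τ * a.A ^ 2)))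
    (_ * (_ + (_ + _ / a.A + τ * a.A ^ 2)))
  set C := 2 * C1 + 4 * C2 + C3 + C4 + 4 * C5 + 1 with hC
  set P := M * Λg ^ 3 * Λ ^ 5 with hP
  rw [show C * M * Λg ^ 3 * Λ ^ 5 = C * P by ring]
  have p1 : 0 < 1 / L := by have := H.L8; positivity
  have p2 : 0 ≤ L ^ 3 / a.A := by have := H.L8; positivity
  have p3 : τ ≤ τ * a.A ^ 2 := le_mul_of_one_le_right τ0 (one_le_pow₀ hA)
  have p4 : 0 < a.h ^ 2 := by positivity
  have p5 : 0 < a.h ^ 4 := by positivity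
  have p6 : a.h ^ 2 ≤ 1 := pow_le_one₀ h0.le h1
  set E := 1 / L + L ^ 3 / a.A + τ * a.A ^ 2 with hE
  have q0 : ∀ i ≤ 3, ∀ j ≤ 5, M * Λg ^ i * Λ ^ j ≤ P := fun i hi j hj => by
    rw [hP]; gcongr; linarith
  have q1 : M ≤ P := by simpa using q0 0 (by norm_num) 0 (by norm_num)
  have q2 : M * Λ ^ 2 ≤ P := by simpa using q0 0 (by norm_num) 2 (by norm_num)
  have q3 : M * Λg ^ 3 * Λ ^ 2 ≤ P := q0 3 le_rfl 2 (by norm_num)
  have q4 : M * Λ ^ 4 ≤ P := by simpa using q0 0 (by norm_num) 4 (by norm_num)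
  have P0 : 0 ≤ P := by linarith
  have nm : ∀ {c R x x' t : ℝ}, t ≤ R * x → 1 ≤ c → R ≤ c * P → 0 ≤ x → x ≤ x' → t ≤ c * (P * x') :=
    fun {c R x x' t} ht hc hR hx hx' => ht.trans (by rw [← mul_assoc]; gcongr)
  have k2 : ∀ {c : ℝ}, 1 ≤ c → c * M * Λ ^ 2 ≤ c * P := fun hc => by rw [mul_assoc]; gcongr
  have k3 : ∀ {c : ℝ}, 1 ≤ c → c * M * Λg ^ 3 * Λ ^ 2 ≤ c * P := fun {c} hc => by
    rw [show c * M * Λg ^ 3 * Λ ^ 2 = c * (M * Λg ^ 3 * Λ ^ 2) by ring]; gcongr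
  have fin : ∀ {x t : ℝ}, 0 ≤ x → t ≤ 2 * (C1 * (P * x)) + 4 * (C2 * (P * x)) + C3 * (P * x) + C4 * (P * x) +
      4 * (C5 * (P * x)) + P * x → t ≤ C * P * x := fun hx ht => ht.trans (le_of_eq (by rw [hC]; ring))
  have pos : ∀ {x : ℝ}, 0 ≤ x → 0 ≤ C1 * (P * x) ∧ 0 ≤ C2 * (P * x) ∧ 0 ≤ C3 * (P * x) ∧ 0 ≤ C4 * (P * x) ∧
      0 ≤ C5 * (P * x) ∧ 0 ≤ P * x := fun hx => by
    refine ⟨?_, ?_, ?_, ?_, ?_, ?_⟩ <;> positivity
  have E0 : 0 ≤ E := by linarith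
  set Δ : P3 → ℝ := fun y => ℓ * a.sum (fun Y => 1 / nrm3 (y - Y)) - (ℓ * a.sum kfar + 3 * ω ^ 2 / 8) +
    (w y.1 - 1) + Wz ω L₀ y.2 with hΔ
  set B : P3 → ℝ := fun y => Vb (mu ω w) a.A L y - Vb (mu ω w) a.A L 0 + (w y.1 - 1) + Wz ω L₀ y.2 with hBd
  have sp : ∀ ς, 0 < ς → ∀ y, Δ y = (Err a (mu ω w) ℓ L fun u => kn ς (y - u)) +
      (Err a (mu ω w) ℓ L fun u => ks ς (y - u)) - (Err a (mu ω w) ℓ L fun u => kfar (0 - u)) + B y := fun ς hς y => by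
    simp only [hΔ, hBd, H.split hς y]; ring
  have hint : ∀ F : P3 → ℝ, Continuous F → HasCompactSupport F → Integrable fun y => Δ y * F y := fun F hF hc => by
    have hw : Continuous fun y : P3 => -(ℓ * a.sum kfar + 3 * ω ^ 2 / 8) + (w y.1 - 1) + Wz ω L₀ y.2 := by
      have := bd.1.continuous
      unfold Wz
      fun_prop
    refine ((integrable_pot a ℓ hF hc).add ((hw.mul hF).integrable_of_hasCompactSupport hc.mul_left)).congr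
      (.of_forall fun y => ?_)
    simp only [hΔ, Pi.add_apply, Pi.mul_apply]; ring
  have b0 : ∀ y, |(Err a (mu ω w) ℓ L fun u => kn (a.h / 8) (y - u)) - Vc a ℓ y| ≤ P * (a.h ^ 2 + E) := fun y =>
    (H.err_kn y).trans (by gcongr; linarith)
  have b1 : |Err a (mu ω w) ℓ L fun u => kfar (0 - u)| ≤ C1 * (P * (a.h ^ 2 + E)) := by
    have := (e2 H 1 (by linarith) le_rfl 0).1 (by simp; linarith)
    rw [ks_one] at this
    exact nm this c1 (k3 c1) (by linarith) (by linarith)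
  have b2 : ∀ y : P3, |y.2| ≤ L / 2 →
      |Err a (mu ω w) ℓ L fun u => ks (a.h / 8) (y - u)| ≤ C1 * (P * (a.h ^ 2 + E)) := fun y hy =>
    nm ((e2 H _ le_rfl (by linarith) y).1 hy) c1 (k3 c1) (by linarith) (by linarith)
  have b3 : ∀ y : P3, |Err a (mu ω w) ℓ L fun u => ks (a.h / 8) (y - u)| ≤ C1 * (P * (1 + E)) := fun y =>
    nm (e2 H _ le_rfl (by linarith) y).2 c1 (k3 c1) (by linarith) (by linarith)
  have hς : 0 < a.h / 8 := by positivity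
  obtain ⟨s1, s2, s3, s4, s5, s6⟩ := pos (add_nonneg p4.le E0)
  refine ⟨hint, ⟨Vc a ℓ, measurable_Vc a ℓ, H.Vc_nonneg, fun F => H.integrable_Vc, fun y hy => ?_, fun y => ?_,
    fun y hy => ?_, fun ψ hψ => (core H ψ hψ).trans ?_⟩, fun ρ M' hρ h0' => ?_⟩
  · have b4 : B y ≤ C5 * (P * (a.h ^ 2 + E)) :=
      nm ((hB H L₀ L2 LL y).1 hy) c5 (k2 c5) (by linarith) (by linarith)
    rw [sp _ hς, ← sub_le_iff_le_add]
    refine fin (by linarith) ?_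
    linarith [(abs_le.1 (b0 y)).2, (abs_le.1 b1).1, (abs_le.1 (b2 y (by linarith))).2]
  · have b4 : B y ≤ C5 * (P * (1 + E)) := nm (hB H L₀ L2 LL y).2.1 c5 (k2 c5) (by linarith) (by linarith)
    obtain ⟨t1, t2, t3, t4, t5, t6⟩ := pos (add_nonneg zero_le_one E0)
    rw [sp _ hς, ← sub_le_iff_le_add]
    refine fin (by linarith) ?_
    linarith [(abs_le.1 ((b0 y).trans (show _ ≤ P * (1 + E) by gcongr))).2,
      (abs_le.1 (b1.trans (show _ ≤ C1 * (P * (1 + E)) by gcongr))).1, (abs_le.1 (b3 y)).2]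
  · have b4 : |B y| ≤ C5 * (P * (a.h ^ 2 + E)) :=
      nm ((hB H L₀ L2 LL y).2.2 hy) c5 (k2 c5) (by linarith) (by linarith)
    have key : |Δ y - Vc a ℓ y| ≤ C * P * (a.h ^ 2 + E) := by
      have := abs_le.1 (b2 y ((abs_le.2 hy.2).trans (by linarith)))
      rw [sp _ hς]
      refine fin (by linarith) (abs_le.2 ⟨?_, ?_⟩) <;> linarith [abs_le.1 b4, abs_le.1 (b0 y), abs_le.1 b1]
    exact abs_le.2 ⟨by linarith [abs_le.1 key, H.Vc_nonneg y], by linarith [abs_le.1 key]⟩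
  · refine mul_le_mul_of_nonneg_right (fin (by linarith) ?_) (add_nonneg
      (integral_nonneg fun y => sq_nonneg _) (integral_nonneg fun y => by unfold gsq3; positivity))
    have : C4 * M * a.h ^ 2 ≤ C4 * (P * (a.h ^ 2 + E)) := nm le_rfl c4 (by gcongr) p4.le (by linarith)
    linarith
  · obtain ⟨i1, i2⟩ := near H ρ M' hρ h0'
    have M0 := hρ.nonneg
    have i3 := hint ρ hρ.1.continuous (HasCompactSupport.intro (isCompact_box3 Λ) h0')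
    obtain ⟨K, hK⟩ : ∃ K, K = C2 * M * Λg ^ 3 * Λ ^ 3 * (a.h ^ 4 + 1 / L + τ * a.A ^ 2) +
      C5 * M * Λ ^ 2 * (1 / L + L ^ 3 / a.A) := ⟨_, rfl⟩
    have K0 : 0 ≤ K := by rw [hK]; positivity
    have i4 : |∫ y, (Δ y * ρ y - (Err a (mu ω w) ℓ L fun u => kn 1 (y - u)) * ρ y)| ≤ K * M' * (4 * Λ ^ 2) := by
      rw [← setIntegral_eq_integral_of_forall_compl_eq_zero (s := box3 Λ) fun y hy => by simp [h0' y hy]]
      rw [← Real.norm_eq_abs]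
      refine le_trans (norm_setIntegral_le_of_norm_le_const (C := K * M') (isCompact_box3 Λ).measure_lt_top
        fun y hy => ?_) (mul_le_mul_of_nonneg_left (volume_box3 Λ2) (by positivity))
      rw [← sub_mul, norm_mul]
      refine mul_le_mul ?_ (hρ.abs_le y) (norm_nonneg _) K0
      rw [sp 1 one_pos, ks_one, show ∀ x y z t : ℝ, x + y - z + t - x = y - z + t from fun _ _ _ _ => by ring, hK]
      exact (abs_add_le _ _).trans (add_le_add (e4 H y hy) ((hB H L₀ L2 LL y).2.2 hy))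
    rw [integral_sub i3 i1] at i4
    have j1 : C2 * M * Λg ^ 3 * Λ ^ 3 * Λ ^ 2 * (a.h ^ 4 + 1 / L + τ * a.A ^ 2) ≤ C2 * (P * (a.h ^ 4 + E)) :=
      nm le_rfl c2 (le_of_eq (by rw [hP]; ring)) (by linarith) (by linarith)
    have j2 : C5 * (M * Λ ^ 4) * (1 / L + L ^ 3 / a.A) ≤ C5 * (P * (a.h ^ 4 + E)) :=
      nm le_rfl c5 (by gcongr) (by linarith) (by linarith)
    have j3 : C3 * M * Λ ^ 2 * (a.h ^ 4 + τ) ≤ C3 * (P * (a.h ^ 4 + E)) :=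
      nm le_rfl c3 (k2 c3) (by linarith) (by linarith)
    have j4 : K * (4 * Λ ^ 2) + C3 * M * Λ ^ 2 * (a.h ^ 4 + τ) ≤ C * P * (a.h ^ 4 + E) := by
      obtain ⟨t1, t2, t3, t4, t5, t6⟩ := pos (add_nonneg p5.le E0)
      refine fin (by linarith) ?_
      rw [hK]
      linarith
    have j5 := mul_le_mul_of_nonneg_right j4 M0
    exact abs_le.2 ⟨by linarith [abs_le.1 i2, abs_le.1 i4], by linarith [abs_le.1 i2, abs_le.1 i4]⟩

end Crest.Agent.R338
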