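import Crest.Agent.R338.ContIneq
import Crest.Agent.R338.ContGeo
import Crest.Agent.R338.ContAtoms
import Crest.Agent.R338.Plane
import Crest.Agent.R338.Line
import Crest.Agent.R338.Ideal
import Crest.Agent.R338.Pot
import Crest.Agent.R338.Pert3

/-! # Stage C: the one-body package of the atoms -/

set_option autoImplicit false
set_option linter.dupNamespace false
set_option linter.unusedVariables false

noncomputable section

namespace Crest.Agent.R338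

open Matrix MeasureTheory Set
open Crest.MathPhysics.ElectronicCoulomb Crest.MathPhysics.CoulombProblem

/-- Monotonicity of the package in `κ` and `η`. -/
def OB.monoκη {E : Type} [NormedAddCommGroup E] [NormedSpace ℝ E] [MeasureSpace E]
    {gsq : (E → ℝ) → E → ℝ} {nrm : E → ℝ} {W : E → ℝ} {V : Type} [Fintype V]
    {k : Matrix V V ℝ} {hc : V → Prop} {E0 err γ d0 κ η κ' η' : ℝ}
    (ob : OB E gsq nrm W k hc E0 err γ d0 κ η) (hκ : κ ≤ κ') (hη : η ≤ η') :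
    OB E gsq nrm W k hc E0 err γ d0 κ' η' :=
  { ob with
    gram := fun α => ⟨(ob.gram α).1, (ob.gram α).2.trans
      (mul_le_mul_of_nonneg_right (by linarith) (dot_self_nonneg α))⟩
    two := fun β hβ => (ob.two β hβ).trans (ENNReal.ofReal_le_ofReal
      (mul_le_mul_of_nonneg_right hκ (by positivity))) }

theorem continuous_Wz (ω L : ℝ) : Continuous (Wz ω L) := by
  unfold Wz; fun_prop

/-- the real depth of the potential -/
def cR (R K : ℕ) (T : Tabs) : ℝ := ell R * (atoms R K T).sum kfar + 3 * (om R : ℝ) ^ 2 / 8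

/-- the one-body matrix of the tables -/
def tabMat (K : ℕ) (T : Tabs) : Matrix (Fin K × Fin K) (Fin K × Fin K) ℝ :=
  gridMat K (fun i j => ent T.1 i j) (fun i j => ent T.2.1 i j) (fun i j => ent T.2.2.1 i j)

theorem tabMat_opLe {R K : ℕ} {T : Tabs} (hR : 10 ^ 7 ≤ R) (hT : TabsOK R T) :
    OpLe ((eps R : ℝ) • tabMat K T) ((eps R : ℝ) * (R : ℝ) ^ 2) := by
  have hr : (10 : ℝ) ^ 7 ≤ R := (R_le_Pp hR).1
  have he0 : (0 : ℝ) ≤ eps R := le_trans (pow_pos (hq_pos hR).1 3).le (eps_bounds hR).1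
  have h1 : OpLe (tabMat K T) (5 * R) := by
    refine gridMat_opLe K (rpos hr).le fun i j => ?_
    obtain ⟨a1, a2, a3, a4, a5⟩ := hT i j
    refine ⟨?_, ?_, ?_⟩
    · rw [abs_of_nonneg (by exact_mod_cast a1)]; exact_mod_cast a2
    · rw [abs_of_nonneg (by exact_mod_cast a3)]; exact_mod_cast a4
    · exact_mod_cast a5
  have h2 := h1.smul (eps R : ℝ)
  rw [abs_of_nonneg he0] at h2
  refine h2.mono (by have := (rpos hr).le; positivity) (mul_le_mul_of_nonneg_left ?_ he0)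
  have := cpw hr (c := 5) (by norm_num) (a := 1) (b := 2) le_rfl
  simpa using this

/-- The ideal package (plane × line) with explicit parameters. -/
theorem exists_ob3 : ∃ C₀ : ℝ, ∀ (R K : ℕ) (T : Tabs), 10 ^ 7 ≤ R → C₀ ≤ R → 1 ≤ K → K ≤ R →
    TabsOK R T → ∃ M₂ κ η M₃ : ℝ, M₂ ≤ (R : ℝ) ^ 6801 ∧ κ ≤ 1 / (R : ℝ) ^ 11 ∧ η ≤ 1 / (R : ℝ) ^ 28 ∧
      0 ≤ M₃ ∧ M₃ ≤ Pp R ∧ Bd 8 M₂ (geo R K T).toReal.S ∧ Bd 6 M₂ (wR R K T) ∧
      (∀ p, p ∉ box2 (Lam R K : ℝ) → wR R K T p = 1) ∧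
      Nonempty (OB3 (fun y => wR R K T y.1 + Wz (om R) ((Hh R : ℝ) ^ 2) y.2)
        ((eps R : ℝ) • tabMat K T) (fun p : Fin K × Fin K => flag T.2.2.2 p.1 p.2 = true)
        ((om R : ℝ) / 2) ((eps R : ℝ) / (R : ℝ) ^ 2 / 2) (1 / (R : ℝ) ^ 159) 3 κ η (1 / (R : ℝ) ^ 7000)
        M₃ (Lam R K) (2 * (Hh R : ℝ) ^ 2) ((om R : ℝ) ^ 2 * ((Hh R : ℝ) ^ 2) ^ 2 / 2)) := by
  obtain ⟨C₁, hC₁, hpl⟩ := exists_plane
  obtain ⟨C₂, hC₂, hln⟩ := exists_line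
  refine ⟨4 * (C₁ + C₂), fun R K T hR hCr hK1 hKR hT => ?_⟩
  obtain ⟨hr, hrP, hPH⟩ := R_le_Pp hR
  have hC1r : C₁ ≤ R := by linarith only [hCr, hC₁, hC₂]
  have hC4r : 4 * C₁ ≤ R := by linarith only [hCr, hC₁, hC₂]
  have hC2r : C₂ ≤ R := by linarith only [hCr, hC₁, hC₂]
  have hC10 : 0 ≤ C₁ := zero_le_one.trans hC₁
  have hC20 : 0 ≤ C₂ := zero_le_one.trans hC₂
  have hP : (10 : ℝ) ^ 7 ≤ Pp R := hr.trans hrP
  have hH : (10 : ℝ) ^ 7 ≤ Hh R := hP.trans hPH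
  obtain ⟨h0, h1⟩ := hq_pos hR
  obtain ⟨hhP, hhH⟩ := hq_mul hR
  obtain ⟨he1, he2, he3, he4⟩ := eps_bounds hR
  have hω : (om R : ℝ) = (R : ℝ) ^ 3402 := om_eq
  have hexp := exp_om hR
  have hKr : (K : ℝ) ≤ R := by exact_mod_cast hKR
  have hK0 : (0 : ℝ) ≤ K := Nat.cast_nonneg K
  have hPk : ∀ {k : ℕ}, k ≤ 24000 → (R : ℝ) ^ k ≤ Pp R := fun hk => pow_le_Pp hR hk
  have hLam : (Lam R K : ℝ) = (R : ℝ) ^ 42 * ((K : ℝ) + 1) := by unfold Lam; push_cast; rfl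
  have hop := tabMat_opLe (K := K) hR hT
  obtain ⟨pl⟩ := hpl _ _ _ _ _ _ _ _ (geo_ok hR hK1 hKR hT)
  rw [gridMat_smul] at pl
  have eD : (geo R K T).toReal.D = (R : ℝ) ^ 42 := by
    show (((R : ℚ) ^ 42 : ℚ) : ℝ) = _; push_cast; rfl
  have ea : (geo R K T).toReal.a = 1 / (R : ℝ) ^ 30 := by
    show ((1 / (R : ℚ) ^ 30 : ℚ) : ℝ) = _; push_cast; rfl
  have eS : (geo R K T).toReal.Ssea = (R : ℝ) ^ 2 := by
    show (((R : ℚ) ^ 2 : ℚ) : ℝ) = _; push_cast; rfl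
  rw [eD, ea, eS] at pl
  have hω10 : (10 : ℝ) ≤ om R := by
    rw [hω]; refine le_trans ?_ (pw hr (a := 1) (by norm_num))
    rw [pow_one]; exact le_trans (by norm_num) hr
  have hH2 : (2 : ℝ) ≤ (Hh R : ℝ) ^ 2 := by
    refine le_trans ?_ (pw hH (a := 1) (by norm_num))
    rw [pow_one]; exact le_trans (by norm_num) hH
  obtain ⟨ln⟩ := hln (om R) ((Hh R : ℝ) ^ 2) hω10 hH2
  rw [hLam, hω]
  rw [hω] at ln hexp
  have hM₂le := ineq_M hr hC1r hK0 hKr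
  have hM₂0 := pl.S_bd.nonneg
  change PL _ _ _ ((eps R : ℝ) • tabMat K T) (fun p : Fin K × Fin K => flag T.2.2.2 p.1 p.2 = true)
    _ _ _ _ (_ * _ * ((K : ℝ) * _) ^ 3) _ _ (C₁ * ((K : ℝ) * _ / _) ^ 200) (_ * ((K : ℝ) + 1)) at pl
  change 0 ≤ C₁ * ((K : ℝ) * _ / _) ^ 200 at hM₂0
  generalize C₁ * ((K : ℝ) * (1 + (R : ℝ) ^ 2) / (1 / (R : ℝ) ^ 30)) ^ 200 = M₂ at pl hM₂le hM₂0
  have hE0 : 0 < Real.exp (-(R : ℝ) ^ 3402 / 2) := Real.exp_pos _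
  generalize Real.exp (-(R : ℝ) ^ 3402 / 2) = E at ln hexp hE0
  unfold wR
  generalize (geo R K T).toReal.S = S at *
  generalize (geo R K T).toReal.v = v at *
  generalize (geo R K T).toReal.ε = ε at *
  generalize ((Pp R : ℕ) : ℝ) = P at *
  generalize ((Hh R : ℕ) : ℝ) = H at *
  generalize ((hq R : ℚ) : ℝ) = h at *
  generalize ((eps R : ℚ) : ℝ) = e at *
  generalize ((ell R : ℚ) : ℝ) = ℓ at *
  clear hω10 hω hLam eD ea eS hpl hln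
  generalize (R : ℝ) = r at *
  have hr0 := rpos hr
  have hP0 := rpos hP
  have hH0 := rpos hH
  have he0 : 0 < e := lt_of_lt_of_le (pow_pos h0 3) he1
  have hℓ0 : 0 < ℓ := lt_of_lt_of_le he0 he2
  have hℓP : ℓ * P ≤ 1 := by
    refine le_trans (mul_le_mul_of_nonneg_left ?_ hℓ0.le) he4
    simpa using pw hP (a := 1) (b := 30) (by norm_num)
  have heP : e * P ≤ 1 := le_trans (mul_le_mul_of_nonneg_right he2 hP0.le) hℓP
  have he_1 : e ≤ 1 := by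
    have : (1 : ℝ) ≤ P := by simpa using pone hP 1
    exact le_trans (le_mul_of_one_le_right he0.le this) heP
  -- the small quantities of the line package
  have hh4 : 1 / (H ^ 2) ^ 2 = h ^ 4 := by
    have : h = 1 / H := by field_simp; exact hhH
    rw [this]; field_simp
  have hCω : C₂ * r ^ 3402 ≤ r ^ 3403 := Cpw hr hC2r le_rfl
  have hCω0 : 0 ≤ C₂ * r ^ 3402 := mul_nonneg hC20 (ppos hr _).le
  have hz1 : C₂ * r ^ 3402 * E ≤ r ^ 3403 * h ^ 4 := mul_le_mul hCω hexp hE0.le (ppos hr _).le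
  have hz2 : C₂ * (r ^ 3402 / (H ^ 2) ^ 2 + r ^ 3402 * E) ≤ 2 * (r ^ 3403 * h ^ 4) := by
    have : C₂ * (r ^ 3402 / (H ^ 2) ^ 2 + r ^ 3402 * E) =
        C₂ * r ^ 3402 * h ^ 4 + C₂ * r ^ 3402 * E := by
      rw [← hh4]; generalize r ^ 3402 = x; ring
    rw [this]
    have := mul_le_mul_of_nonneg_right hCω (show 0 ≤ h ^ 4 by positivity)
    linarith only [this, hz1]
  have hz3 : 2 * (r ^ 3403 * h ^ 4) * r ^ 6 ≤ e := by
    have a1 : 2 * r ^ 3409 ≤ P := (cpw hr (by norm_num) le_rfl).trans (hPk (by norm_num))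
    have a2 : h * P ≤ 1 := by simpa using hsmall hP hhP h0 (a := 1) (by norm_num)
    have a3 : 2 * (r ^ 3403 * h ^ 4) * r ^ 6 = h ^ 3 * (h * (2 * r ^ 3409)) := by
      rw [show r ^ 3409 = r ^ 3403 * r ^ 6 by rw [← pow_add]]
      generalize r ^ 3403 = x; ring
    rw [a3]
    calc h ^ 3 * (h * (2 * r ^ 3409)) ≤ h ^ 3 * (h * P) := by gcongr
      _ ≤ h ^ 3 * 1 := by gcongr
      _ ≤ e := by linarith only [he1]
  have hy0 : 0 ≤ r ^ 3403 * h ^ 4 := mul_nonneg (ppos hr _).le (by positivity)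
  have herrz0 : 0 ≤ C₂ * (r ^ 3402 / (H ^ 2) ^ 2 + r ^ 3402 * E) := by
    have := ppos hr 3402; positivity
  have hηz0 : 0 ≤ C₂ * r ^ 3402 * E := mul_nonneg hCω0 hE0.le
  have herrz : C₂ * (r ^ 3402 / (H ^ 2) ^ 2 + r ^ 3402 * E) * r ^ 4 ≤ e := by
    refine le_trans ?_ hz3
    exact mul_le_mul hz2 (pw hr (by norm_num)) (ppos hr 4).le (by linarith only [hy0])
  have hηz : C₂ * r ^ 3402 * E * r ^ 6 ≤ e := by
    refine le_trans ?_ hz3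
    exact mul_le_mul_of_nonneg_right (by linarith only [hz1, hy0]) (ppos hr 6).le
  have hηze : C₂ * r ^ 3402 * E ≤ e := le_trans (le_mul_of_one_le_right hηz0 (pone hr 6)) hηz
  have hη29 : C₁ * (1 / r ^ 30) ≤ 1 / r ^ 29 := by
    rw [mul_one_div, div_le_div_iff₀ (ppos hr _) (ppos hr _), one_mul]
    exact Cpw hr hC1r le_rfl
  have he29 : e ≤ 1 / r ^ 29 :=
    le_inv_pw hr (le_trans (mul_le_mul_of_nonneg_left (hPk (by norm_num)) he0.le) heP)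
  have h29 : 3 * (1 / r ^ 29) ≤ 1 / r ^ 28 := by
    rw [mul_one_div, div_le_div_iff₀ (ppos hr _) (ppos hr _), one_mul]
    exact cpw hr (by norm_num) le_rfl
  have h28 : 1 / r ^ 29 ≤ 1 := by rw [div_le_one (ppos hr _)]; exact pone hr _
  obtain ⟨ob3⟩ := exists_ideal (γ := 1 / r ^ 159) (θ' := 1 / r ^ 7000) (err := e / r ^ 2 / 2) pl ln
    hop (by positivity) (by positivity)
    (one_le_mul_of_one_le_of_one_le hC₁ (one_le_pow₀ (pone hr 42)))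
    (by positivity) (by rw [div_le_one (ppos hr _)]; exact pone hr _) (by positivity)
    (hη29.trans h28) (by positivity) (by positivity) (ppos hr _).le hH2 herrz0 (hηze.trans he_1)
    (by positivity)
    (ineq_γ hr hC₁ hC1r he0.le
      (le_trans (mul_le_mul_of_nonneg_left (hPk (by norm_num)) he0.le) heP))
    (div_pos one_pos (ppos hr _)) (ineq_θ hr hC₁ hC1r hM₂0 hM₂le)
    (ineq_err hr hC₁ hC1r hK0 hKr hM₂0 hM₂le he0.le he_1 herrz0 herrz hηz0 hηz)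
  have hM₃0 : 0 ≤ C₂ * (r ^ 3402) ^ 5 := mul_nonneg hC20 (pow_nonneg (ppos hr _).le _)
  have hM₃ : 16 * M₂ * (C₂ * (r ^ 3402) ^ 5) ≤ P := by
    have a1 : (r ^ 3402) ^ 5 ≤ r ^ 17010 := ppw hr (ppos hr _).le le_rfl (by norm_num)
    have a2 : C₂ * (r ^ 3402) ^ 5 ≤ r ^ 17011 :=
      mpw hr (a := 1) (by rw [pow_one]; exact hC2r) a1 (pow_nonneg (ppos hr _).le _) (by norm_num)
    have a3 : 16 * M₂ ≤ r ^ 6802 :=
      (mul_le_mul_of_nonneg_left hM₂le (by norm_num)).trans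
        (cpw hr (c := 16) (by norm_num) (a := 6801) (b := 6802) (by norm_num))
    exact (mpw hr a3 a2 hM₃0 (c := 23813) (by norm_num)).trans (hPk (by norm_num))
  refine ⟨M₂, _, _, _, hM₂le, ?_, ?_, mul_nonneg (mul_nonneg (by norm_num) hM₂0) hM₃0, hM₃,
    pl.S_bd, pl.w_bd, pl.w_out, ⟨ob3⟩⟩
  · rw [← mul_div_assoc, div_le_div_iff₀ (ppos hr _) (ppos hr _), one_mul]
    exact Cpw hr hC4r le_rfl
  · linarith only [hη29, hηze, he29, h29]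

theorem exists_ob : ∃ C₀ : ℕ, 10 ^ 7 ≤ C₀ ∧ ∀ (R K : ℕ) (T : Tabs), C₀ ≤ R → 1 ≤ K → K ≤ R →
    TabsOK R T → ((pts R K T).map (posq R)).Nodup ∧ pts R K T ≠ [] ∧
      Nonempty (OB P3 gsq3 nrm3
        (fun y => -((ell R : ℝ) * ∑ α : Fin (pts R K T).length,
          1 / nrm3 (y - toP3 ((pts R K T).get α))))
        ((eps R : ℝ) • tabMat K T) (fun p : Fin K × Fin K => flag T.2.2.2 p.1 p.2 = true)
        ((om R : ℝ) / 2 - (cR R K T + 1)) ((eps R : ℝ) / (R : ℝ) ^ 2) (1 / (R : ℝ) ^ 159) 3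
        (1 / (R : ℝ) ^ 11) (1 / (R : ℝ) ^ 28)) := by
  obtain ⟨C₁, hob⟩ := exists_ob3
  obtain ⟨C₃, hC₃, hpot⟩ := exists_pot
  refine ⟨10 ^ 7 + ⌈max C₁ C₃⌉₊, Nat.le_add_right _ _, fun R K T hC hK1 hKR hT => ?_⟩
  have hR : 10 ^ 7 ≤ R := le_trans (Nat.le_add_right _ _) hC
  obtain ⟨hr, hrP, hPH⟩ := R_le_Pp hR
  have hCr : max C₁ C₃ ≤ R := by
    refine (Nat.le_ceil _).trans ?_
    exact_mod_cast le_trans (Nat.le_add_left _ _) hC
  have hC3r : C₃ ≤ R := (le_max_right _ _).trans hCr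
  obtain ⟨M₂, κ, η, M₃, hM₂le, hκ, hη, hM₃0, hM₃, hS, hw, hwout, ⟨ob3⟩⟩ :=
    hob R K T hR ((le_max_left _ _).trans hCr) hK1 hKR hT
  have hP : (10 : ℝ) ^ 7 ≤ Pp R := hr.trans hrP
  have hH : (10 : ℝ) ^ 7 ≤ Hh R := hP.trans hPH
  obtain ⟨h0, h1⟩ := hq_pos hR
  obtain ⟨hhP, hhH⟩ := hq_mul hR
  obtain ⟨he1, he2, he3, he4⟩ := eps_bounds hR
  obtain ⟨hL1, hL2⟩ := Lq_bounds hR
  have hω : (om R : ℝ) = (R : ℝ) ^ 3402 := om_eq
  have hlog := log_Ka hR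
  have hKr : (K : ℝ) ≤ R := by exact_mod_cast hKR
  have hK0 : (0 : ℝ) ≤ K := Nat.cast_nonneg K
  have hK1' : (1 : ℝ) ≤ K := by exact_mod_cast hK1
  have hPk : ∀ {k : ℕ}, k ≤ 24000 → (R : ℝ) ^ k ≤ Pp R := fun hk => pow_le_Pp hR hk
  have hKa : (Ka R : ℝ) = (Hh R : ℝ) ^ 18 := by unfold Ka; push_cast; rfl
  have hLam : (Lam R K : ℝ) = (R : ℝ) ^ 42 * ((K : ℝ) + 1) := by unfold Lam; push_cast; rfl
  have hat := atoms_ok (T := T) hR hM₂le hS hw hwout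
  have hω2 : (om R : ℝ) ^ 2 = (R : ℝ) ^ 6804 := by rw [hω, ← pow_mul]
  have hω1 : (1 : ℝ) ≤ (om R : ℝ) ^ 2 := by rw [hω2]; exact pone hr _
  have hΛ2 : (2 : ℝ) ≤ Lam R K := by
    rw [hLam]
    calc (2 : ℝ) = 1 * (1 + 1) := by norm_num
      _ ≤ _ := mul_le_mul (pone hr 42) (by linarith only [hK1']) (by norm_num) (ppos hr _).le
  have hΛ44 : (Lam R K : ℝ) ≤ (R : ℝ) ^ 44 := by
    rw [hLam]
    refine mpw hr le_rfl (b := 2) ?_ (by positivity) le_rfl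
    exact apw hr (a := 1) (by simpa using hKr) (pone hr 1) le_rfl
  have hcard : (Fintype.card (Fin K × Fin K) : ℝ) ≤ Pp R := by
    rw [Fintype.card_prod, Fintype.card_fin, Nat.cast_mul]
    refine le_trans ?_ (hPk (k := 2) (by norm_num))
    rw [sq]; exact mul_le_mul hKr hKr hK0 (rpos hr).le
  have hH2 : (2 : ℝ) ≤ (Hh R : ℝ) ^ 2 := by
    refine le_trans ?_ (pw hH (a := 1) (by norm_num))
    rw [pow_one]; exact le_trans (by norm_num) hH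
  have hℓ0 : (0 : ℝ) < ell R := lt_of_lt_of_le (lt_of_lt_of_le (pow_pos h0 3) he1) he2
  have hΛP : (Lam R K : ℝ) ≤ Pp R := hΛ44.trans (hPk (by norm_num))
  have hH4 : 4 * (Hh R : ℝ) ≤ (Hh R : ℝ) ^ 4 := by
    simpa using cpw hH (c := 4) (by norm_num) (a := 1) (b := 4) (by norm_num)
  have hH24 : 4 * (Hh R : ℝ) ^ 2 ≤ (Hh R : ℝ) ^ 4 := cpw hH (by norm_num) (by norm_num)
  have hH40 : 0 ≤ (Hh R : ℝ) ^ 4 := by positivity
  have hA : (Ka R : ℝ) * hq R = (Hh R : ℝ) ^ 17 := by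
    rw [hKa, pow_succ _ 17, mul_assoc, mul_comm (Hh R : ℝ) (hq R : ℝ), hhH, mul_one]
  have hpt := hpot (atoms R K T) (wR R K T) (ell R) (om R) (Lq R) ((Hh R : ℝ) ^ 2) ((hq R : ℝ) ^ 39)
    (Lam R K) ((R : ℝ) ^ 6804) ((R : ℝ) ^ 2)
    hat (hw.mono le_rfl (hM₂le.trans (pw hr (by norm_num)))) hwout (pone hr _) hω2.le hℓ0
    (by positivity) (pow_le_one₀ h0.le h1) hΛ2 hH2 (by linarith only [hH24, hL1, hH40])
    (by linarith only [hΛP, hPH, hH4, hL1, hH40])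
    (by
      show (Lq R : ℝ) ≤ (Ka R : ℝ) * hq R
      rw [hA]
      exact hL2.trans (cpw hH (c := 4) (by norm_num) (a := 4) (b := 17) (by norm_num))) hlog
  have eKa : ((atoms R K T).Ka : ℝ) = (Hh R : ℝ) ^ 18 := hKa
  have eh : (atoms R K T).h = hq R := rfl
  rw [eKa, eh] at hpt
  have hE1 := ineq_E1 hH hhH h0 hL1 hL2
  have hL0 : (0 : ℝ) < Lq R := lt_of_lt_of_le (by have := rpos hH; positivity) hL1
  have hE10 : 0 ≤ 1 / (Lq R : ℝ) + (Lq R : ℝ) ^ 3 / ((Hh R : ℝ) ^ 18 * hq R) +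
      (hq R : ℝ) ^ 39 * ((Hh R : ℝ) ^ 18 * hq R) ^ 2 := by positivity
  generalize 1 / (Lq R : ℝ) + (Lq R : ℝ) ^ 3 / ((Hh R : ℝ) ^ 18 * hq R) +
      (hq R : ℝ) ^ 39 * ((Hh R : ℝ) ^ 18 * hq R) ^ 2 = E1 at hpt hE1 hE10
  have hPf0 : 0 < C₃ * (R : ℝ) ^ 6804 * ((R : ℝ) ^ 2) ^ 3 * (Lam R K : ℝ) ^ 5 :=
    mul_pos (mul_pos (mul_pos (by linarith only [hC₃]) (ppos hr _)) (pow_pos (ppos hr _) _))
      (pow_pos (by linarith only [hΛ2]) _)
  have hPfP : C₃ * (R : ℝ) ^ 6804 * ((R : ℝ) ^ 2) ^ 3 * (Lam R K : ℝ) ^ 5 ≤ Pp R := by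
    have hΛ0 : (0 : ℝ) ≤ Lam R K := by linarith only [hΛ2]
    have a1 : C₃ * (R : ℝ) ^ 6804 ≤ (R : ℝ) ^ 6805 := Cpw hr hC3r le_rfl
    have a2 : ((R : ℝ) ^ 2) ^ 3 ≤ (R : ℝ) ^ 6 := ppw hr (by positivity) le_rfl le_rfl
    have a3 : (Lam R K : ℝ) ^ 5 ≤ (R : ℝ) ^ 220 := ppw hr hΛ0 hΛ44 le_rfl
    have a4 := mpw hr a1 a2 (by positivity) (c := 6811) (by norm_num)
    exact (mpw hr a4 a3 (pow_nonneg hΛ0 _) (c := 7031) (by norm_num)).trans (hPk (by norm_num))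
  generalize C₃ * (R : ℝ) ^ 6804 * ((R : ℝ) ^ 2) ^ 3 * (Lam R K : ℝ) ^ 5 = Pf at hpt hPf0 hPfP
  refine ⟨nuclei_nodup hR hat, pts_ne_nil hR hat, ?_⟩
  have hWeq : ∀ y : P3, -((ell R : ℝ) * ∑ α : Fin (pts R K T).length,
      1 / nrm3 (y - toP3 ((pts R K T).get α))) =
      (wR R K T y.1 + Wz (om R) ((Hh R : ℝ) ^ 2) y.2) - (cR R K T + 1) -
        ((ell R : ℝ) * (atoms R K T).sum (fun Y => 1 / nrm3 (y - Y)) -
          ((ell R : ℝ) * (atoms R K T).sum kfar + 3 * (om R : ℝ) ^ 2 / 8) + (wR R K T y.1 - 1) +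
          Wz (om R) ((Hh R : ℝ) ^ 2) y.2) := fun y => by
    rw [← atoms_sum_fin R K T fun Y => 1 / nrm3 (y - Y)]
    unfold cR
    ring
  have hcont : Continuous fun y : P3 => wR R K T y.1 + Wz (om R) ((Hh R : ℝ) ^ 2) y.2 :=
    (hw.1.continuous.comp continuous_fst).add ((continuous_Wz _ _).comp continuous_snd)
  have hr7 : (R : ℝ) ^ 7000 ≤ Pp R := hPk (by norm_num)
  have hr2 : (R : ℝ) ^ 2 ≤ Pp R := hPk (by norm_num)
  have hr70 : 0 < (R : ℝ) ^ 7000 := ppos hr _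
  have hr0 := rpos hr
  clear hpot hob hat hPk hKa hLam hω hω2 hA eKa eh hS hw hwout hlog hM₂le hΛ44
  generalize (R : ℝ) ^ 7000 = r7 at *
  generalize ((Pp R : ℕ) : ℝ) = P at *
  generalize ((Hh R : ℕ) : ℝ) = H at *
  generalize ((hq R : ℚ) : ℝ) = h at *
  have hP0 := rpos hP
  have h42 : h ^ 4 ≤ h ^ 2 := pow_le_pow_of_le_one h0.le h1 (by norm_num)
  have h41 : h ^ 4 ≤ 1 := pow_le_one₀ h0.le h1
  have hηp : Pf * (h ^ 2 + E1) ≤ 2 * P * h ^ 2 := by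
    calc Pf * (h ^ 2 + E1) ≤ P * (2 * h ^ 2) :=
          mul_le_mul hPfP (by linarith only [hE1, h42]) (by positivity) hP0.le
      _ = 2 * P * h ^ 2 := by ring
  have hτp : Pf * (h ^ 4 + E1) ≤ 2 * P * h ^ 4 := by
    calc Pf * (h ^ 4 + E1) ≤ P * (2 * h ^ 4) :=
          mul_le_mul hPfP (by linarith only [hE1]) (by positivity) hP0.le
      _ = 2 * P * h ^ 4 := by ring
  have hCp : Pf * (1 + E1) ≤ (om R : ℝ) ^ 2 * (H ^ 2) ^ 2 / 2 := by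
    have a1 : Pf * (1 + E1) ≤ P * 2 :=
      mul_le_mul hPfP (by linarith only [hE1, h41]) (by positivity) hP0.le
    have a3 : (H ^ 2) ^ 2 = H ^ 4 := by ring
    have a4 := mul_le_mul_of_nonneg_right hω1 hH40
    rw [a3]; linarith only [a1, a4, hH4, hPH]
  have hθP : 1 ≤ 1 / r7 * P := by
    rw [one_div_mul_eq_div, le_div_iff₀ hr70, one_mul]; exact hr7
  have hθη : 4 * (Pf * (h ^ 2 + E1)) ≤ 1 / r7 := by
    rw [le_div_iff₀ hr70]
    have a2 : h * P ^ 3 ≤ 1 := hsmall hP hhP h0 (by norm_num)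
    have a3 : 8 * P ^ 2 ≤ P ^ 3 := cpw hP (by norm_num) le_rfl
    calc 4 * (Pf * (h ^ 2 + E1)) * r7 ≤ 4 * (2 * P * h ^ 2) * P := by gcongr
      _ = h * (h * (8 * P ^ 2)) := by ring
      _ ≤ h * (h * P ^ 3) := by gcongr
      _ ≤ 1 * 1 := mul_le_mul h1 a2 (by positivity) zero_le_one
      _ = 1 := one_mul 1
  obtain ⟨ob⟩ := ob3.perturb (c := cR R K T + 1) (err' := (eps R : ℝ) / (R : ℝ) ^ 2) hpt hWeq hcont
    hΛ2 (by linarith only [hH2]) (div_pos one_pos hr70) (by positivity) hθη (by positivity)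
    (by positivity) hCp
    (ineq_pert hP hhP h0 hr0 hr2 he1 (by positivity) hτp (by positivity) hηp
      (div_pos one_pos hr70) hθP (by linarith only [hΛ2]) hΛP hM₃0 hM₃ (Nat.cast_nonneg _) hcard)
  exact ⟨ob.monoκη hκ hη⟩

end Crest.Agent.R338
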