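import Mathlib
import Crest.Prelude.Def_QMA
import Crest.Prelude.Def_CoulombProblem
import Crest.Agent.Lib.PT.All

/-!
# rid 338 (S0529): definitions of the discrete levels

The proof is a chain of polynomial-time reductions `Red` between typed promise problems; only
ground energies are tracked and everything is real.

* level `V`  : codes of verifier circuits (`YesV`, `NoV`)
* level `RC` : real circuits, gates X / Z / H with at most two controls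
* level `PH k` : qubit Hamiltonians, sums of X/Z words of length `≤ k`
* level `SW` : `∑ J i j • SWAP i j`, `J ≥ 0` (antiferromagnetic Heisenberg, any graph)
* level `HC` : hard-core fermions with spin hopping on a complete graph
* level `GR` : fermions with spin on a square grid, some sites hard-core
* the Coulomb problem of the statement (`YesC`, `NoC`).

Every instance carries a unary bound `B` for all its numbers, and thresholds `a + 1 ≤ b`.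
DO NOT EDIT (msg helper74).
-/

set_option autoImplicit false
set_option linter.dupNamespace false

noncomputable section

namespace Crest.Agent.R338

open Crest.Agent.Lib.PT Matrix
open Crest.Quantum.GateCircuit Crest.Quantum.QMA

/-- Polynomial-time reduction between typed promise problems. -/
def Red {α β : Type} [Enc α] [Enc β] (Y N : α → Prop) (Y' N' : β → Prop) : Prop :=
  ∃ f : α → β, PT f ∧ (∀ x, Y x → Y' (f x)) ∧ ∀ x, N x → N' (f x)

theorem Red.trans {α β γ : Type} [Enc α] [Enc β] [Enc γ] {Y N : α → Prop} {Y' N' : β → Prop}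
    {Y'' N'' : γ → Prop} (h : Red Y N Y' N') (h' : Red Y' N' Y'' N'') : Red Y N Y'' N'' := by
  obtain ⟨f, hf, h1, h2⟩ := h
  obtain ⟨g, hg, h3, h4⟩ := h'
  exact ⟨fun x => g (f x), hg.comp hf, fun x hx => h3 _ (h1 x hx), fun x hx => h4 _ (h2 x hx)⟩

/-! ### Tensor products of matrices, ground energy thresholds -/

/-- Tensor product of a family of matrices. -/
def tens {ι β γ : Type} [Fintype ι] (A : ι → Matrix β γ ℝ) : Matrix (ι → β) (ι → γ) ℝ :=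
  Matrix.of fun x y => ∏ i, A i (x i) (y i)

/-- `A` acting on the tensor factor `i`. -/
def loc {ι β : Type} [Fintype ι] [DecidableEq ι] [DecidableEq β] (i : ι) (A : Matrix β β ℝ) :
    Matrix (ι → β) (ι → β) ℝ :=
  tens fun j => if j = i then A else 1

/-- The operator norm of `M` is at most `v`. -/
def OpLe {κ κ' : Type} [Fintype κ] [Fintype κ'] (M : Matrix κ κ' ℝ) (v : ℝ) : Prop :=
  ∀ x : κ' → ℝ, (M *ᵥ x) ⬝ᵥ (M *ᵥ x) ≤ v ^ 2 * (x ⬝ᵥ x)

/-- The least eigenvalue of the form of `M` is at most `a`. -/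
def MYes {κ : Type} [Fintype κ] (M : Matrix κ κ ℝ) (a : ℝ) : Prop :=
  ∃ x : κ → ℝ, x ≠ 0 ∧ x ⬝ᵥ M *ᵥ x ≤ a * (x ⬝ᵥ x)

/-- The least eigenvalue of the form of `M` is at least `b`. -/
def MNo {κ : Type} [Fintype κ] (M : Matrix κ κ ℝ) (b : ℝ) : Prop :=
  ∀ x : κ → ℝ, b * (x ⬝ᵥ x) ≤ x ⬝ᵥ M *ᵥ x

/-- Thresholds: bounded by `B`, gap at least one. -/
def Thr (B : ℕ) (a b : ℚ) : Prop := |a| ≤ B ∧ |b| ≤ B ∧ a + 1 ≤ b

/-- Entry of a table of rationals (`0` outside). -/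
def ent (J : List (List ℚ)) (i j : ℕ) : ℚ := (J.getD i []).getD j 0

/-! ### Level `V` -/

/-- (unary size bound, code of a verifier circuit) -/
abbrev VI := Un × List Bool

def YesV (x : VI) : Prop :=
  ∃ (V : VCirc) (h : V.WellFormed), x.2 = vcode V ∧ V.N + V.gates.length ≤ x.1.n ∧
    ∃ ψ : QVec V.w, IsWitness ψ ∧ 2 / 3 ≤ acceptProb V h.1 ψ

def NoV (x : VI) : Prop :=
  ∃ (V : VCirc) (h : V.WellFormed), x.2 = vcode V ∧ V.N + V.gates.length ≤ x.1.n ∧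
    ∀ ψ : QVec V.w, IsWitness ψ → acceptProb V h.1 ψ ≤ 1 / 3

/-! ### Level `RC`: real circuits -/

/-- Pauli X. -/
def pX : Matrix Bool Bool ℝ := Matrix.of fun a b => if a = b then 0 else 1
/-- Pauli Z. -/
def pZ : Matrix Bool Bool ℝ := Matrix.of fun a b => if a = b then (if a = true then -1 else 1) else 0
/-- `|1⟩⟨1|`. -/
def p1 : Matrix Bool Bool ℝ := Matrix.of fun a b => if a = true ∧ b = true then 1 else 0

/-- The three reflections: `0 ↦ X`, `1 ↦ Z`, otherwise Hadamard. -/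
def refl : ℕ → Matrix Bool Bool ℝ
  | 0 => pX
  | 1 => pZ
  | _ + 2 => (Real.sqrt 2)⁻¹ • (pX + pZ)

/-- (controls, target, kind of reflection) -/
abbrev RGate := List ℕ × ℕ × ℕ

/-- The controlled reflection `1 - Π + Π ⊗ R` on `n` wires. -/
def rgate (n : ℕ) (g : RGate) : Matrix (Fin n → Bool) (Fin n → Bool) ℝ :=
  1 - tens (fun q : Fin n => if q.val ∈ g.1 then p1 else 1) +
    tens (fun q : Fin n => if q.val ∈ g.1 then p1 else if q.val = g.2.1 then refl g.2.2 else 1)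

/-- The gates applied first to last. -/
def rrun (n : ℕ) (gs : List RGate) : Matrix (Fin n → Bool) (Fin n → Bool) ℝ :=
  gs.foldl (fun M g => rgate n g * M) 1

/-- Bit `q` of a string (`false` outside). -/
def bit {n : ℕ} (σ : Fin n → Bool) (q : ℕ) : Bool := if h : q < n then σ ⟨q, h⟩ else false

/-- States whose wires `≥ w` are `|0⟩`. -/
def Good (n w : ℕ) (ψ : (Fin n → Bool) → ℝ) : Prop :=
  ∀ σ : Fin n → Bool, (∃ i : Fin n, w ≤ i.val ∧ σ i = true) → ψ σ = 0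

/-- Acceptance weight. -/
def racc (n : ℕ) (gs : List RGate) (out : ℕ) (ψ : (Fin n → Bool) → ℝ) : ℝ :=
  ∑ σ : Fin n → Bool, if bit σ out = true then ((rrun n gs *ᵥ ψ) σ) ^ 2 else 0

/-- (number of wires `n`, number of witness wires `w`, gates, output wire) -/
abbrev RCI := Un × ℕ × List RGate × ℕ

def ValidRC (x : RCI) : Prop :=
  x.2.1 ≤ x.1.n ∧ x.2.2.2 < x.1.n ∧
    ∀ g ∈ x.2.2.1, g.1.length ≤ 2 ∧ (g.2.1 :: g.1).Nodup ∧ ∀ q ∈ g.2.1 :: g.1, q < x.1.n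

def YesRC (x : RCI) : Prop :=
  ValidRC x ∧ ∃ ψ, Good x.1.n x.2.1 ψ ∧ ψ ⬝ᵥ ψ = 1 ∧ 2 / 3 ≤ racc x.1.n x.2.2.1 x.2.2.2 ψ

def NoRC (x : RCI) : Prop :=
  ValidRC x ∧ ∀ ψ, Good x.1.n x.2.1 ψ → racc x.1.n x.2.2.1 x.2.2.2 ψ ≤ 1 / 3 * (ψ ⬝ᵥ ψ)

/-! ### Level `PH k`: X/Z words -/

/-- A word: pairs (qubit, letter), `true` = X, `false` = Z. -/
abbrev Word := List (ℕ × Bool)

def letter : Option Bool → Matrix Bool Bool ℝ
  | none => 1
  | some true => pX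
  | some false => pZ

def wordMat (n : ℕ) (w : Word) : Matrix (Fin n → Bool) (Fin n → Bool) ℝ :=
  tens fun q : Fin n => letter (w.lookup q.val)

def hamMat (n : ℕ) (ts : List (ℚ × Word)) : Matrix (Fin n → Bool) (Fin n → Bool) ℝ :=
  (ts.map fun t => (t.1 : ℝ) • wordMat n t.2).sum

/-- A word on distinct qubits `< n`, of length `≤ k`. -/
def WordOK (n k : ℕ) (w : Word) : Prop :=
  (w.map Prod.fst).Nodup ∧ (∀ l ∈ w, l.1 < n) ∧ w.length ≤ k

/-- (bound `B`, number of qubits, terms, `a`, `b`) -/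
abbrev PHI := Un × ℕ × List (ℚ × Word) × ℚ × ℚ

def ValidPH (k : ℕ) (x : PHI) : Prop :=
  1 ≤ x.2.1 ∧ x.2.1 ≤ x.1.n ∧ x.2.2.1.length ≤ x.1.n ∧
    (∀ t ∈ x.2.2.1, |t.1| ≤ x.1.n ∧ WordOK x.2.1 k t.2) ∧ Thr x.1.n x.2.2.2.1 x.2.2.2.2

def YesPH (k : ℕ) (x : PHI) : Prop := ValidPH k x ∧ MYes (hamMat x.2.1 x.2.2.1) x.2.2.2.1

def NoPH (k : ℕ) (x : PHI) : Prop := ValidPH k x ∧ MNo (hamMat x.2.1 x.2.2.1) x.2.2.2.2

/-! ### Level `SW`: sums of swaps -/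

def swapMat {ι β : Type} [Fintype ι] [DecidableEq ι] [DecidableEq β] (i j : ι) :
    Matrix (ι → β) (ι → β) ℝ :=
  Matrix.of fun x y => if y = x ∘ Equiv.swap i j then 1 else 0

def swMat (N : ℕ) (J : List (List ℚ)) : Matrix (Fin N → Bool) (Fin N → Bool) ℝ :=
  ∑ i : Fin N, ∑ j : Fin N, if i < j then (ent J i j : ℝ) • swapMat i j else 0

/-- (bound `B`, number of spins, couplings, `a`, `b`) -/
abbrev SWI := Un × ℕ × List (List ℚ) × ℚ × ℚ

def ValidSW (x : SWI) : Prop :=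
  1 ≤ x.2.1 ∧ x.2.1 ≤ x.1.n ∧ (∀ i j, 0 ≤ ent x.2.2.1 i j ∧ ent x.2.2.1 i j ≤ x.1.n) ∧
    Thr x.1.n x.2.2.2.1 x.2.2.2.2

def YesSW (x : SWI) : Prop := ValidSW x ∧ MYes (swMat x.2.1 x.2.2.1) x.2.2.2.1

def NoSW (x : SWI) : Prop := ValidSW x ∧ MNo (swMat x.2.1 x.2.2.1) x.2.2.2.2

/-! ### Fermions with spin on a finite set of sites (first quantisation) -/

/-- Amplitudes of particles labelled by `ι` on sites `V` with spin. -/
abbrev FSt (ι V : Type) := (ι → V × Fin 2) → ℝ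

def Anti {ι V : Type} [Fintype ι] [DecidableEq ι] (A : FSt ι V) : Prop :=
  ∀ (σ : Equiv.Perm ι) (x : ι → V × Fin 2), A (x ∘ σ) = ((Equiv.Perm.sign σ : ℤ) : ℝ) * A x

/-- No two particles on the same hard-core site. -/
def HCok {ι V : Type} (hc : V → Prop) (A : FSt ι V) : Prop :=
  ∀ (x : ι → V × Fin 2) (i j : ι), i ≠ j → (x i).1 = (x j).1 → hc (x i).1 → A x = 0

/-- `h ⊗ 1` on sites × spin. -/
def hsp {V V' : Type} (h : Matrix V V' ℝ) : Matrix (V × Fin 2) (V' × Fin 2) ℝ :=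
  Matrix.of fun a b => if a.2 = b.2 then h a.1 b.1 else 0

/-- The many-body operator `∑ i, h^{(i)}`. -/
def fmat (ι : Type) {V : Type} [Fintype ι] [DecidableEq ι] [DecidableEq V] (h : Matrix V V ℝ) :
    Matrix (ι → V × Fin 2) (ι → V × Fin 2) ℝ :=
  ∑ i : ι, loc i (hsp h)

def FYes (ι : Type) {V : Type} [Fintype ι] [DecidableEq ι] [Fintype V] [DecidableEq V]
    (hc : V → Prop) (h : Matrix V V ℝ) (a : ℝ) : Prop :=
  ∃ A : FSt ι V, Anti A ∧ HCok hc A ∧ A ≠ 0 ∧ A ⬝ᵥ fmat ι h *ᵥ A ≤ a * (A ⬝ᵥ A)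

def FNo (ι : Type) {V : Type} [Fintype ι] [DecidableEq ι] [Fintype V] [DecidableEq V]
    (hc : V → Prop) (h : Matrix V V ℝ) (b : ℝ) : Prop :=
  ∀ A : FSt ι V, Anti A → HCok hc A → b * (A ⬝ᵥ A) ≤ A ⬝ᵥ fmat ι h *ᵥ A

/-! ### Level `HC` -/

/-- One-body matrix on the complete graph: site energies `ε`, hopping `-(t u v + t v u)`. -/
def hcMat (n : ℕ) (t : List (List ℚ)) (ε : List ℚ) : Matrix (Fin n) (Fin n) ℝ :=
  Matrix.of fun u v => if u = v then ((ε.getD u 0 : ℚ) : ℝ) else -((ent t u v + ent t v u : ℚ) : ℝ)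

/-- (bound `B`, sites `n`, particles `N`, hoppings, site energies, `a`, `b`) -/
abbrev HCI := Un × ℕ × ℕ × List (List ℚ) × List ℚ × ℚ × ℚ

def ValidHC (x : HCI) : Prop :=
  1 ≤ x.2.1 ∧ x.2.1 ≤ x.1.n ∧ 1 ≤ x.2.2.1 ∧ x.2.2.1 ≤ x.1.n ∧
    (∀ i j, 0 ≤ ent x.2.2.2.1 i j ∧ ent x.2.2.2.1 i j ≤ x.1.n) ∧
    (∀ i, |x.2.2.2.2.1.getD i 0| ≤ x.1.n) ∧ Thr x.1.n x.2.2.2.2.2.1 x.2.2.2.2.2.2

def YesHC (x : HCI) : Prop :=
  ValidHC x ∧ FYes (Fin x.2.2.1) (fun _ => True) (hcMat x.2.1 x.2.2.2.1 x.2.2.2.2.1) x.2.2.2.2.2.1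

def NoHC (x : HCI) : Prop :=
  ValidHC x ∧ FNo (Fin x.2.2.1) (fun _ => True) (hcMat x.2.1 x.2.2.2.1 x.2.2.2.2.1) x.2.2.2.2.2.2

/-! ### Level `GR` -/

/-- One-body matrix on the `K × K` grid: `tH i j` joins `(i,j)` and `(i+1,j)`, `tV i j` joins `(i,j)`
and `(i,j+1)`. -/
def gridMat (K : ℕ) (tH tV ε : ℕ → ℕ → ℝ) : Matrix (Fin K × Fin K) (Fin K × Fin K) ℝ :=
  Matrix.of fun p q =>
    if p = q then ε p.1 p.2
    else if p.2 = q.2 ∧ p.1.val + 1 = q.1.val then -tH p.1 p.2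
    else if p.2 = q.2 ∧ q.1.val + 1 = p.1.val then -tH q.1 q.2
    else if p.1 = q.1 ∧ p.2.val + 1 = q.2.val then -tV p.1 p.2
    else if p.1 = q.1 ∧ q.2.val + 1 = p.2.val then -tV q.1 q.2
    else 0

/-- Entry of a table of flags (`false` outside). -/
def flag (F : List (List Bool)) (i j : ℕ) : Bool := (F.getD i []).getD j false

/-- (bound `B`, side `K`, particles `N`, (`tH`, `tV`, `ε`, hard-core flags), `a`, `b`) -/
abbrev GRI :=
  Un × ℕ × ℕ × (List (List ℚ) × List (List ℚ) × List (List ℚ) × List (List Bool)) × ℚ × ℚ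

def GRI.mat (x : GRI) : Matrix (Fin x.2.1 × Fin x.2.1) (Fin x.2.1 × Fin x.2.1) ℝ :=
  gridMat x.2.1 (fun i j => ent x.2.2.2.1.1 i j) (fun i j => ent x.2.2.2.1.2.1 i j)
    (fun i j => ent x.2.2.2.1.2.2.1 i j)

def GRI.hc (x : GRI) (p : Fin x.2.1 × Fin x.2.1) : Prop := flag x.2.2.2.1.2.2.2 p.1 p.2 = true

def ValidGR (x : GRI) : Prop :=
  1 ≤ x.2.1 ∧ x.2.1 ≤ x.1.n ∧ 1 ≤ x.2.2.1 ∧ x.2.2.1 ≤ x.1.n ∧
    (∀ i j, 0 ≤ ent x.2.2.2.1.1 i j ∧ ent x.2.2.2.1.1 i j ≤ x.1.n ∧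
      0 ≤ ent x.2.2.2.1.2.1 i j ∧ ent x.2.2.2.1.2.1 i j ≤ x.1.n ∧
      |ent x.2.2.2.1.2.2.1 i j| ≤ x.1.n) ∧
    Thr x.1.n x.2.2.2.2.1 x.2.2.2.2.2

def YesGR (x : GRI) : Prop := ValidGR x ∧ FYes (Fin x.2.2.1) x.hc x.mat x.2.2.2.2.1

def NoGR (x : GRI) : Prop := ValidGR x ∧ FNo (Fin x.2.2.1) x.hc x.mat x.2.2.2.2.2

/-! ### The Coulomb problem -/

def YesC (z : List Bool) : Prop := z ∈ Crest.MathPhysics.CoulombProblem.groundEnergyProblem.yes

def NoC (z : List Bool) : Prop := z ∈ Crest.MathPhysics.CoulombProblem.groundEnergyProblem.no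

end Crest.Agent.R338
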