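import Crest.Agent.R338.Op

/-! # Fermion models: basic API -/

set_option autoImplicit false
set_option linter.dupNamespace false
set_option linter.unusedVariables false

noncomputable section

namespace Crest.Agent.R338

open Crest.Agent.Lib.PT Matrix

variable {ι V V' : Type} [Fintype ι] [DecidableEq ι] [Fintype V] [DecidableEq V] [Fintype V']
  [DecidableEq V']

omit [Fintype V] [Fintype V'] [DecidableEq V] [DecidableEq V'] in
theorem hsp_transpose (h : Matrix V V' ℝ) : (hsp h)ᵀ = hsp hᵀ := by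
  ext a b
  simp only [hsp, transpose_apply, of_apply, eq_comm]

omit [Fintype V] [DecidableEq V] [DecidableEq V'] in
theorem hsp_mul {V'' : Type} (h : Matrix V V' ℝ) (h' : Matrix V' V'' ℝ) :
    hsp h * hsp h' = hsp (h * h') := by
  ext a b
  simp only [hsp, mul_apply, of_apply, Fintype.sum_prod_type, ite_mul, zero_mul, mul_ite, mul_zero]
  split_ifs with hab
  · refine Finset.sum_congr rfl fun v _ => ?_
    rw [Finset.sum_eq_single b.2 (fun s _ hs => if_neg hs) (by simp)]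
    simp [hab]
  · refine Finset.sum_eq_zero fun v _ => Finset.sum_eq_zero fun s _ => ?_
    split_ifs with h1 h2
    · exact absurd (h2.trans h1) hab
    · rfl
    · rfl

omit [Fintype V] in
theorem hsp_one : hsp (1 : Matrix V V ℝ) = 1 := by
  ext a b
  simp only [hsp, of_apply, one_apply, Prod.ext_iff]
  by_cases h1 : a.1 = b.1 <;> by_cases h2 : a.2 = b.2 <;> simp [h1, h2]

omit [Fintype V] [DecidableEq V] [DecidableEq V'] in
theorem fb_hsp_mulVec (h : Matrix V V' ℝ) (u : V' × Fin 2 → ℝ) (a : V × Fin 2) :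
    (hsp h *ᵥ u) a = (h *ᵥ fun v => u (v, a.2)) a.1 := by
  simp only [mulVec, dotProduct, hsp, of_apply, Fintype.sum_prod_type, ite_mul, zero_mul,
    Finset.sum_ite_eq, Finset.mem_univ, if_true]

omit [DecidableEq V] in
theorem fb_dot_split (u w : V × Fin 2 → ℝ) :
    u ⬝ᵥ w = ∑ s : Fin 2, (fun v => u (v, s)) ⬝ᵥ fun v => w (v, s) := by
  simp only [dotProduct]
  rw [Fintype.sum_prod_type_right]

omit [DecidableEq V] [DecidableEq V'] in
theorem OpLe.hsp {h : Matrix V V' ℝ} {v : ℝ} (H : OpLe h v) : OpLe (hsp h) v := by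
  intro x
  rw [fb_dot_split, fb_dot_split x x, Finset.mul_sum]
  refine Finset.sum_le_sum fun s _ => ?_
  simp only [fb_hsp_mulVec]
  exact H _

omit [DecidableEq V] in
theorem hsp_form_mono {h h' : Matrix V V ℝ} (H : ∀ u : V → ℝ, u ⬝ᵥ h *ᵥ u ≤ u ⬝ᵥ h' *ᵥ u)
    (u : V × Fin 2 → ℝ) : u ⬝ᵥ hsp h *ᵥ u ≤ u ⬝ᵥ hsp h' *ᵥ u := by
  rw [fb_dot_split, fb_dot_split u (hsp h' *ᵥ u)]
  refine Finset.sum_le_sum fun s _ => ?_
  simp only [fb_hsp_mulVec]
  exact H _

theorem fmat_mulVec (h : Matrix V V ℝ) (A : FSt ι V) (x : ι → V × Fin 2) :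
    (fmat ι h *ᵥ A) x = ∑ i, ∑ v, h (x i).1 v * A (Function.update x i (v, (x i).2)) := by
  simp only [fmat, Matrix.sum_mulVec, Finset.sum_apply, loc_mulVec]
  refine Finset.sum_congr rfl fun i _ => ?_
  exact fb_hsp_mulVec h (fun b => A (Function.update x i b)) (x i)

omit [Fintype V] in
theorem fmat_transpose (h : Matrix V V ℝ) : (fmat ι h)ᵀ = fmat ι hᵀ := by
  simp only [fmat, transpose_sum, loc_transpose, hsp_transpose]

omit [Fintype V] in
theorem fmat_add (h h' : Matrix V V ℝ) : fmat ι (h + h') = fmat ι h + fmat ι h' := by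
  have : hsp (h + h') = hsp h + hsp h' := by
    ext a b
    simp only [hsp, of_apply, Matrix.add_apply]
    split_ifs <;> simp
  simp only [fmat, this, loc_add, Finset.sum_add_distrib]

omit [Fintype V] in
theorem fmat_smul (c : ℝ) (h : Matrix V V ℝ) : fmat ι (c • h) = c • fmat ι h := by
  have : hsp (c • h) = c • hsp h := by
    ext a b
    simp only [hsp, of_apply, Matrix.smul_apply, smul_eq_mul]
    split_ifs <;> simp
  simp only [fmat, this, loc_smul, Finset.smul_sum]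

omit [Fintype V] in
theorem fmat_one : fmat ι (1 : Matrix V V ℝ) = (Fintype.card ι : ℝ) • 1 := by
  simp only [fmat, hsp_one, loc_one, Finset.sum_const, Finset.card_univ]
  rw [Nat.cast_smul_eq_nsmul]

theorem fmat_diagonal_mulVec (e : V → ℝ) (A : FSt ι V) (x : ι → V × Fin 2) :
    (fmat ι (Matrix.diagonal e) *ᵥ A) x = (∑ i, e (x i).1) * A x := by
  rw [fmat_mulVec, Finset.sum_mul]
  refine Finset.sum_congr rfl fun i _ => ?_
  rw [Finset.sum_eq_single (x i).1 (fun v _ hv => by rw [diagonal_apply_ne' _ hv, zero_mul])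
    (by simp)]
  simp

theorem OpLe.fmat {h : Matrix V V ℝ} {v : ℝ} (H : OpLe h v) (h0 : 0 ≤ v) :
    OpLe (fmat ι h) (Fintype.card ι * v) := by
  have := OpLe.sum (Finset.univ : Finset ι) (M := fun i => R338.loc i (R338.hsp h)) (v := fun _ => v)
    (fun i _ => OpLe.loc i H.hsp) (fun _ _ => h0)
  simp only [Finset.sum_const, Finset.card_univ, nsmul_eq_mul] at this
  exact this

theorem fmat_mono {h h' : Matrix V V ℝ} (H : ∀ u : V → ℝ, u ⬝ᵥ h *ᵥ u ≤ u ⬝ᵥ h' *ᵥ u)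
    (A : FSt ι V) : A ⬝ᵥ fmat ι h *ᵥ A ≤ A ⬝ᵥ fmat ι h' *ᵥ A := by
  simp only [fmat, Matrix.sum_mulVec, dotProduct_sum]
  exact Finset.sum_le_sum fun i _ => loc_form_mono i (hsp_form_mono H) A

omit [Fintype V] [DecidableEq V] in
/-- Pauli principle. -/
theorem Anti.eq_zero {A : FSt ι V} (hA : Anti A) {x : ι → V × Fin 2} {i j : ι} (hij : i ≠ j)
    (h : x i = x j) : A x = 0 := by
  have h1 := hA (Equiv.swap i j) x
  have h2 : x ∘ Equiv.swap i j = x := by
    funext k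
    simp only [Function.comp_apply, Equiv.swap_apply_def]
    split_ifs with h3 h4
    · rw [h3, h]
    · rw [h4, h]
    · rfl
  rw [h2, Equiv.Perm.sign_swap hij] at h1
  simp only [Units.val_neg, Units.val_one, Int.cast_neg, Int.cast_one] at h1
  linarith

omit [Fintype V'] [DecidableEq V] [DecidableEq V'] in
/-- `L^{⊗ ι}` preserves antisymmetry. -/
theorem Anti.lift {A : FSt ι V} (hA : Anti A) (L : Matrix V' V ℝ) :
    Anti (ι := ι) (V := V') (tens (fun _ : ι => hsp L) *ᵥ A) := by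
  intro σ x
  simp only [mulVec, dotProduct, Finset.mul_sum]
  symm
  refine Fintype.sum_equiv (Equiv.arrowCongr σ.symm (Equiv.refl _)) _ _ fun y => ?_
  have h1 : (Equiv.arrowCongr σ.symm (Equiv.refl (V × Fin 2))) y = y ∘ σ := by
    funext k; simp
  rw [h1, hA σ y, tens_comp_equiv σ (fun _ : ι => hsp L) x y]
  ring

theorem FYes.mono {hc : V → Prop} {h : Matrix V V ℝ} {a a' : ℝ} (H : FYes ι hc h a) (ha : a ≤ a') :
    FYes ι hc h a' := by
  obtain ⟨A, h1, h2, h3, h4⟩ := H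
  exact ⟨A, h1, h2, h3, h4.trans (mul_le_mul_of_nonneg_right ha (dot_self_nonneg A))⟩

theorem FNo.mono {hc : V → Prop} {h : Matrix V V ℝ} {b b' : ℝ} (H : FNo ι hc h b) (hb : b' ≤ b) :
    FNo ι hc h b' := by
  intro A h1 h2
  exact (mul_le_mul_of_nonneg_right hb (dot_self_nonneg A)).trans (H A h1 h2)

theorem fb_form_le {h h' : Matrix V V ℝ} {e : ℝ}
    (hh : ∀ u : V → ℝ, u ⬝ᵥ h' *ᵥ u ≤ u ⬝ᵥ h *ᵥ u + e * (u ⬝ᵥ u)) (A : FSt ι V) :
    A ⬝ᵥ fmat ι h' *ᵥ A ≤ A ⬝ᵥ fmat ι h *ᵥ A + Fintype.card ι * e * (A ⬝ᵥ A) := by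
  have := fmat_mono (h := h') (h' := h + e • (1 : Matrix V V ℝ)) (fun u => by
    simpa only [add_mulVec, smul_mulVec, one_mulVec, dotProduct_add, dotProduct_smul,
      smul_eq_mul] using hh u) A
  rw [fmat_add, fmat_smul, fmat_one] at this
  simp only [add_mulVec, smul_mulVec, one_mulVec, dotProduct_add, dotProduct_smul,
    smul_eq_mul] at this
  linarith

theorem FYes.of_form_le {hc : V → Prop} {h h' : Matrix V V ℝ} {a e : ℝ} (H : FYes ι hc h a)
    (hh : ∀ u : V → ℝ, u ⬝ᵥ h' *ᵥ u ≤ u ⬝ᵥ h *ᵥ u + e * (u ⬝ᵥ u)) :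
    FYes ι hc h' (a + Fintype.card ι * e) := by
  obtain ⟨A, h1, h2, h3, h4⟩ := H
  refine ⟨A, h1, h2, h3, ?_⟩
  have := fb_form_le hh A
  linarith

theorem FNo.of_form_le {hc : V → Prop} {h h' : Matrix V V ℝ} {b e : ℝ} (H : FNo ι hc h b)
    (hh : ∀ u : V → ℝ, u ⬝ᵥ h *ᵥ u ≤ u ⬝ᵥ h' *ᵥ u + e * (u ⬝ᵥ u)) :
    FNo ι hc h' (b - Fintype.card ι * e) := by
  intro A h1 h2
  have := fb_form_le hh A
  have := H A h1 h2
  linarith

theorem FYes.smul {hc : V → Prop} {h : Matrix V V ℝ} {a c : ℝ} (H : FYes ι hc h a) (h0 : 0 ≤ c) :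
    FYes ι hc (c • h) (c * a) := by
  obtain ⟨A, h1, h2, h3, h4⟩ := H
  refine ⟨A, h1, h2, h3, ?_⟩
  rw [fmat_smul, smul_mulVec, dotProduct_smul, smul_eq_mul, mul_assoc]
  exact mul_le_mul_of_nonneg_left h4 h0

theorem FNo.smul {hc : V → Prop} {h : Matrix V V ℝ} {b c : ℝ} (H : FNo ι hc h b) (h0 : 0 ≤ c) :
    FNo ι hc (c • h) (c * b) := by
  intro A h1 h2
  rw [fmat_smul, smul_mulVec, dotProduct_smul, smul_eq_mul, mul_assoc]
  exact mul_le_mul_of_nonneg_left (H A h1 h2) h0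

section Transport

variable {ι' : Type} [Fintype ι'] [DecidableEq ι']

/-- relabelling configurations -/
def fb_E (e : ι' ≃ ι) (f : V' ≃ V) : (ι' → V' × Fin 2) ≃ (ι → V × Fin 2) :=
  Equiv.arrowCongr e (Equiv.prodCongr f (Equiv.refl _))

omit [Fintype ι] [DecidableEq ι] [Fintype V] [DecidableEq V] [Fintype V'] [DecidableEq V']
  [Fintype ι'] [DecidableEq ι'] in
theorem fb_E_apply (e : ι' ≃ ι) (f : V' ≃ V) (x : ι' → V' × Fin 2) (i : ι) :
    fb_E e f x i = (f (x (e.symm i)).1, (x (e.symm i)).2) := rfl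

omit [Fintype V] [DecidableEq V] [Fintype V'] [DecidableEq V'] in
theorem fb_anti (e : ι' ≃ ι) (f : V' ≃ V) {A : FSt ι V} (hA : Anti A) :
    Anti (ι := ι') (V := V') (A ∘ fb_E e f) := by
  intro σ x
  have h1 : fb_E e f (x ∘ σ) = fb_E e f x ∘ (e.permCongr σ) := by
    funext i; simp [fb_E_apply]
  simp only [Function.comp_apply]
  rw [h1, hA, Equiv.Perm.sign_permCongr]

omit [Fintype ι] [DecidableEq ι] [Fintype V] [DecidableEq V] [Fintype V'] [DecidableEq V']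
  [Fintype ι'] [DecidableEq ι'] in
theorem fb_hc (e : ι' ≃ ι) (f : V' ≃ V) {hc : V → Prop} {A : FSt ι V} (hA : HCok hc A) :
    HCok (ι := ι') (V := V') (fun v => hc (f v)) (A ∘ fb_E e f) := by
  intro x i j hij h1 h2
  refine hA (fb_E e f x) (e i) (e j) (e.injective.ne hij) ?_ ?_
  · simp [fb_E_apply, h1]
  · simpa [fb_E_apply] using h2

omit [DecidableEq V] [DecidableEq V'] in
theorem fb_dot (e : ι' ≃ ι) (f : V' ≃ V) (A B : FSt ι V) :
    (A ∘ fb_E e f) ⬝ᵥ (B ∘ fb_E e f) = A ⬝ᵥ B :=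
  comp_equiv_dotProduct_comp_equiv A B (fb_E e f)

theorem fb_fmat (e : ι' ≃ ι) (f : V' ≃ V) (h : Matrix V V ℝ) (A : FSt ι V) :
    fmat ι' (h.submatrix f f) *ᵥ (A ∘ fb_E e f) = (fmat ι h *ᵥ A) ∘ fb_E e f := by
  funext x
  simp only [Function.comp_apply, fmat_mulVec]
  refine Fintype.sum_equiv e _ _ fun i => Fintype.sum_equiv f _ _ fun v => ?_
  have h1 : fb_E e f (Function.update x i (v, (x i).2)) =
      Function.update (fb_E e f x) (e i) (f v, (fb_E e f x (e i)).2) := by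
    funext k
    obtain ⟨k, rfl⟩ := e.surjective k
    by_cases hk : k = i
    · subst hk; simp [fb_E_apply]
    · simp [fb_E_apply, Function.update_of_ne hk, Function.update_of_ne (e.injective.ne hk)]
  rw [h1]
  simp [fb_E_apply]

theorem fb_yes (e : ι' ≃ ι) (f : V' ≃ V) {hc : V → Prop} {h : Matrix V V ℝ} {a : ℝ}
    (H : FYes ι hc h a) : FYes ι' (fun v => hc (f v)) (h.submatrix f f) a := by
  obtain ⟨A, h1, h2, h3, h4⟩ := H
  refine ⟨A ∘ fb_E e f, fb_anti e f h1, fb_hc e f h2, fun h0 => h3 ?_, ?_⟩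
  · funext x
    obtain ⟨x, rfl⟩ := (fb_E e f).surjective x
    exact congrFun h0 x
  · rw [fb_fmat, fb_dot, fb_dot]; exact h4

theorem fb_no (e : ι' ≃ ι) (f : V' ≃ V) {hc : V → Prop} {h : Matrix V V ℝ} {b : ℝ}
    (H : FNo ι' (fun v => hc (f v)) (h.submatrix f f) b) : FNo ι hc h b := by
  intro A h1 h2
  have := H _ (fb_anti e f h1) (fb_hc e f h2)
  rwa [fb_fmat, fb_dot, fb_dot] at this

theorem fb_yes_iff (e : ι' ≃ ι) (f : V' ≃ V) (hc : V → Prop) (h : Matrix V V ℝ) (a : ℝ) :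
    FYes ι' (fun v => hc (f v)) (h.submatrix f f) a ↔ FYes ι hc h a := by
  refine ⟨fun H => ?_, fb_yes e f⟩
  have := fb_yes e.symm f.symm H
  simpa using this

theorem fb_no_iff (e : ι' ≃ ι) (f : V' ≃ V) (hc : V → Prop) (h : Matrix V V ℝ) (b : ℝ) :
    FNo ι' (fun v => hc (f v)) (h.submatrix f f) b ↔ FNo ι hc h b := by
  refine ⟨fb_no e f, fun H => fb_no e.symm f.symm ?_⟩
  simpa using H

end Transport

/-- Relabelling the particles. -/
theorem fYes_equiv {ι' : Type} [Fintype ι'] [DecidableEq ι'] (e : ι' ≃ ι) (hc : V → Prop)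
    (h : Matrix V V ℝ) (a : ℝ) : FYes ι' hc h a ↔ FYes ι hc h a := by
  exact fb_yes_iff e (Equiv.refl V) hc h a

theorem fNo_equiv {ι' : Type} [Fintype ι'] [DecidableEq ι'] (e : ι' ≃ ι) (hc : V → Prop)
    (h : Matrix V V ℝ) (b : ℝ) : FNo ι' hc h b ↔ FNo ι hc h b := by
  exact fb_no_iff e (Equiv.refl V) hc h b

/-- Relabelling the sites. -/
theorem fYes_submatrix (e : V' ≃ V) (hc : V → Prop) (h : Matrix V V ℝ) (a : ℝ) :
    FYes ι (fun v => hc (e v)) (h.submatrix e e) a ↔ FYes ι hc h a := by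
  exact fb_yes_iff (Equiv.refl ι) e hc h a

theorem fNo_submatrix (e : V' ≃ V) (hc : V → Prop) (h : Matrix V V ℝ) (b : ℝ) :
    FNo ι (fun v => hc (e v)) (h.submatrix e e) b ↔ FNo ι hc h b := by
  exact fb_no_iff (Equiv.refl ι) e hc h b

end Crest.Agent.R338
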