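import Crest.Agent.R338.Ideal_Gen

/-! # Ideal, part 2: slices and the integrated one- and two-dimensional inequalities -/

set_option autoImplicit false
set_option linter.dupNamespace false
set_option linter.unusedVariables false
set_option linter.unusedSectionVars false

noncomputable section

namespace Crest.Agent.R338.Idl

open Matrix MeasureTheory Set

theorem cc_sl2 {ψ : P3 → ℝ} (h : Cc1 ψ) (z : ℝ) : Cc1 fun x : P2 => ψ (x, z) :=
  ⟨h.1.comp (contDiff_id.prodMk contDiff_const),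
    HasCompactSupport.intro (h.2.isCompact.image continuous_fst) fun x hx =>
      image_eq_zero_of_notMem_tsupport fun hm => hx ⟨(x, z), hm, rfl⟩⟩

theorem cc_sl1 {ψ : P3 → ℝ} (h : Cc1 ψ) (x : P2) : Cc1 fun z : ℝ => ψ (x, z) :=
  ⟨h.1.comp (contDiff_const.prodMk contDiff_id),
    HasCompactSupport.intro (h.2.isCompact.image continuous_snd) fun z hz =>
      image_eq_zero_of_notMem_tsupport fun hm => hz ⟨(x, z), hm, rfl⟩⟩

theorem fd_sl2 {ψ : P3 → ℝ} (h : Differentiable ℝ ψ) (x u : P2) (z : ℝ) :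
    fderiv ℝ (fun x : P2 => ψ (x, z)) x u = fderiv ℝ ψ (x, z) (u, 0) := by
  have := (h (x, z)).hasFDerivAt.comp x (hasFDerivAt_prodMk_left (𝕜 := ℝ) x z)
  have e : (fun x : P2 => ψ (x, z)) = ψ ∘ fun x : P2 => (x, z) := rfl
  rw [e, this.fderiv]
  simp

theorem dx_sl {ψ : P3 → ℝ} (h : Differentiable ℝ ψ) (x : P2) (z : ℝ) :
    dx (fun x : P2 => ψ (x, z)) x = d1 ψ (x, z) := fd_sl2 h x _ z

theorem dy_sl {ψ : P3 → ℝ} (h : Differentiable ℝ ψ) (x : P2) (z : ℝ) :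
    dy (fun x : P2 => ψ (x, z)) x = d2 ψ (x, z) := fd_sl2 h x _ z

theorem deriv_sl {ψ : P3 → ℝ} (h : Differentiable ℝ ψ) (x : P2) (z : ℝ) :
    deriv (fun z : ℝ => ψ (x, z)) z = d3 ψ (x, z) := by
  have h1 : HasDerivAt (fun z : ℝ => ((x, z) : P3)) (((0, 0), 1) : P3) z :=
    (hasDerivAt_const z x).prodMk (hasDerivAt_id z)
  exact ((h (x, z)).hasFDerivAt.comp_hasDerivAt z h1).deriv

theorem fd_fst {f : P2 → ℝ} (h : Differentiable ℝ f) (y u : P3) :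
    fderiv ℝ (fun y : P3 => f y.1) y u = fderiv ℝ f y.1 u.1 := by
  have := (h y.1).hasFDerivAt.comp y (hasFDerivAt_fst (𝕜 := ℝ) (p := y))
  have e : (fun y : P3 => f y.1) = f ∘ Prod.fst := rfl
  rw [e, this.fderiv]
  simp

theorem cd_dx {S : P2 → ℝ} (hS : ContDiff ℝ 2 S) : ContDiff ℝ 1 (dx S) :=
  (hS.fderiv_right (m := 1) (by norm_num)).clm_apply contDiff_const

theorem cd_dy {S : P2 → ℝ} (hS : ContDiff ℝ 2 S) : ContDiff ℝ 1 (dy S) :=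
  (hS.fderiv_right (m := 1) (by norm_num)).clm_apply contDiff_const

theorem c_fd {E : Type} [NormedAddCommGroup E] [NormedSpace ℝ E] {T : E → ℝ} (hT : ContDiff ℝ 1 T)
    (u : E) : Continuous fun y => fderiv ℝ T y u :=
  (hT.continuous_fderiv one_ne_zero).clm_apply continuous_const

theorem gst_plane {S ψ : P2 → ℝ} (hS : ContDiff ℝ 2 S) (hψ : Cc1 ψ) :
    ∫ p, ((dx ψ p + ψ p * dx S p) ^ 2 + (dy ψ p + ψ p * dy S p) ^ 2) =
      (∫ p, (dx ψ p ^ 2 + dy ψ p ^ 2)) + ∫ p, (dx S p ^ 2 + dy S p ^ 2 - lap2 S p) * ψ p ^ 2 := by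
  have h1 := gst_dir hψ (cd_dx hS) (1, 0)
  have h2 := gst_dir hψ (cd_dy hS) (0, 1)
  have i1 : Integrable fun y => (dx S y ^ 2 - fderiv ℝ (dx S) y (1, 0)) * ψ y ^ 2 :=
    int_cont_sq hψ (((cd_dx hS).continuous.pow 2).sub (c_fd (cd_dx hS) _))
  have i2 : Integrable fun y => (dy S y ^ 2 - fderiv ℝ (dy S) y (0, 1)) * ψ y ^ 2 :=
    int_cont_sq hψ (((cd_dy hS).continuous.pow 2).sub (c_fd (cd_dy hS) _))
  have a1 := ((HI.of (int_dsq hψ (cd_dx hS).continuous (1, 0))).add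
    (HI.of (int_dsq hψ (cd_dy hS).continuous (0, 1)))).2
  have a2 := ((HI.of (int_dsq0 hψ (1, 0))).add (HI.of (int_dsq0 hψ (0, 1)))).2
  have a3 := (((HI.of i1).add (HI.of i2)).congr
    (g := fun p => (dx S p ^ 2 + dy S p ^ 2 - lap2 S p) * ψ p ^ 2) fun y => by
      simp only [lap2, dx, dy]; ring).2
  rw [a3]
  refine a1.trans ?_
  rw [h1, h2]
  have a2' : ∫ p, (dx ψ p ^ 2 + dy ψ p ^ 2) = _ := a2
  rw [a2']
  ring

/-- Planar part of the transformed kinetic energy density. -/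
def F12 (S : P2 → ℝ) (ψ : P3 → ℝ) (y : P3) : ℝ :=
  (d1 ψ y + ψ y * dx S y.1) ^ 2 + (d2 ψ y + ψ y * dy S y.1) ^ 2

/-- Vertical part of the transformed kinetic energy density. -/
def F3 (sp : ℝ → ℝ) (ψ : P3 → ℝ) (y : P3) : ℝ := (d3 ψ y + sp y.2 * ψ y) ^ 2

def A3 (S v : P2 → ℝ) (ψ : P3 → ℝ) : ℝ := 1 / 2 * (∫ y, F12 S ψ y) + ∫ y, v y.1 * ψ y ^ 2

def B3 (sp lo : ℝ → ℝ) (ψ : P3 → ℝ) : ℝ := 1 / 2 * (∫ y, F3 sp ψ y) + ∫ y, lo y.2 * ψ y ^ 2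

theorem int_F12 {S : P2 → ℝ} {ψ : P3 → ℝ} (hS : ContDiff ℝ 2 S) (hψ : Cc1 ψ) :
    Integrable (F12 S ψ) :=
  (int_dsq hψ ((cd_dx hS).continuous.comp continuous_fst) _).add
    (int_dsq hψ ((cd_dy hS).continuous.comp continuous_fst) _)

theorem int_F3 {sp : ℝ → ℝ} {ψ : P3 → ℝ} (hsp : Continuous sp) (hψ : Cc1 ψ) :
    Integrable (F3 sp ψ) :=
  (int_dsq hψ (hsp.comp continuous_snd) ((0, 0), 1)).congr (ae_of_all _ fun y => by
    simp only [F3, d3, Function.comp]; ring)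

theorem gst3 {S : P2 → ℝ} {ψ : P3 → ℝ} (hS : ContDiff ℝ 2 S) (hψ : Cc1 ψ) :
    ∫ y, F12 S ψ y = (∫ y, (d1 ψ y ^ 2 + d2 ψ y ^ 2)) +
      ∫ y : P3, (dx S y.1 ^ 2 + dy S y.1 ^ 2 - lap2 S y.1) * ψ y ^ 2 := by
  have i1 : Integrable fun y => d1 ψ y ^ 2 + d2 ψ y ^ 2 := (int_dsq0 hψ _).add (int_dsq0 hψ _)
  have hc : Continuous fun p => dx S p ^ 2 + dy S p ^ 2 - lap2 S p :=
    (((cd_dx hS).continuous.pow 2).add ((cd_dy hS).continuous.pow 2)).sub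
      ((c_fd (cd_dx hS) _).add (c_fd (cd_dy hS) _))
  have i2 : Integrable fun y : P3 => (dx S y.1 ^ 2 + dy S y.1 ^ 2 - lap2 S y.1) * ψ y ^ 2 :=
    int_cont_sq hψ (hc.comp continuous_fst)
  refine (hi_snd (int_F12 hS hψ)).eq ((hi_snd i1).add (hi_snd i2)) fun z => ?_
  have := gst_plane hS (cc_sl2 hψ z)
  simpa only [dx_sl (cc_diff hψ), dy_sl (cc_diff hψ), F12] using this

theorem hi_X2 {S v : P2 → ℝ} {ψ : P3 → ℝ} (hS : ContDiff ℝ 2 S) (hv : Continuous v) (hψ : Cc1 ψ) :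
    HI (fun z => X2 S v fun x => ψ (x, z)) (A3 S v ψ) := by
  have i2 : Integrable fun y : P3 => v y.1 * ψ y ^ 2 := int_cont_sq hψ (hv.comp continuous_fst)
  refine (((hi_snd (int_F12 hS hψ)).cmul (1 / 2)).add (hi_snd i2)).congr fun z => ?_
  simp only [X2, dx_sl (cc_diff hψ), dy_sl (cc_diff hψ), F12]

theorem hi_X1 {sp lo : ℝ → ℝ} {ψ : P3 → ℝ} (hsp : Continuous sp) (hlo : Measurable lo) {C : ℝ}
    (hC : ∀ z, |lo z| ≤ C) (hψ : Cc1 ψ) : HI (fun x => X1 sp lo fun z => ψ (x, z)) (B3 sp lo ψ) := by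
  have i2 : Integrable fun y : P3 => lo y.2 * ψ y ^ 2 :=
    int_bdd_sq hψ (hlo.comp measurable_snd) fun y => hC y.2
  refine (((hi_fst (int_F3 hsp hψ)).cmul (1 / 2)).add (hi_fst i2)).congr fun z => ?_
  simp only [X1, deriv_sl (cc_diff hψ), F3]

theorem hi_tail {ψ : P3 → ℝ} (hψ : Cc1 ψ) (Z : ℝ) :
    HI (fun x => ∫ z in {z : ℝ | Z < |z|}, ψ (x, z) ^ 2) (∫ y in {y : P3 | Z < |y.2|}, ψ y ^ 2) := by
  have m1 : MeasurableSet {z : ℝ | Z < |z|} := measurableSet_lt measurable_const measurable_abs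
  have m3 : MeasurableSet {y : P3 | Z < |y.2|} := measurable_snd m1
  have i : Integrable ({y : P3 | Z < |y.2|}.indicator fun y => ψ y ^ 2) :=
    (cc_l2 hψ).integrable_sq.indicator m3
  rw [← integral_indicator m3]
  refine (hi_fst i).congr fun x => ?_
  rw [← integral_indicator m1]
  rfl

theorem c_Wz (ω L : ℝ) : Continuous (Wz ω L) := by
  unfold Wz
  fun_prop

/-- The energy splits into a planar and a vertical part. -/
theorem qf_split {S v ε : P2 → ℝ} {ω L : ℝ} {ψ : P3 → ℝ} (hS : ContDiff ℝ 2 S) (hv : Continuous v)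
    (hε : Continuous ε) (hψ : Cc1 ψ) :
    qf gsq3 (fun y => wOf S v ε y.1 + Wz ω L y.2) ψ =
      A3 S v ψ + (∫ y : P3, ε y.1 * ψ y ^ 2) +
        (1 / 2 * (∫ y, d3 ψ y ^ 2) + ∫ y : P3, Wz ω L y.2 * ψ y ^ 2) := by
  have i1 : Integrable fun y => d1 ψ y ^ 2 + d2 ψ y ^ 2 := (int_dsq0 hψ _).add (int_dsq0 hψ _)
  have i3 : Integrable fun y => d3 ψ y ^ 2 := int_dsq0 hψ _
  have hc : Continuous fun p => dx S p ^ 2 + dy S p ^ 2 - lap2 S p :=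
    (((cd_dx hS).continuous.pow 2).add ((cd_dy hS).continuous.pow 2)).sub
      ((c_fd (cd_dx hS) _).add (c_fd (cd_dy hS) _))
  have j1 : Integrable fun y : P3 => (dx S y.1 ^ 2 + dy S y.1 ^ 2 - lap2 S y.1) * ψ y ^ 2 :=
    int_cont_sq hψ (hc.comp continuous_fst)
  have j2 : Integrable fun y : P3 => v y.1 * ψ y ^ 2 := int_cont_sq hψ (hv.comp continuous_fst)
  have j3 : Integrable fun y : P3 => ε y.1 * ψ y ^ 2 := int_cont_sq hψ (hε.comp continuous_fst)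
  have j4 : Integrable fun y : P3 => Wz ω L y.2 * ψ y ^ 2 :=
    int_cont_sq hψ ((c_Wz ω L).comp continuous_snd)
  have e1 := (((HI.of i1).add (HI.of i3)).congr (g := gsq3 ψ) fun y => rfl).2
  have e2 := ((((((HI.of j1).cmul (1 / 2)).add (HI.of j2)).add (HI.of j3)).add (HI.of j4)).congr
    (g := fun y => (wOf S v ε y.1 + Wz ω L y.2) * ψ y ^ 2) fun y => by
      simp only [wOf]; ring).2
  unfold qf A3
  rw [e1, e2, gst3 hS hψ]
  ring

variable {V : Type} [Fintype V] [DecidableEq V] {S v ε : P2 → ℝ} {k : Matrix V V ℝ}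
  {hc : V → Prop} {err₂ CP θ η η' κ ν M Λ ω L errz ηz Mz : ℝ}

theorem pl_S (pl : PL S v ε k hc err₂ CP θ η η' κ ν M Λ) : ContDiff ℝ 2 S :=
  pl.S_bd.1.of_le (by exact_mod_cast (by norm_num : (2 : ℕ) ≤ 8))

theorem pl_l2 (pl : PL S v ε k hc err₂ CP θ η η' κ ν M Λ) (p : V) : L2 (pl.e p) :=
  l2_of_norm_one (pl.e_meas p).aestronglyMeasurable (pl.e_norm p)

theorem ln_l2 (ln : LN ω L errz ηz Mz) : L2 ln.G :=
  l2_of_norm_one ln.G_meas.aestronglyMeasurable ln.G_norm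

theorem ln_lo (ln : LN ω L errz ηz Mz) : ∃ C, ∀ z, |ln.lo z| ≤ C := by
  obtain ⟨C, hC⟩ := ln.lo_bdd
  exact ⟨C, fun z => by rw [abs_of_nonneg (hC z).1]; exact (hC z).2⟩

theorem ln_hi (ln : LN ω L errz ηz Mz) {ψ : P3 → ℝ} (hψ : Cc1 ψ) :
    HI (fun x => X1 ln.sp ln.lo fun z => ψ (x, z)) (B3 ln.sp ln.lo ψ) := by
  obtain ⟨C, hC⟩ := ln_lo ln
  exact hi_X1 ln.sp_cont ln.lo_meas hC hψ

theorem pl_hi (pl : PL S v ε k hc err₂ CP θ η η' κ ν M Λ) {ψ : P3 → ℝ} (hψ : Cc1 ψ) :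
    HI (fun z => X2 S v fun x => ψ (x, z)) (A3 S v ψ) :=
  hi_X2 (pl_S pl) pl.v_bd.1.continuous hψ

/-- The three-dimensional orthonormal family. -/
def e3 (pl : PL S v ε k hc err₂ CP θ η η' κ ν M Λ) (ln : LN ω L errz ηz Mz) (p : V) (y : P3) : ℝ :=
  pl.e p y.1 * ln.G y.2

theorem e3_l2 (pl : PL S v ε k hc err₂ CP θ η η' κ ν M Λ) (ln : LN ω L errz ηz Mz) (p : V) :
    L2 (e3 pl ln p) := l2_prod (pl_l2 pl p) (ln_l2 ln)

theorem e3_disj (pl : PL S v ε k hc err₂ CP θ η η' κ ν M Λ) (ln : LN ω L errz ηz Mz) (p q : V)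
    (y : P3) (h : p ≠ q) : e3 pl ln p y * e3 pl ln q y = 0 := by
  have := pl.e_disj p q y.1 h
  unfold e3
  calc _ = pl.e p y.1 * pl.e q y.1 * (ln.G y.2 * ln.G y.2) := by ring
    _ = 0 := by rw [this, zero_mul]

theorem e3_norm (pl : PL S v ε k hc err₂ CP θ η η' κ ν M Λ) (ln : LN ω L errz ηz Mz) (p : V) :
    ∫ y, e3 pl ln p y ^ 2 = 1 := by
  have := int_prod (fun x => pl.e p x ^ 2) (fun z => ln.G z ^ 2)
  rw [pl.e_norm, ln.G_norm, one_mul] at this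
  simpa only [e3, mul_pow] using this

theorem l2_a (pl : PL S v ε k hc err₂ CP θ η η' κ ν M Λ) {ψ : P3 → ℝ} (hψ : Cc1 ψ) (p : V) :
    L2 fun z => coef pl.e (fun x => ψ (x, z)) p := by
  have i : Integrable fun y : P3 => pl.e p y.1 * ψ y :=
    (cc_int hψ).bdd_mul ((pl.e_meas p).comp measurable_fst).aestronglyMeasurable
      (ae_of_all _ fun y => (pl.e_bdd p y.1).1)
  exact l2_of_sq_le (hi_snd i).1.aestronglyMeasurable (hi_snd (cc_l2 hψ).integrable_sq).1 fun z =>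
    cs1 (cc_l2 (cc_sl2 hψ z)) (pl_l2 pl p) (pl.e_norm p)

theorem l2_b (ln : LN ω L errz ηz Mz) {ψ : P3 → ℝ} (hψ : Cc1 ψ) :
    L2 fun x => ∫ z, ln.G z * ψ (x, z) := by
  have i : Integrable fun y : P3 => ln.G y.2 * ψ y :=
    (cc_int hψ).bdd_mul (ln.G_meas.comp measurable_snd).aestronglyMeasurable
      (ae_of_all _ fun y => (ln.G_bdd y.2).1)
  exact l2_of_sq_le (hi_fst i).1.aestronglyMeasurable (hi_fst (cc_l2 hψ).integrable_sq).1 fun x =>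
    cs1 (cc_l2 (cc_sl1 hψ x)) (ln_l2 ln) ln.G_norm

theorem coef_z (pl : PL S v ε k hc err₂ CP θ η η' κ ν M Λ) (ln : LN ω L errz ηz Mz) {ψ : P3 → ℝ}
    (hψ : Cc1 ψ) (p : V) :
    coef (e3 pl ln) ψ p = ∫ z, ln.G z * coef pl.e (fun x => ψ (x, z)) p := by
  have h := hi_snd (hi_mul (e3_l2 pl ln p) (cc_l2 hψ)).1
  refine h.2.symm.trans (integral_congr_ae (ae_of_all _ fun z => ?_))
  simp only [coef, e3]
  rw [← integral_const_mul]
  exact integral_congr_ae (ae_of_all _ fun x => by ring)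

theorem coef_x (pl : PL S v ε k hc err₂ CP θ η η' κ ν M Λ) (ln : LN ω L errz ηz Mz) {ψ : P3 → ℝ}
    (hψ : Cc1 ψ) (p : V) :
    coef (e3 pl ln) ψ p = ∫ x, pl.e p x * ∫ z, ln.G z * ψ (x, z) := by
  have h := hi_fst (hi_mul (e3_l2 pl ln p) (cc_l2 hψ)).1
  refine h.2.symm.trans (integral_congr_ae (ae_of_all _ fun x => ?_))
  simp only [e3]
  rw [← integral_const_mul]
  exact integral_congr_ae (ae_of_all _ fun z => by ring)

theorem hi_aa (pl : PL S v ε k hc err₂ CP θ η η' κ ν M Λ) {ψ : P3 → ℝ} (hψ : Cc1 ψ)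
    (m : Matrix V V ℝ) :
    HI (fun z => coef pl.e (fun x => ψ (x, z)) ⬝ᵥ m *ᵥ coef pl.e (fun x => ψ (x, z)))
      (∫ z, coef pl.e (fun x => ψ (x, z)) ⬝ᵥ m *ᵥ coef pl.e (fun x => ψ (x, z))) :=
  HI.of (hi_form (a := fun p z => coef pl.e (fun x => ψ (x, z)) p) (l2_a pl hψ) m).1

theorem hi_rr (pl : PL S v ε k hc err₂ CP θ η η' κ ν M Λ) (ln : LN ω L errz ηz Mz) {ψ : P3 → ℝ}
    (hψ : Cc1 ψ) (m : Matrix V V ℝ) :
    HI (fun z => (fun p => coef pl.e (fun x => ψ (x, z)) p - ln.G z * coef (e3 pl ln) ψ p) ⬝ᵥ m *ᵥ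
        (fun p => coef pl.e (fun x => ψ (x, z)) p - ln.G z * coef (e3 pl ln) ψ p))
      ((∫ z, coef pl.e (fun x => ψ (x, z)) ⬝ᵥ m *ᵥ coef pl.e (fun x => ψ (x, z))) -
        coef (e3 pl ln) ψ ⬝ᵥ m *ᵥ coef (e3 pl ln) ψ) :=
  hi_form_rest (a := fun p z => coef pl.e (fun x => ψ (x, z)) p) (l2_a pl hψ) (ln_l2 ln) ln.G_norm
    (coef_z pl ln hψ) m

/-- The planar and the vertical lower bounds, integrated. -/
theorem low3 (pl : PL S v ε k hc err₂ CP θ η η' κ ν M Λ) (ln : LN ω L errz ηz Mz) {νk : ℝ}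
    (hk : OpLe k νk) (hνk : 0 ≤ νk) {ψ : P3 → ℝ} (hψ : Cc1 ψ) :
    (ω / 2 - err₂ - errz) * (∫ y, ψ y ^ 2) + coef (e3 pl ln) ψ ⬝ᵥ k *ᵥ coef (e3 pl ln) ψ -
      νk * ((∫ y, ψ y ^ 2) - coef (e3 pl ln) ψ ⬝ᵥ coef (e3 pl ln) ψ) + θ * A3 S v ψ +
      B3 ln.sp ln.lo ψ + ω ^ 2 * L ^ 2 / 2 * (∫ y in {y : P3 | 2 * L < |y.2|}, ψ y ^ 2) ≤
      qf gsq3 (fun y => wOf S v ε y.1 + Wz ω L y.2) ψ := by
  have iN := (cc_l2 hψ).integrable_sq
  have j3 : Integrable fun y : P3 => ε y.1 * ψ y ^ 2 :=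
    int_cont_sq hψ (pl.ε_bd.1.continuous.comp continuous_fst)
  have j4 : Integrable fun y : P3 => Wz ω L y.2 * ψ y ^ 2 :=
    int_cont_sq hψ ((c_Wz ω L).comp continuous_snd)
  have i3 : Integrable fun y => d3 ψ y ^ 2 := int_dsq0 hψ _
  have h2 := ((hi_aa pl hψ k).sub ((hi_snd iN).cmul err₂)).le
    (((pl_hi pl hψ).cmul (1 - θ)).add (hi_snd j3)) fun z => pl.low _ (cc_sl2 hψ z)
  have h1 := ((((hi_fst iN).cmul (ω / 2 - errz)).add (ln_hi ln hψ)).add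
    ((hi_tail hψ (2 * L)).cmul (ω ^ 2 * L ^ 2 / 2))).le
    (((hi_fst i3).cmul (1 / 2)).add (hi_fst j4)) fun x => by
      have := ln.low _ (cc_sl1 hψ x)
      simpa only [deriv_sl (cc_diff hψ)] using this
  have h3 := ((hi_rr pl ln hψ 1).cmul (-νk)).le (hi_rr pl ln hψ k) fun z => by
    rw [one_mulVec]
    have := hk.form_le hνk
      (fun p => coef pl.e (fun x => ψ (x, z)) p - ln.G z * coef (e3 pl ln) ψ p)
    linarith [neg_abs_le ((fun p => coef pl.e (fun x => ψ (x, z)) p - ln.G z * coef (e3 pl ln) ψ p) ⬝ᵥ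
      k *ᵥ (fun p => coef pl.e (fun x => ψ (x, z)) p - ln.G z * coef (e3 pl ln) ψ p))]
  have h4 := (hi_aa pl hψ 1).le (hi_snd iN) fun z => by
    rw [one_mulVec]
    exact bessel (pl_l2 pl) pl.e_disj pl.e_norm (cc_l2 (cc_sl2 hψ z))
  rw [one_mulVec] at h3
  rw [qf_split (pl_S pl) pl.v_bd.1.continuous pl.ε_bd.1.continuous hψ]
  nlinarith [mul_le_mul_of_nonneg_left h4 hνk]

/-- The Poincaré inequality in three dimensions. -/
theorem poin3 (pl : PL S v ε k hc err₂ CP θ η η' κ ν M Λ) (ln : LN ω L errz ηz Mz) {ψ : P3 → ℝ}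
    (hψ : Cc1 ψ) : (∫ y, ψ y ^ 2) - coef (e3 pl ln) ψ ⬝ᵥ coef (e3 pl ln) ψ ≤
      CP * A3 S v ψ + B3 ln.sp ln.lo ψ := by
  have iN := (cc_l2 hψ).integrable_sq
  have h1 := ((hi_snd iN).sub (hi_aa pl hψ 1)).le ((pl_hi pl hψ).cmul CP) fun z => by
    rw [one_mulVec]
    exact pl.poin _ (cc_sl2 hψ z)
  have lχ : L2 fun y : P3 => ψ y - (∫ z, ln.G z * ψ (y.1, z)) * ln.G y.2 :=
    (cc_l2 hψ).sub (l2_prod (l2_b ln hψ) (ln_l2 ln))
  have h2 := (hi_rr pl ln hψ 1).le (hi_snd lχ.integrable_sq) fun z => by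
    rw [one_mulVec]
    have l1 : L2 fun x : P2 => ψ (x, z) - (∫ z, ln.G z * ψ (x, z)) * ln.G z :=
      (cc_l2 (cc_sl2 hψ z)).sub ((l2_b ln hψ).mul_const _)
    have hb := bessel (pl_l2 pl) pl.e_disj pl.e_norm l1
    have e : coef pl.e (fun x : P2 => ψ (x, z) - (∫ z, ln.G z * ψ (x, z)) * ln.G z) =
        fun p => coef pl.e (fun x => ψ (x, z)) p - ln.G z * coef (e3 pl ln) ψ p := by
      funext p
      rw [coef_x pl ln hψ]
      exact (((hi_mul (pl_l2 pl p) (cc_l2 (cc_sl2 hψ z))).sub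
        ((hi_mul (pl_l2 pl p) (l2_b ln hψ)).cmul (ln.G z))).congr fun x => by ring).2
    rw [e] at hb
    exact hb
  have h3 := (hi_fst lχ.integrable_sq).le (ln_hi ln hψ) fun x => by
    have := (hi_proj1 (cc_l2 (cc_sl1 hψ x)) (ln_l2 ln) ln.G_norm).2
    refine le_trans (le_of_eq ?_) (ln.poin _ (cc_sl1 hψ x))
    rw [← this]
    exact integral_congr_ae (ae_of_all _ fun z => by ring)
  rw [one_mulVec] at h2
  linarith

/-- The gradient in terms of the transformed energies. -/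
theorem grad3 (pl : PL S v ε k hc err₂ CP θ η η' κ ν M Λ) (ln : LN ω L errz ηz Mz) {ψ : P3 → ℝ}
    (hψ : Cc1 ψ) : ∫ y, gsq3 ψ y ≤
      (∫ y, F12 S ψ y) + (∫ y, F3 ln.sp ψ y) + (2 * M + ω) * ∫ y, ψ y ^ 2 := by
  have hS := pl_S pl
  have iN := (cc_l2 hψ).integrable_sq
  have i1 : Integrable fun y => d1 ψ y ^ 2 + d2 ψ y ^ 2 := (int_dsq0 hψ _).add (int_dsq0 hψ _)
  have i3 : Integrable fun y => d3 ψ y ^ 2 := int_dsq0 hψ _
  have hc : Continuous fun p => dx S p ^ 2 + dy S p ^ 2 - lap2 S p :=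
    (((cd_dx hS).continuous.pow 2).add ((cd_dy hS).continuous.pow 2)).sub
      ((c_fd (cd_dx hS) _).add (c_fd (cd_dy hS) _))
  have j1 : Integrable fun y : P3 => (dx S y.1 ^ 2 + dy S y.1 ^ 2 - lap2 S y.1) * ψ y ^ 2 :=
    int_cont_sq hψ (hc.comp continuous_fst)
  have e1 := (((HI.of i1).add (HI.of i3)).congr (g := gsq3 ψ) fun y => rfl).2
  have h1 := (hi_fst i3).le ((hi_fst (int_F3 ln.sp_cont hψ)).add ((hi_fst iN).cmul ω)) fun x => by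
    have := ln.grad _ (cc_sl1 hψ x)
    simpa only [deriv_sl (cc_diff hψ), F3] using this
  have hl : Bd 0 (2 * M) (lap2 S) := (pl.S_bd.mono (k' := 0 + 2) (by norm_num) le_rfl).lap2
  have h2 := ((HI.of iN).cmul (-(2 * M))).le (HI.of j1) fun y => by
    have := (abs_le.1 (hl.abs_le y.1)).2
    exact mul_le_mul_of_nonneg_right (by nlinarith [sq_nonneg (dx S y.1), sq_nonneg (dy S y.1)])
      (sq_nonneg _)
  rw [e1, gst3 hS hψ]
  linarith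

end Crest.Agent.R338.Idl
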