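import Crest.Agent.R338.Bd
import Crest.Agent.R338.Op

/-! # Ideal, part 1: generalities (integrals with values, Bessel, integration by parts) -/

set_option autoImplicit false
set_option linter.dupNamespace false
set_option linter.unusedVariables false
set_option linter.unusedSectionVars false

noncomputable section

namespace Crest.Agent.R338.Idl

open Matrix MeasureTheory Set

/-- `f` is integrable with integral `c`. -/
def HI {α : Type} [MeasureSpace α] (f : α → ℝ) (c : ℝ) : Prop := Integrable f ∧ ∫ x, f x = c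

section HI

variable {α : Type} [MeasureSpace α] {f g : α → ℝ} {c d : ℝ}

theorem HI.of (hf : Integrable f) : HI f (∫ x, f x) := ⟨hf, rfl⟩

theorem HI.add (hf : HI f c) (hg : HI g d) : HI (fun x => f x + g x) (c + d) :=
  ⟨hf.1.add hg.1, by rw [integral_add hf.1 hg.1, hf.2, hg.2]⟩

theorem HI.sub (hf : HI f c) (hg : HI g d) : HI (fun x => f x - g x) (c - d) :=
  ⟨hf.1.sub hg.1, by rw [integral_sub hf.1 hg.1, hf.2, hg.2]⟩

theorem HI.cmul (hf : HI f c) (r : ℝ) : HI (fun x => r * f x) (r * c) :=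
  ⟨hf.1.const_mul r, by rw [integral_const_mul, hf.2]⟩

theorem HI.le (hf : HI f c) (hg : HI g d) (h : ∀ x, f x ≤ g x) : c ≤ d := by
  rw [← hf.2, ← hg.2]
  exact integral_mono hf.1 hg.1 h

theorem HI.congr (hf : HI f c) (h : ∀ x, f x = g x) : HI g c := by
  have : f = g := funext h
  rwa [← this]

theorem HI.eq (hf : HI f c) (hg : HI g d) (h : ∀ x, f x = g x) : c = d := by
  rw [← (hf.congr h).2, hg.2]

theorem HI.sum {ι : Type} (s : Finset ι) {F : ι → α → ℝ} {C : ι → ℝ} (h : ∀ i ∈ s, HI (F i) (C i)) :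
    HI (fun x => ∑ i ∈ s, F i x) (∑ i ∈ s, C i) :=
  ⟨integrable_finsetSum s fun i hi => (h i hi).1, by
    rw [integral_finsetSum s fun i hi => (h i hi).1]
    exact Finset.sum_congr rfl fun i hi => (h i hi).2⟩

theorem HI.nonneg (hf : HI f c) (h : ∀ x, 0 ≤ f x) : 0 ≤ c := by
  rw [← hf.2]
  exact integral_nonneg h

/-- Square integrable. -/
abbrev L2 (f : α → ℝ) : Prop := MemLp f 2 volume

theorem hi_mul (hf : L2 f) (hg : L2 g) : HI (fun x => f x * g x) (∫ x, f x * g x) :=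
  HI.of (hf.integrable_mul hg)

theorem hi_sq (hf : L2 f) : HI (fun x => f x ^ 2) (∫ x, f x ^ 2) := HI.of hf.integrable_sq

theorem l2_of_sq_le {h : α → ℝ} (hf : AEStronglyMeasurable f volume) (hh : Integrable h)
    (hle : ∀ x, f x ^ 2 ≤ h x) : L2 f := by
  refine (memLp_two_iff_integrable_sq hf).2 (hh.mono' (hf.pow 2) (ae_of_all _ fun x => ?_))
  rw [Real.norm_eq_abs, abs_of_nonneg (sq_nonneg _)]
  exact hle x

theorem l2_of_norm_one (hf : AEStronglyMeasurable f volume) (h : ∫ x, f x ^ 2 = 1) : L2 f := by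
  refine (memLp_two_iff_integrable_sq hf).2 ?_
  by_contra hn
  rw [integral_undef hn] at h
  exact zero_ne_one h

/-- Projection on one normalised function. -/
theorem hi_proj1 (hf : L2 f) (hg : L2 g) (h1 : ∫ x, g x ^ 2 = 1) :
    HI (fun x => (f x - g x * ∫ y, g y * f y) ^ 2) ((∫ x, f x ^ 2) - (∫ y, g y * f y) ^ 2) := by
  have h := ((hi_sq hf).sub ((hi_mul hg hf).cmul (2 * ∫ y, g y * f y))).add
    ((hi_sq hg).cmul ((∫ y, g y * f y) ^ 2))
  rw [h1] at h
  have e : (∫ x, f x ^ 2) - (∫ y, g y * f y) ^ 2 =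
      (∫ x, f x ^ 2) - (2 * ∫ y, g y * f y) * (∫ y, g y * f y) + (∫ y, g y * f y) ^ 2 * 1 := by ring
  rw [e]
  exact h.congr fun x => by ring

theorem cs1 (hf : L2 f) (hg : L2 g) (h1 : ∫ x, g x ^ 2 = 1) :
    (∫ y, g y * f y) ^ 2 ≤ ∫ x, f x ^ 2 := by
  have := (hi_proj1 hf hg h1).nonneg fun x => sq_nonneg _
  linarith

/-- `∫ (f - g)² ≤ 2 ∫ f² + 2 ∫ g²`. -/
theorem sq_add_le (hf : L2 f) (hg : L2 g) :
    ∫ x, (f x + g x) ^ 2 ≤ 2 * (∫ x, f x ^ 2) + 2 * ∫ x, g x ^ 2 :=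
  (hi_sq (hf.add hg)).le (((hi_sq hf).cmul 2).add ((hi_sq hg).cmul 2)) fun x => by
    simp only [Pi.add_apply]
    nlinarith [sq_nonneg (f x - g x)]

variable {V : Type} [Fintype V]

theorem l2_lin {e : V → α → ℝ} (he : ∀ p, L2 (e p)) (a : V → ℝ) : L2 (lin e a) := by
  have : lin e a = fun y => ∑ p ∈ Finset.univ, a p * e p y := rfl
  rw [this]
  exact memLp_finsetSum _ fun p _ => (he p).const_mul (a p)

theorem lin_sq_disj {e : V → α → ℝ} (hd : ∀ p q y, p ≠ q → e p y * e q y = 0) (a : V → ℝ) (y : α) :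
    lin e a y ^ 2 = ∑ p, a p * a p * e p y ^ 2 := by
  classical
  unfold lin
  rw [sq, Finset.sum_mul_sum]
  refine Finset.sum_congr rfl fun p _ => ?_
  rw [Finset.sum_eq_single p]
  · ring
  · intro q _ hq
    have := hd p q y (Ne.symm hq)
    calc a p * e p y * (a q * e q y) = a p * a q * (e p y * e q y) := by ring
      _ = 0 := by rw [this, mul_zero]
  · intro h
    exact absurd (Finset.mem_univ p) h

/-- Bessel's identity. -/
theorem hi_bessel {e : V → α → ℝ} (he : ∀ p, L2 (e p)) (hd : ∀ p q y, p ≠ q → e p y * e q y = 0)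
    (hn : ∀ p, ∫ y, e p y ^ 2 = 1) (hf : L2 f) :
    HI (fun y => (f y - lin e (coef e f) y) ^ 2) ((∫ y, f y ^ 2) - coef e f ⬝ᵥ coef e f) := by
  have h1 : HI (fun y => ∑ p, coef e f p * (e p y * f y)) (∑ p, coef e f p * coef e f p) :=
    HI.sum _ fun p _ => (hi_mul (he p) hf).cmul _
  have h2 : HI (fun y => ∑ p, coef e f p * coef e f p * e p y ^ 2)
      (∑ p, coef e f p * coef e f p) :=
    HI.sum _ fun p _ => by
      have := (hi_sq (he p)).cmul (coef e f p * coef e f p)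
      rwa [hn p, mul_one] at this
  have h := ((hi_sq hf).sub (h1.cmul 2)).add h2
  have e1 : (∫ y, f y ^ 2) - coef e f ⬝ᵥ coef e f = (∫ y, f y ^ 2) -
      2 * (∑ p, coef e f p * coef e f p) + ∑ p, coef e f p * coef e f p := by
    unfold dotProduct; ring
  rw [e1]
  refine h.congr fun y => ?_
  rw [sub_sq, lin_sq_disj hd]
  have : ∑ p, coef e f p * (e p y * f y) = f y * lin e (coef e f) y := by
    unfold lin
    rw [Finset.mul_sum]
    exact Finset.sum_congr rfl fun p _ => by ring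
  rw [this]; ring

theorem bessel {e : V → α → ℝ} (he : ∀ p, L2 (e p)) (hd : ∀ p q y, p ≠ q → e p y * e q y = 0)
    (hn : ∀ p, ∫ y, e p y ^ 2 = 1) (hf : L2 f) : coef e f ⬝ᵥ coef e f ≤ ∫ y, f y ^ 2 := by
  have := (hi_bessel he hd hn hf).nonneg fun x => sq_nonneg _
  linarith

theorem hi_form {a : V → α → ℝ} (ha : ∀ p, L2 (a p)) (m : Matrix V V ℝ) :
    HI (fun z => (fun p => a p z) ⬝ᵥ m *ᵥ (fun p => a p z))
      (∑ p, ∑ q, m p q * ∫ z, a p z * a q z) := by
  have h : HI (fun z => ∑ p, ∑ q, m p q * (a p z * a q z)) (∑ p, ∑ q, m p q * ∫ z, a p z * a q z) :=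
    HI.sum _ fun p _ => HI.sum _ fun q _ => (hi_mul (ha p) (ha q)).cmul _
  refine h.congr fun z => ?_
  simp only [dotProduct, mulVec, Finset.mul_sum]
  exact Finset.sum_congr rfl fun p _ => Finset.sum_congr rfl fun q _ => by ring

/-- The quadratic form of the part orthogonal to `G`. -/
theorem hi_form_rest {a : V → α → ℝ} (ha : ∀ p, L2 (a p)) {G : α → ℝ} (hG : L2 G)
    (h1 : ∫ z, G z ^ 2 = 1) {β : V → ℝ} (hβ : ∀ p, β p = ∫ z, G z * a p z) (m : Matrix V V ℝ) :
    HI (fun z => (fun p => a p z - G z * β p) ⬝ᵥ m *ᵥ (fun p => a p z - G z * β p))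
      ((∫ z, (fun p => a p z) ⬝ᵥ m *ᵥ (fun p => a p z)) - β ⬝ᵥ m *ᵥ β) := by
  have h0 : ∀ p q, HI (fun z => (a p z - G z * β p) * (a q z - G z * β q))
      ((∫ z, a p z * a q z) - β p * β q) := by
    intro p q
    have h := (((hi_mul (ha p) (ha q)).sub ((hi_mul hG (ha p)).cmul (β q))).sub
      ((hi_mul hG (ha q)).cmul (β p))).add ((hi_sq hG).cmul (β p * β q))
    rw [h1, ← hβ p, ← hβ q] at h
    have e : (∫ z, a p z * a q z) - β p * β q =
        (∫ z, a p z * a q z) - β q * β p - β p * β q + β p * β q * 1 := by ring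
    rw [e]
    exact h.congr fun z => by ring
  have h : HI (fun z => ∑ p, ∑ q, m p q * ((a p z - G z * β p) * (a q z - G z * β q)))
      (∑ p, ∑ q, m p q * ((∫ z, a p z * a q z) - β p * β q)) :=
    HI.sum _ fun p _ => HI.sum _ fun q _ => (h0 p q).cmul _
  have e : (∫ z, (fun p => a p z) ⬝ᵥ m *ᵥ (fun p => a p z)) - β ⬝ᵥ m *ᵥ β =
      ∑ p, ∑ q, m p q * ((∫ z, a p z * a q z) - β p * β q) := by
    rw [(hi_form ha m).2]
    simp only [dotProduct, mulVec, Finset.mul_sum, ← Finset.sum_sub_distrib]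
    exact Finset.sum_congr rfl fun p _ => Finset.sum_congr rfl fun q _ => by ring
  rw [e]
  refine h.congr fun z => ?_
  simp only [dotProduct, mulVec, Finset.mul_sum]
  exact Finset.sum_congr rfl fun p _ => Finset.sum_congr rfl fun q _ => by ring

end HI

section prod

variable {α β : Type} [MeasureSpace α] [MeasureSpace β] [SigmaFinite (volume : Measure α)]
  [SigmaFinite (volume : Measure β)]

theorem hi_snd {F : α × β → ℝ} (hF : Integrable F) :
    HI (fun z => ∫ x, F (x, z)) (∫ y, F y) :=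
  ⟨Integrable.integral_prod_right hF, (integral_prod_symm F hF).symm⟩

theorem hi_fst {F : α × β → ℝ} (hF : Integrable F) :
    HI (fun x => ∫ z, F (x, z)) (∫ y, F y) :=
  ⟨Integrable.integral_prod_left hF, (integral_prod F hF).symm⟩

theorem int_prod (f : α → ℝ) (g : β → ℝ) :
    ∫ y : α × β, f y.1 * g y.2 = (∫ x, f x) * ∫ z, g z :=
  integral_prod_mul f g

theorem l2_prod {f : α → ℝ} {g : β → ℝ} (hf : L2 f) (hg : L2 g) :
    L2 fun y : α × β => f y.1 * g y.2 := by
  have hm : AEStronglyMeasurable (fun y : α × β => f y.1 * g y.2) volume :=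
    (hf.1.comp_fst (ν := volume)).mul (hg.1.comp_snd (μ := volume))
  refine (memLp_two_iff_integrable_sq hm).2 ?_
  have := Integrable.mul_prod hf.integrable_sq hg.integrable_sq
  refine this.congr (ae_of_all _ fun y => ?_)
  simp only [mul_pow]

end prod

section cc

variable {E : Type} [NormedAddCommGroup E] [NormedSpace ℝ E]

theorem cc_cont {ψ : E → ℝ} (h : Cc1 ψ) : Continuous ψ := h.1.continuous

theorem cc_diff {ψ : E → ℝ} (h : Cc1 ψ) : Differentiable ℝ ψ := h.1.differentiable one_ne_zero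

theorem cc_fd {ψ : E → ℝ} (h : Cc1 ψ) (u : E) : Continuous fun y => fderiv ℝ ψ y u :=
  (h.1.continuous_fderiv one_ne_zero).clm_apply continuous_const

theorem cc_sub {f g : E → ℝ} (hf : Cc1 f) (hg : Cc1 g) : Cc1 fun y => f y - g y :=
  ⟨hf.1.sub hg.1, hf.2.sub hg.2⟩

theorem cc_lin {V : Type} [Fintype V] {φ : V → E → ℝ} (h : ∀ p, Cc1 (φ p)) (a : V → ℝ) :
    Cc1 (lin φ a) := by
  have e : lin φ a = fun y => ∑ p ∈ Finset.univ, a p * φ p y := rfl
  refine ⟨?_, ?_⟩
  · rw [e]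
    exact ContDiff.sum fun p _ => contDiff_const.mul (h p).1
  · have e' : lin φ a = ∑ p ∈ Finset.univ, fun y => a p * φ p y := by
      funext y
      simp [lin]
    rw [e']
    exact HasCompactSupport.finset_sum fun p _ => (h p).2.mul_left

theorem cc_of_bd {k : ℕ} {M : ℝ} {f : E → ℝ} (hf : Bd (k + 1) M f) {K : Set E} (hK : IsCompact K)
    (h : ∀ y ∉ K, f y = 0) : Cc1 f :=
  ⟨hf.1.of_le (by exact_mod_cast Nat.le_add_left 1 k), HasCompactSupport.intro hK h⟩

theorem cs_of_cc {ψ F : E → ℝ} (h : Cc1 ψ) (h0 : ∀ y, ψ y = 0 → fderiv ℝ ψ y = 0 → F y = 0) :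
    HasCompactSupport F :=
  HasCompactSupport.intro h.2.isCompact fun y hy =>
    h0 y (image_eq_zero_of_notMem_tsupport hy) (fderiv_of_notMem_tsupport ℝ hy)

variable [MeasureSpace E] [BorelSpace E] [IsFiniteMeasureOnCompacts (volume : Measure E)]

theorem int_of_cc {ψ F : E → ℝ} (h : Cc1 ψ) (hF : Continuous F)
    (h0 : ∀ y, ψ y = 0 → fderiv ℝ ψ y = 0 → F y = 0) : Integrable F :=
  hF.integrable_of_hasCompactSupport (cs_of_cc h h0)

theorem cc_l2 {ψ : E → ℝ} (h : Cc1 ψ) : L2 ψ :=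
  (cc_cont h).memLp_of_hasCompactSupport h.2

theorem cc_int {ψ : E → ℝ} (h : Cc1 ψ) : Integrable ψ :=
  (cc_cont h).integrable_of_hasCompactSupport h.2

theorem int_cont_sq {ψ w : E → ℝ} (h : Cc1 ψ) (hw : Continuous w) :
    Integrable fun y => w y * ψ y ^ 2 :=
  int_of_cc h (hw.mul ((cc_cont h).pow 2)) fun y h1 _ => by simp [h1]

theorem int_bdd_sq {ψ w : E → ℝ} (h : Cc1 ψ) (hw : Measurable w) {C : ℝ} (hC : ∀ y, |w y| ≤ C) :
    Integrable fun y => w y * ψ y ^ 2 :=
  (cc_l2 h).integrable_sq.bdd_mul hw.aestronglyMeasurable (ae_of_all _ hC)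

theorem int_dsq {ψ T : E → ℝ} (h : Cc1 ψ) (hT : Continuous T) (u : E) :
    Integrable fun y => (fderiv ℝ ψ y u + ψ y * T y) ^ 2 :=
  int_of_cc h (((cc_fd h u).add ((cc_cont h).mul hT)).pow 2) fun y h1 h2 => by simp [h1, h2]

theorem int_dsq0 {ψ : E → ℝ} (h : Cc1 ψ) (u : E) : Integrable fun y => (fderiv ℝ ψ y u) ^ 2 :=
  int_of_cc h ((cc_fd h u).pow 2) fun y h1 h2 => by simp [h2]

end cc

/-- One direction of the ground state transform. -/
theorem gst_dir {E : Type} [NormedAddCommGroup E] [NormedSpace ℝ E] [FiniteDimensional ℝ E]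
    [MeasureSpace E] [BorelSpace E] [Measure.IsAddHaarMeasure (volume : Measure E)]
    {ψ T : E → ℝ} (hψ : Cc1 ψ) (hT : ContDiff ℝ 1 T) (u : E) :
    ∫ y, (fderiv ℝ ψ y u + ψ y * T y) ^ 2 =
      (∫ y, (fderiv ℝ ψ y u) ^ 2) + ∫ y, (T y ^ 2 - fderiv ℝ T y u) * ψ y ^ 2 := by
  have hTc : Continuous T := hT.continuous
  have hT' : Continuous fun y => fderiv ℝ T y u :=
    (hT.continuous_fderiv one_ne_zero).clm_apply continuous_const
  have hd : ∀ y, fderiv ℝ (fun y => ψ y ^ 2) y u = 2 * ψ y * fderiv ℝ ψ y u := by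
    intro y
    have := ((cc_diff hψ) y).hasFDerivAt.pow 2
    rw [this.fderiv]
    simp
  have i1 : Integrable fun y => fderiv ℝ T y u * ψ y ^ 2 := int_cont_sq hψ hT'
  have i2 : Integrable fun y => T y * (2 * ψ y * fderiv ℝ ψ y u) :=
    int_of_cc hψ (hTc.mul ((continuous_const.mul (cc_cont hψ)).mul (cc_fd hψ u)))
      fun y h1 _ => by simp [h1]
  have i3 : Integrable fun y => T y * ψ y ^ 2 := int_cont_sq hψ hTc
  have ibp := integral_mul_fderiv_eq_neg_fderiv_mul_of_integrable (μ := volume) (f := T)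
    (g := fun y => ψ y ^ 2) (v := u) i1 (by simpa only [hd] using i2) i3
    (fun x _ => hT.differentiable one_ne_zero x) (fun x _ => ((cc_diff hψ) x).pow 2)
  simp only [hd] at ibp
  have i4 : Integrable fun y => T y ^ 2 * ψ y ^ 2 := int_cont_sq hψ (hTc.pow 2)
  have i5 : Integrable fun y => (T y ^ 2 - fderiv ℝ T y u) * ψ y ^ 2 :=
    int_cont_sq hψ ((hTc.pow 2).sub hT')
  have h1 := ((HI.of (int_dsq0 hψ u)).add (HI.of i2)).add (HI.of i4)
  have h2 := (HI.of i4).sub (HI.of i1)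
  rw [(HI.of (int_dsq hψ hTc u)).eq h1 fun y => by ring, (HI.of i5).eq h2 fun y => by ring, ibp]
  ring

end Crest.Agent.R338.Idl
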