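import Crest.Agent.R338.Ideal_Fub

/-! # Ideal, part 3: product functions -/

set_option autoImplicit false
set_option linter.dupNamespace false
set_option linter.unusedVariables false
set_option linter.unusedSectionVars false

noncomputable section

namespace Crest.Agent.R338.Idl

open Matrix MeasureTheory Set

section prod

variable {f : P2 → ℝ} {g : ℝ → ℝ}

theorem diff_prod (hf : Differentiable ℝ f) (hg : Differentiable ℝ g) :
    Differentiable ℝ fun y : P3 => f y.1 * g y.2 :=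
  (hf.comp differentiable_fst).mul (hg.comp differentiable_snd)

theorem fd_mul_const (hf : Differentiable ℝ f) (c : ℝ) (x u : P2) :
    fderiv ℝ (fun x => f x * c) x u = fderiv ℝ f x u * c := by
  rw [((hf x).hasFDerivAt.mul_const c).fderiv]
  simp [mul_comm]

theorem d1_prod (hf : Differentiable ℝ f) (hg : Differentiable ℝ g) (y : P3) :
    d1 (fun y : P3 => f y.1 * g y.2) y = dx f y.1 * g y.2 :=
  (dx_sl (diff_prod hf hg) y.1 y.2).symm.trans (fd_mul_const hf (g y.2) y.1 (1, 0))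

theorem d2_prod (hf : Differentiable ℝ f) (hg : Differentiable ℝ g) (y : P3) :
    d2 (fun y : P3 => f y.1 * g y.2) y = dy f y.1 * g y.2 :=
  (dy_sl (diff_prod hf hg) y.1 y.2).symm.trans (fd_mul_const hf (g y.2) y.1 (0, 1))

theorem d3_prod (hf : Differentiable ℝ f) (hg : Differentiable ℝ g) (y : P3) :
    d3 (fun y : P3 => f y.1 * g y.2) y = f y.1 * deriv g y.2 :=
  (deriv_sl (diff_prod hf hg) y.1 y.2).symm.trans (deriv_const_mul (f y.1) (hg y.2))

theorem int_prod' {F : P3 → ℝ} (a : P2 → ℝ) (b : ℝ → ℝ) (h : ∀ y, F y = a y.1 * b y.2) :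
    ∫ y, F y = (∫ x, a x) * ∫ z, b z := by
  rw [← int_prod]
  exact integral_congr_ae (ae_of_all _ h)

theorem A3_prod (S v : P2 → ℝ) (hf : Differentiable ℝ f) (hg : Differentiable ℝ g) :
    A3 S v (fun y : P3 => f y.1 * g y.2) = X2 S v f * ∫ z, g z ^ 2 := by
  unfold A3 X2
  rw [int_prod' (F := F12 S fun y : P3 => f y.1 * g y.2)
      (fun p => (dx f p + f p * dx S p) ^ 2 + (dy f p + f p * dy S p) ^ 2) (fun z => g z ^ 2)
      fun y => by simp only [F12, d1_prod hf hg, d2_prod hf hg]; ring,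
    int_prod' (F := fun y : P3 => v y.1 * (f y.1 * g y.2) ^ 2) (fun p => v p * f p ^ 2)
      (fun z => g z ^ 2) fun y => by ring]
  ring

theorem B3_prod (sp lo : ℝ → ℝ) (hf : Differentiable ℝ f) (hg : Differentiable ℝ g) :
    B3 sp lo (fun y : P3 => f y.1 * g y.2) = (∫ x, f x ^ 2) * X1 sp lo g := by
  unfold B3 X1
  rw [int_prod' (F := F3 sp fun y : P3 => f y.1 * g y.2) (fun p => f p ^ 2)
      (fun z => (deriv g z + sp z * g z) ^ 2)
      fun y => by simp only [F3, d3_prod hf hg]; ring,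
    int_prod' (F := fun y : P3 => lo y.2 * (f y.1 * g y.2) ^ 2) (fun p => f p ^ 2)
      (fun z => lo z * g z ^ 2) fun y => by ring]
  ring

theorem sq_prod (f : P2 → ℝ) (g : ℝ → ℝ) :
    ∫ y : P3, (f y.1 * g y.2) ^ 2 = (∫ x, f x ^ 2) * ∫ z, g z ^ 2 :=
  int_prod' _ _ fun y => by ring

theorem qf_prod {S v ε : P2 → ℝ} {ω L : ℝ} (hS : ContDiff ℝ 2 S) (hv : Continuous v)
    (hε : Continuous ε) (hf : Differentiable ℝ f) (hg : Differentiable ℝ g)
    (h : Cc1 fun y : P3 => f y.1 * g y.2) :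
    qf gsq3 (fun y => wOf S v ε y.1 + Wz ω L y.2) (fun y : P3 => f y.1 * g y.2) =
      (X2 S v f + ∫ x, ε x * f x ^ 2) * (∫ z, g z ^ 2) +
        (∫ x, f x ^ 2) * (1 / 2 * (∫ z, deriv g z ^ 2) + ∫ z, Wz ω L z * g z ^ 2) := by
  rw [qf_split hS hv hε h, A3_prod S v hf hg,
    int_prod' (F := fun y : P3 => ε y.1 * (f y.1 * g y.2) ^ 2) (fun p => ε p * f p ^ 2)
      (fun z => g z ^ 2) fun y => by ring,
    int_prod' (F := fun y : P3 => d3 (fun y : P3 => f y.1 * g y.2) y ^ 2) (fun p => f p ^ 2)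
      (fun z => deriv g z ^ 2) fun y => by simp only [d3_prod hf hg]; ring,
    int_prod' (F := fun y : P3 => Wz ω L y.2 * (f y.1 * g y.2) ^ 2) (fun p => f p ^ 2)
      (fun z => Wz ω L z * g z ^ 2) fun y => by ring]
  ring

end prod

theorem lin_prod {V : Type} [Fintype V] (φ : V → P2 → ℝ) (g : ℝ → ℝ) (a : V → ℝ) :
    lin (fun p (y : P3) => φ p y.1 * g y.2) a = fun y => lin φ a y.1 * g y.2 := by
  funext y
  simp only [lin, Finset.sum_mul, mul_assoc]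

theorem lin2_prod {V : Type} [Fintype V] (φ : V → P2 → ℝ) (g : ℝ → ℝ) (β : V → V → ℝ) (y y' : P3) :
    lin2 (fun p (y : P3) => φ p y.1 * g y.2) β y y' = lin2 φ β y.1 y'.1 * (g y.2 * g y'.2) := by
  simp only [lin2, Finset.sum_mul]
  exact Finset.sum_congr rfl fun p _ => Finset.sum_congr rfl fun q _ => by ring

theorem nrm2_pos {u : P2} (h : u ≠ 0) : 0 < nrm2 u := by
  refine Real.sqrt_pos.2 ?_
  by_contra hn
  apply h
  have h1 : u.1 = 0 := by nlinarith [sq_nonneg u.1, sq_nonneg u.2]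
  have h2 : u.2 = 0 := by nlinarith [sq_nonneg u.1, sq_nonneg u.2]
  exact Prod.ext h1 h2

theorem nrm2_le (y : P3) : nrm2 y.1 ≤ nrm3 y :=
  Real.sqrt_le_sqrt (by nlinarith [sq_nonneg y.2])

theorem two_abs {H : P2 → P2 → ENNReal} {Z : ℝ → ENNReal} {K : P3 → P3 → ENNReal} {c d : ENNReal}
    (mH : Measurable fun w : P2 × P2 => H w.1 w.2) (mZ : Measurable Z) (hZ : ∫⁻ z, Z z ≤ d)
    (hK : ∀ y y' : P3, y'.1 ≠ y.1 → K y y' ≤ H y.1 y'.1 * (Z y.2 * Z y'.2))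
    (h : ∫⁻ x, ∫⁻ x', H x x' ≤ c) : ∫⁻ y, ∫⁻ y', K y y' ≤ c * (d * d) := by
  have h1 : ∀ y : P3, ∫⁻ y', K y y' ≤ (∫⁻ x', H y.1 x') * (Z y.2 * d) := by
    intro y
    have hae : ∀ᵐ y' : P3, y'.1 ≠ y.1 :=
      (Measure.quasiMeasurePreserving_fst (μ := (volume : Measure P2)) (ν := (volume : Measure ℝ))).ae
        (Measure.ae_ne _ y.1)
    have mH' : Measurable (H y.1) := mH.comp (measurable_const.prodMk measurable_id)
    calc _ ≤ ∫⁻ y' : P3, H y.1 y'.1 * (Z y.2 * Z y'.2) :=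
          lintegral_mono_ae (hae.mono fun y' hy => hK y y' hy)
      _ = (∫⁻ x', H y.1 x') * ∫⁻ z', Z y.2 * Z z' :=
          lintegral_prod_mul (μ := (volume : Measure P2)) (ν := (volume : Measure ℝ))
            (f := H y.1) (g := fun z' => Z y.2 * Z z') mH'.aemeasurable (mZ.const_mul _).aemeasurable
      _ ≤ _ := by
          rw [lintegral_const_mul _ mZ]
          gcongr
  refine (lintegral_mono h1).trans ?_
  have mI : Measurable fun x => ∫⁻ x', H x x' := mH.lintegral_prod_right'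
  calc _ = (∫⁻ x, ∫⁻ x', H x x') * ∫⁻ z, Z z * d :=
        lintegral_prod_mul (μ := (volume : Measure P2)) (ν := (volume : Measure ℝ))
          (f := fun x => ∫⁻ x', H x x') (g := fun z => Z z * d) mI.aemeasurable
          (mZ.mul_const _).aemeasurable
    _ ≤ c * (d * d) := by
        rw [lintegral_mul_const _ mZ]
        gcongr

theorem two_prod {V : Type} [Fintype V] {φ : V → P2 → ℝ} {g : ℝ → ℝ} (hφ : ∀ p, Continuous (φ p))
    (hg : L2 g) (hgm : Continuous g) (hg2 : ∫ z, g z ^ 2 ≤ 2) (β : V → V → ℝ) {c : ℝ}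
    (h : ∫⁻ x, ∫⁻ x', ENNReal.ofReal (lin2 φ β x x' ^ 2 / nrm2 (x - x')) ≤ ENNReal.ofReal c) :
    ∫⁻ y, ∫⁻ y', ENNReal.ofReal (lin2 (fun p (y : P3) => φ p y.1 * g y.2) β y y' ^ 2 / nrm3 (y - y')) ≤
      ENNReal.ofReal (4 * c) := by
  have mH : Measurable fun w : P2 × P2 => ENNReal.ofReal (lin2 φ β w.1 w.2 ^ 2 / nrm2 (w.1 - w.2)) := by
    have c1 : Continuous fun w : P2 × P2 => lin2 φ β w.1 w.2 := by
      unfold lin2
      fun_prop
    have c2 : Continuous fun w : P2 × P2 => nrm2 (w.1 - w.2) := by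
      unfold nrm2
      fun_prop
    exact ((c1.measurable.pow_const 2).div c2.measurable).ennreal_ofReal
  have mZ : Measurable fun z => ENNReal.ofReal (g z ^ 2) :=
    (hgm.measurable.pow_const 2).ennreal_ofReal
  have hZ : ∫⁻ z, ENNReal.ofReal (g z ^ 2) ≤ ENNReal.ofReal 2 := by
    rw [← ofReal_integral_eq_lintegral_ofReal hg.integrable_sq (ae_of_all _ fun z => sq_nonneg _)]
    exact ENNReal.ofReal_le_ofReal hg2
  refine (two_abs (H := fun x x' => ENNReal.ofReal (lin2 φ β x x' ^ 2 / nrm2 (x - x')))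
    (Z := fun z => ENNReal.ofReal (g z ^ 2))
    (K := fun y y' => ENNReal.ofReal
      (lin2 (fun p (y : P3) => φ p y.1 * g y.2) β y y' ^ 2 / nrm3 (y - y'))) mH mZ hZ ?_ h).trans
    (le_of_eq ?_)
  · intro y y' hy
    have hp : 0 < nrm2 (y.1 - y'.1) := nrm2_pos (sub_ne_zero.2 (Ne.symm hy))
    rw [← ENNReal.ofReal_mul (sq_nonneg _),
      ← ENNReal.ofReal_mul (div_nonneg (sq_nonneg _) hp.le), lin2_prod]
    refine ENNReal.ofReal_le_ofReal ?_
    calc _ ≤ (lin2 φ β y.1 y'.1 * (g y.2 * g y'.2)) ^ 2 / nrm2 (y.1 - y'.1) :=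
          div_le_div_of_nonneg_left (sq_nonneg _) hp (nrm2_le (y - y'))
      _ = _ := by ring
  · rw [← ENNReal.ofReal_mul (by norm_num), mul_comm, ← ENNReal.ofReal_mul (by norm_num)]
    norm_num

theorem F12_sub {S : P2 → ℝ} {ψ χ : P3 → ℝ} (hS : ContDiff ℝ 2 S) (hψ : Cc1 ψ) (hχ : Cc1 χ) :
    ∫ y, F12 S (fun y => ψ y - χ y) y ≤ 2 * (∫ y, F12 S ψ y) + 2 * ∫ y, F12 S χ y :=
  (HI.of (int_F12 hS (cc_sub hψ hχ))).le
    (((HI.of (int_F12 hS hψ)).cmul 2).add ((HI.of (int_F12 hS hχ)).cmul 2)) fun y => by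
      simp only [F12, d1, d2, fderiv_fun_sub (cc_diff hψ y) (cc_diff hχ y),
        _root_.sub_apply]
      nlinarith [sq_nonneg (fderiv ℝ ψ y ((1, 0), 0) + ψ y * dx S y.1 +
          (fderiv ℝ χ y ((1, 0), 0) + χ y * dx S y.1)),
        sq_nonneg (fderiv ℝ ψ y ((0, 1), 0) + ψ y * dy S y.1 +
          (fderiv ℝ χ y ((0, 1), 0) + χ y * dy S y.1))]

theorem F3_sub {sp : ℝ → ℝ} {ψ χ : P3 → ℝ} (hsp : Continuous sp) (hψ : Cc1 ψ) (hχ : Cc1 χ) :
    ∫ y, F3 sp (fun y => ψ y - χ y) y ≤ 2 * (∫ y, F3 sp ψ y) + 2 * ∫ y, F3 sp χ y :=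
  (HI.of (int_F3 hsp (cc_sub hψ hχ))).le
    (((HI.of (int_F3 hsp hψ)).cmul 2).add ((HI.of (int_F3 hsp hχ)).cmul 2)) fun y => by
      simp only [F3, d3, fderiv_fun_sub (cc_diff hψ y) (cc_diff hχ y),
        _root_.sub_apply]
      nlinarith [sq_nonneg (fderiv ℝ ψ y ((0, 0), 1) + sp y.2 * ψ y +
          (fderiv ℝ χ y ((0, 0), 1) + sp y.2 * χ y))]

theorem F12_le {S v : P2 → ℝ} (hv : ∀ p, 0 ≤ v p) (ψ : P3 → ℝ) :
    0 ≤ ∫ y, F12 S ψ y ∧ ∫ y, F12 S ψ y ≤ 2 * A3 S v ψ := by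
  have h1 : 0 ≤ ∫ y : P3, v y.1 * ψ y ^ 2 :=
    integral_nonneg fun y => mul_nonneg (hv _) (sq_nonneg _)
  refine ⟨integral_nonneg fun y => add_nonneg (sq_nonneg _) (sq_nonneg _), ?_⟩
  unfold A3
  linarith

theorem F3_le {sp lo : ℝ → ℝ} (hlo : ∀ z, 0 ≤ lo z) (ψ : P3 → ℝ) :
    0 ≤ ∫ y, F3 sp ψ y ∧ ∫ y, F3 sp ψ y ≤ 2 * B3 sp lo ψ := by
  have h1 : 0 ≤ ∫ y : P3, lo y.2 * ψ y ^ 2 :=
    integral_nonneg fun y => mul_nonneg (hlo _) (sq_nonneg _)
  refine ⟨integral_nonneg fun y => sq_nonneg _, ?_⟩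
  unfold B3
  linarith

end Crest.Agent.R338.Idl
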