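import Crest.Agent.R338.K4_Fin

/-! # Stage K: normal form of the target and of the effective Hamiltonian
Prefix helper lemmas with `k4e_`. -/

set_option autoImplicit false
set_option linter.dupNamespace false
set_option linter.unusedVariables false

noncomputable section

namespace Crest.Agent.R338

open Crest.Agent.Lib.PT Matrix

theorem nH_add (n : ℕ) (c c' : ℝ) (G G' : Fin n → Fin 3 → ℝ)
    (C C' : Fin n → Fin n → Fin 3 → Fin 3 → ℝ) :
    nH n c G C + nH n c' G' C' =
      nH n (c + c') (fun B x => G B x + G' B x) (fun B B' x y => C B B' x y + C' B B' x y) := by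
  unfold nH
  have e : ∀ B B' : Fin n, (if B < B' then ∑ x, ∑ y, (C B B' x y + C' B B' x y) •
      (loc B (nn x) * loc B' (nn y)) else 0) =
      (if B < B' then ∑ x, ∑ y, C B B' x y • (loc B (nn x) * loc B' (nn y)) else 0) +
      (if B < B' then ∑ x, ∑ y, C' B B' x y • (loc B (nn x) * loc B' (nn y)) else 0) := by
    intro B B'
    split_ifs
    · simp only [add_smul, Finset.sum_add_distrib]
    · simp
  simp only [e]
  simp only [add_smul, Finset.sum_add_distrib]
  abel

theorem nH_const (n : ℕ) (c : ℝ) :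
    nH n c (fun _ _ => 0) (fun _ _ _ _ => 0) = c • (1 : Matrix (Fin n → Bool) (Fin n → Bool) ℝ) := by
  simp [nH]

theorem k4e_uu_none (ρ : ℝ) (x : ℕ) : uu ρ none x = 0 := by simp [uu]

theorem k4e_loc_letter {n : ℕ} (B : Fin n) (b : Bool) :
    loc B (letter (some b)) = ∑ x : Fin 3, uu (Real.sqrt 3 / 3) (some b) x • loc B (nn x) := by
  rw [letter_eq, loc_sum]
  simp only [loc_smul]

theorem k4e_pair {n : ℕ} (a : ℝ) (B B' : Fin n) (b b' : Bool) :
    a • (loc B (letter (some b)) * loc B' (letter (some b'))) =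
      ∑ x : Fin 3, ∑ y : Fin 3, (a * uu (Real.sqrt 3 / 3) (some b) x *
        uu (Real.sqrt 3 / 3) (some b') y) • (loc B (nn x) * loc B' (nn y)) := by
  rw [k4e_loc_letter, k4e_loc_letter, Finset.sum_mul_sum]
  simp only [Finset.smul_sum, Matrix.smul_mul, Matrix.mul_smul, smul_smul]
  refine Finset.sum_congr rfl fun x _ => Finset.sum_congr rfl fun y _ => ?_
  congr 1
  ring

theorem k4e_two {n : ℕ} (a : ℝ) {p q : Fin n} (hpq : p < q) (b b' : Bool) (o : Fin n → Option Bool)
    (hp : o p = some b) (hq : o q = some b') (ho : ∀ B, B ≠ p → B ≠ q → o B = none) :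
    (∑ B : Fin n, ∑ B' : Fin n, if B < B' then ∑ x : Fin 3, ∑ y : Fin 3,
      (a * uu (Real.sqrt 3 / 3) (o B) x * uu (Real.sqrt 3 / 3) (o B') y) •
        (loc B (nn x) * loc B' (nn y)) else 0) =
      a • (loc p (letter (some b)) * loc q (letter (some b'))) := by
  rw [Finset.sum_eq_single p, Finset.sum_eq_single q, if_pos hpq, hp, hq, k4e_pair]
  · intro B' _ h
    split_ifs with h1
    · simp [ho B' (ne_of_gt h1) h, k4e_uu_none]
    · rfl
  · simp
  · intro B _ h
    refine Finset.sum_eq_zero fun B' _ => ?_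
    split_ifs with h1
    · by_cases h2 : B = q
      · subst h2
        simp [ho B' (ne_of_gt (hpq.trans h1)) (ne_of_gt h1), k4e_uu_none]
      · simp [ho B h h2, k4e_uu_none]
    · rfl
  · simp

/-- One term.  `w = []`: `wordMat_nil`, `uu _ none _ = 0`.  `w = [(q, b)]`: `wordMat_single`, `letter_eq`, `loc_sum`,
`loc_smul`; `lookup B = none` for `B ≠ q`, so the 2-local coefficients vanish for `B < B'`.
`w = [(q, b), (q', b')]`, `q ≠ q'`: `wordMat_cons`; only `(B, B') = (min q q', max q q')` contributes, `loc_comm` when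
`q' < q`. -/
theorem word_eq {n : ℕ} (c : ℚ) {w : Word} (hw : WordOK n 2 w) :
    (2 * (c : ℝ)) • wordMat n w =
      nH n (c0 [(c, w)] : ℚ) (fun B x => GG (Real.sqrt 3 / 3) [(c, w)] B x)
        (fun B B' x y => CC (Real.sqrt 3 / 3) [(c, w)] B B' x y) := by
  obtain ⟨hnd, hlt, hlen⟩ := hw
  unfold nH c0 GG CC
  simp only [List.map_cons, List.map_nil, List.sum_cons, List.sum_nil, add_zero]
  match w, hnd, hlt, hlen with
  | [], _, _, _ =>
    simp [wordMat_nil, k4e_uu_none]
  | [(q, b)], _, hlt, _ =>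
    have hq : q < n := hlt (q, b) List.mem_cons_self
    have hl : ∀ B : Fin n, B ≠ ⟨q, hq⟩ → List.lookup B.val [(q, b)] = none := fun B hB =>
      wd_lookup_none (by simpa using fun h => hB (Fin.ext h))
    have h2 : (∑ B : Fin n, ∑ B' : Fin n, if B < B' then ∑ x : Fin 3, ∑ y : Fin 3,
        (2 * (c : ℝ) * uu (Real.sqrt 3 / 3) (List.lookup B.val [(q, b)]) x *
          uu (Real.sqrt 3 / 3) (List.lookup B'.val [(q, b)]) y) •
          (loc B (nn x) * loc B' (nn y)) else 0) = 0 := by
      refine Finset.sum_eq_zero fun B _ => Finset.sum_eq_zero fun B' _ => ?_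
      split_ifs with h1
      · by_cases h2 : B = ⟨q, hq⟩
        · simp only [hl B' (h2 ▸ ne_of_gt h1), k4e_uu_none, mul_zero, zero_smul,
            Finset.sum_const_zero]
        · simp only [hl B h2, k4e_uu_none, mul_zero, zero_mul, zero_smul, Finset.sum_const_zero]
      · rfl
    rw [h2, wordMat_single hq, k4e_loc_letter, Finset.sum_eq_single (⟨q, hq⟩ : Fin n)]
    · simp [Finset.smul_sum, smul_smul]
    · intro B _ hB
      simp only [hl B hB, k4e_uu_none, mul_zero, ite_self, zero_smul, Finset.sum_const_zero]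
    · simp
  | [(q, b), (q', b')], hnd, hlt, _ =>
    have hq : q < n := hlt (q, b) List.mem_cons_self
    have hq' : q' < n := hlt (q', b') (by simp)
    have hne : q ≠ q' := by simpa using hnd
    have hl : ∀ B : Fin n, B ≠ ⟨q, hq⟩ → B ≠ ⟨q', hq'⟩ →
        List.lookup B.val [(q, b), (q', b')] = none := fun B hB hB' =>
      wd_lookup_none (by
        simp only [List.map_cons, List.map_nil, List.mem_cons, List.not_mem_nil, or_false, not_or]
        exact ⟨fun h => hB (Fin.ext h), fun h => hB' (Fin.ext h)⟩)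
    have hl1 : List.lookup q [(q, b), (q', b')] = some b := by simp
    have hl2 : List.lookup q' [(q, b), (q', b')] = some b' := by
      have : (q' == q) = false := by simpa using hne.symm
      simp [List.lookup_cons, this]
    rw [wordMat_cons hq b (by simpa using hne), wordMat_single hq']
    rcases lt_or_gt_of_ne hne with h | h
    · rw [k4e_two (2 * (c : ℝ)) (p := ⟨q, hq⟩) (q := ⟨q', hq'⟩) h b b'
        (fun B => List.lookup B.val [(q, b), (q', b')]) hl1 hl2 hl]
      simp
    · rw [k4e_two (2 * (c : ℝ)) (p := ⟨q', hq'⟩) (q := ⟨q, hq⟩) h b' b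
        (fun B => List.lookup B.val [(q, b), (q', b')]) hl2 hl1 fun B h1 h2 => hl B h2 h1,
        loc_comm (i := (⟨q, hq⟩ : Fin n)) (j := ⟨q', hq'⟩) fun e => hne (congrArg Fin.val e)]
      simp
  | _ :: _ :: _ :: _, _, _, hlen => simp at hlen

/-- induction on `ts` with `word_eq`, `nH_add` -/
theorem ham_eq {n : ℕ} {ts : List (ℚ × Word)} (h : ∀ t ∈ ts, WordOK n 2 t.2) :
    (2 : ℝ) • hamMat n ts =
      nH n (c0 ts : ℚ) (fun B x => GG (Real.sqrt 3 / 3) ts B x)
        (fun B B' x y => CC (Real.sqrt 3 / 3) ts B B' x y) := by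
  induction ts with
  | nil => simp [hamMat_nil, nH, c0, GG, CC]
  | cons t ts ih =>
    rw [hamMat_cons, smul_add, smul_smul, ih fun s hs => h s (List.mem_cons_of_mem _ hs),
      word_eq t.1 (h t List.mem_cons_self), nH_add]
    simp [c0, GG, CC]

/-- `∑ x, loc B (nn x) = 0` (`nn_sum`, `loc_sum`, `loc_zero`) -/
theorem nH_shift (n : ℕ) (c K : ℝ) (G : Fin n → Fin 3 → ℝ) (C : Fin n → Fin n → Fin 3 → Fin 3 → ℝ) :
    nH n c G C = nH n c G fun B B' x y => C B B' x y - K := by
  unfold nH
  congr 1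
  refine Finset.sum_congr rfl fun B _ => Finset.sum_congr rfl fun B' _ => ?_
  split_ifs
  · have h0 : ∑ x : Fin 3, ∑ y : Fin 3, K • (loc B (nn x) * loc B' (nn y)) = 0 := by
      simp only [← Finset.smul_sum]
      rw [← Finset.sum_mul_sum, ← loc_sum, nn_sum, loc_zero, Matrix.zero_mul, smul_zero]
    simp only [sub_smul, Finset.sum_sub_distrib, h0, sub_zero]
  · rfl

/-- Expand `loc B (1 + n) * loc B' (1 + n') = 1 + loc B n + loc B' n' + loc B n * loc B' n'`; split
`∑ B', if B' = B then 0 else f B' = ∑ B', (if B < B' then f B' else 0) + ∑ B', if B' < B then f B' else 0`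
and rename in the second sum (`Finset.sum_comm`, symmetry of `θ`). -/
theorem gEff_eq (n : ℕ) (G : Fin n → Fin 3 → ℝ) (θ : Fin n → Fin n → Fin 3 → Fin 3 → ℝ)
    (hθ : ∀ B B' x y, θ B B' x y = θ B' B y x) :
    gEff n (fun B x => G B x + ∑ B', if B' = B then 0 else ∑ y, θ B B' x y) θ =
      nH n (-∑ B, ∑ B', if B < B' then ∑ x, ∑ y, θ B B' x y else 0) G
        fun B B' x y => -θ B B' x y := by
  have e1 : ∀ B B' : Fin n, (if B < B' then ∑ x, ∑ y, θ B B' x y •
      (loc B (1 + nn x) * loc B' (1 + nn y)) else 0) =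
      (if B < B' then ∑ x, ∑ y, θ B B' x y else 0) • (1 : Matrix (Fin n → Bool) (Fin n → Bool) ℝ) +
      (if B < B' then ∑ x, ∑ y, θ B B' x y • loc B (nn x) else 0) +
      (if B < B' then ∑ x, ∑ y, θ B B' x y • loc B' (nn y) else 0) -
      (if B < B' then ∑ x, ∑ y, (-θ B B' x y) • (loc B (nn x) * loc B' (nn y)) else 0) := by
    intro B B'
    split_ifs
    · simp only [loc_add, loc_one, Matrix.add_mul, Matrix.mul_add, Matrix.one_mul, Matrix.mul_one,
        smul_add, Finset.sum_add_distrib, Finset.sum_smul, neg_smul, Finset.sum_neg_distrib]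
      abel
    · simp
  have e2 : ∑ B : Fin n, ∑ x : Fin 3, (∑ B', if B' = B then 0 else ∑ y, θ B B' x y) • loc B (nn x) =
      (∑ B : Fin n, ∑ B' : Fin n, if B < B' then ∑ x, ∑ y, θ B B' x y • loc B (nn x) else 0) +
      ∑ B : Fin n, ∑ B' : Fin n, if B < B' then ∑ x, ∑ y, θ B B' x y • loc B' (nn y) else 0 := by
    rw [Finset.sum_comm (f := fun B B' : Fin n =>
      if B < B' then ∑ x, ∑ y, θ B B' x y • loc B' (nn y) else 0), ← Finset.sum_add_distrib]
    refine Finset.sum_congr rfl fun B _ => ?_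
    simp only [Finset.sum_smul]
    rw [Finset.sum_comm, ← Finset.sum_add_distrib]
    refine Finset.sum_congr rfl fun B' _ => ?_
    rcases lt_trichotomy B B' with h | h | h
    · simp only [if_neg h.ne', if_pos h, if_neg (not_lt.2 h.le), add_zero, Finset.sum_smul]
    · subst h
      simp
    · simp only [if_neg h.ne, if_pos h, if_neg (not_lt.2 h.le), zero_add, Finset.sum_smul]
      rw [Finset.sum_comm]
      refine Finset.sum_congr rfl fun y _ => Finset.sum_congr rfl fun x _ => ?_
      rw [hθ]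
  unfold gEff nH
  simp only [e1, add_smul, Finset.sum_add_distrib, Finset.sum_sub_distrib, e2, neg_smul,
    ← Finset.sum_smul]
  abel

/-- `nn_opLe`, `OpLe.loc`, `OpLe.mul`, `OpLe.smul`, `OpLe.sum` -/
theorem nH_opLe (n : ℕ) {G : Fin n → Fin 3 → ℝ} {C : Fin n → Fin n → Fin 3 → Fin 3 → ℝ} {η η' : ℝ}
    (h0 : 0 ≤ η) (h0' : 0 ≤ η') (hG : ∀ B x, |G B x| ≤ η) (hC : ∀ B B' x y, |C B B' x y| ≤ η') :
    OpLe (nH n 0 G C) (3 * n * η + 9 * n ^ 2 * η') := by
  have h1 : OpLe (∑ B : Fin n, ∑ x, G B x • loc B (nn x)) (∑ B : Fin n, ∑ x : Fin 3, η) :=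
    OpLe.sum _ (fun B _ => OpLe.sum _ (fun x _ =>
      ((OpLe.loc B (nn_opLe x)).smul (G B x)).mono (by positivity)
        (by rw [mul_one]; exact hG B x)) fun _ _ => h0) fun _ _ => by positivity
  have h2 : OpLe (∑ B : Fin n, ∑ B' : Fin n, if B < B' then
      ∑ x, ∑ y, C B B' x y • (loc B (nn x) * loc B' (nn y)) else 0)
      (∑ B : Fin n, ∑ B' : Fin n, ∑ x : Fin 3, ∑ y : Fin 3, η') := by
    refine OpLe.sum _ (fun B _ => OpLe.sum _ (fun B' _ => ?_) fun _ _ => by positivity)
      fun _ _ => by positivity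
    split_ifs
    · exact OpLe.sum _ (fun x _ => OpLe.sum _ (fun y _ =>
        (((OpLe.loc B (nn_opLe x)).mul (OpLe.loc B' (nn_opLe y))).smul (C B B' x y)).mono
          (by positivity) (by rw [mul_one, mul_one]; exact hC B B' x y)) fun _ _ => h0')
        fun _ _ => by positivity
    · exact OpLe.zero _
  have h3 := h1.add h2 (by positivity) (by positivity)
  unfold nH
  rw [zero_smul, zero_add]
  convert h3 using 1
  simp only [Finset.sum_const, Finset.card_univ, Fintype.card_fin, nsmul_eq_mul]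
  push_cast
  ring

theorem nH_diff (n : ℕ) (c : ℝ) {G G' : Fin n → Fin 3 → ℝ}
    {C C' : Fin n → Fin n → Fin 3 → Fin 3 → ℝ} {η η' : ℝ} (h0 : 0 ≤ η) (h0' : 0 ≤ η')
    (hG : ∀ B x, |G B x - G' B x| ≤ η) (hC : ∀ B B' x y, |C B B' x y - C' B B' x y| ≤ η') :
    OpLe (nH n c G C - nH n c G' C') (3 * n * η + 9 * n ^ 2 * η') := by
  have e : nH n c G C = nH n c G' C' +
      nH n 0 (fun B x => G B x - G' B x) (fun B B' x y => C B B' x y - C' B B' x y) := by
    rw [nH_add]
    simp
  rw [e, add_sub_cancel_left]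
  exact nH_opLe n h0 h0' hG hC

end Crest.Agent.R338
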