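import Crest.Agent.R338.K4_Defs

/-! # Stage K: the reduction is polynomial time -/

set_option autoImplicit false
set_option linter.dupNamespace false
set_option linter.unusedVariables false

noncomputable section

namespace Crest.Agent.R338

open Crest.Agent.Lib.PT Matrix

section
variable {α : Type} [Enc α]

@[fun_prop] theorem k4q_bsq {R : α → ℕ} {y : α → ℚ} (hR : PT R) (hb : PB R) (hy : PT y) :
    PT fun a => bsq (R a) (y a) := by
  unfold bsq; fun_prop

@[fun_prop] theorem k4q_kl {x y : α → ℕ} (hx : PT x) (hy : PT y) : PT fun a => kl (x a) (y a) := by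
  unfold kl; fun_prop

@[fun_prop] theorem k4q_uu {ρ : α → ℚ} {o : α → Option Bool} {x : α → ℕ} (hρ : PT ρ) (ho : PT o)
    (hx : PT x) : PT fun a => uu (ρ a) (o a) (x a) := by
  unfold uu; fun_prop

@[fun_prop] theorem k4q_CC {ρ : α → ℚ} {ts : α → List (ℚ × Word)} {p q x y : α → ℕ} (hρ : PT ρ)
    (ht : PT ts) (hp : PT p) (hq : PT q) (hx : PT x) (hy : PT y) :
    PT fun a => CC (ρ a) (ts a) (p a) (q a) (x a) (y a) := by
  simp only [CC, Rat.cast_id]; fun_prop

@[fun_prop] theorem k4q_GG {ρ : α → ℚ} {ts : α → List (ℚ × Word)} {p x : α → ℕ} (hρ : PT ρ)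
    (ht : PT ts) (hp : PT p) (hx : PT x) : PT fun a => GG (ρ a) (ts a) (p a) (x a) := by
  simp only [GG, Rat.cast_id]; fun_prop

@[fun_prop] theorem k4q_c0 {ts : α → List (ℚ × Word)} (ht : PT ts) : PT fun a => c0 (ts a) := by
  unfold c0; fun_prop

@[fun_prop] theorem k4q_r {B : α → ℕ} (hB : PT B) : PT fun a => k4r (B a) := by
  unfold k4r; fun_prop

@[fun_prop] theorem k4q_rb {B : α → ℕ} (hB : PB B) : PB fun a => k4r (B a) := by
  unfold k4r; fun_prop

@[fun_prop] theorem k4q_rho {B : α → ℕ} (hB : PT B) (hb : PB B) : PT fun a => k4rho (B a) := by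
  unfold k4rho; fun_prop

@[fun_prop] theorem k4q_beta {B : α → ℕ} {ts : α → List (ℚ × Word)} {p q x y : α → ℕ} (hB : PT B)
    (hb : PB B) (ht : PT ts) (hp : PT p) (hq : PT q) (hx : PT x) (hy : PT y) :
    PT fun a => k4beta (B a) (ts a) (p a) (q a) (x a) (y a) := by
  unfold k4beta; fun_prop

@[fun_prop] theorem k4q_theta {B : α → ℕ} {ts : α → List (ℚ × Word)} {p q x y : α → ℕ} (hB : PT B)
    (hb : PB B) (ht : PT ts) (hp : PT p) (hq : PT q) (hx : PT x) (hy : PT y) :
    PT fun a => k4theta (B a) (ts a) (p a) (q a) (x a) (y a) := by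
  unfold k4theta; fun_prop

@[fun_prop] theorem k4q_gamma {B n : α → ℕ} {ts : α → List (ℚ × Word)} {p x : α → ℕ} (hB : PT B)
    (hb : PB B) (hn : PT n) (hnb : PB n) (ht : PT ts) (hp : PT p) (hx : PT x) :
    PT fun a => k4gamma (B a) (n a) (ts a) (p a) (x a) := by
  unfold k4gamma; fun_prop

@[fun_prop] theorem k4q_alpha {B : α → ℕ} {ts : α → List (ℚ × Word)} {p q x y : α → ℕ} (hB : PT B)
    (hb : PB B) (ht : PT ts) (hp : PT p) (hq : PT q) (hx : PT x) (hy : PT y) :
    PT fun a => k4alpha (B a) (ts a) (p a) (q a) (x a) (y a) := by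
  unfold k4alpha; fun_prop

@[fun_prop] theorem k4q_J {B n : α → ℕ} {ts : α → List (ℚ × Word)} {i j : α → ℕ} (hB : PT B)
    (hb : PB B) (hn : PT n) (hnb : PB n) (ht : PT ts) (hi : PT i) (hj : PT j) :
    PT fun a => k4J (B a) (n a) (ts a) (i a) (j a) := by
  unfold k4J; fun_prop

@[fun_prop] theorem k4q_Th {B n : α → ℕ} {ts : α → List (ℚ × Word)} (hB : PT B)
    (hb : PB B) (hn : PT n) (hnb : PB n) (ht : PT ts) : PT fun a => k4Th (B a) (n a) (ts a) := by
  unfold k4Th; fun_prop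

@[fun_prop] theorem k4q_Om {B n : α → ℕ} (hB : PT B) (hn : PT n) (hnb : PB n) :
    PT fun a => k4Om (B a) (n a) := by
  unfold k4Om; fun_prop

@[fun_prop] theorem k4q_tab {B n : α → ℕ} {ts : α → List (ℚ × Word)} (hB : PT B)
    (hb : PB B) (hn : PT n) (hnb : PB n) (ht : PT ts) : PT fun a => k4tab (B a) (n a) (ts a) := by
  unfold k4tab; fun_prop

end

theorem k4map_pt : PT k4map := by
  have hb : PB fun x : PHI => x.1.n := by fun_prop
  have hn : PB fun x : PHI => min x.2.1 x.1.n := PB.min_right _ hb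
  unfold k4map
  fun_prop

end Crest.Agent.R338
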