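import Crest.Agent.R338.K4_Fin

/-! # Stage K: the numbers of the reduction

`r = k4r B = 10⁹ B⁹`.  Standing hypotheses: `1 ≤ B`, at most `B` terms, coefficients bounded by `B`.
Prefix helper lemmas with `k4p_`. -/

set_option autoImplicit false
set_option linter.dupNamespace false
set_option linter.unusedVariables false

noncomputable section

namespace Crest.Agent.R338

open Crest.Agent.Lib.PT Matrix

theorem k4p_bsq (R : ℕ) (y : ℚ) :
    bsq R y ≤ R ∧ (0 ≤ y → (bsq R y : ℚ) ^ 2 ≤ y) ∧ (bsq R y = R ∨ y < ((bsq R y : ℚ) + 1) ^ 2) := by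
  induction R with
  | zero => simp [bsq]
  | succ R ih =>
    obtain ⟨h1, h2, h3⟩ := ih
    have e : bsq (R + 1) y = bsq R y + if ((R : ℚ) + 1) ^ 2 ≤ y then 1 else 0 := by
      simp only [bsq, List.range_succ, List.countP_append, List.countP_singleton, decide_eq_true_eq]
    by_cases h : ((R : ℚ) + 1) ^ 2 ≤ y
    · have h4 : bsq R y = R := by
        refine h3.resolve_right fun h5 => ?_
        have h6 : (bsq R y : ℚ) ≤ R := by exact_mod_cast h1
        have h7 : ((bsq R y : ℚ) + 1) ^ 2 ≤ ((R : ℚ) + 1) ^ 2 := by gcongr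
        linarith
      rw [e, if_pos h, h4]
      exact ⟨le_rfl, fun _ => by push_cast; exact h, Or.inl rfl⟩
    · rw [e, if_neg h, add_zero]
      refine ⟨by omega, h2, Or.inr ?_⟩
      rcases h3 with h3 | h3
      · rw [h3]
        exact not_le.1 h
      · exact h3

theorem k4p_sum_sub {K : Type} [Field K] [LinearOrder K] [IsStrictOrderedRing K] {α : Type} (l : List α)
    (f g : α → K) (c : K) (h : ∀ t ∈ l, |f t - g t| ≤ c) :
    |(l.map f).sum - (l.map g).sum| ≤ l.length * c := by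
  induction l with
  | nil => simp
  | cons a l ih =>
    have h1 := h a List.mem_cons_self
    have h2 := ih fun t ht => h t (List.mem_cons_of_mem _ ht)
    simp only [List.map_cons, List.sum_cons, List.length_cons]
    push_cast
    rw [abs_le] at h1 h2 ⊢
    constructor <;> linarith [h1.1, h1.2, h2.1, h2.2]

theorem k4p_sum_abs {K : Type} [Field K] [LinearOrder K] [IsStrictOrderedRing K] {α : Type} (l : List α)
    (f : α → K) (c : K) (h : ∀ t ∈ l, |f t| ≤ c) : |(l.map f).sum| ≤ l.length * c := by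
  simpa using k4p_sum_sub l f (fun _ => 0) c (by simpa using h)

theorem k4p_uu_abs {K : Type} [Field K] [LinearOrder K] [IsStrictOrderedRing K] {ρ : K} (h : |ρ| ≤ 1)
    (o : Option Bool) (x : ℕ) : |uu ρ o x| ≤ 1 := by
  unfold uu
  split_ifs <;> simp [h]

theorem k4p_uu_sub {K : Type} [Field K] [LinearOrder K] [IsStrictOrderedRing K] (ρ ρ' : K)
    (o : Option Bool) (x : ℕ) : |uu ρ o x - uu ρ' o x| ≤ |ρ - ρ'| := by
  unfold uu
  split_ifs
  all_goals first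
    | exact le_rfl
    | (rw [sub_self, abs_zero]; exact abs_nonneg _)
    | (rw [neg_sub_neg, abs_sub_comm])

theorem k4p_r_pos {B : ℕ} (hB : 1 ≤ B) : 1 ≤ k4r B := by
  unfold k4r
  exact Nat.one_le_iff_ne_zero.2 (by positivity)

theorem k4p_r_ge {B : ℕ} (hB : 1 ≤ B) {k : ℕ} (hk : k ≤ 9) : 10 ^ 9 * (B : ℚ) ^ k ≤ k4r B := by
  unfold k4r
  push_cast
  have : (B : ℚ) ^ k ≤ (B : ℚ) ^ 9 := pow_le_pow_right₀ (by exact_mod_cast hB) hk
  linarith

/-- Induction on `R` (`List.range_succ`, `List.countP_append`) for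
`bsq R y ≤ R ∧ (0 ≤ y → (bsq R y)² ≤ y) ∧ (bsq R y = R ∨ y < (bsq R y + 1)²)`. -/
theorem bsq_spec (R : ℕ) (y : ℚ) :
    bsq R y ≤ R ∧ (0 ≤ y → (bsq R y : ℚ) ^ 2 ≤ y) ∧
      (y < ((R : ℚ) + 1) ^ 2 → y < ((bsq R y : ℚ) + 1) ^ 2) := by
  obtain ⟨h1, h2, h3⟩ := k4p_bsq R y
  refine ⟨h1, h2, fun h => ?_⟩
  rcases h3 with h3 | h3
  · rw [h3]
    exact h
  · exact h3

theorem uu_cast (ρ : ℚ) (o : Option Bool) (x : ℕ) : ((uu ρ o x : ℚ) : ℝ) = uu (ρ : ℝ) o x := by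
  unfold uu
  split_ifs <;> simp

theorem CC_cast (ρ : ℚ) (ts : List (ℚ × Word)) (p q x y : ℕ) :
    ((CC ρ ts p q x y : ℚ) : ℝ) = CC (ρ : ℝ) ts p q x y := by
  unfold CC
  induction ts with
  | nil => simp
  | cons t ts ih =>
    simp only [List.map_cons, List.sum_cons]
    rw [Rat.cast_add, ih]
    simp [uu_cast]

theorem GG_cast (ρ : ℚ) (ts : List (ℚ × Word)) (p x : ℕ) :
    ((GG ρ ts p x : ℚ) : ℝ) = GG (ρ : ℝ) ts p x := by
  unfold GG
  induction ts with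
  | nil => simp
  | cons t ts ih =>
    simp only [List.map_cons, List.sum_cons]
    rw [Rat.cast_add, ih]
    split_ifs <;> simp [uu_cast]

theorem k4beta_symm (B : ℕ) (ts : List (ℚ × Word)) (p q x y : ℕ) :
    k4beta B ts p q x y = k4beta B ts q p y x := by
  have h : CC (k4rho B) ts p q x y = CC (k4rho B) ts q p y x := by
    unfold CC
    congr 1
    exact List.map_congr_left fun t _ => by ring
  unfold k4beta
  rw [h]

theorem k4theta_symm (B : ℕ) (ts : List (ℚ × Word)) (p q x y : ℕ) :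
    k4theta B ts p q x y = k4theta B ts q p y x := by
  unfold k4theta
  rw [k4beta_symm]

/-- `q = bsq (2r) (3r²)` has `q² ≤ 3 r² < (q+1)²`, so `q ≤ √3 r < q + 1`. -/
theorem k4rho_approx {B : ℕ} (hB : 1 ≤ B) :
    |((k4rho B : ℚ) : ℝ) - Real.sqrt 3 / 3| ≤ 1 / (3 * k4r B) ∧ |k4rho B| ≤ 1 := by
  have hr : (1 : ℚ) ≤ k4r B := by exact_mod_cast k4p_r_pos hB
  obtain ⟨h1, h2, h3⟩ := bsq_spec (2 * k4r B) (3 * (k4r B : ℚ) ^ 2)
  have h2 := h2 (by positivity)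
  have h3 := h3 (by push_cast; nlinarith)
  unfold k4rho
  generalize bsq (2 * k4r B) (3 * (k4r B : ℚ) ^ 2) = q at h1 h2 h3
  generalize k4r B = r at hr h1 h2 h3
  constructor
  · have hr' : (1 : ℝ) ≤ r := by exact_mod_cast hr
    have h2' : (q : ℝ) ^ 2 ≤ 3 * (r : ℝ) ^ 2 := by exact_mod_cast h2
    have h3' : 3 * (r : ℝ) ^ 2 < ((q : ℝ) + 1) ^ 2 := by exact_mod_cast h3
    have e : (Real.sqrt 3 * r) ^ 2 = 3 * (r : ℝ) ^ 2 := by
      rw [mul_pow, Real.sq_sqrt (by norm_num)]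
    have h4 : (q : ℝ) ≤ Real.sqrt 3 * r :=
      le_of_sq_le_sq (by rw [e]; exact h2') (by positivity)
    have h5 : Real.sqrt 3 * r ≤ (q : ℝ) + 1 :=
      le_of_sq_le_sq (by rw [e]; exact h3'.le) (by positivity)
    push_cast
    have e2 : (q : ℝ) / (3 * r) - Real.sqrt 3 / 3 = ((q : ℝ) - Real.sqrt 3 * r) / (3 * r) := by
      field_simp
    rw [e2, abs_div, abs_of_pos (by positivity : (0 : ℝ) < 3 * r)]
    refine div_le_div_of_nonneg_right ?_ (by positivity)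
    rw [abs_le]
    constructor <;> linarith
  · have h1' : (q : ℚ) ≤ 2 * r := by exact_mod_cast h1
    rw [abs_of_nonneg (by positivity), div_le_one (by positivity)]
    linarith

variable {B : ℕ} {ts : List (ℚ × Word)}

theorem c0_abs (hB : 1 ≤ B) (hl : ts.length ≤ B) (hc : ∀ t ∈ ts, |t.1| ≤ B) :
    |c0 ts| ≤ 2 * (B : ℚ) ^ 2 := by
  have hB' : (1 : ℚ) ≤ B := by exact_mod_cast hB
  have hl' : (ts.length : ℚ) ≤ B := by exact_mod_cast hl
  refine (k4p_sum_abs ts _ (2 * (B : ℚ)) fun t ht => ?_).trans (by nlinarith)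
  split_ifs
  · rw [abs_mul, abs_two]
    linarith [hc t ht]
  · rw [abs_zero]
    positivity

/-- `|uu ρ o x - uu ρ' o x| ≤ |ρ - ρ'|` -/
theorem GG_approx (hB : 1 ≤ B) (hl : ts.length ≤ B) (hc : ∀ t ∈ ts, |t.1| ≤ B) (p x : ℕ) :
    |((GG (k4rho B) ts p x : ℚ) : ℝ) - GG (Real.sqrt 3 / 3) ts p x| ≤ (B : ℝ) ^ 2 / k4r B := by
  have hB' : (1 : ℝ) ≤ B := by exact_mod_cast hB
  have hl' : (ts.length : ℝ) ≤ B := by exact_mod_cast hl
  have hr : (1 : ℝ) ≤ k4r B := by exact_mod_cast k4p_r_pos hB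
  have h1 := (k4rho_approx hB).1
  rw [GG_cast]
  refine (k4p_sum_sub ts _ _ (2 * (B : ℝ) * (1 / (3 * k4r B))) fun t ht => ?_).trans ?_
  · split_ifs
    · have h2 : |(t.1 : ℝ)| ≤ B := by exact_mod_cast hc t ht
      rw [← mul_sub, abs_mul, abs_mul, abs_two]
      exact mul_le_mul (by linarith) ((k4p_uu_sub _ _ _ _).trans h1) (abs_nonneg _) (by positivity)
    · rw [sub_self, abs_zero]
      positivity
  · calc (ts.length : ℝ) * (2 * B * (1 / (3 * k4r B))) ≤ B * (2 * B * (1 / (3 * k4r B))) := by gcongr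
      _ = 2 / 3 * ((B : ℝ) ^ 2 / k4r B) := by field_simp
      _ ≤ _ := mul_le_of_le_one_left (by positivity) (by norm_num)

theorem k4p_CC_abs (hB : 1 ≤ B) (hl : ts.length ≤ B) (hc : ∀ t ∈ ts, |t.1| ≤ B) (p q x y : ℕ) :
    |CC (k4rho B) ts p q x y| ≤ 2 * (B : ℚ) ^ 2 := by
  have hB' : (1 : ℚ) ≤ B := by exact_mod_cast hB
  have hl' : (ts.length : ℚ) ≤ B := by exact_mod_cast hl
  have h1 := (k4rho_approx hB).2
  refine (k4p_sum_abs ts _ (2 * (B : ℚ)) fun t ht => ?_).trans (by nlinarith)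
  rw [abs_mul, abs_mul, abs_mul, abs_two, Rat.cast_id]
  calc 2 * |t.1| * |uu (k4rho B) (List.lookup p t.2) x| * |uu (k4rho B) (List.lookup q t.2) y|
      ≤ 2 * B * 1 * 1 := by
        gcongr
        · exact hc t ht
        · exact k4p_uu_abs h1 _ _
        · exact k4p_uu_abs h1 _ _
    _ = 2 * B := by ring

theorem k4p_CC_sub (hB : 1 ≤ B) (hl : ts.length ≤ B) (hc : ∀ t ∈ ts, |t.1| ≤ B) (p q x y : ℕ) :
    |((CC (k4rho B) ts p q x y : ℚ) : ℝ) - CC (Real.sqrt 3 / 3) ts p q x y| ≤ 2 * (B : ℝ) ^ 2 / k4r B := by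
  have hB' : (1 : ℝ) ≤ B := by exact_mod_cast hB
  have hl' : (ts.length : ℝ) ≤ B := by exact_mod_cast hl
  have hr : (1 : ℝ) ≤ k4r B := by exact_mod_cast k4p_r_pos hB
  have h1 := (k4rho_approx hB).1
  have h3 : |((k4rho B : ℚ) : ℝ)| ≤ 1 := by exact_mod_cast (k4rho_approx hB).2
  have h4 : |Real.sqrt 3 / 3| ≤ 1 := by
    rw [abs_of_nonneg (by positivity), div_le_one (by norm_num)]
    exact Real.sqrt_le_iff.2 ⟨by norm_num, by norm_num⟩
  rw [CC_cast]
  refine (k4p_sum_sub ts _ _ (2 * (B : ℝ) * (2 * (1 / (3 * k4r B)))) fun t ht => ?_).trans ?_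
  · have h2 : |(t.1 : ℝ)| ≤ B := by exact_mod_cast hc t ht
    have a1 := (k4p_uu_sub _ _ (List.lookup p t.2) x).trans h1
    have a2 := (k4p_uu_sub _ _ (List.lookup q t.2) y).trans h1
    have a3 := k4p_uu_abs h3 (List.lookup q t.2) y
    have a4 := k4p_uu_abs h4 (List.lookup p t.2) x
    generalize uu ((k4rho B : ℚ) : ℝ) (List.lookup p t.2) x = u1 at *
    generalize uu ((k4rho B : ℚ) : ℝ) (List.lookup q t.2) y = u2 at *
    generalize uu (Real.sqrt 3 / 3) (List.lookup p t.2) x = v1 at *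
    generalize uu (Real.sqrt 3 / 3) (List.lookup q t.2) y = v2 at *
    have e : 2 * (t.1 : ℝ) * u1 * u2 - 2 * (t.1 : ℝ) * v1 * v2 =
        2 * (t.1 : ℝ) * ((u1 - v1) * u2 + v1 * (u2 - v2)) := by ring
    rw [e, abs_mul, abs_mul, abs_two]
    refine mul_le_mul (by linarith) ((abs_add_le _ _).trans ?_) (abs_nonneg _) (by positivity)
    rw [abs_mul, abs_mul]
    have b1 := mul_le_of_le_one_right (abs_nonneg (u1 - v1)) a3
    have b2 := mul_le_of_le_one_left (abs_nonneg (u2 - v2)) a4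
    linarith
  · calc (ts.length : ℝ) * (2 * B * (2 * (1 / (3 * k4r B)))) ≤ B * (2 * B * (2 * (1 / (3 * k4r B)))) := by
          gcongr
      _ = 2 / 3 * (2 * (B : ℝ) ^ 2 / k4r B) := by field_simp
      _ ≤ _ := mul_le_of_le_one_left (by positivity) (by norm_num)

theorem k4p_beta_le (p q x y : ℕ) : (k4beta B ts p q x y : ℚ) ≤ 4 * B * k4r B := by
  exact_mod_cast (bsq_spec (4 * B * k4r B) _).1

theorem k4p_theta (hB : 1 ≤ B) (hl : ts.length ≤ B) (hc : ∀ t ∈ ts, |t.1| ≤ B) (p q x y : ℕ) :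
    |2 * (B : ℚ) ^ 2 - CC (k4rho B) ts p q x y - k4theta B ts p q x y| ≤ 3 * (B : ℚ) ^ 2 / k4r B := by
  have hB' : (1 : ℚ) ≤ B := by exact_mod_cast hB
  have hr : (1 : ℚ) ≤ k4r B := by exact_mod_cast k4p_r_pos hB
  have h0 := abs_le.1 (k4p_CC_abs hB hl hc p q x y)
  have h1 := k4p_beta_le (B := B) (ts := ts) p q x y
  obtain ⟨-, h2, h3⟩ := bsq_spec (4 * B * k4r B)
    (3 * (k4r B : ℚ) ^ 2 * (2 * (B : ℚ) ^ 2 - CC (k4rho B) ts p q x y))
  unfold k4theta
  change _ → (k4beta B ts p q x y : ℚ) ^ 2 ≤ _ at h2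
  change _ → _ < ((k4beta B ts p q x y : ℚ) + 1) ^ 2 at h3
  have hβ : (0 : ℚ) ≤ k4beta B ts p q x y := by positivity
  generalize (k4beta B ts p q x y : ℚ) = β at h1 h2 h3 hβ
  generalize CC (k4rho B) ts p q x y = C at h0 h2 h3
  push_cast at h3
  generalize (k4r B : ℚ) = r at hr h1 h2 h3
  generalize (B : ℚ) = b at *
  have hbr : 1 ≤ b * r := by nlinarith
  have h2 := h2 (mul_nonneg (by positivity) (by linarith))
  have h3 := h3 (by
    have : 3 * r ^ 2 * (2 * b ^ 2 - C) ≤ 3 * r ^ 2 * (4 * b ^ 2) :=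
      mul_le_mul_of_nonneg_left (by linarith) (by positivity)
    nlinarith)
  have e : 2 * b ^ 2 - C - β ^ 2 / (3 * r ^ 2) = (3 * r ^ 2 * (2 * b ^ 2 - C) - β ^ 2) / (3 * r ^ 2) := by
    field_simp
  have e2 : 3 * b ^ 2 / r = 9 * b ^ 2 * r / (3 * r ^ 2) := by
    field_simp
    ring
  rw [e, e2, abs_div, abs_of_pos (by positivity : 0 < 3 * r ^ 2), abs_of_nonneg (by linarith)]
  refine div_le_div_of_nonneg_right ?_ (by positivity)
  have : b * r ≤ b ^ 2 * r := by nlinarith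
  nlinarith

/-- `|CC ρ| ≤ 2B²` for `|ρ| ≤ 1`, so `y = 3r²(2B² - CC ρ) ∈ [0, 12 B² r²]`; with `β = bsq (4Br) y`,
`0 ≤ y - β² < 2β + 1 ≤ 9 B r`, i.e. `|2B² - CC ρ - θ| ≤ 3B/r`; and `|CC ρ - CC ρ'| ≤ 4 B² |ρ - ρ'|`. -/
theorem theta_approx (hB : 1 ≤ B) (hl : ts.length ≤ B) (hc : ∀ t ∈ ts, |t.1| ≤ B) (p q x y : ℕ) :
    |-((k4theta B ts p q x y : ℚ) : ℝ) - (CC (Real.sqrt 3 / 3) ts p q x y - 2 * (B : ℝ) ^ 2)| ≤
      5 * (B : ℝ) ^ 2 / k4r B := by
  have h1 := k4p_CC_sub hB hl hc p q x y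
  have h2 : |2 * (B : ℝ) ^ 2 - (CC (k4rho B) ts p q x y : ℚ) - (k4theta B ts p q x y : ℚ)| ≤
      3 * (B : ℝ) ^ 2 / k4r B := by
    have := (Rat.cast_le (K := ℝ)).2 (k4p_theta hB hl hc p q x y)
    push_cast at this
    exact this
  have e : 5 * (B : ℝ) ^ 2 / k4r B = 2 * (B : ℝ) ^ 2 / k4r B + 3 * (B : ℝ) ^ 2 / k4r B := by ring
  rw [abs_le] at h1 h2 ⊢
  constructor <;> linarith [h1.1, h1.2, h2.1, h2.2]

/-- `β ≤ 4 B r` -/
theorem theta_bd (hB : 1 ≤ B) (p q x y : ℕ) :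
    0 ≤ k4theta B ts p q x y ∧ k4theta B ts p q x y ≤ 6 * (B : ℚ) ^ 2 := by
  have hr : (1 : ℚ) ≤ k4r B := by exact_mod_cast k4p_r_pos hB
  have h1 := k4p_beta_le (B := B) (ts := ts) p q x y
  unfold k4theta
  refine ⟨by positivity, ?_⟩
  rw [div_le_iff₀ (by positivity)]
  calc (k4beta B ts p q x y : ℚ) ^ 2 ≤ (4 * B * k4r B) ^ 2 := by gcongr
    _ = 16 * ((B : ℚ) ^ 2 * (k4r B : ℚ) ^ 2) := by ring
    _ ≤ 18 * ((B : ℚ) ^ 2 * (k4r B : ℚ) ^ 2) := by gcongr; norm_num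
    _ = _ := by ring

theorem k4p_range {n : ℕ} {f : ℕ → ℚ} {c : ℚ} (h : ∀ i, |f i| ≤ c) :
    |∑ i ∈ Finset.range n, f i| ≤ n * c := by
  refine (Finset.abs_sum_le_sum_abs _ _).trans ?_
  simpa using Finset.sum_le_card_nsmul (Finset.range n) (fun i => |f i|) c fun i _ => h i

theorem k4p_theta_abs (hB : 1 ≤ B) (p q x y : ℕ) : |k4theta B ts p q x y| ≤ 6 * (B : ℚ) ^ 2 := by
  rw [abs_of_nonneg (theta_bd hB p q x y).1]
  exact (theta_bd hB p q x y).2

theorem gamma_abs (hB : 1 ≤ B) (hl : ts.length ≤ B) (hc : ∀ t ∈ ts, |t.1| ≤ B) {n : ℕ} (hn : n ≤ B)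
    (p x : ℕ) : |k4gamma B n ts p x| ≤ 20 * (B : ℚ) ^ 3 := by
  have hB' : (1 : ℚ) ≤ B := by exact_mod_cast hB
  have hl' : (ts.length : ℚ) ≤ B := by exact_mod_cast hl
  have hn' : (n : ℚ) ≤ B := by exact_mod_cast hn
  have h1 : |GG (k4rho B) ts p x| ≤ ts.length * (2 * B) := by
    refine k4p_sum_abs ts _ _ fun t ht => ?_
    split_ifs
    · rw [abs_mul, abs_mul, abs_two, Rat.cast_id]
      calc 2 * |t.1| * |uu (k4rho B) (List.lookup p t.2) x| ≤ 2 * B * 1 := by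
            gcongr
            · exact hc t ht
            · exact k4p_uu_abs (k4rho_approx hB).2 _ _
        _ = 2 * B := by ring
    · rw [abs_zero]
      positivity
  have h2 : |∑ q ∈ Finset.range n, if q = p then 0 else ∑ y ∈ Finset.range 3, k4theta B ts p q x y| ≤
      n * ((3 : ℕ) * (6 * (B : ℚ) ^ 2)) := by
    refine k4p_range fun q => ?_
    split_ifs
    · rw [abs_zero]
      positivity
    · exact k4p_range fun y => k4p_theta_abs hB p q x y
  have h3 : (n : ℚ) * ((3 : ℕ) * (6 * (B : ℚ) ^ 2)) ≤ B * ((3 : ℕ) * (6 * (B : ℚ) ^ 2)) := by gcongr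
  have h4 : (ts.length : ℚ) * (2 * B) ≤ B * (2 * B) := by gcongr
  have h5 : (B : ℚ) ^ 2 ≤ (B : ℚ) ^ 3 := pow_le_pow_right₀ hB' (by norm_num)
  push_cast at h2 h3
  unfold k4gamma
  refine (abs_add_le _ _).trans ?_
  nlinarith

/-- `kl_abs`, `β ≤ 4 B r` -/
theorem alpha_bd (p q a b : ℕ) :
    0 ≤ k4alpha B ts p q a b ∧ k4alpha B ts p q a b ≤ 18 * (B : ℚ) * k4r B := by
  have h : |∑ x ∈ Finset.range 3, ∑ y ∈ Finset.range 3, (k4beta B ts p q x y : ℚ) * kl x a * kl y b| ≤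
      (3 : ℕ) * ((3 : ℕ) * ((B : ℚ) * k4r B)) := by
    refine k4p_range fun x => k4p_range fun y => ?_
    rw [abs_mul, abs_mul, kl_abs, kl_abs, abs_of_nonneg (by positivity)]
    linarith [k4p_beta_le (B := B) (ts := ts) p q x y]
  push_cast at h
  rw [abs_le] at h
  unfold k4alpha
  constructor <;> linarith [h.1, h.2]

theorem Th_bd (hB : 1 ≤ B) {n : ℕ} (hn : n ≤ B) :
    0 ≤ k4Th B n ts ∧ k4Th B n ts ≤ 54 * (B : ℚ) ^ 4 := by
  have hn' : (n : ℚ) ≤ B := by exact_mod_cast hn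
  constructor
  · refine Finset.sum_nonneg fun p _ => Finset.sum_nonneg fun q _ => ?_
    split_ifs
    · exact Finset.sum_nonneg fun x _ => Finset.sum_nonneg fun y _ => (theta_bd hB p q x y).1
    · exact le_rfl
  · have h : |k4Th B n ts| ≤ n * (n * ((3 : ℕ) * ((3 : ℕ) * (6 * (B : ℚ) ^ 2)))) := by
      refine k4p_range fun p => k4p_range fun q => ?_
      split_ifs
      · exact k4p_range fun x => k4p_range fun y => k4p_theta_abs hB p q x y
      · rw [abs_zero]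
        positivity
    calc k4Th B n ts ≤ _ := (le_abs_self _).trans h
      _ ≤ B * (B * ((3 : ℕ) * ((3 : ℕ) * (6 * (B : ℚ) ^ 2)))) := by gcongr
      _ = _ := by push_cast; ring

theorem Om_bd {n : ℕ} (hn : n ≤ B) : 0 ≤ k4Om B n ∧ k4Om B n ≤ 72 * (B : ℚ) ^ 3 * k4r B := by
  have hn' : (n : ℚ) ≤ B := by exact_mod_cast hn
  constructor
  · refine Finset.sum_nonneg fun p _ => Finset.sum_nonneg fun q _ => ?_
    split_ifs
    · positivity
    · exact le_rfl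
  · have h : |k4Om B n| ≤ n * (n * (72 * (B : ℚ) * k4r B)) := by
      refine k4p_range fun p => k4p_range fun q => ?_
      split_ifs
      · rw [abs_of_nonneg (by positivity)]
      · rw [abs_zero]
        positivity
    calc k4Om B n ≤ _ := (le_abs_self _).trans h
      _ ≤ B * (B * (72 * (B : ℚ) * k4r B)) := by gcongr
      _ = _ := by ring

/-- The image is a valid instance (`ent_table`, the bounds above, `B ^ k ≤ B ^ 9`). -/
theorem k4map_valid {x : PHI} (h : ValidPH 2 x) : ValidSW (k4map x) := by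
  obtain ⟨⟨B⟩, n, ts, a, b⟩ := x
  obtain ⟨h1, h2, hl, hc, ha, hb, hab⟩ := h
  dsimp only at h1 h2 hl hc ha hb hab
  have hB : 1 ≤ B := h1.trans h2
  have hc' : ∀ t ∈ ts, |t.1| ≤ B := fun t ht => (hc t ht).1
  have hr : (1 : ℚ) ≤ k4r B := by exact_mod_cast k4p_r_pos hB
  have r1 := k4p_r_ge hB (k := 1) (by norm_num)
  have r2 := k4p_r_ge hB (k := 2) (by norm_num)
  have r3 := k4p_r_ge hB (k := 3) (by norm_num)
  have r4 := k4p_r_ge hB (k := 4) (by norm_num)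
  have r0 := k4p_r_ge hB (k := 0) (by norm_num)
  have rr : (k4r B : ℚ) ≤ (k4r B : ℚ) ^ 2 := by nlinarith
  have s1 : 10 ^ 9 * ((B : ℚ) * k4r B) ≤ (k4r B : ℚ) ^ 2 := by nlinarith
  have s3 : 10 ^ 9 * ((B : ℚ) ^ 3 * k4r B) ≤ (k4r B : ℚ) ^ 2 := by nlinarith
  rw [pow_one] at r1
  rw [pow_zero] at r0
  have hn' : (n : ℚ) ≤ B := by exact_mod_cast h2
  have c1 := abs_le.1 (c0_abs hB hl hc')
  have c2 := Th_bd (ts := ts) hB h2
  have c3 := Om_bd h2
  have p2 : (0 : ℚ) ≤ (B : ℚ) ^ 2 := by positivity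
  have p3 : (0 : ℚ) ≤ (B : ℚ) ^ 3 := by positivity
  have p4 : (0 : ℚ) ≤ (B : ℚ) ^ 4 := by positivity
  have p5 : (0 : ℚ) ≤ (B : ℚ) ^ 3 * k4r B := by positivity
  have p6 : (0 : ℚ) ≤ (B : ℚ) * k4r B := by positivity
  have p1 : (0 : ℚ) ≤ B := by positivity
  rw [abs_le] at ha hb
  unfold ValidSW k4map Thr
  dsimp only
  rw [min_eq_left h2]
  refine ⟨by omega, ?_, fun i j => ?_, ?_, ?_, by linarith⟩
  · have : ((n * 4 : ℕ) : ℚ) ≤ ((2 * k4r B ^ 2 : ℕ) : ℚ) := by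
      push_cast
      linarith
    exact_mod_cast this
  · rw [k4tab, ent_table]
    push_cast
    split_ifs
    · unfold k4J
      split_ifs
      · have := abs_le.1 (gamma_abs hB hl hc' h2 (i / 4) (j % 4 - 1))
        constructor <;> linarith [this.1, this.2]
      · constructor <;> linarith
      · have := alpha_bd (B := B) (ts := ts) (i / 4) (j / 4) (i % 4) (j % 4)
        constructor <;> linarith [this.1, this.2]
    · constructor <;> linarith
  · push_cast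
    rw [abs_le]
    constructor <;> linarith [c1.1, c1.2, c2.1, c2.2, c3.1, c3.2, ha.1, ha.2]
  · push_cast
    rw [abs_le]
    constructor <;> linarith [c1.1, c1.2, c2.1, c2.2, c3.1, c3.2, hb.1, hb.2]

end Crest.Agent.R338
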