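import Crest.Agent.R338.K4_Fin

/-! # Stage K: from `4 n` spins to `n` blocks
Prefix helper lemmas with `k4r_`. -/

set_option autoImplicit false
set_option linter.dupNamespace false
set_option linter.unusedVariables false

noncomputable section

namespace Crest.Agent.R338

open Crest.Agent.Lib.PT Matrix

theorem k4r_blk {n : ℕ} (u : Fin n → Blk) (B : Fin n) (a : Fin 4) :
    blkEquiv n u (finProdFinEquiv (B, a)) = u B a := by
  simp [blkEquiv]

/-- the change of basis as an algebra isomorphism -/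
def k4r_R (n : ℕ) : Matrix (Fin (n * 4) → Bool) (Fin (n * 4) → Bool) ℝ ≃ₐ[ℝ]
    Matrix (Fin n → Blk) (Fin n → Blk) ℝ :=
  Matrix.reindexAlgEquiv ℝ ℝ (blkEquiv n).symm

theorem k4r_R_apply (n : ℕ) (M : Matrix (Fin (n * 4) → Bool) (Fin (n * 4) → Bool) ℝ) :
    M.submatrix (blkEquiv n) (blkEquiv n) = k4r_R n M := rfl

/-- `ext`, `loc_apply` three times; `blkEquiv n u (finProdFinEquiv (B, a)) = u B a`. -/
theorem loc_blk {n : ℕ} (B : Fin n) (a : Fin 4) (O : Matrix Bool Bool ℝ) :
    (loc (finProdFinEquiv (B, a)) O).submatrix (blkEquiv n) (blkEquiv n) = loc B (loc a O) := by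
  ext u v
  rw [Matrix.submatrix_apply, loc_apply, loc_apply, loc_apply, k4r_blk, k4r_blk, ← ite_and]
  refine @if_congr _ _ _ (_) (_) _ _ _ _ ⟨fun h => ⟨fun B' hB => ?_, fun a' ha => ?_⟩, fun h j hj => ?_⟩
    rfl rfl
  · funext a'
    rw [← k4r_blk u, ← k4r_blk v]
    exact h _ fun e => hB (congrArg Prod.fst (finProdFinEquiv.injective e))
  · rw [← k4r_blk u, ← k4r_blk v]
    exact h _ fun e => ha (congrArg Prod.snd (finProdFinEquiv.injective e))
  · obtain ⟨⟨B', a'⟩, rfl⟩ := finProdFinEquiv.surjective j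
    rw [k4r_blk, k4r_blk]
    by_cases hB : B' = B
    · subst hB
      exact h.2 a' fun e => hj (by rw [e])
    · rw [h.1 B' hB]

theorem k4r_loc {n : ℕ} (B : Fin n) (a : Fin 4) (O : Matrix Bool Bool ℝ) :
    k4r_R n (loc (finProdFinEquiv (B, a)) O) = loc B (loc a O) := loc_blk B a O

/-- `swapMat_eq` on both sides, `Matrix.submatrix_mul_equiv`, `loc_blk`, `loc_mul`, linearity of `loc B` -/
theorem swap_blk_same {n : ℕ} (B : Fin n) {a b : Fin 4} (h : a ≠ b) :
    (swapMat (finProdFinEquiv (B, a)) (finProdFinEquiv (B, b)) :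
      Matrix (Fin (n * 4) → Bool) (Fin (n * 4) → Bool) ℝ).submatrix (blkEquiv n) (blkEquiv n) =
      loc B (swapMat a b) := by
  have h' : (finProdFinEquiv (B, a) : Fin (n * 4)) ≠ finProdFinEquiv (B, b) := fun e =>
    h (congrArg Prod.snd (finProdFinEquiv.injective e))
  rw [k4r_R_apply, swapMat_eq h', swapMat_eq h]
  simp only [map_smul, map_sub, map_add, map_mul, map_one, k4r_loc, loc_mul, loc_smul, loc_sub,
    loc_add, loc_one]

theorem swap_blk_diff {n : ℕ} {B B' : Fin n} (h : B ≠ B') (a b : Fin 4) :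
    (swapMat (finProdFinEquiv (B, a)) (finProdFinEquiv (B', b)) :
      Matrix (Fin (n * 4) → Bool) (Fin (n * 4) → Bool) ℝ).submatrix (blkEquiv n) (blkEquiv n) =
      cross B a B' b + (1 / 2 : ℝ) • 1 := by
  have h' : (finProdFinEquiv (B, a) : Fin (n * 4)) ≠ finProdFinEquiv (B', b) := fun e =>
    h (congrArg Prod.fst (finProdFinEquiv.injective e))
  rw [k4r_R_apply, swapMat_eq h']
  simp only [map_smul, map_sub, map_add, map_mul, map_one, k4r_loc, cross, Fin.sum_univ_three, eO, pO,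
    Matrix.cons_val_zero, Matrix.cons_val_one, Matrix.cons_val_two, Matrix.head_cons,
    Matrix.tail_cons]
  module

/-- `kl_sum` -/
theorem alR_sum (β : Fin 3 → Fin 3 → ℝ) (A : ℝ) : ∑ a, ∑ b, alR β A a b = 16 * A := by
  simp only [alR, Fin.sum_univ_four, Fin.sum_univ_three, kl]
  norm_num
  ring

theorem k4r_val {n : ℕ} (B : Fin n) (a : Fin 4) :
    ((finProdFinEquiv (B, a) : Fin (n * 4)) : ℕ) = a + 4 * B := rfl

theorem k4r_same (Δ : ℝ) (γ : Fin 3 → ℝ) (c : Fin 4 → Fin 4 → ℝ)
    (h1 : ∀ x : Fin 3, c 0 x.succ = Δ + γ x) (h2 : ∀ a b : Fin 4, 0 < a → a < b → c a b = Δ) :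
    (∑ a : Fin 4, ∑ b : Fin 4, if a < b then c a b • (swapMat a b : Matrix Blk Blk ℝ) else 0) =
      Δ • h0 + ∑ x : Fin 3, γ x • swapMat (0 : Fin 4) x.succ := by
  have e1 : c 0 1 = Δ + γ 0 := h1 0
  have e2 : c 0 2 = Δ + γ 1 := h1 1
  have e3 : c 0 3 = Δ + γ 2 := h1 2
  have e4 := h2 1 2 (by decide) (by decide)
  have e5 := h2 1 3 (by decide) (by decide)
  have e6 := h2 2 3 (by decide) (by decide)
  have s0 : (0 : Fin 3).succ = 1 := rfl
  have s1 : (1 : Fin 3).succ = 2 := rfl
  have s2 : (2 : Fin 3).succ = 3 := rfl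
  simp only [h0, Fin.sum_univ_four, Fin.sum_univ_three, s0, s1, s2]
  simp +decide only [if_true, if_false, e1, e2, e3, e4, e5, e6]
  module

/-- Reindex both sums of `swMat` by `finProdFinEquiv` (`Equiv.sum_comp`, `Fintype.sum_prod_type`; the value of
`finProdFinEquiv (B, a)` is `a + 4 * B`), reorder to `∑ B, ∑ B', ∑ a, ∑ b`; `a + 4B < b + 4B'` iff `B < B'` or
(`B = B'` and `a < b`).  Inside a block `∑_{a<b} (Δ + [a = 0] γ) swap a b = Δ h0 + ∑ x, γ x swap 0 x.succ`
(`Fin.sum_univ_four`, `Fin.sum_univ_three`). -/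
theorem k4_transport (n : ℕ) (J : List (List ℚ)) (Δ A : ℝ) (γ : Fin n → Fin 3 → ℝ)
    (β : Fin n → Fin n → Fin 3 → Fin 3 → ℝ)
    (h1 : ∀ (B : Fin n) (x : Fin 3), (ent J (4 * B) (x + 1 + 4 * B) : ℝ) = Δ + γ B x)
    (h2 : ∀ (B : Fin n) (a b : Fin 4), 0 < a → a < b → (ent J (a + 4 * B) (b + 4 * B) : ℝ) = Δ)
    (h3 : ∀ (B B' : Fin n) (a b : Fin 4), B < B' →
      (ent J (a + 4 * B) (b + 4 * B') : ℝ) = alR (β B B') A a b) :
    (swMat (n * 4) J).submatrix (blkEquiv n) (blkEquiv n) =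
      (2 * Δ) • gH0 n + gV n γ β A +
        (∑ B : Fin n, ∑ B' : Fin n, if B < B' then 8 * A else 0) •
          (1 : Matrix (Fin n → Blk) (Fin n → Blk) ℝ) := by
  have key : ∀ B B' : Fin n, (∑ a : Fin 4, ∑ b : Fin 4,
      k4r_R n (if (finProdFinEquiv (B, a) : Fin (n * 4)) < finProdFinEquiv (B', b) then
        (ent J (finProdFinEquiv (B, a) : Fin (n * 4)) (finProdFinEquiv (B', b) : Fin (n * 4)) : ℝ) •
          swapMat (finProdFinEquiv (B, a)) (finProdFinEquiv (B', b)) else 0)) =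
      (if B = B' then Δ • loc B h0 + ∑ x : Fin 3, γ B x • loc B (swapMat (0 : Fin 4) x.succ) else 0) +
        (if B < B' then ∑ a, ∑ b, alR (β B B') A a b • cross B a B' b else 0) +
        (if B < B' then 8 * A else 0) • (1 : Matrix (Fin n → Blk) (Fin n → Blk) ℝ) := by
    intro B B'
    rcases lt_trichotomy B B' with h | rfl | h
    · have hlt : ∀ a b : Fin 4,
          (finProdFinEquiv (B, a) : Fin (n * 4)) < finProdFinEquiv (B', b) := fun a b => by
        rw [Fin.lt_def, k4r_val, k4r_val]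
        have := Fin.lt_def.1 h
        omega
      simp only [if_pos (hlt _ _), if_neg h.ne, if_pos h, map_smul, ← k4r_R_apply,
        swap_blk_diff h.ne, k4r_val, h3 B B' _ _ h, smul_add, Finset.sum_add_distrib, zero_add,
        smul_smul, ← Finset.sum_smul, ← Finset.sum_mul, alR_sum]
      congr 2
      ring
    · have hs := k4r_same Δ (γ B) (fun a b => (ent J (a + 4 * B) (b + 4 * B) : ℝ))
        (fun x => by simpa using h1 B x) (h2 B)
      have hs' := congrArg (loc B) hs
      simp only [loc_add, loc_smul, loc_sum] at hs'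
      rw [if_pos rfl, if_neg (lt_irrefl B), if_neg (lt_irrefl B), zero_smul, add_zero, add_zero, ← hs']
      refine Finset.sum_congr rfl fun a _ => Finset.sum_congr rfl fun b _ => ?_
      by_cases hab : a < b
      · have hlt : (finProdFinEquiv (B, a) : Fin (n * 4)) < finProdFinEquiv (B, b) := by
          rw [Fin.lt_def, k4r_val, k4r_val]
          have := Fin.lt_def.1 hab
          omega
        rw [if_pos hlt, if_pos hab, map_smul, ← k4r_R_apply, swap_blk_same B hab.ne, loc_smul,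
          k4r_val, k4r_val]
      · have hlt : ¬ (finProdFinEquiv (B, a) : Fin (n * 4)) < finProdFinEquiv (B, b) := by
          rw [Fin.lt_def, k4r_val, k4r_val]
          rw [Fin.lt_def] at hab
          omega
        rw [if_neg hlt, if_neg hab, map_zero, loc_zero]
    · have hlt : ∀ a b : Fin 4,
          ¬ (finProdFinEquiv (B, a) : Fin (n * 4)) < finProdFinEquiv (B', b) := fun a b => by
        rw [Fin.lt_def, k4r_val, k4r_val]
        have := Fin.lt_def.1 h
        omega
      simp only [if_neg (hlt _ _), if_neg h.ne', if_neg h.not_gt, map_zero, Finset.sum_const_zero,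
        zero_smul, add_zero]
  rw [k4r_R_apply, swMat, map_sum, ← Equiv.sum_comp finProdFinEquiv, Fintype.sum_prod_type]
  have e : ∀ B : Fin n, (∑ a : Fin 4, k4r_R n (∑ j : Fin (n * 4),
      if (finProdFinEquiv (B, a) : Fin (n * 4)) < j then
        (ent J (finProdFinEquiv (B, a) : Fin (n * 4)) j : ℝ) • swapMat (finProdFinEquiv (B, a)) j
      else 0)) = ∑ B' : Fin n, ∑ a : Fin 4, ∑ b : Fin 4,
      k4r_R n (if (finProdFinEquiv (B, a) : Fin (n * 4)) < finProdFinEquiv (B', b) then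
        (ent J (finProdFinEquiv (B, a) : Fin (n * 4)) (finProdFinEquiv (B', b) : Fin (n * 4)) : ℝ) •
          swapMat (finProdFinEquiv (B, a)) (finProdFinEquiv (B', b)) else 0) := by
    intro B
    rw [Finset.sum_comm]
    refine Finset.sum_congr rfl fun a _ => ?_
    rw [map_sum, ← Equiv.sum_comp finProdFinEquiv, Fintype.sum_prod_type]
  simp only [e, key, Finset.sum_add_distrib, Finset.sum_ite_eq, Finset.mem_univ, if_true,
    ← Finset.sum_smul, gH0, gV, smul_smul, ← Finset.smul_sum]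
  rw [show 2 * Δ * (1 / 2) = Δ by ring]
  abel

end Crest.Agent.R338
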