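import Crest.Agent.R338.K4_Gad
import Crest.Agent.R338.K4_Tr
import Crest.Agent.R338.K4_Eff
import Crest.Agent.R338.K4_Par
import Crest.Agent.R338.K4_PT

/-! # Stage K: 2-local X/Z Hamiltonians → sums of swaps with nonnegative couplings

Logical qubit `B` = four spins `4B … 4B+3`; `N = 4n`; work on `Fin n → (Fin 4 → Bool)` and
transport (`finProdFinEquiv`, currying, `mYes_submatrix`).  Block Hamiltonian
`h0 = ∑_{a<a'} swapMat a a'` (`= S_tot²`, eigenvalues `0, 2, 6`).  Kernel = singlets, isometry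
`s : Matrix (Fin 4 → Bool) Bool ℝ`, columns `s₀ = (01-10)(01-10)/2`,
`s₁ = (2|0011⟩ + 2|1100⟩ - (01+10)(01+10))/√12`.  Finite facts (16-dimensional; check on integer
vectors with `decide`/`simp`/`fin_cases`), for `O, O' ∈ {X, Z, W = XZ}` acting on spin `a` (`O_a = loc a O`):
* `sᵀ s = 1`, `h0 s = 0`, `h0 ≥ 2 (1 - s sᵀ)` (e.g. `h0 (h0 - 2)(h0 - 6) = 0`, or `h0² - 2 h0` is a sum of
  squares and …; any proof), `sᵀ O_a s = 0`, `h0 O_a s = 2 O_a s`, `∑_a O_a s = 0`;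
* `(O_a s)ᵀ (O'_a' s) = δ_{O O'} m a a'`, `m a a = 1`, `m a a' = (2 n_{aa'} - 1)/3` with
  `n_{aa'} = sᵀ swap a a' s`; `n₁ = n₀₁ = n₂₃ = -Z`, `n₂ = n₀₂ = n₁₃`, `n₃ = n₀₃ = n₁₂`,
  `n₂, n₃ = Z/2 ± (√3/2) X`, `n₁ + n₂ + n₃ = 0`; `swap a a' s = s n_{aa'}`.
* Klein vectors `f₁ = (1,1,-1,-1)/2, f₂ = (1,-1,1,-1)/2, f₃ = (1,-1,-1,1)/2`:
  `∑ f_x(a) f_y(a') m a a' = δ_{xy} (4/3)(1 + n_x)`, `∑_a m a a' = 0`.
`H0 = (1/2) ∑_B loc B h0` (gap by `proj_sum`), `K` = range of `tens s`, `Q = Kᗮ`, `H' = 2Δ H0 + V`,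
`V = ∑_B ∑_x γ B x swap_{B,0;B,x} + ∑_{B<B'} ∑_{a,b} α(B,a;B',b) (swap - 1/2)` (the constants
`-α/2` go to the thresholds), `α = ∑_{x,y} β x y f_x(a) f_y(b) + (9/4) β_max ≥ 0`.  By `swapMat_eq`,
`swap - 1/2 = (XX + ZZ - WW)/2`; the inter-block part `V₂ p` is an eigenvector of `∑ h0` with eigenvalue
`4`, in-block terms preserve `K`, so `d = V₂ p/(4Δ)`, different pairs of blocks are orthogonal and
`d⬝Vp = |V₂ p|²/(4Δ) = (1/(3Δ)) ∑_{B<B'} ∑_{x,y} β² (1+n_x)⊗(1+n_y)`; `|d⬝Vd| ≤ v³/Δ²` is an error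
(`v ~ poly(B) √Δ`).  Target: write `Z = -n₁`, `X = ±(n₂ - n₃)/√3` with a rational approximation of
`1/√3` (`Nat.sqrt`), collect the 2-local terms of the pair `B<B'` as `∑ C x y n_x ⊗ n_y =
-∑ (K₀ - C x y) n_x ⊗ n_y`, take `β x y = Nat.sqrt ⌊3Δ(K₀ - C x y)⌋` (error `≤ (2β+2)/(3Δ)` per term) and
put the 1-local terms, plus the compensation of `(β²/3Δ)(n_x + n_y)`, into `γ`; constants into the
thresholds.  In-block couplings are `Δ + γ ≥ 0` and `Δ`.  Choose `Δ = ρ²`, `ρ` a large polynomial in `B`;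
total error `≤ 1/4`; multiply by `2`. -/

set_option autoImplicit false
set_option linter.dupNamespace false
set_option linter.unusedVariables false

noncomputable section

namespace Crest.Agent.R338

open Crest.Agent.Lib.PT Matrix

theorem k4_range3 (f : ℕ → ℚ) : ((∑ x ∈ Finset.range 3, f x : ℚ) : ℝ) = ∑ x : Fin 3, (f x : ℝ) := by
  rw [Finset.sum_range]
  push_cast
  rfl

theorem k4_pairs (n : ℕ) (f : ℕ → ℕ → ℚ) :
    ((∑ p ∈ Finset.range n, ∑ q ∈ Finset.range n, if p < q then f p q else 0 : ℚ) : ℝ) =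
      ∑ B : Fin n, ∑ B' : Fin n, if B < B' then (f B B' : ℝ) else 0 := by
  rw [Finset.sum_range]
  push_cast
  refine Finset.sum_congr rfl fun B _ => ?_
  rw [Finset.sum_range]
  refine Finset.sum_congr rfl fun B' _ => ?_
  by_cases h : B < B'
  · rw [if_pos h, if_pos (Fin.lt_def.1 h)]
  · rw [if_neg h, if_neg (fun h' => h (Fin.lt_def.2 h'))]
    simp

theorem k4_main {B n : ℕ} {ts : List (ℚ × Word)} (h1 : 1 ≤ n) (hn : n ≤ B) (hl : ts.length ≤ B)
    (ht : ∀ t ∈ ts, |t.1| ≤ B ∧ WordOK n 2 t.2) {a : ℚ} (ha : |a| ≤ B) :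
    (MYes (hamMat n ts) a → MYes (swMat (n * 4) (k4tab B n ts))
      ((2 * a - c0 ts - k4Th B n ts + k4Om B n + 1 / 2 : ℚ) : ℝ)) ∧
    (MNo (hamMat n ts) a → MNo (swMat (n * 4) (k4tab B n ts))
      ((2 * a - c0 ts - k4Th B n ts + k4Om B n - 1 / 2 : ℚ) : ℝ)) := by
  have hB : 1 ≤ B := h1.trans hn
  have hc : ∀ t ∈ ts, |t.1| ≤ B := fun t h => (ht t h).1
  have hBR : (1 : ℝ) ≤ B := by exact_mod_cast hB
  have hnR : (n : ℝ) ≤ B := by exact_mod_cast hn
  have hn0 : (0 : ℝ) ≤ n := Nat.cast_nonneg n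
  set r : ℝ := (k4r B : ℝ) with hr
  have hrB : r = 10 ^ 9 * (B : ℝ) ^ 9 := by
    rw [hr, k4r]
    push_cast
    ring
  have hp : ∀ i j : ℕ, i ≤ j → (B : ℝ) ^ i ≤ (B : ℝ) ^ j := fun i j h => pow_le_pow_right₀ hBR h
  have hp0 : ∀ i : ℕ, (1 : ℝ) ≤ (B : ℝ) ^ i := fun i => one_le_pow₀ hBR
  have hr0 : 0 < r := by rw [hrB]; positivity
  let θ : Fin n → Fin n → Fin 3 → Fin 3 → ℝ := fun p q x y => (k4theta B ts p q x y : ℚ)
  let β : Fin n → Fin n → Fin 3 → Fin 3 → ℝ := fun p q x y => (k4beta B ts p q x y : ℕ)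
  let G : Fin n → Fin 3 → ℝ := fun p x => (GG (k4rho B) ts p x : ℚ)
  let γ : Fin n → Fin 3 → ℝ := fun p x => (k4gamma B n ts p x : ℚ)
  have eθ : (fun p q x y => β p q x y ^ 2 / (3 * r ^ 2)) = θ := by
    funext p q x y
    simp only [θ, β, k4theta, hr]
    push_cast
    rfl
  have eγ : γ = fun p x => G p x + ∑ q, if q = p then 0 else ∑ y, θ p q x y := by
    funext p x
    simp only [γ, G, θ, k4gamma]
    rw [Rat.cast_add, Finset.sum_range, Rat.cast_sum]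
    congr 1
    refine Finset.sum_congr rfl fun q _ => ?_
    by_cases h : q = p
    · rw [if_pos h, if_pos (congrArg Fin.val h), Rat.cast_zero]
    · rw [if_neg h, if_neg (fun h' => h (Fin.ext h')), k4_range3]
  have eα : ∀ (p q : Fin n) (a b : Fin 4),
      alR (β p q) (9 * B * r) a b = ((k4alpha B ts p q a b : ℚ) : ℝ) := by
    intro p q a b
    simp only [alR, β, k4alpha, hr, Finset.sum_range]
    push_cast
    rfl
  have eTh : ((k4Th B n ts : ℚ) : ℝ) = ∑ p, ∑ q, if p < q then ∑ x, ∑ y, θ p q x y else 0 := by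
    unfold k4Th
    rw [k4_pairs]
    simp only [θ, k4_range3]
  have eOm : ((k4Om B n : ℚ) : ℝ) = ∑ p : Fin n, ∑ q : Fin n, if p < q then 8 * (9 * B * r) else 0 := by
    unfold k4Om
    rw [k4_pairs]
    refine Finset.sum_congr rfl fun p _ => Finset.sum_congr rfl fun q _ => ?_
    congr 1
    rw [hr]
    push_cast
    ring
  -- the transported Hamiltonian
  have hent : ∀ i j, i < n * 4 → j < n * 4 → ent (k4tab B n ts) i j = k4J B n ts i j := by
    intro i j hi hj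
    unfold k4tab
    rw [ent_table, if_pos ⟨hi, hj⟩]
  have htr := k4_transport n (k4tab B n ts) (r ^ 2) (9 * B * r) γ β
    (fun p x => by
      have := p.2
      have := x.2
      rw [hent _ _ (by omega) (by omega), k4J, if_pos (by omega), if_pos (by omega),
        show 4 * (p : ℕ) / 4 = p by omega, show ((x : ℕ) + 1 + 4 * p) % 4 - 1 = x by omega, hr]
      push_cast
      rfl)
    (fun p a b h0 hab => by
      have := p.2
      have := a.2
      have := b.2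
      have h0' : 0 < (a : ℕ) := h0
      rw [hent _ _ (by omega) (by omega), k4J, if_pos (by omega), if_neg (by omega), hr]
      push_cast
      ring)
    (fun p q a b hpq => by
      have := p.2
      have := q.2
      have := a.2
      have := b.2
      have h0' : (p : ℕ) < q := hpq
      rw [hent _ _ (by omega) (by omega), k4J, if_neg (by omega),
        show ((a : ℕ) + 4 * p) / 4 = p by omega, show ((b : ℕ) + 4 * q) / 4 = q by omega,
        show ((a : ℕ) + 4 * p) % 4 = a by omega, show ((b : ℕ) + 4 * q) % 4 = b by omega, eα])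
  rw [← eOm] at htr
  -- norm of the perturbation
  have hV : OpLe (gV n γ β (9 * B * r)) (500 * (B : ℝ) ^ 3 * r) := by
    have h := gV_opLe n (γ := γ) (β := β) (A := 9 * B * r) (g := 20 * (B : ℝ) ^ 3) (al := 18 * B * r)
      (by positivity) (by positivity)
      (fun p x => by simp only [γ]; exact_mod_cast gamma_abs hB hl hc hn p x)
      (fun p q a b => by
        obtain ⟨h1, h2⟩ := alpha_bd (B := B) (ts := ts) p q a b
        rw [eα, abs_of_nonneg (by exact_mod_cast h1), hr]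
        exact_mod_cast h2)
    refine h.mono (by positivity) ?_
    have e1 : (n : ℝ) ≤ r := by
      have := hp 1 9 (by norm_num)
      rw [pow_one] at this
      rw [hrB]
      nlinarith
    have e2 : (n : ℝ) ^ 2 ≤ (B : ℝ) ^ 2 := pow_le_pow_left₀ hn0 hnR 2
    have e3 : 3 * (n : ℝ) * (20 * (B : ℝ) ^ 3) ≤ 3 * r * (20 * (B : ℝ) ^ 3) := by gcongr
    have e4 : 24 * (n : ℝ) ^ 2 * (18 * B * r) ≤ 24 * (B : ℝ) ^ 2 * (18 * B * r) := by gcongr
    have e5 : 0 ≤ (B : ℝ) ^ 3 * r := by positivity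
    nlinarith
  -- effective Hamiltonian versus target
  have hE : OpLe (gEff n γ θ - ((2 : ℝ) • hamMat n ts +
      (-((c0 ts : ℚ) : ℝ) - (k4Th B n ts : ℚ)) • (1 : Matrix (Fin n → Bool) (Fin n → Bool) ℝ))) (1 / 4) := by
    rw [eγ, gEff_eq n G θ (fun p q x y => by simp only [θ]; rw [k4theta_symm]), ← eTh,
      ham_eq (fun t h => (ht t h).2), nH_shift n ((c0 ts : ℚ) : ℝ) (2 * (B : ℝ) ^ 2), ← nH_const, nH_add,
      show ((c0 ts : ℚ) : ℝ) + (-((c0 ts : ℚ) : ℝ) - (k4Th B n ts : ℚ)) = -((k4Th B n ts : ℚ) : ℝ) by ring]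
    refine (nH_diff n _ (η := (B : ℝ) ^ 2 / r) (η' := 5 * (B : ℝ) ^ 2 / r) (by positivity) (by positivity)
      (fun p x => ?_) (fun p q x y => ?_)).mono (by positivity) ?_
    · simp only [G, add_zero]
      exact GG_approx hB hl hc p x
    · simp only [θ, add_zero]
      exact theta_approx hB hl hc p q x y
    · have e2 : (n : ℝ) ^ 2 ≤ (B : ℝ) ^ 2 := pow_le_pow_left₀ hn0 hnR 2
      have e3 : 3 * (n : ℝ) * ((B : ℝ) ^ 2 / r) ≤ 3 * B * ((B : ℝ) ^ 2 / r) := by gcongr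
      have e4 : 9 * (n : ℝ) ^ 2 * (5 * (B : ℝ) ^ 2 / r) ≤ 9 * (B : ℝ) ^ 2 * (5 * (B : ℝ) ^ 2 / r) := by
        gcongr
      have e5 : 3 * (B : ℝ) * ((B : ℝ) ^ 2 / r) + 9 * (B : ℝ) ^ 2 * (5 * (B : ℝ) ^ 2 / r) =
          (3 * (B : ℝ) ^ 3 + 45 * (B : ℝ) ^ 4) / r := by ring
      have e6 : (3 * (B : ℝ) ^ 3 + 45 * (B : ℝ) ^ 4) / r ≤ 1 / 4 := by
        rw [div_le_iff₀ hr0, hrB]
        have := hp 3 9 (by norm_num)
        have := hp 4 9 (by norm_num)
        have := hp0 9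
        linarith
      linarith
  have herr : 6 * (500 * (B : ℝ) ^ 3 * r) ^ 3 / (2 * r ^ 2) ^ 2 ≤ 1 / 4 := by
    rw [div_le_iff₀ (by positivity)]
    have e : 6 * (500 * (B : ℝ) ^ 3 * r) ^ 3 = (3 / 4) * r ^ 4 := by
      have : r ^ 4 = r ^ 3 * (10 ^ 9 * (B : ℝ) ^ 9) := by rw [← hrB]; ring
      rw [this]
      ring
    have : 0 ≤ r ^ 4 := by positivity
    rw [e]
    nlinarith
  have hbig : 2 * (500 * (B : ℝ) ^ 3 * r) ≤ r ^ 2 := by
    have e : 1000 * (B : ℝ) ^ 3 ≤ r := by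
      have := hp 3 9 (by norm_num)
      have := hp0 9
      rw [hrB]
      linarith
    nlinarith
  have hlam : ∀ e : ℝ, |e| ≤ 1 →
      2 * |2 * (a : ℝ) + (-((c0 ts : ℚ) : ℝ) - (k4Th B n ts : ℚ)) + e| ≤ 500 * (B : ℝ) ^ 3 * r := by
    intro e he
    have a1 : |(a : ℝ)| ≤ B := by exact_mod_cast ha
    have a2 : |((c0 ts : ℚ) : ℝ)| ≤ 2 * (B : ℝ) ^ 2 := by exact_mod_cast c0_abs hB hl hc
    obtain ⟨a3, a4⟩ := Th_bd (ts := ts) hB hn
    have a3' : (0 : ℝ) ≤ (k4Th B n ts : ℚ) := by exact_mod_cast a3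
    have a4' : ((k4Th B n ts : ℚ) : ℝ) ≤ 54 * (B : ℝ) ^ 4 := by exact_mod_cast a4
    have b1 := hp 1 9 (by norm_num)
    have b2 := hp 2 9 (by norm_num)
    have b4 := hp 4 9 (by norm_num)
    have b0 := hp0 9
    rw [pow_one] at b1
    have b5 : r ≤ (B : ℝ) ^ 3 * r := le_mul_of_one_le_left hr0.le (hp0 3)
    rw [abs_le] at a1 a2 he
    have : |2 * (a : ℝ) + (-((c0 ts : ℚ) : ℝ) - (k4Th B n ts : ℚ)) + e| ≤ 59 * (B : ℝ) ^ 9 := by
      rw [abs_le]
      constructor <;> linarith [a1.1, a1.2, a2.1, a2.2, he.1, he.2]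
    linarith
  constructor
  · intro h
    have s1 := (h.affine (c := 2) (d := -((c0 ts : ℚ) : ℝ) - (k4Th B n ts : ℚ)) (by norm_num)).perturb hE
      (by norm_num)
    rw [← eθ] at s1
    have s2 := (k4_gadget n γ β _ hV (by positivity) (by positivity) hbig
      (hlam (1 / 4) (by rw [abs_le]; constructor <;> norm_num))).1 s1
    have s3 := s2.affine (c := 1) (d := ((k4Om B n : ℚ) : ℝ)) zero_le_one
    rw [one_smul, ← htr, mYes_submatrix] at s3
    refine s3.mono ?_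
    push_cast
    linarith
  · intro h
    have s1 := (h.affine (c := 2) (d := -((c0 ts : ℚ) : ℝ) - (k4Th B n ts : ℚ)) (by norm_num)).perturb hE
      (by norm_num)
    rw [← eθ, sub_eq_add_neg] at s1
    have s2 := (k4_gadget n γ β _ hV (by positivity) (by positivity) hbig
      (hlam (-(1 / 4)) (by rw [abs_le]; constructor <;> norm_num))).2 s1
    have s3 := s2.affine (c := 1) (d := ((k4Om B n : ℚ) : ℝ)) zero_le_one
    rw [one_smul, ← htr, mNo_submatrix] at s3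
    refine s3.mono ?_
    push_cast
    linarith

theorem red_PH_SW : Red (YesPH 2) (NoPH 2) YesSW NoSW := by
  have key : ∀ (B : Un) (n : ℕ) (ts : List (ℚ × Word)) (a b : ℚ), n ≤ B.n →
      k4map (B, n, ts, a, b) = (Un.mk (2 * k4r B.n ^ 2), n * 4, k4tab B.n n ts,
        2 * a - c0 ts - k4Th B.n n ts + k4Om B.n n + 1 / 2,
        2 * b - c0 ts - k4Th B.n n ts + k4Om B.n n - 1 / 2) := by
    intro B n ts a b hn
    simp only [k4map, min_eq_left hn]
  refine ⟨k4map, k4map_pt, ?_, ?_⟩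
  · rintro ⟨B, n, ts, a, b⟩ ⟨hv, h⟩
    have hv' := k4map_valid hv
    obtain ⟨h1, hn, hl, ht, ha, -, -⟩ := hv
    rw [key B n ts a b hn] at hv' ⊢
    exact ⟨hv', (k4_main h1 hn hl ht ha).1 h⟩
  · rintro ⟨B, n, ts, a, b⟩ ⟨hv, h⟩
    have hv' := k4map_valid hv
    obtain ⟨h1, hn, hl, ht, -, hb, -⟩ := hv
    rw [key B n ts a b hn] at hv' ⊢
    exact ⟨hv', (k4_main h1 hn hl ht hb).2 h⟩

end Crest.Agent.R338
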