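import Crest.Agent.R338.Pert

/-! # Stage K: second order perturbation theory in matrix form

`K = range S.mulVecLin`, `Q = ker Sᵀ.mulVecLin`; `PertData H0 V K Q D v`.  For `p = S p₀` put
`d = (μ D)⁻¹ • T p₀ ∈ Q`; `IsCorr`: for `q ∈ Q`, `D q⬝H0 d = q⬝T p₀ = q⬝V S p₀` (as `q⬝S A p₀ = 0`).
`p⬝p = p₀⬝p₀`, `p⬝Vp = p₀⬝A p₀`, `d⬝Vp = (μD)⁻¹ p₀⬝TᵀT p₀`, and `|d⬝Vd| ≤ v |d|² ≤ v³/D² |p|²`
(`OpLe.form_le`, `pert_corr_le`).  Apply `pert_yes` with `lam + v³/D²` and `pert_no` with `lam - v³/D²`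
(`v³/D² ≤ v/16`, so the absolute values are `≤ v`; `16 v⁴/D³ ≤ 4 v³/D²`); for `MNo` split an arbitrary
`u = S Sᵀ u + (u - S Sᵀ u)`.  Prefix helper lemmas with `k4a_`. -/

set_option autoImplicit false
set_option linter.dupNamespace false
set_option linter.unusedVariables false

noncomputable section

namespace Crest.Agent.R338

open Crest.Agent.Lib.PT Matrix

theorem k4_abs {κ κ' : Type} [Fintype κ] [Fintype κ'] [DecidableEq κ'] (S T : Matrix κ κ' ℝ)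
    (H0 V : Matrix κ κ ℝ) (A : Matrix κ' κ' ℝ) {D v μ lam : ℝ} (hS : Sᵀ * S = 1) (h0s : H0ᵀ = H0)
    (hVs : Vᵀ = V) (hker : H0 * S = 0)
    (hgap : ∀ u : κ → ℝ, u ⬝ᵥ u - u ⬝ᵥ (S * Sᵀ) *ᵥ u ≤ u ⬝ᵥ H0 *ᵥ u) (hV : OpLe V v) (hv : 0 ≤ v)
    (hD : 0 < D) (hbig : 4 * v ≤ D) (hμ : 0 < μ) (hVS : V * S = S * A + T) (hST : Sᵀ * T = 0)
    (hT : H0 * T = μ • T) (hl : 2 * |lam| ≤ v) :
    (MYes (A - (μ * D)⁻¹ • (Tᵀ * T)) lam → MYes (D • H0 + V) (lam + 6 * v ^ 3 / D ^ 2)) ∧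
      (MNo (A - (μ * D)⁻¹ • (Tᵀ * T)) lam → MNo (D • H0 + V) (lam - 6 * v ^ 3 / D ^ 2)) := by
  classical
  let K : Submodule ℝ (κ → ℝ) := LinearMap.range S.mulVecLin
  let Q : Submodule ℝ (κ → ℝ) := LinearMap.ker Sᵀ.mulVecLin
  have hQ : ∀ q, q ∈ Q ↔ Sᵀ *ᵥ q = 0 := fun q => Iff.rfl
  have hKm : ∀ p₀, S *ᵥ p₀ ∈ K := fun p₀ => ⟨p₀, rfl⟩
  have hSq : ∀ (p₀ : κ' → ℝ) (q : κ → ℝ), (S *ᵥ p₀) ⬝ᵥ q = p₀ ⬝ᵥ Sᵀ *ᵥ q := fun p₀ q => by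
    rw [Matrix.dotProduct_mulVec, Matrix.vecMul_transpose]
  have hSS : ∀ p₀ : κ' → ℝ, Sᵀ *ᵥ S *ᵥ p₀ = p₀ := fun p₀ => by
    rw [Matrix.mulVec_mulVec, hS, Matrix.one_mulVec]
  have hpd : PertData H0 V K Q D v := by
    refine ⟨h0s, hVs, ?_, ?_, ?_, hV, hv, hD, hbig⟩
    · rintro _ ⟨p₀, rfl⟩ q hq
      change (S *ᵥ p₀) ⬝ᵥ q = 0
      rw [hSq, (hQ q).1 hq, dotProduct_zero]
    · rintro _ ⟨p₀, rfl⟩
      change H0 *ᵥ S *ᵥ p₀ = 0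
      rw [Matrix.mulVec_mulVec, hker, Matrix.zero_mulVec]
    · intro q hq
      have := hgap q
      rw [← Matrix.mulVec_mulVec, (hQ q).1 hq, Matrix.mulVec_zero, dotProduct_zero, sub_zero] at this
      exact this
  set c : ℝ := (μ * D)⁻¹ with hc
  have hTQ : ∀ p₀, Sᵀ *ᵥ T *ᵥ p₀ = 0 := fun p₀ => by
    rw [Matrix.mulVec_mulVec, hST, Matrix.zero_mulVec]
  have hVp : ∀ p₀, V *ᵥ S *ᵥ p₀ = S *ᵥ A *ᵥ p₀ + T *ᵥ p₀ := fun p₀ => by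
    rw [Matrix.mulVec_mulVec, hVS, Matrix.add_mulVec, Matrix.mulVec_mulVec]
  have hcorr : ∀ p₀, IsCorr H0 V Q D (S *ᵥ p₀) (c • T *ᵥ p₀) := fun p₀ => by
    refine ⟨(hQ _).2 (by rw [Matrix.mulVec_smul, hTQ, smul_zero]), fun q hq => ?_⟩
    rw [hVp, dotProduct_add, dotProduct_comm q (S *ᵥ _), hSq, (hQ q).1 hq, dotProduct_zero, zero_add,
      Matrix.mulVec_smul, Matrix.mulVec_mulVec, hT, Matrix.smul_mulVec, dotProduct_smul,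
      dotProduct_smul, smul_eq_mul, smul_eq_mul, hc]
    field_simp
  have hnorm : ∀ p₀ : κ' → ℝ, (S *ᵥ p₀) ⬝ᵥ (S *ᵥ p₀) = p₀ ⬝ᵥ p₀ := fun p₀ => by rw [hSq, hSS]
  set w : ℝ := v ^ 3 / D ^ 2 with hw
  have hw0 : 0 ≤ w := by positivity
  have heff : ∀ p₀, |effForm V (S *ᵥ p₀) (c • T *ᵥ p₀) - p₀ ⬝ᵥ (A - c • (Tᵀ * T)) *ᵥ p₀| ≤
      w * (p₀ ⬝ᵥ p₀) := fun p₀ => by
    have e1 : (S *ᵥ p₀) ⬝ᵥ V *ᵥ S *ᵥ p₀ = p₀ ⬝ᵥ A *ᵥ p₀ := by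
      rw [hVp, hSq, Matrix.mulVec_add, hSS, hTQ, add_zero]
    have e2 : (c • T *ᵥ p₀) ⬝ᵥ V *ᵥ S *ᵥ p₀ = p₀ ⬝ᵥ (c • (Tᵀ * T)) *ᵥ p₀ := by
      rw [hVp, smul_dotProduct, dotProduct_add, dotProduct_comm _ (S *ᵥ _), hSq, hTQ,
        dotProduct_zero, zero_add, Matrix.smul_mulVec, dotProduct_smul, ← Matrix.mulVec_mulVec,
        Matrix.dotProduct_mulVec p₀, Matrix.vecMul_transpose]
    have e3 := hV.form_le hv (c • T *ᵥ p₀)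
    have e4 := pert_corr_le hpd (hcorr p₀)
    rw [hnorm] at e4
    unfold effForm
    rw [e1, e2, Matrix.sub_mulVec, dotProduct_sub, add_sub_cancel_left]
    refine e3.trans ((mul_le_mul_of_nonneg_left e4 hv).trans (le_of_eq ?_))
    rw [hw]
    ring
  have hwv : 16 * w ≤ v := by
    rw [hw, ← mul_div_assoc, div_le_iff₀ (by positivity)]
    have h1 : (4 * v) ^ 2 ≤ D ^ 2 := pow_le_pow_left₀ (by positivity) hbig 2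
    nlinarith [mul_le_mul_of_nonneg_left h1 hv]
  have hl1 : |lam + w| ≤ v := (abs_add_le _ _).trans (by rw [abs_of_nonneg hw0]; linarith [abs_nonneg lam])
  have hl2 : |lam - w| ≤ v := (abs_sub _ _).trans (by rw [abs_of_nonneg hw0]; linarith [abs_nonneg lam])
  have hb : ∀ l : ℝ, |l| ≤ v → |l| * v ^ 2 / D ^ 2 ≤ w := fun l h => by
    rw [hw]
    refine div_le_div_of_nonneg_right ?_ (by positivity)
    calc |l| * v ^ 2 ≤ v * v ^ 2 := by gcongr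
      _ = v ^ 3 := by ring
  have hb4 : 16 * v ^ 4 / D ^ 3 ≤ 4 * w := by
    rw [hw, ← mul_div_assoc, div_le_div_iff₀ (by positivity) (by positivity)]
    have h1 : 0 ≤ v ^ 3 * D ^ 2 := by positivity
    nlinarith [mul_le_mul_of_nonneg_left hbig h1]
  have e6 : 6 * v ^ 3 / D ^ 2 = 6 * w := by rw [hw, mul_div_assoc]
  rw [e6]
  constructor
  · rintro ⟨p₀, h0, hp⟩
    have hp0 : S *ᵥ p₀ ≠ 0 := fun h => h0 (by rw [← hSS p₀, h, Matrix.mulVec_zero])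
    have he : effForm V (S *ᵥ p₀) (c • T *ᵥ p₀) ≤ (lam + w) * ((S *ᵥ p₀) ⬝ᵥ (S *ᵥ p₀)) := by
      rw [hnorm]
      have := (abs_le.1 (heff p₀)).2
      linarith
    obtain ⟨h1, h2⟩ := pert_yes hpd (hKm p₀) hp0 (hcorr p₀) he
    refine ⟨_, h1, h2.trans (mul_le_mul_of_nonneg_right ?_ (dot_self_nonneg _))⟩
    linarith [hb _ hl1]
  · intro h u
    have hq : u - S *ᵥ Sᵀ *ᵥ u ∈ Q := (hQ _).2 (by rw [Matrix.mulVec_sub, hSS, sub_self])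
    have he : (lam - w) * ((S *ᵥ Sᵀ *ᵥ u) ⬝ᵥ (S *ᵥ Sᵀ *ᵥ u)) ≤
        effForm V (S *ᵥ Sᵀ *ᵥ u) (c • T *ᵥ Sᵀ *ᵥ u) := by
      rw [hnorm]
      have h1 := (abs_le.1 (heff (Sᵀ *ᵥ u))).1
      have h2 := h (Sᵀ *ᵥ u)
      linarith
    have h2 := pert_no hpd hl2 (hKm _) hq (hcorr _) he
    rw [add_sub_cancel] at h2
    refine le_trans (mul_le_mul_of_nonneg_right ?_ (dot_self_nonneg _)) h2
    linarith [hb _ hl2]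

end Crest.Agent.R338
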