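import Crest.Agent.R338.K4_Defs

/-! # Stage K: algebra of `two`

`two s i j P Q = tens (update (update (fun _ => s) j Q) i P)`; use `tens_mul`, `tens_transpose`, `loc_mul_tens`,
`tens_update_sum`, `tens_update_smul`, `tens_eq_zero`.  Prefix helper lemmas with `k4t_`. -/

set_option autoImplicit false
set_option linter.dupNamespace false
set_option linter.unusedVariables false

noncomputable section

namespace Crest.Agent.R338

open Crest.Agent.Lib.PT Matrix

variable {ι β γ : Type} [Fintype ι] [DecidableEq ι] [Fintype β] [DecidableEq β]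

theorem loc_loc_mul_tens {i j : ι} (h : i ≠ j) (U U' : Matrix β β ℝ) (s : Matrix β γ ℝ) :
    loc i U * loc j U' * tens (fun _ : ι => s) = two s i j (U * s) (U' * s) := by
  unfold loc two
  rw [tens_mul, tens_mul]
  congr 1
  funext k
  by_cases h1 : k = i
  · subst h1
    simp [h]
  · by_cases h2 : k = j <;> simp [h1, h2, h.symm]

omit [Fintype β] [DecidableEq β] in
theorem two_sum {κ κ' : Type} [Fintype κ] [Fintype κ'] (s : Matrix β γ ℝ) {i j : ι} (h : i ≠ j)
    (c : κ → ℝ) (P : κ → Matrix β γ ℝ) (c' : κ' → ℝ) (Q : κ' → Matrix β γ ℝ) :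
    two s i j (∑ k, c k • P k) (∑ l, c' l • Q l) =
      ∑ k, ∑ l, (c k * c' l) • two s i j (P k) (Q l) := by
  have e1 : ∀ P Q : Matrix β γ ℝ, two s i j P Q =
      tens (Function.update (Function.update (fun _ : ι => s) j Q) i P) := fun P Q => by
    unfold two
    congr 1
    funext k
    simp only [Function.update_apply]
  have e2 : ∀ P Q : Matrix β γ ℝ, two s i j P Q =
      tens (Function.update (Function.update (fun _ : ι => s) i P) j Q) := fun P Q => by
    rw [e1, Function.update_comm h]
  rw [e1, tens_update_sum]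
  refine Finset.sum_congr rfl fun k _ => ?_
  rw [tens_update_smul, ← e1, e2, tens_update_sum, Finset.smul_sum]
  refine Finset.sum_congr rfl fun l _ => ?_
  rw [tens_update_smul, ← e2, smul_smul]

omit [Fintype β] [DecidableEq β] in
theorem two_zero_left (s : Matrix β γ ℝ) (i j : ι) (Q : Matrix β γ ℝ) : two s i j 0 Q = 0 := by
  exact tens_eq_zero _ i (by simp)

/-- An operator on one factor which acts on the range of `s`. -/
theorem loc_mul_tens_const [Fintype γ] [DecidableEq γ] (i : ι) {U : Matrix β β ℝ} {s : Matrix β γ ℝ}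
    {m : Matrix γ γ ℝ} (h : U * s = s * m) :
    loc i U * tens (fun _ : ι => s) = tens (fun _ : ι => s) * loc i m := by
  rw [loc_mul_tens, tens_mul_loc, h]

omit [DecidableEq β] in
theorem tens_tr_mul_two {s P : Matrix β γ ℝ} (i j : ι) (Q : Matrix β γ ℝ) (hP : sᵀ * P = 0) :
    (tens fun _ : ι => s)ᵀ * two s i j P Q = 0 := by
  unfold two
  rw [tens_transpose, tens_mul]
  exact tens_eq_zero _ i (by simp [hP])

theorem sum_loc_mul_two {i j : ι} (h : i ≠ j) {U : Matrix β β ℝ} {s P Q : Matrix β γ ℝ} {μ ν : ℝ}
    (hs : U * s = 0) (hP : U * P = μ • P) (hQ : U * Q = ν • Q) :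
    (∑ k : ι, loc k U) * two s i j P Q = (μ + ν) • two s i j P Q := by
  have e : ∀ k : ι, loc k U * two s i j P Q =
      (if k = i then μ else if k = j then ν else 0) • two s i j P Q := by
    intro k
    have e1 : two s i j P Q = tens (Function.update
        (fun k => if k = i then P else if k = j then Q else s) k
        (if k = i then P else if k = j then Q else s)) := by
      rw [Function.update_eq_self k (fun k => if k = i then P else if k = j then Q else s)]
      rfl
    have e2 : U * (if k = i then P else if k = j then Q else s) =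
        (if k = i then μ else if k = j then ν else 0) •
          (if k = i then P else if k = j then Q else s) := by
      split_ifs <;> simp [hs, hP, hQ]
    conv_rhs => rw [e1, ← tens_update_smul, ← e2]
    exact loc_mul_tens k U _
  rw [Matrix.sum_mul]
  simp only [e]
  rw [← Finset.sum_smul]
  congr 1
  have e3 : ∀ k : ι, (if k = i then μ else if k = j then ν else 0) =
      (if k = i then μ else 0) + (if k = j then ν else 0) := by
    intro k
    by_cases h1 : k = i
    · subst h1
      simp [h]
    · simp [h1]
  simp only [e3, Finset.sum_add_distrib, Finset.sum_ite_eq', Finset.mem_univ, if_true]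

omit [DecidableEq β] in
theorem two_tr_mul_two_same [Fintype γ] [DecidableEq γ] {i j : ι} (h : i ≠ j) {s : Matrix β γ ℝ}
    (hs : sᵀ * s = 1) (P Q P' Q' : Matrix β γ ℝ) :
    (two s i j P Q)ᵀ * two s i j P' Q' = loc i (Pᵀ * P') * loc j (Qᵀ * Q') := by
  unfold two loc
  rw [tens_transpose, tens_mul, tens_mul]
  congr 1
  funext k
  by_cases h1 : k = i
  · subst h1
    simp [h]
  · by_cases h2 : k = j <;> simp [h1, h2, h.symm, hs]

omit [DecidableEq β] in
/-- Some index lies in exactly one of the two pairs; the factor there is `Pᵀ s = (sᵀ P)ᵀ = 0` or `sᵀ P' = 0`. -/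
theorem two_tr_mul_two_diff [LinearOrder ι] {i j k l : ι} (hij : i < j) (hkl : k < l)
    (hne : ¬ (i = k ∧ j = l)) {s P Q P' Q' : Matrix β γ ℝ} (hP : sᵀ * P = 0) (hQ : sᵀ * Q = 0)
    (hP' : sᵀ * P' = 0) (hQ' : sᵀ * Q' = 0) : (two s i j P Q)ᵀ * two s k l P' Q' = 0 := by
  have tP : Pᵀ * s = 0 := by
    have := congrArg Matrix.transpose hP
    simpa using this
  have tQ : Qᵀ * s = 0 := by
    have := congrArg Matrix.transpose hQ
    simpa using this
  unfold two
  rw [tens_transpose, tens_mul]
  rcases lt_trichotomy i k with h | h | h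
  · exact tens_eq_zero _ i (by simp [h.ne, (h.trans hkl).ne, tP])
  · subst h
    rcases lt_trichotomy j l with h | h | h
    · exact tens_eq_zero _ j (by simp [hij.ne', h.ne, tQ])
    · exact absurd ⟨rfl, h⟩ hne
    · exact tens_eq_zero _ l (by simp [hkl.ne', h.ne, hQ'])
  · exact tens_eq_zero _ k (by simp [h.ne, (h.trans hij).ne, hP'])

end Crest.Agent.R338
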