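import Crest.Agent.R338.K4_Fin
import Crest.Agent.R338.K4_Two

/-! # Stage K: the gadget in matrix form
Prefix helper lemmas with `k4g_`. -/

set_option autoImplicit false
set_option linter.dupNamespace false
set_option linter.unusedVariables false

noncomputable section

namespace Crest.Agent.R338

open Crest.Agent.Lib.PT Matrix

theorem k4g_comm3 {M α β γ : Type} [AddCommMonoid M] [Fintype α] [Fintype β] [Fintype γ]
    (f : α → β → γ → M) : ∑ a, ∑ b, ∑ c, f a b c = ∑ c, ∑ a, ∑ b, f a b c := by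
  symm
  rw [Finset.sum_comm]
  exact Finset.sum_congr rfl fun a _ => Finset.sum_comm

theorem k4g_comm4 {M α β γ δ : Type} [AddCommMonoid M] [Fintype α] [Fintype β] [Fintype γ] [Fintype δ]
    (f : α → β → γ → δ → M) : ∑ a, ∑ b, ∑ c, ∑ d, f a b c d = ∑ c, ∑ d, ∑ a, ∑ b, f a b c d := by
  rw [k4g_comm3 (fun a b c => ∑ d, f a b c d)]
  exact Finset.sum_congr rfl fun c _ => k4g_comm3 (fun a b d => f a b c d)

theorem k4g_sum_const {κ κ' α : Type} [Fintype κ] [Fintype κ'] [Fintype α] {M : α → Matrix κ κ' ℝ}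
    {v : ℝ} (h : ∀ a, OpLe (M a) v) (h0 : 0 ≤ v) : OpLe (∑ a, M a) (Fintype.card α * v) := by
  have := OpLe.sum (Finset.univ : Finset α) (M := M) (v := fun _ => v) (fun a _ => h a) fun _ _ => h0
  simpa using this

/-- the part of `gT` of one pair -/
def k4g_T {n : ℕ} (β : Fin 3 → Fin 3 → ℝ) (B B' : Fin n) : Matrix (Fin n → Blk) (Fin n → Bool) ℝ :=
  ∑ x, ∑ y, ∑ o, (β x y * eO o / 2) • two sS B B' (FF o x) (FF o y)

theorem k4g_T_diff {n : ℕ} (β β' : Fin 3 → Fin 3 → ℝ) {B B' C C' : Fin n} (h1 : B < B') (h2 : C < C')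
    (h : ¬ (B = C ∧ B' = C')) : (k4g_T β B B')ᵀ * k4g_T β' C C' = 0 := by
  unfold k4g_T
  simp only [Matrix.transpose_sum, Matrix.transpose_smul, Matrix.sum_mul, Matrix.mul_sum,
    Matrix.smul_mul, Matrix.mul_smul,
    two_tr_mul_two_diff h1 h2 h (sS_FF _ _) (sS_FF _ _) (sS_FF _ _) (sS_FF _ _), smul_zero,
    Finset.sum_const_zero]

theorem k4g_T_same {n : ℕ} (β : Fin 3 → Fin 3 → ℝ) {B B' : Fin n} (h : B ≠ B') :
    (k4g_T β B B')ᵀ * k4g_T β B B' =
      ∑ x, ∑ y, (4 / 3 * β x y ^ 2) • (loc B (1 + nn x) * loc B' (1 + nn y)) := by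
  have key : ∀ x y o, (two sS B B' (FF o x) (FF o y))ᵀ * k4g_T β B B' =
      (β x y * eO o / 2 * (16 / 9)) • (loc B (1 + nn x) * loc B' (1 + nn y)) := by
    intro x y o
    unfold k4g_T
    simp only [Matrix.mul_sum, Matrix.mul_smul, two_tr_mul_two_same h sS_orth, FF_gram]
    rw [Finset.sum_eq_single x, Finset.sum_eq_single y, Finset.sum_eq_single o]
    · simp only [and_self, if_true, loc_smul, Matrix.smul_mul, Matrix.mul_smul, smul_smul]
      congr 1
      ring
    · intro o' _ ho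
      simp [ho.symm, loc_zero]
    · simp
    · intro y' _ hy
      simp [hy.symm, loc_zero]
    · simp
    · intro x' _ hx
      simp [hx.symm, loc_zero]
    · simp
  conv_lhs => arg 1; unfold k4g_T
  simp only [Matrix.transpose_sum, Matrix.transpose_smul, Matrix.sum_mul, Matrix.smul_mul, key,
    smul_smul, ← Finset.sum_smul]
  refine Finset.sum_congr rfl fun x _ => Finset.sum_congr rfl fun y _ => ?_
  congr 1
  rw [Fin.sum_univ_three]
  have h0 := eO_mul_self 0
  have h1 := eO_mul_self 1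
  have h2 := eO_mul_self 2
  linear_combination (4 / 9 * β x y ^ 2) * (h0 + h1 + h2)

theorem k4g_gT (n : ℕ) (β : Fin n → Fin n → Fin 3 → Fin 3 → ℝ) :
    gT n β = ∑ B, ∑ B', if B < B' then k4g_T (β B B') B B' else 0 := rfl

theorem gS_orth (n : ℕ) : (gS n)ᵀ * gS n = 1 := by
  unfold gS
  rw [tens_transpose, tens_mul]
  simp only [sS_orth]
  exact tens_one

theorem gH0_transpose (n : ℕ) : (gH0 n)ᵀ = gH0 n := by
  simp only [gH0, Matrix.transpose_smul, Matrix.transpose_sum, loc_transpose, h0_transpose]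

/-- `loc_mul_tens`, `h0_mul_sS`, `tens_eq_zero` -/
theorem gH0_mul_gS (n : ℕ) : gH0 n * gS n = 0 := by
  unfold gH0 gS
  rw [Matrix.smul_mul, Matrix.sum_mul, Finset.sum_eq_zero, smul_zero]
  intro B _
  rw [loc_mul_tens]
  exact tens_eq_zero _ B (by simp [h0_mul_sS])

/-- `gS * gSᵀ = tens fun _ => sS * sSᵀ`; `proj_sum`, `loc_form_mono` with `h0_gap`, `loc_smul`. -/
theorem gH0_gap (n : ℕ) (u : (Fin n → Blk) → ℝ) :
    u ⬝ᵥ u - u ⬝ᵥ (gS n * (gS n)ᵀ) *ᵥ u ≤ u ⬝ᵥ gH0 n *ᵥ u := by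
  have e : gS n * (gS n)ᵀ = tens fun _ : Fin n => sS * sSᵀ := by
    unfold gS
    rw [tens_transpose, tens_mul]
  have h := proj_sum (fun _ : Fin n => sS * sSᵀ) (fun _ => by simp)
    (fun _ => by rw [Matrix.mul_assoc, ← Matrix.mul_assoc sSᵀ, sS_orth, Matrix.one_mul]) u
  rw [e]
  refine h.trans ?_
  unfold gH0
  rw [Finset.smul_sum, Matrix.sum_mulVec, dotProduct_sum]
  refine Finset.sum_le_sum fun B _ => ?_
  rw [← loc_smul]
  exact loc_form_mono B h0_gap u

/-- `loc_transpose`, `pO_transpose`, `loc_smul`, `eO_mul_self`, `loc_comm` -/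
theorem cross_transpose {n : ℕ} {B B' : Fin n} (h : B ≠ B') (a b : Fin 4) :
    (cross B a B' b)ᵀ = cross B a B' b := by
  unfold cross
  rw [Matrix.transpose_smul, Matrix.transpose_sum]
  congr 1
  refine Finset.sum_congr rfl fun o _ => ?_
  rw [Matrix.transpose_smul, Matrix.transpose_mul, loc_transpose, loc_transpose, loc_transpose,
    loc_transpose, pO_transpose, loc_smul, loc_smul, loc_smul, loc_smul, Matrix.smul_mul,
    Matrix.mul_smul, smul_smul (eO o) (eO o) (_ * _), eO_mul_self, one_smul, loc_comm h]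

/-- `OpLe.loc`, `OpLe.of_orth (pO_orth o)`, `OpLe.mul`, `OpLe.sum`, `OpLe.smul` -/
theorem cross_opLe {n : ℕ} (B B' : Fin n) (a b : Fin 4) : OpLe (cross B a B' b) (3 / 2) := by
  have h1 : ∀ (C : Fin n) (c : Fin 4) (o : Fin 3), OpLe (loc C (loc c (pO o))) 1 := fun C c o =>
    ((OpLe.of_orth (pO_orth o)).loc c).loc C
  have h2 : ∀ o, OpLe (eO o • (loc B (loc a (pO o)) * loc B' (loc b (pO o)))) 1 := fun o => by
    have h3 : |eO o| = 1 := by fin_cases o <;> simp [eO]
    have := ((h1 B a o).mul (h1 B' b o)).smul (eO o)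
    rwa [h3, one_mul, one_mul] at this
  have h3 := (k4g_sum_const h2 zero_le_one).smul (1 / 2)
  refine h3.mono (by positivity) (le_of_eq ?_)
  rw [Fintype.card_fin, abs_of_pos (by norm_num)]
  norm_num

theorem gV_transpose (n : ℕ) (γ : Fin n → Fin 3 → ℝ) (β : Fin n → Fin n → Fin 3 → Fin 3 → ℝ) (A : ℝ) :
    (gV n γ β A)ᵀ = gV n γ β A := by
  unfold gV
  simp only [Matrix.transpose_add, Matrix.transpose_sum, Matrix.transpose_smul, loc_transpose,
    swapMat_transpose]
  congr 1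
  refine Finset.sum_congr rfl fun B _ => Finset.sum_congr rfl fun B' _ => ?_
  split_ifs with h
  · simp only [Matrix.transpose_sum, Matrix.transpose_smul, cross_transpose h.ne]
  · rfl

theorem gV_opLe (n : ℕ) {γ : Fin n → Fin 3 → ℝ} {β : Fin n → Fin n → Fin 3 → Fin 3 → ℝ} {A g al : ℝ}
    (hg0 : 0 ≤ g) (hal0 : 0 ≤ al) (hg : ∀ B x, |γ B x| ≤ g)
    (hal : ∀ B B' a b, |alR (β B B') A a b| ≤ al) :
    OpLe (gV n γ β A) (3 * n * g + 24 * n ^ 2 * al) := by
  have h1 : ∀ (B : Fin n) (x : Fin 3),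
      OpLe (γ B x • loc B (swapMat (0 : Fin 4) x.succ : Matrix Blk Blk ℝ)) g := fun B x =>
    (((OpLe.swapMat (0 : Fin 4) x.succ).loc B).smul (γ B x)).mono (by positivity)
      (by rw [mul_one]; exact hg B x)
  have h2 : ∀ (B B' : Fin n) (a b : Fin 4),
      OpLe (alR (β B B') A a b • cross B a B' b) (al * (3 / 2)) := fun B B' a b =>
    ((cross_opLe B B' a b).smul _).mono (by positivity)
      (mul_le_mul_of_nonneg_right (hal B B' a b) (by norm_num))
  have h3 : ∀ B B' : Fin n, OpLe (if B < B' then ∑ a, ∑ b, alR (β B B') A a b • cross B a B' b else 0)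
      (24 * al) := fun B B' => by
    split_ifs
    · refine (k4g_sum_const (fun a => k4g_sum_const (h2 B B' a) (by positivity))
        (by positivity)).mono (by positivity) (le_of_eq ?_)
      rw [Fintype.card_fin]
      push_cast
      ring
    · exact OpLe.zero _
  have h4 := k4g_sum_const (fun B => k4g_sum_const (h1 B) hg0) (by positivity)
  have h5 := k4g_sum_const (fun B => k4g_sum_const (h3 B) (by positivity)) (by positivity)
  refine (h4.add h5 (by positivity) (by positivity)).mono (by positivity) (le_of_eq ?_)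
  simp only [Fintype.card_fin]
  push_cast
  ring

/-- One pair of blocks.  By `loc_loc_mul_tens` the left side is
`∑ a b o, (alR a b * eO o / 2) • two sS B B' (O_a sS) (O_b sS)`; the constant part `A` of `alR` gives
`two sS B B' (∑ a, 1 • O_a sS) (∑ b, 1 • O_b sS) = 0` (`two_sum`, `sum_pO_sS`, `two_zero_left`), the rest is
`two_sum` for `FF o x`, `FF o y`. -/
theorem pair_mul_gS {n : ℕ} {B B' : Fin n} (h : B ≠ B') (β : Fin 3 → Fin 3 → ℝ) (A : ℝ) :
    (∑ a, ∑ b, alR β A a b • cross B a B' b) * gS n =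
      ∑ x, ∑ y, ∑ o, (β x y * eO o / 2) • two sS B B' (FF o x) (FF o y) := by
  set t : Fin 3 → Fin 4 → Fin 4 → Matrix (Fin n → Blk) (Fin n → Bool) ℝ := fun o a b =>
    two sS B B' (loc a (pO o) * sS) (loc b (pO o) * sS) with ht
  have e1 : ∀ a b, cross B a B' b * gS n = ∑ o, (eO o / 2) • t o a b := fun a b => by
    unfold cross gS
    rw [Matrix.smul_mul, Matrix.sum_mul, Finset.smul_sum]
    refine Finset.sum_congr rfl fun o _ => ?_
    rw [Matrix.smul_mul, loc_loc_mul_tens h, smul_smul]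
    congr 1
    ring
  have e2 : ∀ o, ∑ a, ∑ b, t o a b = 0 := fun o => by
    have := two_sum sS h (fun _ : Fin 4 => (1 : ℝ)) (fun a => loc a (pO o) * sS)
      (fun _ : Fin 4 => (1 : ℝ)) (fun a => loc a (pO o) * sS)
    simp only [one_smul, mul_one, sum_pO_sS, two_zero_left] at this
    exact this.symm
  have e3 : ∀ o x y : Fin 3, two sS B B' (FF o x) (FF o y) =
      ∑ a : Fin 4, ∑ b : Fin 4, (((kl x a : ℚ) : ℝ) * ((kl y b : ℚ) : ℝ)) • t o a b := fun o x y =>
    two_sum sS h _ _ _ _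
  simp only [Matrix.sum_mul, Matrix.smul_mul, e1, e3, Finset.smul_sum, smul_smul]
  rw [k4g_comm3, k4g_comm3 (fun x y o : Fin 3 => ∑ a : Fin 4, ∑ b : Fin 4,
    (β x y * eO o / 2 * (((kl x a : ℚ) : ℝ) * ((kl y b : ℚ) : ℝ))) • t o a b)]
  refine Finset.sum_congr rfl fun o _ => ?_
  rw [k4g_comm4 (fun (x y : Fin 3) (a b : Fin 4) =>
    (β x y * eO o / 2 * (((kl x a : ℚ) : ℝ) * ((kl y b : ℚ) : ℝ))) • t o a b)]
  have e4 : ∑ a, ∑ b, (A * (eO o / 2)) • t o a b = 0 := by
    simp only [← Finset.smul_sum, e2, smul_zero]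
  simp only [alR, add_mul, add_smul, Finset.sum_add_distrib, e4, add_zero, Finset.sum_mul,
    Finset.sum_smul]
  refine Finset.sum_congr rfl fun a _ => Finset.sum_congr rfl fun b _ =>
    Finset.sum_congr rfl fun x _ => Finset.sum_congr rfl fun y _ => ?_
  congr 1
  ring

/-- `loc_mul_tens_const` with `swap_mul_sS`, and `pair_mul_gS` -/
theorem gV_mul_gS (n : ℕ) (γ : Fin n → Fin 3 → ℝ) (β : Fin n → Fin n → Fin 3 → Fin 3 → ℝ) (A : ℝ) :
    gV n γ β A * gS n = gS n * (∑ B, ∑ x, γ B x • loc B (nn x)) + gT n β := by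
  unfold gV gT
  rw [Matrix.add_mul]
  congr 1
  · simp only [Matrix.sum_mul, Matrix.mul_sum, Matrix.smul_mul, Matrix.mul_smul]
    refine Finset.sum_congr rfl fun B _ => Finset.sum_congr rfl fun x _ => ?_
    congr 1
    exact loc_mul_tens_const B (swap_mul_sS x)
  · rw [Matrix.sum_mul]
    refine Finset.sum_congr rfl fun B _ => ?_
    rw [Matrix.sum_mul]
    refine Finset.sum_congr rfl fun B' _ => ?_
    split_ifs with h
    · exact pair_mul_gS h.ne _ _
    · exact Matrix.zero_mul _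

theorem gS_gT (n : ℕ) (β : Fin n → Fin n → Fin 3 → Fin 3 → ℝ) : (gS n)ᵀ * gT n β = 0 := by
  unfold gT gS
  simp only [Matrix.mul_sum]
  refine Finset.sum_eq_zero fun B _ => Finset.sum_eq_zero fun B' _ => ?_
  split_ifs
  · simp only [Matrix.mul_sum, Matrix.mul_smul, tens_tr_mul_two _ _ _ (sS_FF _ _), smul_zero,
      Finset.sum_const_zero]
  · exact Matrix.mul_zero _

/-- `sum_loc_mul_two` with `h0_mul_sS`, `h0_FF` -/
theorem gH0_gT (n : ℕ) (β : Fin n → Fin n → Fin 3 → Fin 3 → ℝ) :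
    gH0 n * gT n β = (2 : ℝ) • gT n β := by
  unfold gT
  simp only [Matrix.mul_sum, Finset.smul_sum]
  refine Finset.sum_congr rfl fun B _ => Finset.sum_congr rfl fun B' _ => ?_
  split_ifs with h
  · simp only [Matrix.mul_sum, Finset.smul_sum, Matrix.mul_smul]
    refine Finset.sum_congr rfl fun x _ => Finset.sum_congr rfl fun y _ =>
      Finset.sum_congr rfl fun o _ => ?_
    unfold gH0
    rw [Matrix.smul_mul, sum_loc_mul_two h.ne h0_mul_sS (h0_FF o x) (h0_FF o y), smul_smul, smul_smul,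
      smul_smul]
    congr 1
    ring
  · simp

/-- Different pairs are orthogonal (`two_tr_mul_two_diff`, `sS_FF`); for one pair `two_tr_mul_two_same` and
`FF_gram` leave the terms `(x,y,o) = (x',y',o')`, each `(β²/4) (4/3)² (1+n_x) ⊗ (1+n_y)`, three values of `o`. -/
theorem gT_gram (n : ℕ) (β : Fin n → Fin n → Fin 3 → Fin 3 → ℝ) :
    (gT n β)ᵀ * gT n β = ∑ B, ∑ B', if B < B' then
      ∑ x, ∑ y, (4 / 3 * β B B' x y ^ 2) • (loc B (1 + nn x) * loc B' (1 + nn y)) else 0 := by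
  conv_lhs => arg 1; rw [k4g_gT]
  simp only [Matrix.transpose_sum, Matrix.sum_mul]
  refine Finset.sum_congr rfl fun B _ => Finset.sum_congr rfl fun B' _ => ?_
  split_ifs with h
  · rw [k4g_gT, ← k4g_T_same (β B B') h.ne]
    simp only [Matrix.mul_sum]
    rw [Finset.sum_eq_single B, Finset.sum_eq_single B', if_pos h]
    · intro C' _ hC
      split_ifs with h2
      · exact k4g_T_diff _ _ h h2 fun h3 => hC h3.2.symm
      · exact Matrix.mul_zero _
    · simp
    · intro C _ hC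
      refine Finset.sum_eq_zero fun C' _ => ?_
      split_ifs with h2
      · exact k4g_T_diff _ _ h h2 fun h3 => hC h3.1.symm
      · exact Matrix.mul_zero _
    · simp
  · simp

end Crest.Agent.R338
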