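import Crest.Agent.R338.Op

/-! # Third order perturbation theory for the ground energy

`H = Δ • H0 + V`; `K` = unperturbed ground space, `Q` = a complement (inside whatever constraint
space one works in), `d = R V p`.  The effective form is `p⬝Vp - d⬝Vp + d⬝Vd`.

Proof of `pert_no`.  First `Δ |d|² ≤ Δ d⬝H0 d = d⬝Vp ≤ v |d| |p|`, so `|d|² ≤ v²/Δ² |p|²`.
Put `q' = q + d ∈ Q`.  Expanding (symmetry, `H0 p = 0`, `p ⊥ Q`),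
`(p+q)⬝(H - lam)(p+q) = [p⬝Vp - d⬝Vp + d⬝Vd - lam |p|²] - lam |d|² + q'⬝(Δ H0 + V - lam) q'
 - 2 q'⬝(V - lam) d`.  Now `q'⬝(Δ H0 + V - lam)q' ≥ (Δ - 2v)|q'|² ≥ Δ/2 |q'|²`,
`2 |q'⬝(V-lam)d| ≤ Δ/4 |q'|² + 16 v²/Δ |d|²`, and `|p|² ≤ |p+q|²`.
Proof of `pert_yes`: `(p-d)⬝H(p-d) = p⬝Vp - d⬝Vp + d⬝Vd` exactly, `|p-d|² = |p|² + |d|²`. -/

set_option autoImplicit false
set_option linter.dupNamespace false
set_option linter.unusedVariables false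

noncomputable section

namespace Crest.Agent.R338

open Crest.Agent.Lib.PT Matrix

variable {κ : Type} [Fintype κ]

/-- Standing hypotheses. -/
structure PertData (H0 V : Matrix κ κ ℝ) (K Q : Submodule ℝ (κ → ℝ)) (Δ v : ℝ) : Prop where
  symm0 : H0ᵀ = H0
  symmV : Vᵀ = V
  orth : ∀ p ∈ K, ∀ q ∈ Q, p ⬝ᵥ q = 0
  ker : ∀ p ∈ K, H0 *ᵥ p = 0
  gap : ∀ q ∈ Q, q ⬝ᵥ q ≤ q ⬝ᵥ H0 *ᵥ q
  bd : OpLe V v
  v_nonneg : 0 ≤ v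
  Δ_pos : 0 < Δ
  big : 4 * v ≤ Δ

/-- `d` is the first order correction of `p`. -/
def IsCorr (H0 V : Matrix κ κ ℝ) (Q : Submodule ℝ (κ → ℝ)) (Δ : ℝ) (p d : κ → ℝ) : Prop :=
  d ∈ Q ∧ ∀ q ∈ Q, Δ * (q ⬝ᵥ H0 *ᵥ d) = q ⬝ᵥ V *ᵥ p

/-- The third order effective form. -/
def effForm (V : Matrix κ κ ℝ) (p d : κ → ℝ) : ℝ := p ⬝ᵥ V *ᵥ p - d ⬝ᵥ V *ᵥ p + d ⬝ᵥ V *ᵥ d

theorem pert_symm_dot {M : Matrix κ κ ℝ} (hM : Mᵀ = M) (x y : κ → ℝ) :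
    x ⬝ᵥ M *ᵥ y = y ⬝ᵥ M *ᵥ x := by
  rw [Matrix.dotProduct_mulVec, ← Matrix.mulVec_transpose, hM, dotProduct_comm]

theorem pert_expand {H0 V : Matrix κ κ ℝ} {K Q : Submodule ℝ (κ → ℝ)} {Δ v : ℝ}
    (h : PertData H0 V K Q Δ v) {p r d : κ → ℝ} (hp : p ∈ K) (hr : r ∈ Q)
    (hd : IsCorr H0 V Q Δ p d) :
    (p + (r - d)) ⬝ᵥ (Δ • H0 + V) *ᵥ (p + (r - d)) =
      effForm V p d + Δ * (r ⬝ᵥ H0 *ᵥ r) + r ⬝ᵥ V *ᵥ r - 2 * (r ⬝ᵥ V *ᵥ d) ∧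
    (p + (r - d)) ⬝ᵥ (p + (r - d)) = p ⬝ᵥ p + (r ⬝ᵥ r - 2 * (r ⬝ᵥ d) + d ⬝ᵥ d) := by
  have h0 := h.ker p hp
  have a1 : p ⬝ᵥ H0 *ᵥ r = 0 := by rw [pert_symm_dot h.symm0, h0, dotProduct_zero]
  have a2 : p ⬝ᵥ H0 *ᵥ d = 0 := by rw [pert_symm_dot h.symm0, h0, dotProduct_zero]
  have a3 := pert_symm_dot h.symm0 d r
  have a4 := pert_symm_dot h.symmV p r
  have a5 := pert_symm_dot h.symmV p d
  have a6 := pert_symm_dot h.symmV d r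
  have b1 := hd.2 r hr
  have b2 := hd.2 d hd.1
  have c1 := h.orth p hp r hr
  have c2 := h.orth p hp d hd.1
  have c3 := dotProduct_comm r p
  have c4 := dotProduct_comm d p
  have c5 := dotProduct_comm d r
  constructor
  · simp only [effForm, Matrix.add_mulVec, Matrix.smul_mulVec, Matrix.mulVec_add,
      Matrix.mulVec_sub, h0, add_dotProduct, sub_dotProduct, dotProduct_add, dotProduct_sub,
      dotProduct_smul, smul_eq_mul, smul_zero, dotProduct_zero, a1, a2, a3, a4, a5, a6]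
    linear_combination b2 - 2 * b1
  · simp only [add_dotProduct, sub_dotProduct, dotProduct_add, dotProduct_sub, c1, c2, c3, c4, c5]
    ring

theorem pert_corr_le {H0 V : Matrix κ κ ℝ} {K Q : Submodule ℝ (κ → ℝ)} {Δ v : ℝ}
    (h : PertData H0 V K Q Δ v) {p d : κ → ℝ} (hd : IsCorr H0 V Q Δ p d) :
    d ⬝ᵥ d ≤ v ^ 2 / Δ ^ 2 * (p ⬝ᵥ p) := by
  have h1 := h.gap d hd.1
  have h2 := hd.2 d hd.1
  have h3 := h.bd.dot_sq_le d p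
  have hD := dot_self_nonneg d
  have hP := dot_self_nonneg p
  have hΔ := h.Δ_pos
  have h4 : Δ * (d ⬝ᵥ d) ≤ d ⬝ᵥ V *ᵥ p := h2 ▸ mul_le_mul_of_nonneg_left h1 hΔ.le
  have h5 : (Δ * (d ⬝ᵥ d)) ^ 2 ≤ v ^ 2 * ((d ⬝ᵥ d) * (p ⬝ᵥ p)) :=
    (pow_le_pow_left₀ (by positivity) h4 2).trans h3
  rcases hD.eq_or_lt with h0 | h0
  · rw [← h0]; positivity
  · rw [div_mul_eq_mul_div, le_div_iff₀ (by positivity)]
    refine le_of_mul_le_mul_left ?_ h0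
    nlinarith

theorem pert_no {H0 V : Matrix κ κ ℝ} {K Q : Submodule ℝ (κ → ℝ)} {Δ v lam : ℝ}
    (h : PertData H0 V K Q Δ v) (hl : |lam| ≤ v) {p q d : κ → ℝ} (hp : p ∈ K) (hq : q ∈ Q)
    (hd : IsCorr H0 V Q Δ p d) (he : lam * (p ⬝ᵥ p) ≤ effForm V p d) :
    (lam - (|lam| * v ^ 2 / Δ ^ 2 + 16 * v ^ 4 / Δ ^ 3)) * ((p + q) ⬝ᵥ (p + q)) ≤
      (p + q) ⬝ᵥ (Δ • H0 + V) *ᵥ (p + q) := by
  have hr : q + d ∈ Q := Q.add_mem hq hd.1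
  obtain ⟨e1, e2⟩ := pert_expand h hp hr hd
  have e3 : (p + q) ⬝ᵥ (p + q) = p ⬝ᵥ p + q ⬝ᵥ q := by
    have c1 := h.orth p hp q hq
    have c2 := dotProduct_comm q p
    simp only [add_dotProduct, dotProduct_add, c1, c2]
    ring
  rw [add_sub_cancel_right] at e1 e2
  set r := q + d with hrdef
  have hΔ := h.Δ_pos
  have hv := h.v_nonneg
  have hb := h.big
  have hD := dot_self_nonneg d
  have hP := dot_self_nonneg p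
  have hQ := dot_self_nonneg q
  have hR := dot_self_nonneg r
  have h1 := pert_corr_le h hd
  have h2 : Δ * (r ⬝ᵥ r) ≤ Δ * (r ⬝ᵥ H0 *ᵥ r) := mul_le_mul_of_nonneg_left (h.gap r hr) hΔ.le
  have h3 := (abs_le.1 (h.bd.form_le hv r)).1
  have h4 := h.bd.two_dot_le r d (t := Δ / 4) (by positivity)
  have h5 := two_dot_le r (lam • d) (t := Δ / 4) (by positivity)
  simp only [dotProduct_smul, smul_dotProduct, smul_eq_mul] at h5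
  have hl2 : lam * lam ≤ v ^ 2 := by
    have := abs_le.1 hl
    nlinarith
  have h6 : lam * (lam * (d ⬝ᵥ d)) / (Δ / 4) ≤ v ^ 2 / (Δ / 4) * (d ⬝ᵥ d) := by
    rw [div_mul_eq_mul_div]
    refine div_le_div_of_nonneg_right ?_ (by positivity)
    nlinarith
  have h7 := le_abs_self (r ⬝ᵥ V *ᵥ d)
  have h8 := neg_abs_le (lam * (r ⬝ᵥ d))
  have h9 : lam * (r ⬝ᵥ r) ≤ v * (r ⬝ᵥ r) :=
    mul_le_mul_of_nonneg_right ((le_abs_self _).trans hl) hR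
  have h10 : lam * (d ⬝ᵥ d) ≤ |lam| * (d ⬝ᵥ d) := mul_le_mul_of_nonneg_right (le_abs_self _) hD
  have h11 : 4 * v * (r ⬝ᵥ r) ≤ Δ * (r ⬝ᵥ r) := mul_le_mul_of_nonneg_right hb hR
  have h12 : (|lam| + 2 * (v ^ 2 / (Δ / 4))) * (d ⬝ᵥ d) ≤
      (|lam| * v ^ 2 / Δ ^ 2 + 16 * v ^ 4 / Δ ^ 3) * ((p + q) ⬝ᵥ (p + q)) := by
    calc _ ≤ (|lam| + 2 * (v ^ 2 / (Δ / 4))) * (v ^ 2 / Δ ^ 2 * (p ⬝ᵥ p)) :=
          mul_le_mul_of_nonneg_left h1 (by positivity)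
      _ = (|lam| * v ^ 2 / Δ ^ 2 + 8 * v ^ 4 / Δ ^ 3) * (p ⬝ᵥ p) := by field_simp; ring
      _ ≤ _ := by
          refine mul_le_mul ?_ (by rw [e3]; linarith) hP (by positivity)
          have : 8 * v ^ 4 / Δ ^ 3 ≤ 16 * v ^ 4 / Δ ^ 3 :=
            div_le_div_of_nonneg_right (by nlinarith [pow_nonneg hv 4]) (by positivity)
          linarith
  have h13 : lam * ((p + q) ⬝ᵥ (p + q)) =
      lam * (p ⬝ᵥ p) + (lam * (r ⬝ᵥ r) - 2 * (lam * (r ⬝ᵥ d)) + lam * (d ⬝ᵥ d)) := by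
    rw [e2]; ring
  rw [sub_mul, e1, h13]
  nlinarith

theorem pert_yes {H0 V : Matrix κ κ ℝ} {K Q : Submodule ℝ (κ → ℝ)} {Δ v lam : ℝ}
    (h : PertData H0 V K Q Δ v) {p d : κ → ℝ} (hp : p ∈ K) (hp0 : p ≠ 0)
    (hd : IsCorr H0 V Q Δ p d) (he : effForm V p d ≤ lam * (p ⬝ᵥ p)) :
    p - d ≠ 0 ∧ (p - d) ⬝ᵥ (Δ • H0 + V) *ᵥ (p - d) ≤
      (lam + |lam| * v ^ 2 / Δ ^ 2) * ((p - d) ⬝ᵥ (p - d)) := by
  obtain ⟨e1, e2⟩ := pert_expand h hp Q.zero_mem hd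
  simp only [zero_sub, ← sub_eq_add_neg, zero_dotProduct, mul_zero, add_zero, sub_zero,
    zero_add] at e1 e2
  have hD := dot_self_nonneg d
  have hP := dot_self_pos hp0
  have h1 := pert_corr_le h hd
  have hΔ := h.Δ_pos
  refine ⟨fun h0 => ?_, ?_⟩
  · rw [h0, zero_dotProduct] at e2
    linarith
  · rw [e1, e2]
    have h2 : -lam * (d ⬝ᵥ d) ≤ |lam| * (d ⬝ᵥ d) := mul_le_mul_of_nonneg_right (neg_le_abs _) hD
    have h3 : |lam| * (d ⬝ᵥ d) ≤ |lam| * (v ^ 2 / Δ ^ 2 * (p ⬝ᵥ p)) :=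
      mul_le_mul_of_nonneg_left h1 (abs_nonneg _)
    have h4 : 0 ≤ |lam| * v ^ 2 / Δ ^ 2 * (d ⬝ᵥ d) := by positivity
    have h5 : |lam| * (v ^ 2 / Δ ^ 2 * (p ⬝ᵥ p)) = |lam| * v ^ 2 / Δ ^ 2 * (p ⬝ᵥ p) := by ring
    nlinarith

end Crest.Agent.R338
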