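import Crest.Agent.R338.Word
import Crest.Agent.R338.Pert

/-! # Stage K (`K4.lean`): definitions (owner helper59; do not edit)

Logical qubit `B` = block of four spins.  `sS` = isometry onto the singlets, `nn x` = action of
`swap 0 (x+1)` on the singlets, `kl` = Klein vectors, `FF o x = ∑ a, kl x a • O_a sS`.
Gadget: `(2Δ) • gH0 + gV`; its second order effective Hamiltonian is `gEff` (`K4_Gad`), which is compared
with the target through the normal form `nH` (`K4_Eff`).  `k4map` is the reduction. -/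

set_option autoImplicit false
set_option linter.dupNamespace false

noncomputable section

namespace Crest.Agent.R338

open Crest.Agent.Lib.PT Matrix

/-! ### one block -/

/-- a block of four spins -/
abbrev Blk : Type := Fin 4 → Bool

/-- `X, Z, W = XZ` -/
def pO : Fin 3 → Matrix Bool Bool ℝ := ![pX, pZ, pX * pZ]

/-- signs in `SWAP = (1 + XX + ZZ - WW)/2` -/
def eO : Fin 3 → ℝ := ![1, 1, -1]

/-- The two singlets with integer entries: `(01-10)(01-10)` and `2|0011⟩ + 2|1100⟩ - (01+10)(01+10)`. -/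
def tI (x : Blk) (b : Bool) : ℤ :=
  if b = true then
    (if (x 0).toNat + (x 1).toNat + (x 2).toNat + (x 3).toNat = 2 then (if x 0 = x 1 then 2 else -1)
      else 0)
  else (((x 1).toNat : ℤ) - (x 0).toNat) * (((x 3).toNat : ℤ) - (x 2).toNat)

/-- The isometry onto the singlets (`√3/6 = 1/√12`). -/
def sS : Matrix Blk Bool ℝ :=
  Matrix.of fun x b => (tI x b : ℝ) * (if b = true then Real.sqrt 3 / 6 else 1 / 2)

/-- The logical action of `swap 0 (x+1)`. -/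
def nn : Fin 3 → Matrix Bool Bool ℝ :=
  ![-pZ, (1 / 2 : ℝ) • pZ - (Real.sqrt 3 / 2) • pX, (1 / 2 : ℝ) • pZ + (Real.sqrt 3 / 2) • pX]

/-- The block Hamiltonian (total spin squared). -/
def h0 : Matrix Blk Blk ℝ := ∑ a : Fin 4, ∑ b : Fin 4, if a < b then swapMat a b else 0

/-- Klein vectors. -/
def kl (x a : ℕ) : ℚ := if a = 0 ∨ a = x + 1 then 1 / 2 else -1 / 2

def FF (o x : Fin 3) : Matrix Blk Bool ℝ := ∑ a : Fin 4, ((kl x a : ℚ) : ℝ) • (loc a (pO o) * sS)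

/-! ### many blocks -/

/-- `P` at `i`, `Q` at `j`, `s` elsewhere. -/
def two {ι β γ : Type} [Fintype ι] [DecidableEq ι] (s : Matrix β γ ℝ) (i j : ι) (P Q : Matrix β γ ℝ) :
    Matrix (ι → β) (ι → γ) ℝ :=
  tens fun k => if k = i then P else if k = j then Q else s

/-- `SWAP - 1/2` between the spin `a` of block `B` and the spin `b` of block `B'`. -/
def cross {n : ℕ} (B : Fin n) (a : Fin 4) (B' : Fin n) (b : Fin 4) :
    Matrix (Fin n → Blk) (Fin n → Blk) ℝ :=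
  (1 / 2 : ℝ) • ∑ o : Fin 3, eO o • (loc B (loc a (pO o)) * loc B' (loc b (pO o)))

/-- inter-block couplings -/
def alR (β : Fin 3 → Fin 3 → ℝ) (A : ℝ) (a b : Fin 4) : ℝ :=
  ∑ x : Fin 3, ∑ y : Fin 3, β x y * ((kl x a : ℚ) : ℝ) * ((kl y b : ℚ) : ℝ) + A

def gS (n : ℕ) : Matrix (Fin n → Blk) (Fin n → Bool) ℝ := tens fun _ => sS

def gH0 (n : ℕ) : Matrix (Fin n → Blk) (Fin n → Blk) ℝ := (1 / 2 : ℝ) • ∑ B : Fin n, loc B h0

def gV (n : ℕ) (γ : Fin n → Fin 3 → ℝ) (β : Fin n → Fin n → Fin 3 → Fin 3 → ℝ) (A : ℝ) :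
    Matrix (Fin n → Blk) (Fin n → Blk) ℝ :=
  ∑ B, ∑ x : Fin 3, γ B x • loc B (swapMat (0 : Fin 4) x.succ) +
    ∑ B, ∑ B', if B < B' then ∑ a, ∑ b, alR (β B B') A a b • cross B a B' b else 0

/-- the part of `gV * gS` outside the singlet space -/
def gT (n : ℕ) (β : Fin n → Fin n → Fin 3 → Fin 3 → ℝ) : Matrix (Fin n → Blk) (Fin n → Bool) ℝ :=
  ∑ B, ∑ B', if B < B' then
    ∑ x, ∑ y, ∑ o, (β B B' x y * eO o / 2) • two sS B B' (FF o x) (FF o y) else 0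

/-- the effective Hamiltonian -/
def gEff (n : ℕ) (γ : Fin n → Fin 3 → ℝ) (θ : Fin n → Fin n → Fin 3 → Fin 3 → ℝ) :
    Matrix (Fin n → Bool) (Fin n → Bool) ℝ :=
  ∑ B, ∑ x, γ B x • loc B (nn x) -
    ∑ B, ∑ B', if B < B' then ∑ x, ∑ y, θ B B' x y • (loc B (1 + nn x) * loc B' (1 + nn y)) else 0

/-- normal form of a 2-local Hamiltonian -/
def nH (n : ℕ) (c : ℝ) (G : Fin n → Fin 3 → ℝ) (C : Fin n → Fin n → Fin 3 → Fin 3 → ℝ) :
    Matrix (Fin n → Bool) (Fin n → Bool) ℝ :=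
  c • (1 : Matrix (Fin n → Bool) (Fin n → Bool) ℝ) + ∑ B, ∑ x, G B x • loc B (nn x) +
    ∑ B, ∑ B', if B < B' then ∑ x, ∑ y, C B B' x y • (loc B (nn x) * loc B' (nn y)) else 0

/-- spin `a` of block `B` is the spin number `a + 4 B` -/
def blkEquiv (n : ℕ) : (Fin n → Blk) ≃ (Fin (n * 4) → Bool) :=
  (Equiv.curry (Fin n) (Fin 4) Bool).symm.trans (Equiv.arrowCongr finProdFinEquiv (Equiv.refl Bool))

/-! ### the reduction -/

/-- bounded integer square root -/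
def bsq (R : ℕ) (y : ℚ) : ℕ := (List.range R).countP fun k : ℕ => decide (((k : ℚ) + 1) ^ 2 ≤ y)

/-- coordinates of a letter: `Z = -n₀`, `X = ρ (n₂ - n₁)` for `ρ = 1/√3` -/
def uu {R : Type} [Field R] (ρ : R) (o : Option Bool) (x : ℕ) : R :=
  if o = some false then (if x = 0 then -1 else 0)
  else if o = some true then (if x = 1 then -ρ else if x = 2 then ρ else 0) else 0

/-- 2-local coefficients of `2 H` -/
def CC {R : Type} [Field R] (ρ : R) (ts : List (ℚ × Word)) (p q x y : ℕ) : R :=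
  (ts.map fun t => 2 * (t.1 : R) * uu ρ (t.2.lookup p) x * uu ρ (t.2.lookup q) y).sum

/-- 1-local coefficients of `2 H` -/
def GG {R : Type} [Field R] (ρ : R) (ts : List (ℚ × Word)) (p x : ℕ) : R :=
  (ts.map fun t => if t.2.length = 1 then 2 * (t.1 : R) * uu ρ (t.2.lookup p) x else 0).sum

/-- constant term of `2 H` -/
def c0 (ts : List (ℚ × Word)) : ℚ := (ts.map fun t => if t.2.length = 0 then 2 * t.1 else 0).sum

def k4r (B : ℕ) : ℕ := 10 ^ 9 * B ^ 9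

def k4rho (B : ℕ) : ℚ := (bsq (2 * k4r B) (3 * (k4r B : ℚ) ^ 2) : ℚ) / (3 * k4r B)

def k4beta (B : ℕ) (ts : List (ℚ × Word)) (p q x y : ℕ) : ℕ :=
  bsq (4 * B * k4r B) (3 * (k4r B : ℚ) ^ 2 * (2 * (B : ℚ) ^ 2 - CC (k4rho B) ts p q x y))

def k4theta (B : ℕ) (ts : List (ℚ × Word)) (p q x y : ℕ) : ℚ :=
  (k4beta B ts p q x y : ℚ) ^ 2 / (3 * (k4r B : ℚ) ^ 2)

def k4gamma (B n : ℕ) (ts : List (ℚ × Word)) (p x : ℕ) : ℚ :=
  GG (k4rho B) ts p x +
    ∑ q ∈ Finset.range n, if q = p then 0 else ∑ y ∈ Finset.range 3, k4theta B ts p q x y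

def k4alpha (B : ℕ) (ts : List (ℚ × Word)) (p q a b : ℕ) : ℚ :=
  ∑ x ∈ Finset.range 3, ∑ y ∈ Finset.range 3, (k4beta B ts p q x y : ℚ) * kl x a * kl y b +
    9 * B * k4r B

def k4J (B n : ℕ) (ts : List (ℚ × Word)) (i j : ℕ) : ℚ :=
  if i / 4 = j / 4 then
    (k4r B : ℚ) ^ 2 + (if i % 4 = 0 then k4gamma B n ts (i / 4) (j % 4 - 1) else 0)
  else k4alpha B ts (i / 4) (j / 4) (i % 4) (j % 4)

def k4Th (B n : ℕ) (ts : List (ℚ × Word)) : ℚ :=
  ∑ p ∈ Finset.range n, ∑ q ∈ Finset.range n,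
    if p < q then ∑ x ∈ Finset.range 3, ∑ y ∈ Finset.range 3, k4theta B ts p q x y else 0

def k4Om (B n : ℕ) : ℚ :=
  ∑ p ∈ Finset.range n, ∑ q ∈ Finset.range n, if p < q then 72 * (B : ℚ) * k4r B else 0

def k4tab (B n : ℕ) (ts : List (ℚ × Word)) : List (List ℚ) :=
  (List.range (n * 4)).map fun i => (List.range (n * 4)).map fun j => k4J B n ts i j

def k4map (x : PHI) : SWI :=
  (Un.mk (2 * k4r x.1.n ^ 2), min x.2.1 x.1.n * 4, k4tab x.1.n (min x.2.1 x.1.n) x.2.2.1,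
    2 * x.2.2.2.1 - c0 x.2.2.1 - k4Th x.1.n (min x.2.1 x.1.n) x.2.2.1 + k4Om x.1.n (min x.2.1 x.1.n) + 1 / 2,
    2 * x.2.2.2.2 - c0 x.2.2.1 - k4Th x.1.n (min x.2.1 x.1.n) x.2.2.1 + k4Om x.1.n (min x.2.1 x.1.n) - 1 / 2)

end Crest.Agent.R338
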