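import Crest.Agent.R338.K4_Defs

/-! # Stage K: finite facts about one block of four spins (all checked numerically)

Everything is an identity between small explicit matrices.  Suggested route: integer versions
(`tI`, integer Paulis `pOI o : Bool → Bool → ℤ`, `2 * kl = ±1`,
`FI o x u b = ∑ a, (2 kl x a) * ∑ c, pOI o (u a) c * tI (Function.update u a c) b`) checked by `decide`
(`decide +kernel` if slow; or `fin_cases` / `Fin.forall_fin_succ_pi`-style case split on the four bits and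
`simp`), then cast: `(loc a A * M) u b = ∑ c, A (u a) c * M (update u a c) b` (`loc_mulVec` for the
column `b`), `(swapMat i j * M) u b = M (u ∘ swap i j) b` (`swapMat_mulVec`), and
`sS u b = tI u b * w b`, `w false = 1/2`, `w true = √3/6`, `√3 * √3 = 3`.
Integer Gram matrices (rows/columns `false, true`): `tIᵀ tI = diag(4, 12)`;
`FIᵀ FI = [[0,0],[0,128]], [[32,-32],[-32,32]], [[32,32],[32,32]]` for `x = 0,1,2` (any `o`), zero for
`(o,x) ≠ (o',y)`.  Prefix helper lemmas with `k4f_`. -/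

set_option autoImplicit false
set_option linter.dupNamespace false
set_option linter.unusedVariables false

noncomputable section

namespace Crest.Agent.R338

open Crest.Agent.Lib.PT Matrix

def k4f_p (o : Fin 3) (a c : Bool) : ℤ :=
  if o = 0 then (if a = c then 0 else 1)
  else if o = 1 then (if a = c then (if a = true then -1 else 1) else 0)
  else (if a = c then 0 else if a = true then 1 else -1)

def k4f_k (x a : ℕ) : ℤ := if a = 0 ∨ a = x + 1 then 1 else -1

def k4f_L (o : Fin 3) (a : Fin 4) (u : Blk) (b : Bool) : ℤ :=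
  k4f_p o (u a) true * tI (Function.update u a true) b +
    k4f_p o (u a) false * tI (Function.update u a false) b

def k4f_F (o x : Fin 3) (u : Blk) (b : Bool) : ℤ :=
  k4f_k x 0 * k4f_L o 0 u b + k4f_k x 1 * k4f_L o 1 u b + k4f_k x 2 * k4f_L o 2 u b +
    k4f_k x 3 * k4f_L o 3 u b

def k4f_S {M : Type} [AddCommMonoid M] (f : Blk → M) : M :=
  ∑ b0 : Bool, ∑ b1 : Bool, ∑ b2 : Bool, ∑ b3 : Bool, f ![b0, b1, b2, b3]

def k4f_h {M : Type} [Add M] (f : Blk → M) (u : Blk) : M :=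
  f (u ∘ Equiv.swap 0 1) + f (u ∘ Equiv.swap 0 2) + f (u ∘ Equiv.swap 0 3) +
    f (u ∘ Equiv.swap 1 2) + f (u ∘ Equiv.swap 1 3) + f (u ∘ Equiv.swap 2 3)

def k4f_N (x : Fin 3) (c b : Bool) : ℤ :=
  if x = 0 then (if c = b then (if b = true then 2 else -2) else 0)
  else if c = b then (if b = true then -1 else 1)
  else (if b = true then 3 else 1) * (if x = 1 then -1 else 1)

def k4f_G (x : Fin 3) (c b : Bool) : ℤ :=
  if x = 0 then (if c = true ∧ b = true then 128 else 0)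
  else if c = b then 32 else if x = 1 then -32 else 32

def k4f_wt (u : Blk) : ℕ := (u 0).toNat + (u 1).toNat + (u 2).toNat + (u 3).toNat

theorem k4f_I1 : ∀ b b' : Bool, k4f_S (fun u => tI u b * tI u b') =
    if b = b' then (if b = true then 12 else 4) else 0 := by decide +kernel

theorem k4f_I2 : ∀ b0 b1 b2 b3 b : Bool, k4f_h (fun u => tI u b) ![b0, b1, b2, b3] = 0 := by
  decide +kernel

theorem k4f_I3 : ∀ (x : Fin 3) (b0 b1 b2 b3 b : Bool),
    2 * tI (![b0, b1, b2, b3] ∘ Equiv.swap 0 x.succ) b =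
      tI ![b0, b1, b2, b3] true * k4f_N x true b + tI ![b0, b1, b2, b3] false * k4f_N x false b := by
  decide +kernel

theorem k4f_I4 : ∀ (o : Fin 3) (b0 b1 b2 b3 b : Bool),
    k4f_L o 0 ![b0, b1, b2, b3] b + k4f_L o 1 ![b0, b1, b2, b3] b + k4f_L o 2 ![b0, b1, b2, b3] b +
      k4f_L o 3 ![b0, b1, b2, b3] b = 0 := by decide +kernel

theorem k4f_I5 : ∀ (o x : Fin 3) (c b : Bool), k4f_S (fun u => tI u c * k4f_F o x u b) = 0 := by
  decide +kernel

theorem k4f_I6 : ∀ (o x : Fin 3) (b0 b1 b2 b3 b : Bool),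
    k4f_h (fun u => k4f_F o x u b) ![b0, b1, b2, b3] = 2 * k4f_F o x ![b0, b1, b2, b3] b := by
  decide +kernel

theorem k4f_I7 : ∀ (o x o' y : Fin 3) (c b : Bool),
    k4f_S (fun u => k4f_F o x u c * k4f_F o' y u b) = if o = o' ∧ x = y then k4f_G x c b else 0 := by
  decide +kernel


theorem k4f_eta (u : Blk) : ![u 0, u 1, u 2, u 3] = u := by
  funext i
  fin_cases i <;> rfl

theorem k4f_sum {M : Type} [AddCommMonoid M] (f : Blk → M) : ∑ u, f u = k4f_S f := by
  let e : Bool × Bool × Bool × Bool ≃ Blk :=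
    { toFun := fun p => ![p.1, p.2.1, p.2.2.1, p.2.2.2]
      invFun := fun u => (u 0, u 1, u 2, u 3)
      left_inv := fun p => rfl
      right_inv := fun u => k4f_eta u }
  rw [← Equiv.sum_comp e f]
  simp only [Fintype.sum_prod_type]
  rfl

theorem k4f_S_cast (f : Blk → ℤ) : ((k4f_S f : ℤ) : ℝ) = ∑ u, (f u : ℝ) := by
  rw [← k4f_sum]
  push_cast
  rfl

/-- normalisation of the columns -/
def k4f_w (b : Bool) : ℝ := if b = true then Real.sqrt 3 / 6 else 1 / 2

theorem k4f_sS (u : Blk) (b : Bool) : sS u b = (tI u b : ℝ) * k4f_w b := rfl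

theorem k4f_s3 : Real.sqrt 3 * Real.sqrt 3 = 3 := Real.mul_self_sqrt (by norm_num)

theorem k4f_p_cast (o : Fin 3) (a c : Bool) : pO o a c = (k4f_p o a c : ℝ) := by
  fin_cases o <;> cases a <;> cases c <;> simp [pO, k4f_p, pX, pZ, Matrix.mul_apply]

theorem k4f_k_cast (x a : ℕ) : ((kl x a : ℚ) : ℝ) = (k4f_k x a : ℝ) / 2 := by
  unfold kl k4f_k
  split_ifs <;> norm_num

theorem k4f_loc (a : Fin 4) (A : Matrix Bool Bool ℝ) (M : Matrix Blk Bool ℝ) (u : Blk) (b : Bool) :
    (loc a A * M) u b = A (u a) true * M (Function.update u a true) b +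
      A (u a) false * M (Function.update u a false) b := by
  have h := loc_mulVec a A (fun v => M v b) u
  rw [Fintype.sum_bool] at h
  exact h

theorem k4f_swap (i j : Fin 4) (M : Matrix Blk Bool ℝ) (u : Blk) (b : Bool) :
    ((swapMat i j : Matrix Blk Blk ℝ) * M) u b = M (u ∘ Equiv.swap i j) b :=
  swapMat_mulVec i j (fun v => M v b) u

theorem k4f_h0 : h0 = swapMat 0 1 + swapMat 0 2 + swapMat 0 3 + swapMat 1 2 + swapMat 1 3 +
    swapMat 2 3 := by
  unfold h0
  simp [Fin.sum_univ_four, add_assoc]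

theorem k4f_h0_mul (M : Matrix Blk Bool ℝ) (u : Blk) (b : Bool) :
    (h0 * M) u b = k4f_h (fun v => M v b) u := by
  rw [k4f_h0]
  simp only [Matrix.add_mul, Matrix.add_apply, k4f_swap, k4f_h]

theorem k4f_h0_mulVec (ψ : Blk → ℝ) (u : Blk) : (h0 *ᵥ ψ) u = k4f_h ψ u := by
  rw [k4f_h0]
  simp only [Matrix.add_mulVec, Pi.add_apply, swapMat_mulVec, k4f_h]

theorem k4f_h_cast (f : Blk → ℤ) (c : ℝ) (u : Blk) :
    k4f_h (fun v => (f v : ℝ) * c) u = ((k4f_h f u : ℤ) : ℝ) * c := by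
  unfold k4f_h
  push_cast
  ring

theorem k4f_L_cast (o : Fin 3) (a : Fin 4) (u : Blk) (b : Bool) :
    (loc a (pO o) * sS) u b = (k4f_L o a u b : ℝ) * k4f_w b := by
  rw [k4f_loc, k4f_sS, k4f_sS, k4f_p_cast, k4f_p_cast, k4f_L]
  push_cast
  ring

theorem k4f_F_cast (o x : Fin 3) (u : Blk) (b : Bool) :
    FF o x u b = (k4f_F o x u b : ℝ) * (k4f_w b / 2) := by
  unfold FF
  rw [Fin.sum_univ_four]
  simp only [Matrix.add_apply, Matrix.smul_apply, smul_eq_mul, k4f_L_cast, k4f_k_cast, k4f_F]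
  push_cast
  simp only [Fin.val_zero, Fin.val_one, Fin.val_two, show ((3 : Fin 4) : ℕ) = 3 from rfl]
  ring

theorem k4f_N_cast (x : Fin 3) (c b : Bool) :
    k4f_w c * nn x c b = (k4f_N x c b : ℝ) * k4f_w b / 2 := by
  have h := k4f_s3
  fin_cases x <;> cases c <;> cases b <;> simp [nn, k4f_N, k4f_w, pX, pZ] <;> nlinarith

theorem k4f_G_cast (x : Fin 3) (c b : Bool) :
    (k4f_G x c b : ℝ) * (k4f_w c / 2 * (k4f_w b / 2)) = ((4 / 3 : ℝ) • (1 + nn x)) c b := by
  have h := k4f_s3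
  fin_cases x <;> cases c <;> cases b <;> simp [nn, k4f_G, k4f_w, pX, pZ] <;> nlinarith

theorem k4f_s01 (a b c d : Bool) : ![a, b, c, d] ∘ Equiv.swap (0 : Fin 4) 1 = ![b, a, c, d] := by
  funext i; fin_cases i <;> rfl
theorem k4f_s02 (a b c d : Bool) : ![a, b, c, d] ∘ Equiv.swap (0 : Fin 4) 2 = ![c, b, a, d] := by
  funext i; fin_cases i <;> rfl
theorem k4f_s03 (a b c d : Bool) : ![a, b, c, d] ∘ Equiv.swap (0 : Fin 4) 3 = ![d, b, c, a] := by
  funext i; fin_cases i <;> rfl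
theorem k4f_s12 (a b c d : Bool) : ![a, b, c, d] ∘ Equiv.swap (1 : Fin 4) 2 = ![a, c, b, d] := by
  funext i; fin_cases i <;> rfl
theorem k4f_s13 (a b c d : Bool) : ![a, b, c, d] ∘ Equiv.swap (1 : Fin 4) 3 = ![a, d, c, b] := by
  funext i; fin_cases i <;> rfl
theorem k4f_s23 (a b c d : Bool) : ![a, b, c, d] ∘ Equiv.swap (2 : Fin 4) 3 = ![a, b, d, c] := by
  funext i; fin_cases i <;> rfl

theorem k4f_gap (u : Blk → ℝ) :
    k4f_S (fun v => u v * u v) - (k4f_S (fun v => (tI v true : ℝ) * u v) ^ 2 / 12 +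
      k4f_S (fun v => (tI v false : ℝ) * u v) ^ 2 / 4) ≤ k4f_S (fun v => u v * k4f_h u v) / 2 := by
  have t : ∀ a b c d e : Bool, tI ![a, b, c, d] e =
      if e = true then (if a.toNat + b.toNat + c.toNat + d.toNat = 2 then (if a = b then 2 else -1) else 0)
      else ((b.toNat : ℤ) - a.toNat) * ((d.toNat : ℤ) - c.toNat) := fun _ _ _ _ _ => rfl
  simp only [k4f_S, Fintype.sum_bool, k4f_h, k4f_s01, k4f_s02, k4f_s03, k4f_s12, k4f_s13, k4f_s23, t]
  norm_num
  linarith [sq_nonneg (u ![false, false, false, false]), sq_nonneg (u ![true, true, true, true]),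
    sq_nonneg (u ![true, false, false, false] + u ![false, true, false, false] +
      u ![false, false, true, false] + u ![false, false, false, true]),
    sq_nonneg (u ![false, true, true, true] + u ![true, false, true, true] +
      u ![true, true, false, true] + u ![true, true, true, false]),
    sq_nonneg (u ![true, true, false, false] + u ![true, false, true, false] +
      u ![true, false, false, true] + u ![false, true, true, false] + u ![false, true, false, true] +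
      u ![false, false, true, true])]

theorem sS_orth : sSᵀ * sS = 1 := by
  ext b b'
  have h := congrArg (fun z : ℤ => (z : ℝ)) (k4f_I1 b b')
  simp only [k4f_S_cast] at h
  have e : (sSᵀ * sS) b b' = (∑ u, ((tI u b * tI u b' : ℤ) : ℝ)) * (k4f_w b * k4f_w b') := by
    rw [Matrix.mul_apply, Finset.sum_mul]
    refine Finset.sum_congr rfl fun u _ => ?_
    rw [Matrix.transpose_apply, k4f_sS, k4f_sS]
    push_cast
    ring
  have h3 := k4f_s3
  rw [e, h]
  cases b <;> cases b' <;> simp [k4f_w] <;> nlinarith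

theorem h0_transpose : h0ᵀ = h0 := by
  rw [k4f_h0]
  simp only [Matrix.transpose_add, swapMat_transpose]

theorem h0_mul_sS : h0 * sS = 0 := by
  ext u b
  rw [k4f_h0_mul]
  simp only [k4f_sS]
  rw [k4f_h_cast (fun v => tI v b), ← k4f_eta u, k4f_I2]
  simp

/-- Entrywise `6 h0 - 12 + (3 t₀ t₀ᵀ + t₁ t₁ᵀ) = 24 [wt u = wt v] / choose 4 (wt u)` (`wt` = number of `true`
bits), i.e. `h0 - 2 (1 - sS sSᵀ) = ∑ k, c k • e k (e k)ᵀ` with `c = (4, 1, 2/3, 1, 4)` and `e k` the indicator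
vector of `wt = k`; so the difference of the two forms is `∑ k, (c k / 2) (e k ⬝ᵥ u)² ≥ 0`. -/
theorem h0_gap (u : Blk → ℝ) :
    u ⬝ᵥ (1 - sS * sSᵀ) *ᵥ u ≤ u ⬝ᵥ ((1 / 2 : ℝ) • h0) *ᵥ u := by
  have e1 : ∀ b, (sSᵀ *ᵥ u) b = k4f_S (fun v => (tI v b : ℝ) * u v) * k4f_w b := fun b => by
    rw [← k4f_sum (fun v => (tI v b : ℝ) * u v), Finset.sum_mul, Matrix.mulVec, dotProduct]
    refine Finset.sum_congr rfl fun v _ => ?_
    rw [Matrix.transpose_apply, k4f_sS]
    ring
  have e2 : u ⬝ᵥ (1 - sS * sSᵀ) *ᵥ u = u ⬝ᵥ u - (sSᵀ *ᵥ u) ⬝ᵥ (sSᵀ *ᵥ u) := by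
    rw [Matrix.sub_mulVec, Matrix.one_mulVec, dotProduct_sub, ← Matrix.mulVec_mulVec,
      Matrix.dotProduct_mulVec, ← Matrix.mulVec_transpose]
  have e3 : u ⬝ᵥ ((1 / 2 : ℝ) • h0) *ᵥ u = k4f_S (fun v => u v * k4f_h u v) / 2 := by
    rw [Matrix.smul_mulVec, dotProduct_smul, ← k4f_sum, smul_eq_mul]
    simp only [dotProduct, k4f_h0_mulVec]
    ring
  have e4 : (sSᵀ *ᵥ u) ⬝ᵥ (sSᵀ *ᵥ u) = k4f_S (fun v => (tI v true : ℝ) * u v) ^ 2 / 12 +
      k4f_S (fun v => (tI v false : ℝ) * u v) ^ 2 / 4 := by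
    have h3 := k4f_s3
    rw [dotProduct, Fintype.sum_bool, e1, e1]
    simp only [k4f_w, if_true, Bool.false_eq_true, if_false]
    linear_combination (k4f_S (fun v => (tI v true : ℝ) * u v) ^ 2 / 36) * h3
  have e5 : u ⬝ᵥ u = k4f_S (fun v => u v * u v) := k4f_sum _
  rw [e2, e3, e4, e5]
  exact k4f_gap u

theorem swap_mul_sS (x : Fin 3) :
    (swapMat (0 : Fin 4) x.succ : Matrix Blk Blk ℝ) * sS = sS * nn x := by
  ext u b
  have h := congrArg (fun z : ℤ => (z : ℝ)) (k4f_I3 x (u 0) (u 1) (u 2) (u 3) b)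
  simp only [k4f_eta] at h
  push_cast at h
  rw [k4f_swap, Matrix.mul_apply, Fintype.sum_bool, k4f_sS, k4f_sS, k4f_sS, mul_assoc, mul_assoc,
    k4f_N_cast, k4f_N_cast]
  linear_combination (k4f_w b / 2) * h

theorem sum_pO_sS (o : Fin 3) : ∑ a : Fin 4, loc a (pO o) * sS = 0 := by
  ext u b
  have h := congrArg (fun z : ℤ => (z : ℝ)) (k4f_I4 o (u 0) (u 1) (u 2) (u 3) b)
  simp only [k4f_eta] at h
  push_cast at h
  rw [Fin.sum_univ_four]
  simp only [Matrix.add_apply, k4f_L_cast, Matrix.zero_apply]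
  linear_combination (k4f_w b) * h

theorem sS_FF (o x : Fin 3) : sSᵀ * FF o x = 0 := by
  ext c b
  have h := congrArg (fun z : ℤ => (z : ℝ)) (k4f_I5 o x c b)
  simp only [k4f_S_cast] at h
  have e : (sSᵀ * FF o x) c b =
      (∑ u, ((tI u c * k4f_F o x u b : ℤ) : ℝ)) * (k4f_w c * (k4f_w b / 2)) := by
    rw [Matrix.mul_apply, Finset.sum_mul]
    refine Finset.sum_congr rfl fun u _ => ?_
    rw [Matrix.transpose_apply, k4f_sS, k4f_F_cast]
    push_cast
    ring
  rw [e, h]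
  simp

theorem h0_FF (o x : Fin 3) : h0 * FF o x = (2 : ℝ) • FF o x := by
  ext u b
  rw [k4f_h0_mul, Matrix.smul_apply]
  simp only [k4f_F_cast]
  rw [k4f_h_cast (fun v => k4f_F o x v b), ← k4f_eta u, k4f_I6, smul_eq_mul]
  push_cast
  ring

theorem FF_gram (o x o' y : Fin 3) :
    (FF o x)ᵀ * FF o' y = if o = o' ∧ x = y then (4 / 3 : ℝ) • (1 + nn x) else 0 := by
  ext c b
  have h := congrArg (fun z : ℤ => (z : ℝ)) (k4f_I7 o x o' y c b)
  simp only [k4f_S_cast] at h
  have e : ((FF o x)ᵀ * FF o' y) c b =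
      (∑ u, ((k4f_F o x u c * k4f_F o' y u b : ℤ) : ℝ)) * (k4f_w c / 2 * (k4f_w b / 2)) := by
    rw [Matrix.mul_apply, Finset.sum_mul]
    refine Finset.sum_congr rfl fun u _ => ?_
    rw [Matrix.transpose_apply, k4f_F_cast, k4f_F_cast]
    push_cast
    ring
  rw [e, h]
  split_ifs
  · exact k4f_G_cast x c b
  · simp

theorem nn_sum : ∑ x, nn x = 0 := by
  rw [Fin.sum_univ_three]
  ext a b
  simp [nn]
  ring

theorem nn_transpose (x : Fin 3) : (nn x)ᵀ = nn x := by
  fin_cases x <;>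
    simp [nn, Matrix.transpose_add, Matrix.transpose_sub, Matrix.transpose_smul, pX_transpose,
      pZ_transpose]

theorem nn_mul_self (x : Fin 3) : nn x * nn x = 1 := by
  have h := k4f_s3
  ext a b
  fin_cases x <;> cases a <;> cases b <;> simp [nn, pX, pZ, Matrix.mul_apply] <;> nlinarith

theorem nn_opLe (x : Fin 3) : OpLe (nn x) 1 :=
  OpLe.of_orth (by rw [nn_transpose, nn_mul_self])

theorem letter_eq (b : Bool) :
    letter (some b) = ∑ x : Fin 3, uu (Real.sqrt 3 / 3) (some b) x • nn x := by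
  have h := k4f_s3
  rw [Fin.sum_univ_three]
  ext a c
  cases b <;> cases a <;> cases c <;> simp [letter, uu, nn, pX, pZ] <;> nlinarith

theorem pO_orth (o : Fin 3) : (pO o)ᵀ * pO o = 1 := by
  ext a b
  fin_cases o <;> cases a <;> cases b <;> simp [pO, pX, pZ, Matrix.mul_apply]

/-- `X`, `Z` are symmetric, `W` is antisymmetric. -/
theorem pO_transpose (o : Fin 3) : (pO o)ᵀ = eO o • pO o := by
  ext a b
  fin_cases o <;> cases a <;> cases b <;> simp [pO, eO, pX, pZ, Matrix.mul_apply]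

theorem eO_mul_self (o : Fin 3) : eO o * eO o = 1 := by
  fin_cases o <;> simp [eO]

theorem kl_sum (x : Fin 3) : ∑ a : Fin 4, ((kl x a : ℚ) : ℝ) = 0 := by
  rw [Fin.sum_univ_four]
  fin_cases x <;> simp [kl] <;> norm_num

theorem kl_abs (x a : ℕ) : |kl x a| = 1 / 2 := by
  unfold kl
  split_ifs <;> norm_num [abs_of_pos, abs_of_neg]

end Crest.Agent.R338
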