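import Crest.Agent.R338.K4_Alg
import Crest.Agent.R338.K4_Abs

/-! # Stage K: the gadget theorem -/

set_option autoImplicit false
set_option linter.dupNamespace false
set_option linter.unusedVariables false

noncomputable section

namespace Crest.Agent.R338

open Crest.Agent.Lib.PT Matrix

theorem k4_gadget (n : ℕ) (γ : Fin n → Fin 3 → ℝ) (β : Fin n → Fin n → Fin 3 → Fin 3 → ℝ) (A : ℝ)
    {Δ v lam : ℝ} (hV : OpLe (gV n γ β A) v) (hv : 0 ≤ v) (hΔ : 0 < Δ) (hbig : 2 * v ≤ Δ)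
    (hl : 2 * |lam| ≤ v) :
    (MYes (gEff n γ fun B B' x y => β B B' x y ^ 2 / (3 * Δ)) lam →
      MYes ((2 * Δ) • gH0 n + gV n γ β A) (lam + 6 * v ^ 3 / (2 * Δ) ^ 2)) ∧
    (MNo (gEff n γ fun B B' x y => β B B' x y ^ 2 / (3 * Δ)) lam →
      MNo ((2 * Δ) • gH0 n + gV n γ β A) (lam - 6 * v ^ 3 / (2 * Δ) ^ 2)) := by
  have e : (gEff n γ fun B B' x y => β B B' x y ^ 2 / (3 * Δ)) =
      (∑ B, ∑ x, γ B x • loc B (nn x)) - (2 * (2 * Δ))⁻¹ • ((gT n β)ᵀ * gT n β) := by
    rw [gT_gram]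
    unfold gEff
    congr 1
    simp only [Finset.smul_sum]
    refine Finset.sum_congr rfl fun B _ => Finset.sum_congr rfl fun B' _ => ?_
    split_ifs
    · simp only [Finset.smul_sum, smul_smul]
      refine Finset.sum_congr rfl fun x _ => Finset.sum_congr rfl fun y _ => ?_
      congr 1
      field_simp
      ring
    · simp
  rw [e]
  exact k4_abs (gS n) (gT n β) (gH0 n) (gV n γ β A) _ (gS_orth n) (gH0_transpose n)
    (gV_transpose n γ β A) (gH0_mul_gS n) (gH0_gap n) hV hv (by linarith) (by linarith) two_pos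
    (gV_mul_gS n γ β A) (gS_gT n β) (gH0_gT n β) hl

end Crest.Agent.R338
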