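import Crest.Agent.R338.Kin_F

/-! # Antisymmetrisation contracts the `L²` norm and the Dirichlet integral -/

set_option autoImplicit false
set_option linter.dupNamespace false
set_option linter.unusedVariables false

noncomputable section

namespace Crest.Agent.R338

open MeasureTheory Set
open Crest.MathPhysics.ElectronicCoulomb

variable {n : ℕ}

def kinE (σ : Equiv.Perm (Fin n)) : Fin n × Fin 3 ≃ Fin n × Fin 3 :=
  (Equiv.prodCongr σ (Equiv.refl (Fin 3))).symm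

def kinP (σ : Equiv.Perm (Fin n)) : Config n ≃ₗᵢ[ℝ] Config n :=
  LinearIsometryEquiv.piLpCongrLeft 2 ℝ ℝ (kinE σ)

theorem kinP_apply (σ : Equiv.Perm (Fin n)) (x : Config n) : kinP σ x = permConfig σ x := rfl

theorem kinP_single (σ : Equiv.Perm (Fin n)) (c : Fin n × Fin 3) :
    kinP σ (EuclideanSpace.single c 1) = EuclideanSpace.single (kinE σ c) 1 :=
  EuclideanSpace.piLpCongrLeft_single _ _ _

theorem kinP_mul (σ τ : Equiv.Perm (Fin n)) (x : Config n) :
    permConfig τ (permConfig σ x) = permConfig (σ * τ) x := rfl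

theorem kinP_mp (σ : Equiv.Perm (Fin n)) :
    MeasurePreserving (permConfig σ : Config n → Config n) volume volume :=
  (kinP σ).measurePreserving

theorem kinP_integral (σ : Equiv.Perm (Fin n)) (T : Config n → ℝ) :
    ∫ x, T (permConfig σ x) = ∫ x, T x :=
  (kinP σ).measurePreserving.integral_comp (kinP σ).toHomeomorph.measurableEmbedding T

theorem kinP_cc1 (σ : Equiv.Perm (Fin n)) {f : Config n → ℝ} (hf : Cc1 f) :
    Cc1 fun x => f (permConfig σ x) :=
  ⟨hf.1.comp (kinP σ).contDiff, hf.2.comp_homeomorph (kinP σ).toHomeomorph⟩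

theorem kinP_gradSq (σ : Equiv.Perm (Fin n)) {f : Config n → ℝ} (hf : Cc1 f) (x : Config n) :
    gradSq (fun x => f (permConfig σ x)) x = gradSq f (permConfig σ x) := by
  have h1 : HasFDerivAt (kinP σ) ((kinP σ).toContinuousLinearEquiv : Config n →L[ℝ] Config n) x :=
    (kinP σ).toContinuousLinearEquiv.hasFDerivAt
  have h2 := ((hf.1.differentiable (by norm_num) (kinP σ x)).hasFDerivAt.comp x h1).fderiv
  have h3 : fderiv ℝ (fun x => f (permConfig σ x)) x = (fderiv ℝ f (permConfig σ x)).comp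
      ((kinP σ).toContinuousLinearEquiv : Config n →L[ℝ] Config n) := h2
  unfold gradSq
  rw [h3, ← Equiv.sum_comp (kinE σ)
    (fun c => fderiv ℝ f (permConfig σ x) (EuclideanSpace.single c 1) ^ 2)]
  refine Finset.sum_congr rfl fun c _ => ?_
  rw [← kinP_single]
  rfl

theorem kinN_pos (n : ℕ) : (0 : ℝ) < Fintype.card (Equiv.Perm (Fin n)) := by
  exact_mod_cast Fintype.card_pos

theorem kin_avg (T : Spin n → Config n → ℝ) (hT : ∀ s, Integrable (T s)) :
    (∀ s : Spin n, Integrable fun x => (Fintype.card (Equiv.Perm (Fin n)) : ℝ)⁻¹ *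
      ∑ σ : Equiv.Perm (Fin n), T (fun i => s (σ i)) (permConfig σ x)) ∧
    ∑ s : Spin n, ∫ x, (Fintype.card (Equiv.Perm (Fin n)) : ℝ)⁻¹ *
      ∑ σ : Equiv.Perm (Fin n), T (fun i => s (σ i)) (permConfig σ x) = ∑ s, ∫ x, T s x := by
  have hi : ∀ (s : Spin n) (σ : Equiv.Perm (Fin n)),
      Integrable fun x => T (fun i => s (σ i)) (permConfig σ x) :=
    fun s σ => (kinP_mp σ).integrable_comp_of_integrable (hT _)
  refine ⟨fun s => (integrable_finsetSum _ fun σ _ => hi s σ).const_mul _, ?_⟩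
  have e1 : ∀ s : Spin n, ∫ x, (Fintype.card (Equiv.Perm (Fin n)) : ℝ)⁻¹ *
      ∑ σ : Equiv.Perm (Fin n), T (fun i => s (σ i)) (permConfig σ x) =
      (Fintype.card (Equiv.Perm (Fin n)) : ℝ)⁻¹ *
        ∑ σ : Equiv.Perm (Fin n), ∫ x, T (fun i => s (σ i)) x := by
    intro s
    rw [integral_const_mul, integral_finsetSum _ fun σ _ => hi s σ]
    simp only [kinP_integral]
  have e2 : ∀ σ : Equiv.Perm (Fin n), ∑ s : Spin n, ∫ x, T (fun i => s (σ i)) x =
      ∑ s, ∫ x, T s x := fun σ =>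
    Equiv.sum_comp (Equiv.arrowCongr σ.symm (Equiv.refl (Fin 2))) (fun s => ∫ x, T s x)
  simp only [e1]
  rw [← Finset.mul_sum, Finset.sum_comm]
  simp only [e2]
  rw [Finset.sum_const, Finset.card_univ, nsmul_eq_mul, ← mul_assoc,
    inv_mul_cancel₀ (kinN_pos n).ne', one_mul]

theorem kin_sign_sq (σ : Equiv.Perm (Fin n)) : (((Equiv.Perm.sign σ : ℤ) : ℝ)) ^ 2 = 1 := by
  rcases Int.units_eq_one_or (Equiv.Perm.sign σ) with h | h <;> simp [h]

theorem kin_jensen (a : Equiv.Perm (Fin n) → ℝ) :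
    ((Fintype.card (Equiv.Perm (Fin n)) : ℝ)⁻¹ * ∑ σ, ((Equiv.Perm.sign σ : ℤ) : ℝ) * a σ) ^ 2 ≤
      (Fintype.card (Equiv.Perm (Fin n)) : ℝ)⁻¹ * ∑ σ, a σ ^ 2 := by
  have h := sq_sum_le_card_mul_sum_sq (s := Finset.univ)
    (f := fun σ : Equiv.Perm (Fin n) => ((Equiv.Perm.sign σ : ℤ) : ℝ) * a σ)
  simp only [mul_pow, kin_sign_sq, one_mul, Finset.card_univ] at h
  have hN := kinN_pos n
  rw [mul_pow]
  calc _ ≤ ((Fintype.card (Equiv.Perm (Fin n)) : ℝ)⁻¹) ^ 2 *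
        ((Fintype.card (Equiv.Perm (Fin n)) : ℝ) * ∑ σ, a σ ^ 2) :=
        mul_le_mul_of_nonneg_left h (by positivity)
    _ = _ := by field_simp

theorem kin_anti (Ψ Φ : Spin n → Config n → ℝ) (hΨ2 : ∀ s, MemLp (Ψ s) 2 volume)
    (hΨ : ∀ (σ : Equiv.Perm (Fin n)) (s : Spin n) (x : Config n),
      Ψ (fun i => s (σ i)) (permConfig σ x) = ((Equiv.Perm.sign σ : ℤ) : ℝ) * Ψ s x)
    (hΦ : ∀ s, Cc1 (Φ s)) :
    ∃ Θ : Spin n → Config n → ℝ, IsC Θ ∧
      ∑ s, ∫ x, (Ψ s x - Θ s x) ^ 2 ≤ ∑ s, ∫ x, (Ψ s x - Φ s x) ^ 2 ∧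
      ∑ s, ∫ x, gradSq (Θ s) x ≤ ∑ s, ∫ x, gradSq (Φ s) x := by
  have hN := kinN_pos n
  set N : ℝ := (Fintype.card (Equiv.Perm (Fin n)) : ℝ) with hNdef
  set Θ : Spin n → Config n → ℝ := fun s x => N⁻¹ * ∑ σ : Equiv.Perm (Fin n),
    ((Equiv.Perm.sign σ : ℤ) : ℝ) * Φ (fun i => s (σ i)) (permConfig σ x) with hΘ
  have hc : ∀ s, Cc1 (Θ s) := by
    intro s
    refine ⟨contDiff_const.mul (ContDiff.sum fun σ _ => contDiff_const.mul (kinP_cc1 σ (hΦ _)).1), ?_⟩
    refine HasCompactSupport.mul_left (f := fun _ => N⁻¹) ?_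
    have := HasCompactSupport.finset_sum (s := (Finset.univ : Finset (Equiv.Perm (Fin n))))
      (f := fun σ x => ((Equiv.Perm.sign σ : ℤ) : ℝ) * Φ (fun i => s (σ i)) (permConfig σ x))
      fun σ _ => HasCompactSupport.mul_left (f := fun _ => ((Equiv.Perm.sign σ : ℤ) : ℝ))
        (kinP_cc1 σ (hΦ _)).2
    rwa [Finset.sum_fn] at this
  refine ⟨Θ, ⟨hc, fun σ s x => ?_⟩, ?_, ?_⟩
  · simp only [hΘ, kinP_mul]
    rw [mul_left_comm, Finset.mul_sum (a := ((Equiv.Perm.sign σ : ℤ) : ℝ))]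
    congr 1
    rw [← Equiv.sum_comp (Equiv.mulLeft σ) (fun τ : Equiv.Perm (Fin n) =>
      ((Equiv.Perm.sign σ : ℤ) : ℝ) * (((Equiv.Perm.sign τ : ℤ) : ℝ) *
        Φ (fun i => s (τ i)) (permConfig τ x)))]
    refine Finset.sum_congr rfl fun τ _ => ?_
    simp only [Equiv.coe_mulLeft, Equiv.Perm.sign_mul, Units.val_mul, Int.cast_mul,
      Equiv.Perm.coe_mul, Function.comp_apply]
    rw [← mul_assoc, ← mul_assoc, ← sq, kin_sign_sq, one_mul]
  · obtain ⟨i1, e1⟩ := kin_avg (fun s x => (Ψ s x - Φ s x) ^ 2)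
      fun s => ((hΨ2 s).sub (hΦ s).kin_memLp).integrable_sq
    rw [← e1]
    refine Finset.sum_le_sum fun s _ => integral_mono
      ((hΨ2 s).sub (hc s).kin_memLp).integrable_sq (i1 s) fun x => ?_
    refine le_trans (le_of_eq ?_) (kin_jensen fun σ => Ψ (fun i => s (σ i)) (permConfig σ x) -
      Φ (fun i => s (σ i)) (permConfig σ x))
    congr 1
    have : ∀ σ : Equiv.Perm (Fin n), ((Equiv.Perm.sign σ : ℤ) : ℝ) *
        Ψ (fun i => s (σ i)) (permConfig σ x) = Ψ s x := by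
      intro σ
      rw [hΨ, ← mul_assoc, ← sq, kin_sign_sq, one_mul]
    simp only [hΘ, mul_sub, this, Finset.sum_sub_distrib]
    rw [Finset.sum_const, Finset.card_univ, nsmul_eq_mul, ← hNdef, ← mul_assoc,
      inv_mul_cancel₀ hN.ne', one_mul]
  · obtain ⟨i1, e1⟩ := kin_avg (fun s x => gradSq (Φ s) x) fun s => (hΦ s).kin_int_gradSq
    rw [← e1]
    refine Finset.sum_le_sum fun s _ => integral_mono (hc s).kin_int_gradSq (i1 s) fun x => ?_
    simp only [← kinP_gradSq _ (hΦ _)]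
    unfold gradSq
    rw [Finset.sum_comm, Finset.mul_sum]
    refine Finset.sum_le_sum fun c _ => ?_
    refine le_trans (le_of_eq ?_) (kin_jensen fun σ =>
      fderiv ℝ (fun x => Φ (fun i => s (σ i)) (permConfig σ x)) x (EuclideanSpace.single c 1))
    congr 1
    have hd : ∀ σ : Equiv.Perm (Fin n),
        DifferentiableAt ℝ (fun x => Φ (fun i => s (σ i)) (permConfig σ x)) x :=
      fun σ => (kinP_cc1 σ (hΦ _)).1.differentiable (by norm_num) x
    have h1 : HasFDerivAt (Θ s) (N⁻¹ • ∑ σ : Equiv.Perm (Fin n), ((Equiv.Perm.sign σ : ℤ) : ℝ) •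
        fderiv ℝ (fun x => Φ (fun i => s (σ i)) (permConfig σ x)) x) x :=
      (HasFDerivAt.fun_sum fun σ _ => (hd σ).hasFDerivAt.const_mul _).const_mul _
    rw [h1.fderiv]
    simp [hNdef]

end Crest.Agent.R338
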