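import Crest.Agent.R338.Kin_Appr

/-! # Cutting off an `H¹ ∩ C¹` function -/

set_option autoImplicit false
set_option linter.dupNamespace false
set_option linter.unusedVariables false

noncomputable section

namespace Crest.Agent.R338

open MeasureTheory Set Filter Topology
open Crest.MathPhysics.ElectronicCoulomb

theorem kinC_exists (n : ℕ) : ∃ (M : ℝ) (χ : ℝ → Config n → ℝ), 0 ≤ M ∧ ∀ R, 1 ≤ R →
    Cc1 (χ R) ∧ (∀ x, 0 ≤ χ R x ∧ χ R x ≤ 1) ∧ (∀ x, ‖x‖ ≤ R → χ R x = 1) ∧
      ∀ x c, |fderiv ℝ (χ R) x (EuclideanSpace.single c 1)| ≤ M / R := by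
  let b : ContDiffBump (0 : Config n) := ⟨1, 2, one_pos, one_lt_two⟩
  have hb : ContDiff ℝ 1 b := b.contDiff
  obtain ⟨M, hM⟩ := (b.hasCompactSupport.fderiv ℝ).exists_bound_of_continuous
    (hb.continuous_fderiv (by norm_num))
  refine ⟨M, fun R x => b (R⁻¹ • x), le_trans (norm_nonneg _) (hM 0), fun R hR => ?_⟩
  have hR0 : 0 < R := by linarith
  refine ⟨⟨hb.comp (contDiff_const_smul _), ?_⟩, fun x => ⟨b.nonneg, b.le_one⟩, fun x hx => ?_,
    fun x c => ?_⟩
  · apply HasCompactSupport.intro (isCompact_closedBall (0 : Config n) (2 * R))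
    intro x hx
    apply b.zero_of_le_dist
    rw [mem_closedBall_zero_iff, not_le] at hx
    rw [dist_zero_right, norm_smul, norm_inv, Real.norm_of_nonneg hR0.le, inv_mul_eq_div,
      le_div_iff₀ hR0]
    exact hx.le
  · apply b.one_of_mem_closedBall
    rw [mem_closedBall_zero_iff, norm_smul, norm_inv, Real.norm_of_nonneg hR0.le, inv_mul_eq_div,
      div_le_iff₀ hR0]
    simpa [b] using hx
  · have h1 : HasFDerivAt (fun x : Config n => R⁻¹ • x) (R⁻¹ • ContinuousLinearMap.id ℝ (Config n)) x :=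
      (hasFDerivAt_id x).const_smul R⁻¹
    have h2 := ((hb.differentiable (by norm_num) (R⁻¹ • x)).hasFDerivAt.comp x h1).fderiv
    have h3 : fderiv ℝ (fun x : Config n => b (R⁻¹ • x)) x =
        (fderiv ℝ b (R⁻¹ • x)).comp (R⁻¹ • ContinuousLinearMap.id ℝ (Config n)) := h2
    rw [h3]
    have h4 := (fderiv ℝ b (R⁻¹ • x)).le_opNorm (EuclideanSpace.single c 1)
    have h5 := hM (R⁻¹ • x)
    simp only [PiLp.norm_single, norm_one, mul_one, Real.norm_eq_abs] at h4
    simp only [ContinuousLinearMap.comp_apply, smul_apply,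
      ContinuousLinearMap.id_apply, map_smul, smul_eq_mul, abs_mul, abs_inv, abs_of_pos hR0]
    rw [inv_mul_eq_div]
    exact div_le_div_of_nonneg_right (h4.trans h5) hR0.le

theorem kin_cut {n : ℕ} (u : Config n → ℝ) (hu : KinH1 u) (ε : ℝ) (hε : 0 < ε) :
    ∃ w : Config n → ℝ, Cc1 w ∧ ∫ x, (u x - w x) ^ 2 ≤ ε ∧
      ∫ x, gradSq w x ≤ (∫ x, gradSq u x) + ε := by
  obtain ⟨M, χ, hM, hχ⟩ := kinC_exists n
  obtain ⟨hu1, hu2, hu3⟩ := hu
  have hu2' : Integrable fun x => u x ^ 2 := hu2.integrable_sq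
  set G := ∫ x, gradSq u x with hG
  have hG0 : 0 ≤ G := integral_nonneg fun x => Finset.sum_nonneg fun c _ => sq_nonneg _
  set U := ∫ x, u x ^ 2 with hU
  have hU0 : 0 ≤ U := integral_nonneg fun x => sq_nonneg _
  set t := ε / (2 * (G + 1)) with ht
  have ht0 : 0 < t := by positivity
  set N : ℝ := (Fintype.card (Fin n × Fin 3) : ℝ) with hN
  have hN0 : 0 ≤ N := Nat.cast_nonneg _
  have hR : ∀ k : ℕ, (1 : ℝ) ≤ (k : ℝ) + 1 := fun k => le_add_of_nonneg_left (Nat.cast_nonneg k)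
  have hlim : Tendsto (fun k : ℕ => ∫ x, (u x - χ ((k : ℝ) + 1) x * u x) ^ 2) atTop
      (𝓝 (∫ x : Config n, (0 : ℝ))) := by
    apply tendsto_integral_of_dominated_convergence (fun x => u x ^ 2) _ hu2'
    · intro k
      filter_upwards with x
      obtain ⟨a, b⟩ := (hχ _ (hR k)).2.1 x
      rw [Real.norm_of_nonneg (sq_nonneg _)]
      have : (u x - χ ((k : ℝ) + 1) x * u x) ^ 2 = (1 - χ ((k : ℝ) + 1) x) ^ 2 * u x ^ 2 := by ring
      rw [this]
      exact mul_le_of_le_one_left (sq_nonneg _) (by nlinarith)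
    · filter_upwards with x
      apply tendsto_const_nhds.congr'
      obtain ⟨k0, hk0⟩ := exists_nat_ge ‖x‖
      filter_upwards [eventually_ge_atTop k0] with k hk
      have : (k0 : ℝ) ≤ k := by exact_mod_cast hk
      rw [(hχ _ (hR k)).2.2.1 x (by linarith)]
      ring
    · intro k
      have h1 := (hχ _ (hR k)).1.1.continuous
      have h2 := hu1.continuous
      exact Continuous.aestronglyMeasurable (by fun_prop)
  rw [integral_zero] at hlim
  obtain ⟨k1, hk1⟩ := exists_nat_ge (2 * ((1 + 1 / t) * (N * M ^ 2) * U) / ε)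
  obtain ⟨k, hk, hk'⟩ := ((hlim.eventually (ge_mem_nhds hε)).and (eventually_ge_atTop k1)).exists
  set R : ℝ := (k : ℝ) + 1 with hRdef
  have hR1 : 1 ≤ R := hR k
  have hR0 : 0 < R := by linarith
  obtain ⟨c1, c2, c3, c4⟩ := hχ R hR1
  have hw : Cc1 fun x => χ R x * u x := ⟨c1.1.mul hu1, c1.2.mul_right⟩
  refine ⟨fun x => χ R x * u x, hw, hk, ?_⟩
  have hpt : ∀ x, gradSq (fun x => χ R x * u x) x ≤
      (1 + t) * gradSq u x + (1 + 1 / t) * (N * M ^ 2) / R * u x ^ 2 := by
    intro x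
    have d1 : DifferentiableAt ℝ (χ R) x := c1.1.differentiable (by norm_num) x
    have d2 : DifferentiableAt ℝ u x := hu1.differentiable (by norm_num) x
    have e : (1 + 1 / t) * (N * M ^ 2) / R * u x ^ 2 =
        ∑ c : Fin n × Fin 3, (1 + 1 / t) * (M ^ 2 / R * u x ^ 2) := by
      rw [Finset.sum_const, Finset.card_univ, nsmul_eq_mul, ← hN]
      ring
    rw [e]
    unfold gradSq
    rw [Finset.mul_sum, ← Finset.sum_add_distrib]
    refine Finset.sum_le_sum fun c _ => ?_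
    rw [fderiv_fun_mul d1 d2]
    simp only [add_apply, smul_apply, smul_eq_mul]
    refine le_trans (kinA_sq _ _ t ht0) (add_le_add ?_ ?_)
    · refine mul_le_mul_of_nonneg_left ?_ (by positivity)
      rw [mul_pow]
      obtain ⟨a, b⟩ := c2 x
      exact mul_le_of_le_one_left (sq_nonneg _) (by nlinarith)
    · refine mul_le_mul_of_nonneg_left ?_ (by positivity)
      rw [mul_pow, mul_comm]
      refine mul_le_mul_of_nonneg_right ?_ (sq_nonneg _)
      have h1 := pow_le_pow_left₀ (abs_nonneg _) (c4 x c) 2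
      rw [sq_abs, div_pow] at h1
      refine h1.trans (div_le_div_of_nonneg_left (sq_nonneg _) hR0 (by nlinarith))
  refine le_trans (integral_mono hw.kin_int_gradSq ((hu3.const_mul _).add (hu2'.const_mul _)) hpt) ?_
  simp only [Pi.add_apply]
  rw [integral_add (hu3.const_mul _) (hu2'.const_mul _), integral_const_mul, integral_const_mul,
    ← hG, ← hU]
  have a1 : t * G ≤ ε / 2 := by
    rw [ht, div_mul_eq_mul_div, div_le_div_iff₀ (by positivity) (by positivity)]
    nlinarith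
  have a2 : (1 + 1 / t) * (N * M ^ 2) / R * U ≤ ε / 2 := by
    have : (k1 : ℝ) ≤ k := by exact_mod_cast hk'
    rw [div_le_iff₀ hε] at hk1
    rw [div_mul_eq_mul_div, div_le_div_iff₀ hR0 (by positivity)]
    nlinarith
  linarith

/-- Smooth compactly supported approximation of real and imaginary part. -/
theorem kin_appr_cut {n : ℕ} (f : Config n → ℂ) (hf : MemLp f 2 volume) (hK : kineticOne f < ⊤)
    (ε : ℝ) (hε : 0 < ε) :
    ∃ u v : Config n → ℝ, Cc1 u ∧ Cc1 v ∧ ∫ x, ((f x).re - u x) ^ 2 ≤ ε ∧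
      ∫ x, ((f x).im - v x) ^ 2 ≤ ε ∧
      1 / 2 * (∫ x, gradSq u x) + 1 / 2 * ∫ x, gradSq v x ≤ (kineticOne f).toReal + ε := by
  obtain ⟨u, v, hu, hv, h1, h2, h3⟩ := kin_appr f hf hK (ε / 4) (by positivity)
  obtain ⟨u', hu', a1, a2⟩ := kin_cut u hu (ε / 4) (by positivity)
  obtain ⟨v', hv', b1, b2⟩ := kin_cut v hv (ε / 4) (by positivity)
  have key : ∀ p q r : Config n → ℝ, MemLp p 2 volume → MemLp q 2 volume → MemLp r 2 volume →
      ∫ x, (p x - q x) ^ 2 ≤ ε / 4 → ∫ x, (q x - r x) ^ 2 ≤ ε / 4 → ∫ x, (p x - r x) ^ 2 ≤ ε := by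
    intro p q r hp hq hr k1 k2
    have i1 : Integrable fun x => (p x - q x) ^ 2 := (hp.sub hq).integrable_sq
    have i2 : Integrable fun x => (q x - r x) ^ 2 := (hq.sub hr).integrable_sq
    have i3 : Integrable fun x => (p x - r x) ^ 2 := (hp.sub hr).integrable_sq
    have : ∫ x, (p x - r x) ^ 2 ≤ ∫ x, (2 * (p x - q x) ^ 2 + 2 * (q x - r x) ^ 2) :=
      integral_mono i3 ((i1.const_mul _).add (i2.const_mul _)) fun x => by
        nlinarith [sq_nonneg (p x - q x - (q x - r x))]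
    rw [integral_add (i1.const_mul _) (i2.const_mul _), integral_const_mul, integral_const_mul] at this
    linarith
  exact ⟨u', v', hu', hv', key _ u u' (hf.re (𝕜 := ℂ)) hu.2.1 hu'.kin_memLp h1 a1,
    key _ v v' (hf.im (𝕜 := ℂ)) hv.2.1 hv'.kin_memLp h2 b1, by linarith⟩

end Crest.Agent.R338
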