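import Mathlib

/-! # Passing to the limit in `∫ F θ² ≤ A + ∫ G θ²` (`F ≥ 0`, `G` bounded) -/

set_option autoImplicit false
set_option linter.dupNamespace false
set_option linter.unusedVariables false

noncomputable section

namespace Crest.Agent.R338

open MeasureTheory Set Filter Topology

variable {X ι : Type} [MeasurableSpace X] {μ : Measure X} [Fintype ι]

theorem kinL_int {H u : X → ℝ} {B : ℝ} (hH : Measurable H) (hB : ∀ x, |H x| ≤ B)
    (hu : MemLp u 2 μ) : Integrable (fun x => H x * u x ^ 2) μ :=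
  hu.integrable_sq.bdd_mul (c := B) hH.aestronglyMeasurable (Eventually.of_forall hB)

theorem kinL_cont {H u w : X → ℝ} {B t : ℝ} (ht : 0 < t) (hH : Measurable H) (hB : ∀ x, |H x| ≤ B)
    (hu : MemLp u 2 μ) (hw : MemLp w 2 μ) :
    ∫ x, H x * u x ^ 2 ∂μ ≤ (∫ x, H x * w x ^ 2 ∂μ) +
      (B * (1 + 1 / t) * (∫ x, (u x - w x) ^ 2 ∂μ) + B * t * ∫ x, u x ^ 2 ∂μ) := by
  have i1 := kinL_int hH hB hu
  have i2 := kinL_int hH hB hw
  have i3 : Integrable (fun x => B * (1 + 1 / t) * (u x - w x) ^ 2) μ :=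
    (hu.sub hw).integrable_sq.const_mul _
  have i4 : Integrable (fun x => B * t * u x ^ 2) μ := hu.integrable_sq.const_mul _
  have i5 : Integrable (fun x => B * (1 + 1 / t) * (u x - w x) ^ 2 + B * t * u x ^ 2) μ := i3.add i4
  rw [← integral_const_mul, ← integral_const_mul, ← integral_add i3 i4, ← integral_add i2 i5]
  refine integral_mono i1 (i2.add i5) fun x => ?_
  have h1 : |u x ^ 2 - w x ^ 2| ≤ (1 + 1 / t) * (u x - w x) ^ 2 + t * u x ^ 2 := by
    have a1 : 0 ≤ (t * u x - (u x - w x)) ^ 2 / t := by positivity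
    have a2 : 0 ≤ (t * u x + (u x - w x)) ^ 2 / t := by positivity
    have e1 : (t * u x - (u x - w x)) ^ 2 / t =
        t * u x ^ 2 - 2 * u x * (u x - w x) + 1 / t * (u x - w x) ^ 2 := by
      field_simp
      ring
    have e2 : (t * u x + (u x - w x)) ^ 2 / t =
        t * u x ^ 2 + 2 * u x * (u x - w x) + 1 / t * (u x - w x) ^ 2 := by
      field_simp
      ring
    rw [abs_le]
    constructor <;> nlinarith [sq_nonneg (u x - w x)]
  have h2 : H x * (u x ^ 2 - w x ^ 2) ≤ B * ((1 + 1 / t) * (u x - w x) ^ 2 + t * u x ^ 2) := by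
    refine le_trans (le_abs_self _) ?_
    rw [abs_mul]
    exact mul_le_mul (hB x) h1 (abs_nonneg _) (le_trans (abs_nonneg _) (hB x))
  simp only
  linarith

theorem kin_lim (F G : X → ℝ) (A C : ℝ) (hF : Measurable F) (hF0 : ∀ x, 0 ≤ F x)
    (hG : Measurable G) (hC0 : 0 ≤ C) (hC : ∀ x, |G x| ≤ C) (ψ : ι → X → ℝ)
    (hψ : ∀ i, MemLp (ψ i) 2 μ)
    (h : ∀ ε > 0, ∃ θ : ι → X → ℝ, (∀ i, MemLp (θ i) 2 μ) ∧
      (∀ i, Integrable (fun x => F x * θ i x ^ 2) μ) ∧ ∑ i, ∫ x, (ψ i x - θ i x) ^ 2 ∂μ ≤ ε ∧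
      ∑ i, ∫ x, F x * θ i x ^ 2 ∂μ ≤ A + ε + ∑ i, ∫ x, G x * θ i x ^ 2 ∂μ) :
    (∀ i, Integrable (fun x => F x * ψ i x ^ 2) μ) ∧
      ∑ i, ∫ x, F x * ψ i x ^ 2 ∂μ ≤ A + ∑ i, ∫ x, G x * ψ i x ^ 2 ∂μ := by
  have hm1 : ∀ m : ℕ, Measurable fun x => min (F x) m := fun m => hF.min measurable_const
  have hm0 : ∀ (m : ℕ) x, 0 ≤ min (F x) m := fun m x => le_min (hF0 x) (Nat.cast_nonneg m)
  have hm2 : ∀ (m : ℕ) x, |min (F x) m| ≤ m := fun m x => by
    rw [abs_of_nonneg (hm0 m x)]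
    exact min_le_right _ _
  set P := ∑ i, ∫ x, ψ i x ^ 2 ∂μ with hP
  have hP0 : 0 ≤ P := Finset.sum_nonneg fun i _ => integral_nonneg fun x => sq_nonneg _
  have step : ∀ m : ℕ, ∑ i, ∫ x, min (F x) m * ψ i x ^ 2 ∂μ ≤ A + ∑ i, ∫ x, G x * ψ i x ^ 2 ∂μ := by
    intro m
    set B : ℝ := m + C with hB
    have hB0 : 0 ≤ B := by positivity
    have hH : Measurable fun x => min (F x) m - G x := (hm1 m).sub hG
    have hHB : ∀ x, |min (F x) m - G x| ≤ B := fun x =>
      (abs_sub _ _).trans (add_le_add (hm2 m x) (hC x))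
    have split : ∀ u : X → ℝ, MemLp u 2 μ → ∫ x, (min (F x) m - G x) * u x ^ 2 ∂μ =
        (∫ x, min (F x) m * u x ^ 2 ∂μ) - ∫ x, G x * u x ^ 2 ∂μ := by
      intro u hu
      rw [← integral_sub (kinL_int (hm1 m) (hm2 m) hu) (kinL_int hG hC hu)]
      simp only [sub_mul]
    refine le_of_forall_pos_le_add fun δ hδ => ?_
    set t := δ / (2 * (B * P + 1)) with ht
    have ht0 : 0 < t := by positivity
    set ε := δ / (2 * (1 + B * (1 + 1 / t))) with hε
    have hε0 : 0 < ε := by positivity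
    obtain ⟨θ, k1, k2, k3, k4⟩ := h ε hε0
    have s1 := Finset.sum_le_sum (s := Finset.univ) fun i _ => kinL_cont ht0 hH hHB (hψ i) (k1 i)
    simp only [split _ (hψ _), split _ (k1 _), Finset.sum_add_distrib, Finset.sum_sub_distrib,
      ← Finset.mul_sum, ← hP] at s1
    have s2 : ∑ i, ∫ x, min (F x) m * θ i x ^ 2 ∂μ ≤ ∑ i, ∫ x, F x * θ i x ^ 2 ∂μ :=
      Finset.sum_le_sum fun i _ => integral_mono (kinL_int (hm1 m) (hm2 m) (k1 i)) (k2 i) fun x =>
        mul_le_mul_of_nonneg_right (min_le_left _ _) (sq_nonneg _)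
    have s3 : B * (1 + 1 / t) * ∑ i, ∫ x, (ψ i x - θ i x) ^ 2 ∂μ ≤ B * (1 + 1 / t) * ε :=
      mul_le_mul_of_nonneg_left k3 (by positivity)
    have s4 : ε + B * (1 + 1 / t) * ε = δ / 2 := by
      rw [hε]
      field_simp
    have s5 : B * t * P ≤ δ / 2 := by
      have : B * t * P = δ * (B * P) / (2 * (B * P + 1)) := by
        rw [ht]
        ring
      rw [this, div_le_div_iff₀ (by positivity) (by positivity)]
      nlinarith [mul_nonneg hB0 hP0]
    linarith
  have hlim : ∀ i x, Tendsto (fun m : ℕ => min (F x) m * ψ i x ^ 2) atTop (𝓝 (F x * ψ i x ^ 2)) := by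
    intro i x
    apply tendsto_const_nhds.congr'
    obtain ⟨k0, hk0⟩ := exists_nat_ge (F x)
    filter_upwards [eventually_ge_atTop k0] with k hk
    have : (k0 : ℝ) ≤ k := by exact_mod_cast hk
    rw [min_eq_left (by linarith)]
  have hint : ∀ i, Integrable (fun x => F x * ψ i x ^ 2) μ := by
    intro i
    refine ⟨hF.aestronglyMeasurable.mul ((hψ i).1.pow 2), ?_⟩
    rw [hasFiniteIntegral_iff_ofReal
      (Eventually.of_forall fun x => mul_nonneg (hF0 x) (sq_nonneg _))]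
    have t1 : Tendsto (fun m : ℕ => ∫⁻ x, ENNReal.ofReal (min (F x) m * ψ i x ^ 2) ∂μ) atTop
        (𝓝 (∫⁻ x, ENNReal.ofReal (F x * ψ i x ^ 2) ∂μ)) := by
      apply lintegral_tendsto_of_tendsto_of_monotone
      · intro m
        exact (kinL_int (hm1 m) (hm2 m) (hψ i)).1.aemeasurable.ennreal_ofReal
      · filter_upwards with x a b hab
        apply ENNReal.ofReal_le_ofReal
        exact mul_le_mul_of_nonneg_right (min_le_min le_rfl (by exact_mod_cast hab)) (sq_nonneg _)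
      · filter_upwards with x
        exact ENNReal.tendsto_ofReal (hlim i x)
    refine lt_of_le_of_lt (le_of_tendsto' t1 fun m => ?_)
      (ENNReal.ofReal_lt_top (r := A + ∑ i, ∫ x, G x * ψ i x ^ 2 ∂μ))
    rw [← ofReal_integral_eq_lintegral_ofReal (kinL_int (hm1 m) (hm2 m) (hψ i))
      (Eventually.of_forall fun x => mul_nonneg (hm0 m x) (sq_nonneg _))]
    refine ENNReal.ofReal_le_ofReal (le_trans ?_ (step m))
    exact Finset.single_le_sum (f := fun i => ∫ x, min (F x) m * ψ i x ^ 2 ∂μ)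
      (fun j _ => integral_nonneg fun x => mul_nonneg (hm0 m x) (sq_nonneg _)) (Finset.mem_univ i)
  refine ⟨hint, le_of_tendsto' (x := atTop) (tendsto_finsetSum Finset.univ fun i _ => ?_) step⟩
  apply tendsto_integral_of_dominated_convergence (fun x => F x * ψ i x ^ 2)
    (fun m => (kinL_int (hm1 m) (hm2 m) (hψ i)).1) (hint i)
  · intro m
    filter_upwards with x
    rw [Real.norm_of_nonneg (mul_nonneg (hm0 m x) (sq_nonneg _))]
    exact mul_le_mul_of_nonneg_right (min_le_left _ _) (sq_nonneg _)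
  · exact Eventually.of_forall (hlim i)

end Crest.Agent.R338
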