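import Crest.Agent.R338.CDefs
import Crest.Agent.R338.Kin_Cut
import Crest.Agent.R338.Kin_Anti
import Crest.Agent.R338.Kin_Lim

/-! # Fourier kinetic energy versus `C¹` states

(The proof below takes a shorter route than the plan: `Kin_F` identifies the Fourier kinetic energy with the
Dirichlet integral through tempered distributions, `Kin_Appr` approximates on the Fourier side, `Kin_Cut` cuts
off, `Kin_Anti` antisymmetrises, `Kin_Lim` passes to the limit by truncating `F`.)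

Key fact (Plancherel + translation ↔ modulation for the `L²` Fourier transform `𝓕` of Mathlib; if the
translation rule is missing, get it by density of Schwartz functions): for `f ∈ L²`, a unit coordinate
vector `e` and `t ≠ 0`, `∫ |f(x + t e) - f x|² = ∫ |exp(2πi t ξ_e) - 1|² |𝓕f ξ|²`, and
`|exp(iθ) - 1| ≤ |θ|`, `|exp(2πi t ξ_e) - 1|²/t² → (2π ξ_e)²`, `‖ξ‖² = ∑ ξ_e²`.
* `kin_yes`: for `f` `C¹` with compact support `∫|f(x+te) - f x|²/t² ≤ ∫|∂_e f|²` (FTC, Cauchy-Schwarz, Fubini;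
  or dominated convergence as `t → 0`), Fatou gives `kineticOne f ≤ ½∫|∇f|²`.  Normalise `Ψ`, coerce to `ℂ`.
* `kin_no`: let `Ψ` be admissible of norm one.  Real and imaginary parts are antisymmetric, and their
  difference quotients add up.  Mollify with a permutation invariant smooth compactly supported
  probability kernel (e.g. `c • expNegInvGlue (1 - ‖x‖²/δ²)`; or any kernel and antisymmetrise afterwards) and
  multiply by a cut-off `χ(‖x‖²/R²)`: `Ψ_k` is `IsC`, `Ψ_k → Ψ` in `L²`, and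
  `limsup ½∫|∇Ψ_k|² ≤ kinetic Ψ` (difference quotients contract under convolution; Fatou for the `C¹`
  function; the cut-off costs `O(1/R)`).  From the hypothesis
  `∫ F |Ψ_k|² ≤ T_k + ∫ Wb |Ψ_k|² - b |Ψ_k|²`; pass to an a.e. convergent subsequence and use Fatou: `F|Ψ|²`
  is integrable and `b ≤ T + ∫ (Wb - F)|Ψ|² ≤ energy W Ψ`. -/

set_option autoImplicit false
set_option linter.dupNamespace false
set_option linter.unusedVariables false

noncomputable section

namespace Crest.Agent.R338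

open Matrix MeasureTheory Set
open Crest.MathPhysics.ElectronicCoulomb

theorem kin_yes {n : ℕ} (W : Config n → ℝ) (Ψ : Spin n → Config n → ℝ) (a : ℝ) (hΨ : IsC Ψ)
    (h0 : 0 < cNsq Ψ) (hW : ∀ s, Integrable fun x => W x * Ψ s x ^ 2)
    (h : cEn W Ψ ≤ a * cNsq Ψ) : InfEnergyLE W a := by
  intro ε hε
  set c : ℝ := (Real.sqrt (cNsq Ψ))⁻¹ with hc
  have hc2 : c ^ 2 * cNsq Ψ = 1 := by
    rw [hc, inv_pow, Real.sq_sqrt h0.le, inv_mul_cancel₀ h0.ne']
  have hcc : ∀ s, Cc1 fun x => c * Ψ s x := fun s =>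
    ⟨contDiff_const.mul (hΨ.1 s).1, HasCompactSupport.mul_left (f := fun _ => c) (hΨ.1 s).2⟩
  have hg : ∀ s, ∫ x, gradSq (fun x => c * Ψ s x) x = c ^ 2 * ∫ x, gradSq (Ψ s) x := by
    intro s
    rw [← integral_const_mul]
    congr 1
    funext x
    unfold gradSq
    rw [Finset.mul_sum]
    refine Finset.sum_congr rfl fun k _ => ?_
    rw [fderiv_const_mul ((hΨ.1 s).1.differentiable (by norm_num) x)]
    simp [mul_pow]
  have hg0 : ∀ s, 0 ≤ 1 / 2 * (c ^ 2 * ∫ x, gradSq (Ψ s) x) := fun s =>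
    mul_nonneg (by norm_num) (mul_nonneg (sq_nonneg _)
      (integral_nonneg fun x => Finset.sum_nonneg fun k _ => sq_nonneg _))
  have hn : ∀ s x, ‖((c * Ψ s x : ℝ) : ℂ)‖ ^ 2 = c ^ 2 * Ψ s x ^ 2 := by
    intro s x
    rw [Complex.norm_real, Real.norm_eq_abs, sq_abs, mul_pow]
  have hkin : kinetic (fun s x => ((c * Ψ s x : ℝ) : ℂ)) =
      ENNReal.ofReal (∑ s, 1 / 2 * (c ^ 2 * ∫ x, gradSq (Ψ s) x)) := by
    unfold kinetic
    rw [ENNReal.ofReal_sum_of_nonneg fun s _ => hg0 s]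
    refine Finset.sum_congr rfl fun s _ => ?_
    rw [kin_real _ (hcc s), hg]
  have hmem : ∀ s, MemLp (fun x => ((c * Ψ s x : ℝ) : ℂ)) 2 volume :=
    fun s => (hcc s).kin_memLp.ofReal (K := ℂ)
  refine ⟨fun s x => ((c * Ψ s x : ℝ) : ℂ), ⟨⟨hmem, fun σ s x => ?_⟩, ?_, fun s => ?_⟩, ?_, ?_⟩
  · simp only [hΨ.2 σ s x]
    push_cast
    ring
  · rw [hkin]
    exact ENNReal.ofReal_lt_top
  · simp only [hn]
    refine ((hW s).const_mul (c ^ 2)).congr (Filter.Eventually.of_forall fun x => ?_)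
    simp only
    ring
  · unfold normSq
    simp only [kinF_lint (hmem _), hn, integral_const_mul]
    rw [← ENNReal.ofReal_sum_of_nonneg fun s _ =>
      mul_nonneg (sq_nonneg _) (integral_nonneg fun x => sq_nonneg _), ← Finset.mul_sum]
    have : c ^ 2 * ∑ s, ∫ x, Ψ s x ^ 2 = 1 := hc2
    rw [this, ENNReal.ofReal_one]
  · unfold energy potentialEnergy
    rw [hkin, ENNReal.toReal_ofReal (Finset.sum_nonneg fun s _ => hg0 s), ← Finset.sum_add_distrib]
    have e : ∀ s, 1 / 2 * (c ^ 2 * ∫ x, gradSq (Ψ s) x) + ∫ x, W x * ‖((c * Ψ s x : ℝ) : ℂ)‖ ^ 2 =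
        c ^ 2 * qf gradSq W (Ψ s) := by
      intro s
      have : ∀ x, W x * ‖((c * Ψ s x : ℝ) : ℂ)‖ ^ 2 = c ^ 2 * (W x * Ψ s x ^ 2) := by
        intro x
        rw [hn]
        ring
      simp only [this, integral_const_mul, qf]
      ring
    simp only [e]
    rw [← Finset.mul_sum]
    have h1 : c ^ 2 * ∑ s, qf gradSq W (Ψ s) ≤ c ^ 2 * (a * cNsq Ψ) :=
      mul_le_mul_of_nonneg_left h (sq_nonneg _)
    have h2 : c ^ 2 * (a * cNsq Ψ) = a := by
      rw [mul_left_comm, hc2, mul_one]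
    linarith

theorem kin_no {n : ℕ} (W F Wb : Config n → ℝ) (b C : ℝ) (hF : Measurable F) (hF0 : ∀ x, 0 ≤ F x)
    (hWb : Measurable Wb) (hC : ∀ x, |Wb x| ≤ C) (hW : ∀ᵐ x, Wb x - F x ≤ W x)
    (hint : ∀ f : Config n → ℝ, Cc1 f → Integrable fun x => F x * f x ^ 2)
    (h : ∀ Ψ : Spin n → Config n → ℝ, IsC Ψ → b * cNsq Ψ ≤ cEn (fun x => Wb x - F x) Ψ) :
    InfEnergyGE W b := by
  rintro Ψ ⟨⟨hL, hA⟩, hK, hI⟩ hN
  have hC0 : 0 ≤ C := le_trans (abs_nonneg _) (hC 0)
  have hKs : ∀ s, kineticOne (Ψ s) < ⊤ := fun s =>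
    lt_of_le_of_lt (Finset.single_le_sum (f := fun s => kineticOne (Ψ s))
      (fun _ _ => zero_le) (Finset.mem_univ s)) hK
  have hKsum : (kinetic Ψ).toReal = ∑ s, (kineticOne (Ψ s)).toReal :=
    ENNReal.toReal_sum fun s _ => (hKs s).ne
  have hG : Measurable fun x => Wb x - b := hWb.sub measurable_const
  have hGC : ∀ x, |Wb x - b| ≤ C + |b| := fun x => (abs_sub _ _).trans (add_le_add (hC x) le_rfl)
  have hre : ∀ s, MemLp (fun x => (Ψ s x).re) 2 volume := fun s => (hL s).re (𝕜 := ℂ)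
  have him : ∀ s, MemLp (fun x => (Ψ s x).im) 2 volume := fun s => (hL s).im (𝕜 := ℂ)
  -- the hypothesis, rearranged
  have h' : ∀ Θ : Spin n → Config n → ℝ, IsC Θ → ∑ s, ∫ x, F x * Θ s x ^ 2 ≤
      1 / 2 * (∑ s, ∫ x, gradSq (Θ s) x) + ∑ s, ∫ x, (Wb x - b) * Θ s x ^ 2 := by
    intro Θ hΘ
    have h1 := h Θ hΘ
    have e1 : ∀ s, ∫ x, (Wb x - F x) * Θ s x ^ 2 =
        (∫ x, Wb x * Θ s x ^ 2) - ∫ x, F x * Θ s x ^ 2 := by
      intro s
      rw [← integral_sub (kinL_int hWb hC (hΘ.1 s).kin_memLp) (hint _ (hΘ.1 s))]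
      simp only [sub_mul]
    have e2 : ∀ s, ∫ x, (Wb x - b) * Θ s x ^ 2 =
        (∫ x, Wb x * Θ s x ^ 2) - b * ∫ x, Θ s x ^ 2 := by
      intro s
      rw [← integral_const_mul, ← integral_sub (kinL_int hWb hC (hΘ.1 s).kin_memLp)
        ((hΘ.1 s).kin_memLp.integrable_sq.const_mul _)]
      simp only [sub_mul]
    simp only [cEn, cNsq, qf, e1, Finset.sum_add_distrib, Finset.sum_sub_distrib,
      ← Finset.mul_sum] at h1
    simp only [e2, Finset.sum_sub_distrib, ← Finset.mul_sum]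
    linarith
  obtain ⟨l1, l2⟩ := kin_lim (μ := volume) (ι := Spin n ⊕ Spin n) F (fun x => Wb x - b)
    (kinetic Ψ).toReal (C + |b|) hF hF0 hG (by positivity) hGC
    (Sum.elim (fun s x => (Ψ s x).re) fun s x => (Ψ s x).im)
    (by rintro (s | s); exacts [hre s, him s]) (by
      intro ε hε
      set N : ℝ := (Fintype.card (Spin n) : ℝ) with hNdef
      have hN0 : 0 < N := by
        rw [hNdef]
        exact_mod_cast Fintype.card_pos
      choose u v hu hv a1 a2 a3 using fun s =>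
        kin_appr_cut (Ψ s) (hL s) (hKs s) (ε / (2 * N)) (by positivity)
      obtain ⟨U, hU, b1, b2⟩ := kin_anti (fun s x => (Ψ s x).re) u hre
        (fun σ s x => by rw [hA σ s x]; simp) hu
      obtain ⟨V, hV, c1, c2⟩ := kin_anti (fun s x => (Ψ s x).im) v him
        (fun σ s x => by rw [hA σ s x]; simp) hv
      have hs : ∑ s : Spin n, ε / (2 * N) = ε / 2 := by
        rw [Finset.sum_const, Finset.card_univ, nsmul_eq_mul, ← hNdef]
        field_simp
      have d1 := Finset.sum_le_sum (s := Finset.univ) fun s _ => a1 s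
      have d2 := Finset.sum_le_sum (s := Finset.univ) fun s _ => a2 s
      have d3 := Finset.sum_le_sum (s := Finset.univ) fun s _ => a3 s
      simp only [Finset.sum_add_distrib, ← Finset.mul_sum, hs, ← hKsum] at d1 d2 d3
      refine ⟨Sum.elim U V, ?_, ?_, ?_, ?_⟩
      · rintro (s | s)
        exacts [(hU.1 s).kin_memLp, (hV.1 s).kin_memLp]
      · rintro (s | s)
        exacts [hint _ (hU.1 s), hint _ (hV.1 s)]
      · simp only [Fintype.sum_sum_type, Sum.elim_inl, Sum.elim_inr]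
        linarith
      · simp only [Fintype.sum_sum_type, Sum.elim_inl, Sum.elim_inr]
        have := h' U hU
        have := h' V hV
        linarith)
  simp only [Fintype.sum_sum_type, Sum.elim_inl, Sum.elim_inr, ← Finset.sum_add_distrib] at l2
  have hn : ∀ s x, ‖Ψ s x‖ ^ 2 = (Ψ s x).re ^ 2 + (Ψ s x).im ^ 2 := by
    intro s x
    rw [Complex.sq_norm, Complex.normSq_apply]
    ring
  have hsq : ∀ s, Integrable fun x => ‖Ψ s x‖ ^ 2 :=
    fun s => (memLp_two_iff_integrable_sq_norm (hL s).1).1 (hL s)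
  have hN1 : ∑ s, ∫ x, ‖Ψ s x‖ ^ 2 = 1 := by
    unfold normSq at hN
    simp only [kinF_lint (hL _)] at hN
    rw [← ENNReal.ofReal_sum_of_nonneg fun s _ => integral_nonneg fun x => sq_nonneg _] at hN
    exact ENNReal.ofReal_eq_one.1 hN
  have key : ∀ s, ((∫ x, (Wb x - b) * (Ψ s x).re ^ 2) + ∫ x, (Wb x - b) * (Ψ s x).im ^ 2) -
      ((∫ x, F x * (Ψ s x).re ^ 2) + ∫ x, F x * (Ψ s x).im ^ 2) + b * ∫ x, ‖Ψ s x‖ ^ 2 ≤
      ∫ x, W x * ‖Ψ s x‖ ^ 2 := by
    intro s
    have i1 := kinL_int hG hGC (hre s)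
    have i2 := kinL_int hG hGC (him s)
    have i3 : Integrable fun x => F x * (Ψ s x).re ^ 2 := l1 (Sum.inl s)
    have i4 : Integrable fun x => F x * (Ψ s x).im ^ 2 := l1 (Sum.inr s)
    have i5 : Integrable fun x => (Wb x - b) * (Ψ s x).re ^ 2 + (Wb x - b) * (Ψ s x).im ^ 2 :=
      i1.add i2
    have i6 : Integrable fun x => F x * (Ψ s x).re ^ 2 + F x * (Ψ s x).im ^ 2 := i3.add i4
    have i7 : Integrable fun x => ((Wb x - b) * (Ψ s x).re ^ 2 + (Wb x - b) * (Ψ s x).im ^ 2) -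
      (F x * (Ψ s x).re ^ 2 + F x * (Ψ s x).im ^ 2) := i5.sub i6
    have i8 : Integrable fun x => b * ‖Ψ s x‖ ^ 2 := (hsq s).const_mul _
    rw [← integral_add i1 i2, ← integral_add i3 i4, ← integral_sub i5 i6, ← integral_const_mul,
      ← integral_add i7 i8]
    refine integral_mono_ae (i7.add i8) (hI s) ?_
    filter_upwards [hW] with x hx
    have := mul_le_mul_of_nonneg_right hx (sq_nonneg ‖Ψ s x‖)
    rw [hn] at this ⊢
    linarith
  have k := Finset.sum_le_sum (s := Finset.univ) fun s _ => key s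
  rw [Finset.sum_add_distrib, Finset.sum_sub_distrib, ← Finset.mul_sum, hN1] at k
  unfold energy potentialEnergy
  linarith

end Crest.Agent.R338
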