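import Crest.Agent.R338.Kin_F

/-! # Approximation of a state of finite kinetic energy by smooth functions (Fourier side) -/

set_option autoImplicit false
set_option linter.dupNamespace false
set_option linter.unusedVariables false

noncomputable section

namespace Crest.Agent.R338

open MeasureTheory Set SchwartzMap LineDeriv
open Crest.MathPhysics.ElectronicCoulomb
open scoped FourierTransform ENNReal ContDiff

/-- `C¹`, square integrable, with square integrable gradient. -/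
def KinH1 {n : ℕ} (u : Config n → ℝ) : Prop :=
  ContDiff ℝ 1 u ∧ MemLp u 2 volume ∧ Integrable (gradSq u)

theorem kinA_sq (a b t : ℝ) (ht : 0 < t) : (a + b) ^ 2 ≤ (1 + t) * a ^ 2 + (1 + 1 / t) * b ^ 2 := by
  have h : 0 ≤ (t * a - b) ^ 2 / t := by positivity
  have e : (1 + t) * a ^ 2 + (1 + 1 / t) * b ^ 2 - (a + b) ^ 2 = (t * a - b) ^ 2 / t := by
    field_simp
    ring
  linarith

theorem kinA_w {n : ℕ} (h : Config n → ℂ) (hh : AEStronglyMeasurable h volume) :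
    ∫⁻ ξ, ‖h ξ‖ₑ ^ 2 ∂(volume.withDensity fun ξ : Config n =>
        ENNReal.ofReal (1 + (2 * Real.pi * ‖ξ‖) ^ 2)) =
      (∫⁻ ξ, ‖h ξ‖ₑ ^ 2) + ∫⁻ ξ, ENNReal.ofReal ((2 * Real.pi * ‖ξ‖) ^ 2) * ‖h ξ‖ₑ ^ 2 := by
  have hm : AEMeasurable (fun ξ => ‖h ξ‖ₑ ^ 2) volume := hh.enorm.pow_const 2
  rw [lintegral_withDensity_eq_lintegral_mul₀ (by fun_prop) hm, ← lintegral_add_left' hm]
  apply lintegral_congr
  intro ξ
  simp only [Pi.mul_apply]
  rw [ENNReal.ofReal_add zero_le_one (sq_nonneg _), add_mul]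
  simp

/-- A Schwartz function close to `𝓕 f` in the weighted `L²` space. -/
theorem kinA_fourier {n : ℕ} (g : Config n → ℂ) (hg : MemLp g 2 volume)
    (hK : ∫⁻ ξ, ENNReal.ofReal ((2 * Real.pi * ‖ξ‖) ^ 2) * ‖g ξ‖ₑ ^ 2 < ⊤) (δ : ℝ) (hδ : 0 < δ) :
    ∃ ψ : 𝓢(Config n, ℂ), ∫⁻ ξ, ‖g ξ - ψ ξ‖ₑ ^ 2 ≤ ENNReal.ofReal (δ ^ 2) ∧
      ∫⁻ ξ, ENNReal.ofReal ((2 * Real.pi * ‖ξ‖) ^ 2) * ‖g ξ - ψ ξ‖ₑ ^ 2 ≤ ENNReal.ofReal (δ ^ 2) := by
  set μ : Measure (Config n) := volume.withDensity fun ξ : Config n =>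
    ENNReal.ofReal (1 + (2 * Real.pi * ‖ξ‖) ^ 2) with hμ
  have : IsLocallyFiniteMeasure μ := IsLocallyFiniteMeasure.withDensity_ofReal (by fun_prop)
  have hac : μ ≪ volume := withDensity_absolutelyContinuous _ _
  have hgμ : MemLp g 2 μ := by
    refine ⟨hg.1.mono_ac hac, ?_⟩
    rw [eLpNorm_lt_top_iff_lintegral_rpow_enorm_lt_top (by norm_num) (by norm_num)]
    simp only [ENNReal.toReal_ofNat, ENNReal.rpow_ofNat]
    rw [hμ, kinA_w g hg.1, kinF_lint hg]
    exact ENNReal.add_lt_top.2 ⟨ENNReal.ofReal_lt_top, hK⟩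
  obtain ⟨ψ, h1, h2, h3⟩ := hgμ.exist_eLpNorm_sub_le (by norm_num) (by norm_num) hδ
  have h := eLpNorm_nnreal_pow_eq_lintegral (f := g - ψ) (μ := μ) (p := 2) (by norm_num)
  simp only [ENNReal.coe_ofNat, NNReal.coe_ofNat, ENNReal.rpow_ofNat] at h
  have h4 : ∫⁻ ξ, ‖(g - ψ) ξ‖ₑ ^ 2 ∂μ ≤ ENNReal.ofReal (δ ^ 2) := by
    rw [← h, ENNReal.ofReal_pow hδ.le]
    exact pow_le_pow_left' h3 2
  rw [hμ, kinA_w _ (hg.1.sub h2.continuous.aestronglyMeasurable)] at h4
  exact ⟨h1.toSchwartzMap h2, le_trans le_self_add h4, le_trans le_add_self h4⟩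

theorem kin_appr {n : ℕ} (f : Config n → ℂ) (hf : MemLp f 2 volume) (hK : kineticOne f < ⊤)
    (ε : ℝ) (hε : 0 < ε) :
    ∃ u v : Config n → ℝ, KinH1 u ∧ KinH1 v ∧ ∫ x, ((f x).re - u x) ^ 2 ≤ ε ∧
      ∫ x, ((f x).im - v x) ^ 2 ≤ ε ∧
      1 / 2 * (∫ x, gradSq u x) + 1 / 2 * ∫ x, gradSq v x ≤ (kineticOne f).toReal + ε := by
  set K := (kineticOne f).toReal with hKdef
  have hK0 : 0 ≤ K := ENNReal.toReal_nonneg
  set g : Lp ℂ 2 (volume : Measure (Config n)) := 𝓕 (hf.toLp f) with hg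
  set J := ∫⁻ ξ, ENNReal.ofReal ((2 * Real.pi * ‖ξ‖) ^ 2) * ‖g ξ‖ₑ ^ 2 with hJ
  have hKJ : kineticOne f = 1 / 2 * J := by
    unfold kineticOne
    rw [dif_pos hf]
  have hJt : J < ⊤ := by
    rw [hKJ] at hK
    by_contra hc
    rw [not_lt, top_le_iff] at hc
    rw [hc, ENNReal.mul_top (by simp)] at hK
    exact lt_irrefl _ hK
  set t := ε / (2 * (K + 1)) with ht
  have ht0 : 0 < t := by positivity
  set δ := Real.sqrt (ε / (1 + 1 / t)) with hδ
  have hδ0 : 0 < δ := by positivity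
  have hδ2 : δ ^ 2 = ε / (1 + 1 / t) := Real.sq_sqrt (by positivity)
  have hδε : δ ^ 2 ≤ ε := by
    rw [hδ2]
    exact div_le_self hε.le (le_add_of_nonneg_right (by positivity))
  obtain ⟨ψ, h1, h2⟩ := kinA_fourier g (Lp.memLp g) hJt δ hδ0
  set φ : 𝓢(Config n, ℂ) := 𝓕⁻ ψ with hφ
  have hφψ : (𝓕 (φ.toLp 2 volume) : Lp ℂ 2 (volume : Measure (Config n))) = ψ.toLp 2 volume := by
    rw [SchwartzMap.toLp_fourier_eq, hφ, FourierTransform.fourier_fourierInv_eq]
  have hφ2 : MemLp φ 2 volume := φ.memLp 2 volume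
  have hc : ∀ c, MemLp (fun x => fderiv ℝ φ x (EuclideanSpace.single c 1)) 2 volume :=
    fun c => (∂_{EuclideanSpace.single c (1 : ℝ)} φ).memLp 2 volume
  obtain ⟨i1, i2, e⟩ := kin_eq_real φ φ.differentiable hφ2 hc
  have hsm : ContDiff ℝ 1 φ := φ.smooth 1
  -- the `L²` distance
  have hd : ∫ x, ‖f x - φ x‖ ^ 2 ≤ ε := by
    have e1 : ∫⁻ x, ‖f x - φ x‖ₑ ^ 2 = 
        ∫⁻ x, ‖(hf.toLp f - φ.toLp 2 volume : Lp ℂ 2 (volume : Measure (Config n))) x‖ₑ ^ 2 := by
      apply lintegral_congr_ae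
      filter_upwards [Lp.coeFn_sub (hf.toLp f) (φ.toLp 2 volume), hf.coeFn_toLp, φ.coeFn_toLp 2 volume]
        with x a b c
      rw [a, Pi.sub_apply, b, c]
    have e2 : (𝓕 (hf.toLp f - φ.toLp 2 volume) : Lp ℂ 2 (volume : Measure (Config n))) = g - ψ.toLp 2 volume := by
      rw [← hφψ]
      exact (Lp.fourierTransformₗᵢ (Config n) ℂ).map_sub _ _
    have e3 : ∫⁻ x, ‖(g - ψ.toLp 2 volume : Lp ℂ 2 (volume : Measure (Config n))) x‖ₑ ^ 2 =
        ∫⁻ x, ‖g x - ψ x‖ₑ ^ 2 := by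
      apply lintegral_congr_ae
      filter_upwards [Lp.coeFn_sub g (ψ.toLp 2 volume), ψ.coeFn_toLp 2 volume] with x a b
      rw [a, Pi.sub_apply, b]
    have e4 := kinF_lint (hf.sub hφ2)
    simp only [Pi.sub_apply] at e4
    rw [← kinF_planch, e2, e3, e4] at e1
    rw [← e1] at h1
    exact ((ENNReal.ofReal_le_ofReal_iff (sq_nonneg _)).1 h1).trans hδε
  have hdi : Integrable fun x => ‖f x - φ x‖ ^ 2 :=
    (memLp_two_iff_integrable_sq_norm (hf.sub hφ2).1).1 (hf.sub hφ2)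
  refine ⟨fun x => (φ x).re, fun x => (φ x).im, ⟨Complex.reCLM.contDiff.comp hsm, hφ2.re (𝕜 := ℂ), i1⟩,
    ⟨Complex.imCLM.contDiff.comp hsm, hφ2.im (𝕜 := ℂ), i2⟩, ?_, ?_, ?_⟩
  · refine le_trans (integral_mono_of_nonneg (Filter.Eventually.of_forall fun x => sq_nonneg _) hdi
      (Filter.Eventually.of_forall fun x => ?_)) hd
    have := Complex.abs_re_le_norm (f x - φ x)
    simp only [Complex.sub_re] at this
    simpa using pow_le_pow_left₀ (abs_nonneg _) this 2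
  · refine le_trans (integral_mono_of_nonneg (Filter.Eventually.of_forall fun x => sq_nonneg _) hdi
      (Filter.Eventually.of_forall fun x => ?_)) hd
    have := Complex.abs_im_le_norm (f x - φ x)
    simp only [Complex.sub_im] at this
    simpa using pow_le_pow_left₀ (abs_nonneg _) this 2
  · have k1 : kineticOne φ =
        1 / 2 * ∫⁻ ξ, ENNReal.ofReal ((2 * Real.pi * ‖ξ‖) ^ 2) * ‖ψ ξ‖ₑ ^ 2 := by
      unfold kineticOne
      rw [dif_pos hφ2]
      congr 1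
      have : (hφ2.toLp φ : Lp ℂ 2 (volume : Measure (Config n))) = φ.toLp 2 volume := rfl
      rw [this, hφψ]
      apply lintegral_congr_ae
      filter_upwards [ψ.coeFn_toLp 2 volume] with x a
      rw [a]
    have hm : AEMeasurable (fun ξ : Config n =>
        ENNReal.ofReal ((2 * Real.pi * ‖ξ‖) ^ 2) * ‖g ξ‖ₑ ^ 2) volume := by
      refine AEMeasurable.fun_mul (by fun_prop) ?_
      exact (Lp.aestronglyMeasurable _).enorm.pow_const 2
    have k2 : ∫⁻ ξ, ENNReal.ofReal ((2 * Real.pi * ‖ξ‖) ^ 2) * ‖ψ ξ‖ₑ ^ 2 ≤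
        ENNReal.ofReal (1 + t) * J + ENNReal.ofReal (1 + 1 / t) * ENNReal.ofReal (δ ^ 2) := by
      refine le_trans ?_ (add_le_add le_rfl (mul_le_mul_right h2 _))
      rw [hJ, ← lintegral_const_mul' _ _ ENNReal.ofReal_ne_top,
        ← lintegral_const_mul' _ _ ENNReal.ofReal_ne_top, ← lintegral_add_left' (hm.const_mul _)]
      apply lintegral_mono
      intro ξ
      simp only
      rw [mul_left_comm (ENNReal.ofReal (1 + t)), mul_left_comm (ENNReal.ofReal (1 + 1 / t)),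
        ← mul_add]
      refine mul_le_mul_right ?_ _
      simp only [← ofReal_norm]
      rw [← ENNReal.ofReal_pow (norm_nonneg _), ← ENNReal.ofReal_pow (norm_nonneg _),
        ← ENNReal.ofReal_pow (norm_nonneg _), ← ENNReal.ofReal_mul (by positivity),
        ← ENNReal.ofReal_mul (by positivity), ← ENNReal.ofReal_add (by positivity) (by positivity)]
      apply ENNReal.ofReal_le_ofReal
      refine le_trans ?_ (kinA_sq _ _ t ht0)
      refine pow_le_pow_left₀ (norm_nonneg _) ?_ 2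
      have := norm_sub_le (g ξ) (g ξ - ψ ξ)
      simpa using this
    have hJK : J = ENNReal.ofReal (2 * K) := by
      rw [hKdef, hKJ, ENNReal.toReal_mul]
      have : (2 : ℝ) * (((1 : ℝ≥0∞) / 2).toReal * J.toReal) = J.toReal := by
        simp
      rw [this, ENNReal.ofReal_toReal hJt.ne]
    have k3 : kineticOne φ ≤ ENNReal.ofReal (K + ε) := by
      rw [k1]
      refine le_trans (mul_le_mul_right k2 _) ?_
      have : (1 : ℝ≥0∞) / 2 = ENNReal.ofReal (1 / 2) := by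
        rw [ENNReal.ofReal_div_of_pos (by norm_num)]; simp
      rw [hJK, this, ← ENNReal.ofReal_mul (by positivity), ← ENNReal.ofReal_mul (by positivity),
        ← ENNReal.ofReal_add (by positivity) (by positivity), ← ENNReal.ofReal_mul (by norm_num)]
      apply ENNReal.ofReal_le_ofReal
      have a1 : (1 + 1 / t) * δ ^ 2 = ε := by
        rw [hδ2]
        field_simp
      have a2 : t * (2 * K) ≤ ε := by
        rw [ht, div_mul_eq_mul_div, div_le_iff₀ (by positivity)]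
        nlinarith
      nlinarith
    rw [e] at k3
    exact (ENNReal.ofReal_le_ofReal_iff (by positivity)).1 k3

end Crest.Agent.R338
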