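import Crest.Agent.R338.CDefs

/-! # The Fourier kinetic energy of a differentiable function with `L²` gradient -/

set_option autoImplicit false
set_option linter.dupNamespace false
set_option linter.unusedVariables false

noncomputable section

namespace Crest.Agent.R338

open MeasureTheory Set SchwartzMap LineDeriv
open Crest.MathPhysics.ElectronicCoulomb
open scoped FourierTransform ENNReal ContDiff

section gen

variable {E : Type} [NormedAddCommGroup E] [InnerProductSpace ℝ E] [FiniteDimensional ℝ E]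
  [MeasurableSpace E] [BorelSpace E]

theorem kinF_pair (f : Lp ℂ 2 (volume : Measure E)) (φ : 𝓢(E, ℂ)) :
    ∫ x, φ x * (𝓕 f : Lp ℂ 2 (volume : Measure E)) x = ∫ x, (𝓕 φ : 𝓢(E, ℂ)) x * f x := by
  have h := Lp.fourier_toTemperedDistribution_eq f
  have h2 := congrArg (fun T : 𝓢'(E, ℂ) => T φ) h
  simp only [TemperedDistribution.fourier_apply, Lp.toTemperedDistribution_apply, smul_eq_mul] at h2
  exact h2.symm

theorem kinF_deriv (f : E → ℂ) (hd : Differentiable ℝ f) (hf : MemLp f 2 volume) (m : E)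
    (hm : MemLp (fun x => fderiv ℝ f x m) 2 volume) :
    ∀ᵐ ξ, (𝓕 (hm.toLp _) : Lp ℂ 2 (volume : Measure E)) ξ =
      (2 * Real.pi * Complex.I) * ((inner ℝ ξ m : ℝ) : ℂ) *
        (𝓕 (hf.toLp f) : Lp ℂ 2 (volume : Measure E)) ξ := by
  apply ae_eq_of_integral_contDiff_smul_eq
  · exact (Lp.memLp _).locallyIntegrable (by norm_num)
  · have h1 : LocallyIntegrable (fun ξ => (𝓕 (hf.toLp f) : Lp ℂ 2 (volume : Measure E)) ξ) volume :=
      (Lp.memLp _).locallyIntegrable (by norm_num)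
    have hc : Continuous fun ξ : E => (2 * Real.pi * Complex.I) * ((inner ℝ ξ m : ℝ) : ℂ) := by
      fun_prop
    rw [← locallyIntegrableOn_univ] at h1 ⊢
    exact h1.continuousOn_mul hc.continuousOn isOpen_univ.isLocallyClosed
  · intro g g_smooth g_cpt
    have hg₁ : HasCompactSupport (Complex.ofRealCLM ∘ g) := g_cpt.comp_left rfl
    have hg₂ : ContDiff ℝ ∞ (Complex.ofRealCLM ∘ g) := by fun_prop
    set φ : 𝓢(E, ℂ) := hg₁.toSchwartzMap hg₂ with hφ
    have hφx : ∀ x, φ x = (g x : ℂ) := fun x => rfl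
    have ht : (fun x : E => inner ℝ x m).HasTemperateGrowth :=
      ((innerSL ℝ).flip m).hasTemperateGrowth
    set ψ : 𝓢(E, ℂ) := -(2 * Real.pi * Complex.I) • smulLeftCLM ℂ (fun x : E => inner ℝ x m) φ
      with hψ
    have hψx : ∀ x, ψ x = -((2 * Real.pi * Complex.I) * ((inner ℝ x m : ℝ) : ℂ) * g x) := by
      intro x
      simp [hψ, ht, hφx]
      ring
    have e1 : ∫ x, g x • (𝓕 (hm.toLp _) : Lp ℂ 2 (volume : Measure E)) x =
        ∫ x, (𝓕 φ : 𝓢(E, ℂ)) x * fderiv ℝ f x m := by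
      have := kinF_pair (hm.toLp _) φ
      simp only [hφx] at this
      simp only [Complex.real_smul]
      rw [this]
      apply integral_congr_ae
      filter_upwards [hm.coeFn_toLp] with x hx
      rw [hx]
    have e2 : ∫ x, (𝓕 φ : 𝓢(E, ℂ)) x * fderiv ℝ f x m =
        - ∫ x, fderiv ℝ (𝓕 φ : 𝓢(E, ℂ)) x m * f x := by
      apply integral_mul_fderiv_eq_neg_fderiv_mul_of_integrable
      · exact ((∂_{m} (𝓕 φ : 𝓢(E, ℂ))).memLp 2 volume).integrable_mul hf
      · exact ((𝓕 φ : 𝓢(E, ℂ)).memLp 2 volume).integrable_mul hm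
      · exact ((𝓕 φ : 𝓢(E, ℂ)).memLp 2 volume).integrable_mul hf
      · exact fun x _ => (𝓕 φ : 𝓢(E, ℂ)).differentiableAt
      · exact fun x _ => hd x
    have e3 : ∫ x, fderiv ℝ (𝓕 φ : 𝓢(E, ℂ)) x m * f x =
        ∫ x, ψ x * (𝓕 (hf.toLp f) : Lp ℂ 2 (volume : Measure E)) x := by
      rw [kinF_pair, hψ, ← lineDerivOp_fourier_eq]
      apply integral_congr_ae
      filter_upwards [hf.coeFn_toLp] with x hx
      rw [hx]
      rfl
    rw [e1, e2, e3, ← integral_neg]
    apply integral_congr_ae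
    filter_upwards with x
    rw [hψx, Complex.real_smul]
    ring

theorem kinF_norm (f : Lp ℂ 2 (volume : Measure E)) :
    ∫⁻ x, ‖f x‖ₑ ^ 2 = ENNReal.ofReal ‖f‖ ^ 2 := by
  have h := eLpNorm_nnreal_pow_eq_lintegral (f := f) (μ := (volume : Measure E)) (p := 2) (by norm_num)
  simp only [ENNReal.coe_ofNat, NNReal.coe_ofNat, ENNReal.rpow_ofNat] at h
  rw [← h, Lp.norm_def, ENNReal.ofReal_toReal (Lp.eLpNorm_ne_top f)]

theorem kinF_planch (f : Lp ℂ 2 (volume : Measure E)) :
    ∫⁻ x, ‖(𝓕 f : Lp ℂ 2 (volume : Measure E)) x‖ₑ ^ 2 = ∫⁻ x, ‖f x‖ₑ ^ 2 := by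
  rw [kinF_norm, kinF_norm, Lp.norm_fourier_eq]

end gen

theorem kin_eq {n : ℕ} (f : Config n → ℂ) (hd : Differentiable ℝ f) (hf : MemLp f 2 volume)
    (hc : ∀ c, MemLp (fun x => fderiv ℝ f x (EuclideanSpace.single c 1)) 2 volume) :
    kineticOne f = 1 / 2 * ∑ c, ∫⁻ x, ‖fderiv ℝ f x (EuclideanSpace.single c 1)‖ₑ ^ 2 := by
  unfold kineticOne
  rw [dif_pos hf]
  congr 1
  have e1 : ∀ c, ∫⁻ x, ‖fderiv ℝ f x (EuclideanSpace.single c 1)‖ₑ ^ 2 =
      ∫⁻ ξ, ENNReal.ofReal ((2 * Real.pi * ξ c) ^ 2) *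
        ‖(𝓕 (hf.toLp f) : Lp ℂ 2 (volume : Measure (Config n))) ξ‖ₑ ^ 2 := by
    intro c
    have h1 : ∫⁻ x, ‖fderiv ℝ f x (EuclideanSpace.single c 1)‖ₑ ^ 2 =
        ∫⁻ x, ‖((hc c).toLp _) x‖ₑ ^ 2 := by
      apply lintegral_congr_ae
      filter_upwards [(hc c).coeFn_toLp] with x hx
      rw [hx]
    rw [h1, ← kinF_planch]
    apply lintegral_congr_ae
    filter_upwards [kinF_deriv f hd hf _ (hc c)] with ξ hξ
    rw [hξ, enorm_mul, mul_pow]
    congr 1
    rw [← ofReal_norm, ← ENNReal.ofReal_pow (norm_nonneg _)]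
    congr 1
    simp [EuclideanSpace.inner_single_right, mul_pow]
  simp only [e1]
  rw [← lintegral_finsetSum']
  · apply lintegral_congr
    intro ξ
    rw [← Finset.sum_mul, ← ENNReal.ofReal_sum_of_nonneg (fun c _ => sq_nonneg _)]
    congr 2
    simp only [mul_pow]
    rw [← Finset.mul_sum, EuclideanSpace.real_norm_sq_eq]
  · intro c _
    refine AEMeasurable.fun_mul ?_ ?_
    · fun_prop
    · exact (Lp.aestronglyMeasurable _).enorm.pow_const 2

theorem kinF_lint {X F : Type} [MeasurableSpace X] {μ : Measure X} [NormedAddCommGroup F] {f : X → F}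
    (hf : MemLp f 2 μ) : ∫⁻ x, ‖f x‖ₑ ^ 2 ∂μ = ENNReal.ofReal (∫ x, ‖f x‖ ^ 2 ∂μ) := by
  rw [ofReal_integral_eq_lintegral_ofReal]
  · apply lintegral_congr
    intro x
    rw [← ofReal_norm, ← ENNReal.ofReal_pow (norm_nonneg _)]
  · exact (memLp_two_iff_integrable_sq_norm hf.1).1 hf
  · exact Filter.Eventually.of_forall fun x => by positivity

theorem kinF_re {n : ℕ} (f : Config n → ℂ) (hd : Differentiable ℝ f) (x m : Config n) :
    fderiv ℝ (fun x => (f x).re) x m = (fderiv ℝ f x m).re := by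
  have := (Complex.reCLM.hasFDerivAt.comp x (hd x).hasFDerivAt).fderiv
  have h2 : fderiv ℝ (fun x => (f x).re) x = Complex.reCLM.comp (fderiv ℝ f x) := this
  rw [h2]
  rfl

theorem kinF_im {n : ℕ} (f : Config n → ℂ) (hd : Differentiable ℝ f) (x m : Config n) :
    fderiv ℝ (fun x => (f x).im) x m = (fderiv ℝ f x m).im := by
  have := (Complex.imCLM.hasFDerivAt.comp x (hd x).hasFDerivAt).fderiv
  have h2 : fderiv ℝ (fun x => (f x).im) x = Complex.imCLM.comp (fderiv ℝ f x) := this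
  rw [h2]
  rfl

theorem kin_eq_real {n : ℕ} (f : Config n → ℂ) (hd : Differentiable ℝ f) (hf : MemLp f 2 volume)
    (hc : ∀ c, MemLp (fun x => fderiv ℝ f x (EuclideanSpace.single c 1)) 2 volume) :
    Integrable (gradSq fun x => (f x).re) ∧ Integrable (gradSq fun x => (f x).im) ∧
    kineticOne f = ENNReal.ofReal (1 / 2 * (∫ x, gradSq (fun x => (f x).re) x) +
      1 / 2 * ∫ x, gradSq (fun x => (f x).im) x) := by
  have hre : ∀ c, Integrable fun x => (fderiv ℝ f x (EuclideanSpace.single c 1)).re ^ 2 :=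
    fun c => ((hc c).re (𝕜 := ℂ)).integrable_sq
  have him : ∀ c, Integrable fun x => (fderiv ℝ f x (EuclideanSpace.single c 1)).im ^ 2 :=
    fun c => ((hc c).im (𝕜 := ℂ)).integrable_sq
  have g1 : (gradSq fun x => (f x).re) =
      fun x => ∑ c, (fderiv ℝ f x (EuclideanSpace.single c 1)).re ^ 2 := by
    funext x
    simp only [gradSq, kinF_re f hd]
  have g2 : (gradSq fun x => (f x).im) =
      fun x => ∑ c, (fderiv ℝ f x (EuclideanSpace.single c 1)).im ^ 2 := by
    funext x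
    simp only [gradSq, kinF_im f hd]
  refine ⟨?_, ?_, ?_⟩
  · rw [g1]; exact integrable_finsetSum _ fun c _ => hre c
  · rw [g2]; exact integrable_finsetSum _ fun c _ => him c
  · rw [kin_eq f hd hf hc, g1, g2, integral_finsetSum _ fun c _ => hre c,
      integral_finsetSum _ fun c _ => him c, ← mul_add, ← Finset.sum_add_distrib,
      ENNReal.ofReal_mul (by norm_num), ENNReal.ofReal_sum_of_nonneg]
    · congr 1
      · rw [ENNReal.ofReal_div_of_pos (by norm_num)]; simp
      · refine Finset.sum_congr rfl fun c _ => ?_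
        rw [kinF_lint (hc c), ← integral_add (hre c) (him c)]
        congr 1
        apply integral_congr_ae
        filter_upwards with x
        rw [Complex.sq_norm, Complex.normSq_apply]
        ring
    · intro c _
      exact add_nonneg (integral_nonneg fun x => sq_nonneg _) (integral_nonneg fun x => sq_nonneg _)

theorem Cc1.kin_memLp {n : ℕ} {u : Config n → ℝ} (hu : Cc1 u) : MemLp u 2 volume :=
  hu.1.continuous.memLp_of_hasCompactSupport hu.2

theorem Cc1.kin_memLp_fderiv {n : ℕ} {u : Config n → ℝ} (hu : Cc1 u) (m : Config n) :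
    MemLp (fun x => fderiv ℝ u x m) 2 volume := by
  apply Continuous.memLp_of_hasCompactSupport
  · exact (hu.1.continuous_fderiv (by norm_num)).clm_apply continuous_const
  · exact hu.2.fderiv_apply ℝ m

theorem Cc1.kin_int_gradSq {n : ℕ} {u : Config n → ℝ} (hu : Cc1 u) : Integrable (gradSq u) :=
  integrable_finsetSum _ fun c _ => (hu.kin_memLp_fderiv _).integrable_sq

theorem kin_real {n : ℕ} (u : Config n → ℝ) (hu : Cc1 u) :
    kineticOne (fun x => (u x : ℂ)) = ENNReal.ofReal (1 / 2 * ∫ x, gradSq u x) := by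
  have hd0 : Differentiable ℝ u := hu.1.differentiable (by norm_num)
  have hd : Differentiable ℝ fun x => (u x : ℂ) := fun x =>
    (Complex.ofRealCLM.hasFDerivAt.comp x (hd0 x).hasFDerivAt).differentiableAt
  have hD : ∀ x m, fderiv ℝ (fun x => (u x : ℂ)) x m = ((fderiv ℝ u x m : ℝ) : ℂ) := by
    intro x m
    have := (Complex.ofRealCLM.hasFDerivAt.comp x (hd0 x).hasFDerivAt).fderiv
    have h2 : fderiv ℝ (fun x => (u x : ℂ)) x = Complex.ofRealCLM.comp (fderiv ℝ u x) := this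
    rw [h2]
    rfl
  have h := (kin_eq_real (fun x => (u x : ℂ)) hd (hu.kin_memLp.ofReal (K := ℂ)) (fun c => by
    simp only [hD]
    exact (hu.kin_memLp_fderiv _).ofReal (K := ℂ))).2.2
  rw [h]
  simp [gradSq]

end Crest.Agent.R338
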