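import Crest.Agent.R338.Sig

/-! # R338 / Line_A : the superpotential `sp`, the ground state transform, a Hardy inequality -/

set_option autoImplicit false
set_option linter.dupNamespace false

noncomputable section

namespace Crest.Agent.R338.Ln

open MeasureTheory Set Filter Topology

/-- `w · clamp z (-L) L` -/
def sp (w L z : ℝ) : ℝ := w * (z - max (z - L) 0 + max (-z - L) 0)
/-- its derivative -/
def spp (w L z : ℝ) : ℝ := if |z| < L then w else 0
/-- its primitive -/
def ss (w L z : ℝ) : ℝ := w / 2 * (z ^ 2 - max (z - L) 0 ^ 2 - max (-z - L) 0 ^ 2)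
/-- the ground state -/
def G0 (w L z : ℝ) : ℝ := Real.exp (-ss w L z)
/-- the indicator of `2L < |z|` -/
def lo (L z : ℝ) : ℝ := if 2 * L < |z| then 1 else 0

variable {w L z : ℝ}

theorem sp_mid (h : |z| ≤ L) : sp w L z = w * z := by
  rw [abs_le] at h
  rw [sp, max_eq_right (by linarith), max_eq_right (by linarith)]; ring

theorem sp_right (hL : 0 ≤ L) (h : L ≤ z) : sp w L z = w * L := by
  rw [sp, max_eq_left (by linarith), max_eq_right (by linarith)]; ring

theorem sp_left (hL : 0 ≤ L) (h : z ≤ -L) : sp w L z = -(w * L) := by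
  rw [sp, max_eq_right (by linarith), max_eq_left (by linarith)]; ring

theorem sp_neg (w L z : ℝ) : sp w L (-z) = -sp w L z := by
  rw [sp, sp, neg_neg]; ring

theorem sp_sq (hL : 0 ≤ L) (h : L ≤ |z|) : sp w L z ^ 2 = w ^ 2 * L ^ 2 := by
  rcases le_abs'.1 h with h | h
  · rw [sp_left hL h]; ring
  · rw [sp_right hL h]; ring

theorem ss_mid (h : |z| ≤ L) : ss w L z = w * (z ^ 2 / 2) := by
  rw [abs_le] at h
  rw [ss, max_eq_right (by linarith), max_eq_right (by linarith)]; ring

theorem ss_ge (hw : 0 ≤ w) (hL : 1 ≤ L) : min (z ^ 2) |z| * w ≤ 2 * ss w L z := by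
  have : min (z ^ 2) |z| ≤ z ^ 2 - max (z - L) 0 ^ 2 - max (-z - L) 0 ^ 2 := by
    rcases le_total z L with h | h
    · rcases le_total (-L) z with h' | h'
      · rw [max_eq_right (by linarith), max_eq_right (by linarith)]
        exact (min_le_left _ _).trans (by simp)
      · rw [max_eq_right (by linarith), max_eq_left (by linarith), abs_of_nonpos (by linarith)]
        exact (min_le_right _ _).trans (by nlinarith)
    · rw [max_eq_left (by linarith), max_eq_right (by linarith), abs_of_nonneg (by linarith)]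
      exact (min_le_right _ _).trans (by nlinarith)
  have := mul_le_mul_of_nonneg_right this hw
  rw [ss]
  linarith

theorem continuous_sp (w L : ℝ) : Continuous (sp w L) := by unfold sp; fun_prop

theorem hasDerivAt_max_sq (x : ℝ) : HasDerivAt (fun y : ℝ => max y 0 ^ 2) (2 * max x 0) x := by
  rcases lt_trichotomy x 0 with h | rfl | h
  · rw [max_eq_right h.le, mul_zero]
    refine (hasDerivAt_const x (0 : ℝ)).congr_of_eventuallyEq ?_
    filter_upwards [gt_mem_nhds h] with y hy
    rw [max_eq_right hy.le]; ring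
  · rw [hasDerivAt_iff_isLittleO_nhds_zero]
    refine Asymptotics.IsBigO.trans_isLittleO (.of_bound' (.of_forall fun y => ?_))
      (Asymptotics.isLittleO_pow_id one_lt_two)
    rcases le_total y 0 with h | h <;> simp [h, sq_nonneg]
  · rw [max_eq_left h.le]
    refine HasDerivAt.congr_of_eventuallyEq (by simpa using hasDerivAt_pow 2 x) ?_
    filter_upwards [lt_mem_nhds h] with y hy
    rw [max_eq_left hy.le]

theorem hasDerivAt_ss (w L z : ℝ) : HasDerivAt (ss w L) (sp w L z) z := by
  have h1 := (hasDerivAt_max_sq (z - L)).comp z ((hasDerivAt_id' z).sub_const L)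
  have h2 := (hasDerivAt_max_sq (-z - L)).comp z ((hasDerivAt_neg' z).sub_const L)
  exact ((((hasDerivAt_pow 2 z).sub h1).sub h2).const_mul (w / 2)).congr_deriv
    (by rw [sp]; push_cast; ring)

theorem hasDerivAt_G0 (w L z : ℝ) : HasDerivAt (G0 w L) (-(sp w L z * G0 w L z)) z := by
  exact (hasDerivAt_ss w L z).neg.exp.congr_deriv (by rw [G0, Pi.neg_apply]; ring)

theorem continuous_G0 (w L : ℝ) : Continuous (G0 w L) :=
  continuous_iff_continuousAt.2 fun z => (hasDerivAt_G0 w L z).continuousAt

theorem hasDerivAt_sp (hL : 0 ≤ L) (h : z ∉ ({-L, L} : Set ℝ)) :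
    HasDerivAt (sp w L) (spp w L z) z := by
  simp only [mem_insert_iff, mem_singleton_iff, not_or] at h
  unfold spp
  split_ifs with h1
  · refine HasDerivAt.congr_of_eventuallyEq (by simpa using (hasDerivAt_id' z).const_mul w) ?_
    filter_upwards [continuous_abs.continuousAt.eventually_lt_const h1] with y hy using sp_mid hy.le
  · rcases le_abs'.1 (not_lt.1 h1) with h2 | h2
    · refine (hasDerivAt_const z (-(w * L))).congr_of_eventuallyEq ?_
      filter_upwards [gt_mem_nhds (lt_of_le_of_ne h2 h.1)] with y hy using sp_left hL hy.le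
    · refine (hasDerivAt_const z (w * L)).congr_of_eventuallyEq ?_
      filter_upwards [lt_mem_nhds (lt_of_le_of_ne h2 (Ne.symm h.2))] with y hy using sp_right hL hy.le

theorem measurable_spp (w L : ℝ) : Measurable (spp w L) :=
  Measurable.ite (measurableSet_lt measurable_abs measurable_const) measurable_const measurable_const

theorem measurable_lo (L : ℝ) : Measurable (lo L) :=
  Measurable.ite (measurableSet_lt measurable_const measurable_abs) measurable_const measurable_const

theorem lo_mem (L z : ℝ) : 0 ≤ lo L z ∧ lo L z ≤ 1 := by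
  unfold lo; split_ifs <;> norm_num

variable {g : ℝ → ℝ}

theorem int_cont (hg : Cc1 g) {a : ℝ → ℝ} (ha : Continuous a) : Integrable fun z => a z * g z :=
  (ha.mul hg.1.continuous).integrable_of_hasCompactSupport hg.2.mul_left

theorem int_sq (hg : Cc1 g) : Integrable fun z => g z ^ 2 := by
  simpa only [sq] using int_cont hg hg.1.continuous

theorem int_mul_sq (hg : Cc1 g) {a : ℝ → ℝ} (ha : Continuous a) :
    Integrable fun z => a z * g z ^ 2 := by
  simpa only [sq, mul_assoc] using int_cont hg (ha.fun_mul hg.1.continuous)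

theorem cont_deriv (hg : Cc1 g) : Continuous (deriv g) := hg.1.continuous_deriv le_rfl

theorem int_deriv_sq (hg : Cc1 g) : Integrable fun z => deriv g z ^ 2 := by
  simp only [sq]
  exact ((cont_deriv hg).mul (cont_deriv hg)).integrable_of_hasCompactSupport hg.2.deriv.mul_left

theorem int_lo (hg : Cc1 g) (L : ℝ) : Integrable fun z => lo L z * g z ^ 2 :=
  (int_sq hg).bdd_mul (measurable_lo L).aestronglyMeasurable (c := 1) (.of_forall fun z => by
    rw [Real.norm_of_nonneg (lo_mem L z).1]; exact (lo_mem L z).2)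

theorem int_spp (hg : Cc1 g) (w L : ℝ) : Integrable fun z => spp w L z * g z ^ 2 :=
  (int_sq hg).bdd_mul (measurable_spp w L).aestronglyMeasurable (c := ‖w‖) (.of_forall fun z => by
    unfold spp; split_ifs <;> simp)

theorem int_V (hg : Cc1 g) (w L : ℝ) : Integrable fun z => (sp w L z ^ 2 - spp w L z) * g z ^ 2 := by
  simp only [sub_mul]
  exact (int_mul_sq hg ((continuous_sp w L).pow 2)).sub (int_spp hg w L)

theorem int_h (hg : Cc1 g) (w L : ℝ) : Integrable fun z => (deriv g z + sp w L z * g z) ^ 2 := by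
  have h1 := (cont_deriv hg).add ((continuous_sp w L).mul hg.1.continuous)
  simp only [sq]
  exact (h1.mul h1).integrable_of_hasCompactSupport (hg.2.deriv.add hg.2.mul_left).mul_left

/-- the ground state transform -/
theorem ident (hg : Cc1 g) (w : ℝ) (hL : 0 ≤ L) : ∫ z, (deriv g z + sp w L z * g z) ^ 2 =
    (∫ z, deriv g z ^ 2) + ∫ z, (sp w L z ^ 2 - spp w L z) * g z ^ 2 := by
  have hi : Integrable fun z => spp w L z * g z ^ 2 + sp w L z * (2 * deriv g z) * g z :=
    (int_spp hg w L).add (int_cont hg ((continuous_sp w L).mul ((cont_deriv hg).const_mul 2)))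
  have h0 : ∫ z, (spp w L z * g z ^ 2 + sp w L z * (2 * deriv g z) * g z) = 0 := by
    obtain ⟨R, hR, h⟩ := hg.2.exists_pos_le_norm
    have h1 := integral_eq_of_hasDerivAt_off_countable (fun z => sp w L z * g z ^ 2) _
      (a := -R) (b := R) (Set.toFinite {-L, L}).countable
      ((continuous_sp w L).mul (hg.1.continuous.pow 2)).continuousOn (fun z hz =>
        ((hasDerivAt_sp hL hz.2).fun_mul
          ((hg.1.differentiable one_ne_zero z).hasDerivAt.fun_pow 2)).congr_deriv
          (by push_cast; ring)) hi.intervalIntegrable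
    rw [h R (by simp [abs_of_pos hR]), h (-R) (by simp [abs_of_pos hR]),
      intervalIntegral.integral_eq_integral_of_support_subset fun z hz => ?_] at h1
    · simpa using h1
    · by_contra hc
      refine hz ?_
      rw [mem_Ioc, not_and_or, not_lt, not_le] at hc
      beta_reduce
      rw [h z (by rw [Real.norm_eq_abs, le_abs']; rcases hc with hc | hc; exacts [.inl hc, .inr hc.le])]
      ring
  rw [← integral_add (int_deriv_sq hg) (int_V hg w L), ← sub_eq_zero, ← h0,
    ← integral_sub (int_h hg w L) ((int_deriv_sq hg).fun_add (int_V hg w L))]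
  refine integral_congr_ae (.of_forall fun z => ?_)
  ring

/-- Hardy type inequality, with the multiplier `ρ = 4/(8z+1)` -/
theorem hardy {u u' s : ℝ → ℝ} {R : ℝ} (hR : 0 ≤ R) (hu : ∀ z, HasDerivAt u (u' z) z)
    (hu' : Continuous u') (hs : Continuous s) (h0 : u 0 = 0) (h : ∀ z ∈ Icc 0 R, 4 * z ≤ s z) :
    ∫ z in (0)..R, u z ^ 2 ≤ 1 / 2 * ∫ z in (0)..R, (u' z + s z * u z) ^ 2 := by
  have hc : Continuous u := continuous_iff_continuousAt.2 fun z => (hu z).continuousAt
  have hp : ∀ z ∈ uIcc 0 R, 0 < 8 * z + 1 := fun z hz => by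
    rw [uIcc_of_le hR] at hz; linarith [hz.1]
  have hi : IntervalIntegrable (fun z => -32 / (8 * z + 1) ^ 2 * u z ^ 2 +
      4 / (8 * z + 1) * (2 * u z * u' z)) volume 0 R := by
    refine ContinuousOn.intervalIntegrable fun z hz => ContinuousAt.continuousWithinAt ?_
    have := (hp z hz).ne'
    fun_prop (disch := positivity)
  have h1 := intervalIntegral.integral_eq_sub_of_hasDerivAt
    (f := fun z => 4 / (8 * z + 1) * u z ^ 2) (fun z hz =>
      (((hasDerivAt_const z (4 : ℝ)).fun_div (((hasDerivAt_id' z).const_mul 8).add_const 1)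
        (hp z hz).ne').fun_mul ((hu z).fun_pow 2)).congr_deriv (by push_cast; ring)) hi
  have h2 : 0 ≤ 4 / (8 * R + 1) * u R ^ 2 := by positivity
  have i1 : IntervalIntegrable (fun z => u z ^ 2) volume 0 R := (hc.pow 2).intervalIntegrable _ _
  have i2 : IntervalIntegrable (fun z => (u' z + s z * u z) ^ 2) volume 0 R :=
    ((hu'.add (hs.mul hc)).pow 2).intervalIntegrable _ _
  have h3 := intervalIntegral.integral_mono_on hR hi (i2.sub (i1.const_mul 2)) fun z hz => by
    have h4 := h z hz
    have h5 : 0 < 8 * z + 1 := by linarith [hz.1]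
    obtain ⟨ρ, hρ⟩ : ∃ ρ, ρ = 4 / (8 * z + 1) := ⟨_, rfl⟩
    have h6 : -32 / (8 * z + 1) ^ 2 = -2 * ρ ^ 2 := by rw [hρ]; field_simp; ring
    have h7 : ρ * (8 * z + 1) = 4 := by rw [hρ]; field_simp
    have h8 : 0 < ρ := by rw [hρ]; positivity
    have h9 : 2 ≤ 2 * ρ * s z + ρ ^ 2 := by nlinarith [sq_nonneg (ρ - 1)]
    rw [h6, ← hρ]
    nlinarith [sq_nonneg (u' z + s z * u z - ρ * u z), mul_le_mul_of_nonneg_right h9 (sq_nonneg (u z))]
  rw [intervalIntegral.integral_sub i2 (i1.const_mul 2), intervalIntegral.integral_const_mul, h1,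
    h0] at h3
  linarith

theorem hardy2 {u u' s : ℝ → ℝ} {R : ℝ} (hR : 0 ≤ R) (hu : ∀ z, HasDerivAt u (u' z) z)
    (hu' : Continuous u') (hs : Continuous s) (h0 : u 0 = 0) (h : ∀ z ∈ Icc 0 R, 4 * z ≤ s z)
    (ho : ∀ z, s (-z) = -s z) :
    ∫ z in (-R)..R, u z ^ 2 ≤ 1 / 2 * ∫ z in (-R)..R, (u' z + s z * u z) ^ 2 := by
  have hc : Continuous u := continuous_iff_continuousAt.2 fun z => (hu z).continuousAt
  have h1 := hardy hR hu hu' hs h0 h
  have h2 := hardy (u := fun z => u (-z)) (u' := fun z => -u' (-z)) hR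
    (fun z => ((hu (-z)).comp z (hasDerivAt_neg' z)).congr_deriv (by ring)) (by fun_prop) hs (by simpa) h
  have h3 : ∀ z, (-u' (-z) + s z * u (-z)) ^ 2 = (u' (-z) + s (-z) * u (-z)) ^ 2 := fun z => by
    rw [ho]; ring
  simp only [h3] at h2
  rw [intervalIntegral.integral_comp_neg fun z => u z ^ 2,
    intervalIntegral.integral_comp_neg fun z => (u' z + s z * u z) ^ 2, neg_zero] at h2
  have c1 : Continuous fun z => u z ^ 2 := hc.pow 2
  have c2 : Continuous fun z => (u' z + s z * u z) ^ 2 := (hu'.add (hs.mul hc)).pow 2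
  rw [← intervalIntegral.integral_add_adjacent_intervals (b := 0) (c1.intervalIntegrable _ _)
    (c1.intervalIntegrable _ _), ← intervalIntegral.integral_add_adjacent_intervals (b := 0)
    (c2.intervalIntegrable _ _) (c2.intervalIntegrable _ _)]
  linarith

end Crest.Agent.R338.Ln
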