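import Crest.Agent.R338.Line_A

/-! # R338 / Line_B : the lower bounds, the Poincaré inequality, Gaussian masses -/

set_option autoImplicit false
set_option linter.dupNamespace false

noncomputable section

namespace Crest.Agent.R338.Ln

open MeasureTheory Set Filter Topology

/-- what is used about `w = ω - 1/L²` -/
structure Par (ω L w : ℝ) : Prop where
  hω : 10 ≤ ω
  hL : 2 ≤ L
  le : w ≤ ω
  ge : ω - 1 / 4 ≤ w
  sq : w ^ 2 * L ^ 2 + ω ≤ ω ^ 2 * L ^ 2
  diff : ω - w ≤ ω / L ^ 2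
  sq2 : ω ^ 2 - w ^ 2 ≤ 2 * (ω / L ^ 2)

theorem par {ω L : ℝ} (hω : 10 ≤ ω) (hL : 2 ≤ L) : Par ω L (ω - 1 / L ^ 2) := by
  have h4 : 4 ≤ L ^ 2 := by nlinarith
  obtain ⟨a, ha⟩ : ∃ a, a = 1 / L ^ 2 := ⟨_, rfl⟩
  have h1 : a * L ^ 2 = 1 := by rw [ha]; field_simp
  have h2 : 0 < a := by rw [ha]; positivity
  have h3 : a ≤ 1 / 4 := by rw [ha]; gcongr
  have h5 : ω / L ^ 2 = ω * a := by rw [ha]; ring
  have h6 : (ω - a) ^ 2 * L ^ 2 = ω ^ 2 * L ^ 2 - 2 * ω * (a * L ^ 2) + a * (a * L ^ 2) := by ring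
  rw [← ha]
  refine ⟨hω, hL, by linarith, by linarith, ?_, ?_, ?_⟩
  · rw [h6, h1]; linarith
  · rw [h5]; nlinarith
  · rw [h5]; nlinarith

variable {ω L w : ℝ} {g : ℝ → ℝ}

theorem Par.w0 (h : Par ω L w) : 0 ≤ w := by linarith [h.hω, h.ge]
theorem Par.L0 (h : Par ω L w) : 0 ≤ L := by linarith [h.hL]

theorem continuous_Wz (ω L : ℝ) : Continuous (Wz ω L) := by unfold Wz; fun_prop

theorem Par.low_pt (h : Par ω L w) {err : ℝ} (he : ω / L ^ 2 ≤ err) (z : ℝ) :
    (ω / 2 - err) + 1 / 2 * (sp w L z ^ 2 - spp w L z) + (1 + ω ^ 2 * L ^ 2 / 2) * lo L z ≤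
      Wz ω L z := by
  have h1 := h.hω; have h2 := h.hL; have h3 := h.le; have h4 := h.w0; have h5 := h.sq
  have h6 := h.diff
  have h7 : w ^ 2 ≤ ω ^ 2 := by gcongr
  have h8 : 0 ≤ ω / L ^ 2 := by positivity
  have h9 := abs_nonneg z
  unfold Wz spp lo
  rw [← sq_abs z]
  by_cases c1 : |z| < L
  · rw [if_pos c1, if_neg (by linarith), sp_mid c1.le, min_eq_left (by nlinarith), mul_pow, sq_abs]
    nlinarith [mul_le_mul_of_nonneg_right h7 (sq_nonneg z)]
  · rw [if_neg c1, sp_sq h.L0 (not_lt.1 c1)]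
    split_ifs with c2
    · rw [min_eq_right (by nlinarith)]
      have : 1 ≤ ω ^ 2 * L ^ 2 := one_le_mul_of_one_le_of_one_le (by nlinarith) (by nlinarith)
      linarith
    · rw [min_eq_left (by nlinarith)]
      have : ω ^ 2 * L ^ 2 ≤ ω ^ 2 * |z| ^ 2 := by gcongr; exact not_lt.1 c1
      linarith

theorem set_lo (L : ℝ) (g : ℝ → ℝ) :
    ∫ z in {z : ℝ | 2 * L < |z|}, g z ^ 2 = ∫ z, lo L z * g z ^ 2 := by
  rw [← integral_indicator (measurableSet_lt measurable_const measurable_abs)]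
  refine integral_congr_ae (.of_forall fun z => ?_)
  simp [indicator, lo]

theorem Par.low (h : Par ω L w) {err : ℝ} (he : ω / L ^ 2 ≤ err) (hg : Cc1 g) :
    (ω / 2 - err) * (∫ z, g z ^ 2) + X1 (sp w L) (lo L) g +
      ω ^ 2 * L ^ 2 / 2 * (∫ z in {z : ℝ | 2 * L < |z|}, g z ^ 2) ≤
      1 / 2 * (∫ z, deriv g z ^ 2) + ∫ z, Wz ω L z * g z ^ 2 := by
  have i1 := (int_sq hg).const_mul (ω / 2 - err)
  have i2 := (int_V hg w L).const_mul (1 / 2)
  have i3 := (int_lo hg L).const_mul (1 + ω ^ 2 * L ^ 2 / 2)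
  have h1 := integral_mono ((i1.fun_add i2).fun_add i3) (int_mul_sq hg (continuous_Wz ω L))
    fun z => (le_of_eq (by ring)).trans
      (mul_le_mul_of_nonneg_right (h.low_pt he z) (sq_nonneg (g z)))
  rw [integral_add (i1.fun_add i2) i3, integral_add i1 i2, integral_const_mul, integral_const_mul,
    integral_const_mul] at h1
  rw [X1, ident hg w h.L0, set_lo]
  linarith

theorem Par.grad (h : Par ω L w) (hg : Cc1 g) :
    ∫ z, deriv g z ^ 2 ≤ (∫ z, (deriv g z + sp w L z * g z) ^ 2) + ω * ∫ z, g z ^ 2 := by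
  have h1 := integral_mono ((int_sq hg).const_mul (-ω)) (int_V hg w L) fun z =>
    mul_le_mul_of_nonneg_right (show -ω ≤ sp w L z ^ 2 - spp w L z by
      have := h.le; have := h.hω; have := sq_nonneg (sp w L z)
      unfold spp; split_ifs <;> linarith) (sq_nonneg (g z))
  rw [integral_const_mul] at h1
  rw [ident hg w h.L0]
  linarith

theorem G0_pos (w L z : ℝ) : 0 < G0 w L z := Real.exp_pos _

theorem G0_sq (w L z : ℝ) : G0 w L z ^ 2 = Real.exp (-(2 * ss w L z)) := by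
  rw [G0, ← Real.exp_nat_mul]; congr 1; push_cast; ring

theorem Par.G0_le (h : Par ω L w) (z : ℝ) : G0 w L z ≤ 1 := by
  have h1 := ss_ge (z := z) h.w0 (by linarith [h.hL] : 1 ≤ L)
  have h2 : 0 ≤ min (z ^ 2) |z| * w := mul_nonneg (le_min (sq_nonneg _) (abs_nonneg _)) h.w0
  exact Real.exp_le_one_iff.2 (by linarith)

theorem Par.G0_tail (h : Par ω L w) {z : ℝ} (hz : 1 ≤ |z|) :
    G0 w L z ^ 2 ≤ 16 * Real.exp (-ω) * (1 + z ^ 2)⁻¹ := by
  have h1 := ss_ge (z := z) h.w0 (by linarith [h.hL] : 1 ≤ L)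
  rw [min_eq_right (by rw [← sq_abs]; nlinarith)] at h1
  have h2 : -(2 * ss w L z) ≤ 1 + 1 + -ω + -|z| := by nlinarith [h.ge, h.hω]
  have h3 := Real.quadratic_le_exp_of_nonneg (abs_nonneg z)
  have h4 : Real.exp (-|z|) ≤ 2 * (1 + z ^ 2)⁻¹ := by
    rw [Real.exp_neg, ← div_eq_mul_inv, inv_eq_one_div, div_le_div_iff₀ (by positivity) (by positivity)]
    rw [sq_abs] at h3
    linarith
  have h5 := Real.exp_one_lt_d9
  have h6 : Real.exp 1 * Real.exp 1 ≤ 8 := by nlinarith [Real.exp_pos 1]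
  rw [G0_sq]
  refine (Real.exp_le_exp.2 h2).trans ?_
  rw [Real.exp_add, Real.exp_add, Real.exp_add]
  calc _ ≤ 8 * Real.exp (-ω) * (2 * (1 + z ^ 2)⁻¹) := by gcongr
    _ = _ := by ring

theorem Par.tail (h : Par ω L w) {ψ : ℝ → ℝ} {B : ℝ} (hB : ∀ z, |ψ z| ≤ B)
    (h0 : ∀ z, |z| < 1 → ψ z = 0) : ∫ z, (G0 w L z * ψ z) ^ 2 ≤ B ^ 2 * (64 * Real.exp (-ω)) := by
  refine (integral_mono_of_nonneg (.of_forall fun z => sq_nonneg _)
    (integrable_inv_one_add_sq.const_mul (B ^ 2 * (16 * Real.exp (-ω))))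
    (.of_forall fun z => ?_)).trans ?_
  · beta_reduce
    rcases lt_or_ge |z| 1 with hz | hz
    · rw [h0 z hz, mul_zero, zero_pow two_ne_zero]; positivity
    · rw [mul_pow, mul_comm, mul_assoc, ← sq_abs (ψ z)]
      gcongr
      exacts [hB z, h.G0_tail hz]
  · rw [integral_const_mul, integral_univ_inv_one_add_sq]
    calc _ ≤ B ^ 2 * (16 * Real.exp (-ω)) * 4 := by gcongr; exact Real.pi_le_four
      _ = _ := by ring

theorem Par.int_G0 (h : Par ω L w) {φ : ℝ → ℝ} (hm : Measurable φ) (h1 : ∀ z, |φ z| ≤ 1) :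
    Integrable fun z => (G0 w L z * φ z) ^ 2 := by
  refine (integrable_inv_one_add_sq.const_mul (2 + 16 * Real.exp (-ω))).mono'
    (((continuous_G0 w L).measurable.mul hm).pow_const 2).aestronglyMeasurable (.of_forall fun z => ?_)
  have h2 : φ z ^ 2 ≤ 1 := (sq_le_one_iff_abs_le_one _).2 (h1 z)
  have h3 : 0 < (1 + z ^ 2)⁻¹ := by positivity
  rw [Real.norm_of_nonneg (sq_nonneg _), mul_pow, add_mul]
  refine (mul_le_of_le_one_right (sq_nonneg _) h2).trans ?_
  rcases le_total |z| 1 with hz | hz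
  · have h4 : G0 w L z ^ 2 ≤ 1 := pow_le_one₀ (G0_pos _ _ _).le (h.G0_le z)
    have h5 : 1 ≤ 2 * (1 + z ^ 2)⁻¹ := by
      rw [← div_eq_mul_inv, one_le_div (by positivity)]
      linarith [(sq_le_one_iff_abs_le_one z).2 hz]
    have : 0 ≤ 16 * Real.exp (-ω) * (1 + z ^ 2)⁻¹ := by positivity
    linarith
  · linarith [h.G0_tail hz]

/-- the central mass -/
def AA (w L : ℝ) : ℝ := ∫ z in Icc (-1 : ℝ) 1, G0 w L z ^ 2

theorem Par.AA_ge (h : Par ω L w) : 1 / ω ≤ AA w L := by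
  have h1 := h.hω
  have h2 : 0 < 1 / ω := by positivity
  have h3 : 1 / ω ≤ 1 / 10 := by gcongr
  have hc := (continuous_G0 w L).fun_pow 2
  calc 1 / ω = ∫ _ in Icc (-(1 / ω)) (1 / ω), (1 / 2 : ℝ) := by
        rw [setIntegral_const, Real.volume_real_Icc_of_le (by linarith), smul_eq_mul]; ring
    _ ≤ ∫ z in Icc (-(1 / ω)) (1 / ω), G0 w L z ^ 2 := by
        refine setIntegral_mono_on continuous_const.integrableOn_Icc hc.integrableOn_Icc
          measurableSet_Icc fun z hz => ?_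
        have h4 : |z| ≤ 1 / ω := abs_le.2 hz
        have h5 : z ^ 2 ≤ (1 / ω) ^ 2 := by rw [← sq_abs]; gcongr
        have h6 : w * z ^ 2 ≤ ω * (1 / ω) ^ 2 := by gcongr; exact h.le
        have h7 : ω * (1 / ω) ^ 2 = 1 / ω := by field_simp
        rw [G0_sq, ss_mid (by linarith [h.hL])]
        exact le_trans (by linarith) (Real.add_one_le_exp _)
    _ ≤ _ := setIntegral_mono_set hc.integrableOn_Icc (.of_forall fun z => sq_nonneg _)
        (Icc_subset_Icc (by linarith) (by linarith)).eventuallyLE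

theorem Par.mass (h : Par ω L w) {φ : ℝ → ℝ} (hm : Measurable φ) (h1 : ∀ z, |φ z| ≤ 1)
    (h2 : ∀ z, |z| ≤ 1 → φ z = 1) : AA w L ≤ ∫ z, (G0 w L z * φ z) ^ 2 ∧
      ∫ z, (G0 w L z * φ z) ^ 2 ≤ AA w L + 64 * Real.exp (-ω) := by
  have h3 : ∀ z, |if |z| ≤ 1 then 0 else φ z| ≤ 1 := fun z => by
    split_ifs
    exacts [by simp, h1 z]
  have h4 := h.tail h3 fun z hz => if_pos hz.le
  have h5 := h.int_G0 (Measurable.ite (measurableSet_le measurable_abs measurable_const)
    measurable_const hm) h3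
  have h6 : ∫ z, (G0 w L z * φ z) ^ 2 =
      AA w L + ∫ z, (G0 w L z * if |z| ≤ 1 then 0 else φ z) ^ 2 := by
    rw [AA, ← integral_indicator measurableSet_Icc, ← integral_add
      (((continuous_G0 w L).fun_pow 2).integrableOn_Icc.integrable_indicator measurableSet_Icc) h5]
    refine integral_congr_ae (.of_forall fun z => ?_)
    by_cases hz : |z| ≤ 1
    · simp [indicator, abs_le.1 hz, hz, h2 z hz]
    · have : z ∉ Icc (-1 : ℝ) 1 := fun h => hz (abs_le.2 h)
      simp [this, hz]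
  have h7 : 0 ≤ ∫ z, (G0 w L z * if |z| ≤ 1 then 0 else φ z) ^ 2 :=
    integral_nonneg fun z => sq_nonneg _
  constructor <;> linarith

theorem abs_one_sub_lo (L z : ℝ) : |1 - lo L z| ≤ 1 := by
  have := lo_mem L z
  rw [abs_le]; constructor <;> linarith

theorem Par.poin (h : Par ω L w) {n : ℝ} (hn : 0 < n)
    (hN : ∫ z, (G0 w L z * (1 - lo L z) / n) ^ 2 = 1) (hg : Cc1 g) :
    (∫ z, g z ^ 2) - (∫ z, G0 w L z * (1 - lo L z) / n * g z) ^ 2 ≤ X1 (sp w L) (lo L) g := by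
  have hm : Measurable fun z => 1 - lo L z := (measurable_lo L).const_sub 1
  have hR : 0 ≤ 2 * L := by linarith [h.L0]
  have hG := continuous_G0 w L
  have i1 : Integrable fun z => G0 w L z * (1 - lo L z) / n * g z := by
    have := ((int_cont hg hG).bdd_mul hm.aestronglyMeasurable (c := 1)
      (.of_forall fun z => abs_one_sub_lo L z)).div_const n
    exact this.congr (.of_forall fun z => by ring)
  have i2 : Integrable fun z => (G0 w L z * (1 - lo L z) / n) ^ 2 := by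
    simpa only [div_pow] using (h.int_G0 hm (abs_one_sub_lo L)).div_const (n ^ 2)
  have h1 := hardy2 (u := fun z => g z - g 0 * G0 w L z)
    (u' := fun z => deriv g z - g 0 * -(sp w L z * G0 w L z)) hR
    (fun z => (hg.1.differentiable one_ne_zero z).hasDerivAt.sub ((hasDerivAt_G0 w L z).const_mul _))
    ((cont_deriv hg).sub (((continuous_sp w L).mul hG).neg.const_mul _)) (continuous_sp w L)
    (by simp [G0, ss_mid (show |(0 : ℝ)| ≤ L by simpa using h.L0)]) (fun z hz => by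
      have := h.ge; have := h.hω; have := hz.1; have := hz.2
      rcases le_total z L with h2 | h2
      · rw [sp_mid (by rwa [abs_of_nonneg hz.1])]; nlinarith
      · rw [sp_right h.L0 h2]; nlinarith [h.L0]) (sp_neg w L)
  have h2 : ∫ z in (-(2 * L))..(2 * L), (deriv g z - g 0 * -(sp w L z * G0 w L z) +
      sp w L z * (g z - g 0 * G0 w L z)) ^ 2 ≤ ∫ z, (deriv g z + sp w L z * g z) ^ 2 := by
    rw [intervalIntegral.integral_of_le (by linarith)]
    refine le_trans (le_of_eq (integral_congr_ae (.of_forall fun z => by ring)))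
      (setIntegral_le_integral (int_h hg w L) (.of_forall fun z => sq_nonneg _))
  have i3 : Integrable ((Icc (-(2 * L)) (2 * L)).indicator fun z => (g z - g 0 * G0 w L z) ^ 2) :=
    ((hg.1.continuous.sub (hG.const_mul _)).pow 2).integrableOn_Icc.integrable_indicator
      measurableSet_Icc
  have h3 : (∫ z, g z ^ 2) - 2 * (g 0 * n) * (∫ z, G0 w L z * (1 - lo L z) / n * g z) +
      (g 0 * n) ^ 2 * ∫ z, (G0 w L z * (1 - lo L z) / n) ^ 2 =
      (∫ z in (-(2 * L))..(2 * L), (g z - g 0 * G0 w L z) ^ 2) + ∫ z, lo L z * g z ^ 2 := by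
    rw [intervalIntegral.integral_of_le (by linarith), ← integral_Icc_eq_integral_Ioc,
      ← integral_indicator measurableSet_Icc, ← integral_add i3 (int_lo hg L), ← integral_const_mul,
      ← integral_const_mul, ← integral_sub (int_sq hg) (i1.const_mul _),
      ← integral_add ((int_sq hg).sub' (i1.const_mul _)) (i2.const_mul _)]
    refine integral_congr_ae (.of_forall fun z => ?_)
    by_cases hz : 2 * L < |z|
    · have : z ∉ Icc (-(2 * L)) (2 * L) := fun h => hz.not_ge (abs_le.2 h)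
      simp [this, hz, lo]
    · have : z ∈ Icc (-(2 * L)) (2 * L) := abs_le.1 (not_lt.1 hz)
      simp only [indicator_of_mem this, lo, if_neg hz]
      field_simp
      ring
  rw [hN] at h3
  rw [X1]
  nlinarith [sq_nonneg (g 0 * n - ∫ z, G0 w L z * (1 - lo L z) / n * g z)]

end Crest.Agent.R338.Ln
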