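import Crest.Agent.R338.CDefs
import Crest.Agent.R338.FTrans

/-! # rid 338, `Many`: definitions (sub-lead helper37)

We work on `ι → Pos3` (product measure); `cfg` identifies `Fin N → Pos3` with `Config N`; `ins i t y` inserts the
coordinate `t` at the place `i`.  `Nice` functions (measurable, bounded, bounded support) are integrable and stable
under all operations that occur. -/

set_option autoImplicit false
set_option linter.dupNamespace false

noncomputable section

namespace Crest.Agent.R338

open Matrix MeasureTheory Set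
open Crest.MathPhysics.ElectronicCoulomb

/-- Insert the value `t` at the place `i`. -/
def ins {ι β : Type} [DecidableEq ι] (i : ι) (t : β) (y : {j // j ≠ i} → β) : ι → β :=
  fun j => if h : j = i then t else y ⟨j, h⟩

section ins

variable {ι β : Type} [DecidableEq ι]

@[simp] theorem ins_self (i : ι) (t : β) (y : {j // j ≠ i} → β) : ins i t y i = t := by simp [ins]

@[simp] theorem ins_coe (i : ι) (t : β) (y : {j // j ≠ i} → β) (j : {j // j ≠ i}) : ins i t y j = y j := by
  simp [ins, j.2]

theorem ins_ne (i : ι) (t : β) (y : {j // j ≠ i} → β) {j : ι} (h : j ≠ i) : ins i t y j = y ⟨j, h⟩ := by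
  simp [ins, h]

theorem ins_restrict (i : ι) (x : ι → β) : ins i (x i) (fun j => x j) = x := by
  funext j
  by_cases h : j = i
  · subst h; simp
  · exact ins_ne _ _ _ h

theorem update_ins_self (i : ι) (t u : β) (y : {j // j ≠ i} → β) :
    Function.update (ins i t y) i u = ins i u y := by
  funext j
  by_cases h : j = i
  · subst h; simp
  · rw [Function.update_of_ne h, ins_ne _ _ _ h, ins_ne _ _ _ h]

theorem update_ins_coe (i : ι) (t u : β) (y : {j // j ≠ i} → β) (j : {j // j ≠ i}) :
    Function.update (ins i t y) j u = ins i t (Function.update y j u) := by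
  funext l
  by_cases h : l = i
  · subst h; rw [Function.update_of_ne j.2.symm]; simp
  · rw [ins_ne _ _ _ h]
    by_cases h' : l = j
    · subst h'; simp
    · rw [Function.update_of_ne h', Function.update_of_ne fun e => h' (congrArg Subtype.val e), ins_ne _ _ _ h]

/-- `ins` as an equivalence. -/
def insE (i : ι) (β : Type) : β × ({j // j ≠ i} → β) ≃ (ι → β) where
  toFun p := ins i p.1 p.2
  invFun x := (x i, fun j => x j)
  left_inv p := by simp
  right_inv x := ins_restrict i x

theorem sum_ins [Fintype ι] [Fintype β] (i : ι) (F : (ι → β) → ℝ) :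
    ∑ v, F v = ∑ p, ∑ w : {j // j ≠ i} → β, F (ins i p w) := by
  rw [← (insE i β).sum_comp, Fintype.sum_prod_type]; rfl

theorem prod_split [Fintype ι] {M : Type*} [CommMonoid M] (i : ι) (F : ι → M) :
    ∏ j, F j = F i * ∏ j : {j // j ≠ i}, F j := by
  rw [Fintype.prod_eq_mul_prod_subtype_ne F i]

theorem sum_split [Fintype ι] (i : ι) (F : ι → ℝ) : ∑ j, F j = F i + ∑ j : {j // j ≠ i}, F j := by
  rw [Fintype.sum_eq_add_sum_subtype_ne F i]

end ins

/-- Measurable, bounded, with bounded support. -/
def Nice {X : Type} [NormedAddCommGroup X] [MeasurableSpace X] (f : X → ℝ) : Prop :=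
  Measurable f ∧ ∃ C : ℝ, ∀ x, |f x| ≤ C ∧ (C < ‖x‖ → f x = 0)

/-- Normalised nice functions with disjoint supports. -/
structure ON {X V : Type} [NormedAddCommGroup X] [MeasureSpace X] (e : V → X → ℝ) : Prop where
  nice : ∀ p, Nice (e p)
  disj : ∀ p q y, p ≠ q → e p y * e q y = 0
  norm : ∀ p, ∫ y, e p y ^ 2 = 1

/-- Tensor products of one-body functions. -/
def tp {ι V : Type} [Fintype ι] (e : V → Pos3 → ℝ) (v : ι → V) (x : ι → Pos3) : ℝ := ∏ j, e (v j) (x j)

/-- Coefficients in the variable `i`. -/
def al {ι V : Type} [DecidableEq ι] (e : V → Pos3 → ℝ) (i : ι) (f : (ι → Pos3) → ℝ)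
    (y : {j // j ≠ i} → Pos3) : V → ℝ :=
  coef e fun t => f (ins i t y)

/-- The projection in the variable `i`. -/
def Pj {ι V : Type} [DecidableEq ι] [Fintype V] (e : V → Pos3 → ℝ) (i : ι) (f : (ι → Pos3) → ℝ)
    (x : ι → Pos3) : ℝ :=
  lin e (coef e fun u => f (Function.update x i u)) (x i)

/-- The configuration with the given positions. -/
def cfg {N : ℕ} (x : Fin N → Pos3) : Config N := WithLp.toLp 2 fun ic => x ic.1 ic.2

@[simp] theorem elPos_cfg {N : ℕ} (i : Fin N) (x : Fin N → Pos3) : elPos i (cfg x) = x i := rfl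

theorem cfg_elPos {N : ℕ} (x : Config N) : cfg (fun i => elPos i x) = x := rfl

theorem permConfig_cfg {N : ℕ} (σ : Equiv.Perm (Fin N)) (x : Fin N → Pos3) :
    permConfig σ (cfg x) = cfg (x ∘ σ) := rfl

/-- Gram matrix. -/
def gramM {V : Type} (φ : V → Pos3 → ℝ) : Matrix V V ℝ := Matrix.of fun p q => ∫ y, φ p y * φ q y

/-- The component of an amplitude with the spins `s`. -/
def spn {ι V : Type} (A : FSt ι V) (s : ι → Fin 2) : (ι → V) → ℝ := fun v => A fun i => (v i, s i)

/-- Two particles on the same hard-core site. -/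
def BadV {ι V : Type} (hc : V → Prop) (v : ι → V) : Prop := ∃ i j, i ≠ j ∧ v i = v j ∧ hc (v i)

/-- Two particles in the same small region. -/
def Zone {ι V : Type} (Rg : V → Set Pos3) (hc : V → Prop) : Set (ι → Pos3) :=
  {x | ∃ i j p, i ≠ j ∧ hc p ∧ x i ∈ Rg p ∧ x j ∈ Rg p}

/-- The attraction of one electron (same as `attr` of `Many.lean`). -/
def attr0 {M : ℕ} (R : Fin M → Pos3) (y : Pos3) : ℝ := ∑ α, -(1 / ‖y - R α‖)

end Crest.Agent.R338
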