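import Crest.Agent.R338.Many_Split

/-! # rid 338, `Many`: product states, Gram matrices, spin sums.  Prefix helper lemmas with `mgr_`. -/

set_option autoImplicit false
set_option linter.dupNamespace false
set_option linter.unusedVariables false
set_option linter.unusedSectionVars false

noncomputable section

namespace Crest.Agent.R338

open Matrix MeasureTheory Set
open Crest.MathPhysics.ElectronicCoulomb

variable {ι V : Type} [Fintype ι] [DecidableEq ι] [Fintype V] [DecidableEq V] {N : ℕ}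

/-- `sum_ins`, `prod_split`. -/
theorem lin_tp_ins (φ : V → Pos3 → ℝ) (a : (ι → V) → ℝ) (i : ι) (t : Pos3) (y : {j // j ≠ i} → Pos3) :
    lin (tp φ) a (ins i t y) = lin φ (fun p => lin (tp φ) (fun w => a (ins i p w)) y) t := by
  simp only [lin]
  rw [sum_ins i]
  refine Finset.sum_congr rfl fun p _ => ?_
  rw [Finset.sum_mul]
  refine Finset.sum_congr rfl fun w _ => ?_
  rw [tp, prod_split i]
  simp only [ins_self, ins_coe, tp]
  ring

theorem gramM_symm (φ : V → Pos3 → ℝ) : (gramM φ)ᵀ = gramM φ := by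
  ext p q
  simp only [gramM, transpose_apply, of_apply, mul_comm]

theorem mgr_bil {X W : Type} [NormedAddCommGroup X] [MeasureSpace X] [BorelSpace X] [ProperSpace X]
    [IsFiniteMeasureOnCompacts (volume : Measure X)] [Fintype W] {u : W → X → ℝ} (hu : ∀ p, Nice (u p))
    (a b : W → ℝ) : ∫ y, lin u a y * lin u b y = ∑ p, a p * ∑ q, (∫ y, u p y * u q y) * b q := by
  have i1 := fun p q => (((hu p).const_mul (a p)).mul ((hu q).const_mul (b q))).integrable
  simp only [lin, Finset.sum_mul_sum]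
  rw [integral_finsetSum _ fun p _ => integrable_finsetSum _ fun q _ => i1 p q]
  refine Finset.sum_congr rfl fun p _ => ?_
  rw [integral_finsetSum _ fun q _ => i1 p q, Finset.mul_sum]
  refine Finset.sum_congr rfl fun q _ => ?_
  rw [← integral_mul_const, ← integral_const_mul]
  congr 1; funext y; ring

theorem gram_one {φ : V → Pos3 → ℝ} (hφ : ∀ p, Nice (φ p)) (α : V → ℝ) :
    ∫ y, lin φ α y ^ 2 = α ⬝ᵥ gramM φ *ᵥ α := by
  simp only [_root_.sq]
  exact mgr_bil hφ α α

/-- `integral_fintype_prod_volume_eq_prod`. -/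
theorem gram_tp {φ : V → Pos3 → ℝ} (hφ : ∀ p, Nice (φ p)) (a b : (ι → V) → ℝ) :
    ∫ y, lin (tp φ) a y * lin (tp φ) b y = a ⬝ᵥ tens (fun _ : ι => gramM φ) *ᵥ b := by
  rw [mgr_bil (nice_tp hφ)]
  refine Finset.sum_congr rfl fun v _ => ?_
  congr 1
  refine Finset.sum_congr rfl fun w _ => ?_
  congr 1
  simp only [tp, ← Finset.prod_mul_distrib]
  exact integral_fintype_prod_volume_eq_prod fun j y => φ (v j) y * φ (w j) y

/-- `sum_ins` twice, `prod_split`. -/
theorem tens_ins (S M : Matrix V V ℝ) (i : ι) (a : (ι → V) → ℝ) :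
    a ⬝ᵥ tens (Function.update (fun _ : ι => S) i M) *ᵥ a =
      ∑ p, ∑ q, M p q * ((fun w => a (ins i p w)) ⬝ᵥ
        tens (fun _ : {j // j ≠ i} => S) *ᵥ fun w => a (ins i q w)) := by
  simp only [dotProduct, mulVec, Finset.mul_sum]
  rw [sum_ins i]
  refine Finset.sum_congr rfl fun p _ => ?_
  simp only [sum_ins i fun x => a (ins i p _) * (tens _ _ x * a x)]
  rw [Finset.sum_comm]
  refine Finset.sum_congr rfl fun q _ => Finset.sum_congr rfl fun w _ => Finset.sum_congr rfl fun w' _ => ?_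
  rw [tn_tens_apply, prod_split i, tn_tens_apply]
  have h : ∀ j : {j // j ≠ i}, Function.update (fun _ : ι => S) i M j = S := fun j => Function.update_of_ne j.2 _ _
  simp only [Function.update_self, ins_self, ins_coe, h]
  ring

/-- The one-body form integrated over the other variables (`gram_tp`, `tens_ins`). -/
theorem gram_slice {φ : V → Pos3 → ℝ} (hφ : ∀ p, Nice (φ p)) (M : Matrix V V ℝ) (i : ι) (a : (ι → V) → ℝ) :
    ∫ y : {j // j ≠ i} → Pos3, (fun p => lin (tp φ) (fun w => a (ins i p w)) y) ⬝ᵥ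
        M *ᵥ (fun p => lin (tp φ) (fun w => a (ins i p w)) y) =
      a ⬝ᵥ tens (Function.update (fun _ : ι => gramM φ) i M) *ᵥ a := by
  have hn := fun p => Nice.lin (nice_tp (ι := {j // j ≠ i}) hφ) fun w => a (ins i p w)
  have i1 := fun p q => ((hn p).mul ((hn q).const_mul (M p q))).integrable
  rw [tens_ins]
  simp only [← gram_tp hφ]
  simp only [dotProduct, mulVec, Finset.mul_sum]
  rw [integral_finsetSum _ fun p _ => integrable_finsetSum _ fun q _ => i1 p q]
  refine Finset.sum_congr rfl fun p _ => ?_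
  rw [integral_finsetSum _ fun q _ => i1 p q]
  refine Finset.sum_congr rfl fun q _ => ?_
  rw [← integral_const_mul]
  congr 1; funext y; ring

/-- `ft_mono` with `D j = (1 + η) • 1`, `tens_smul`, `tens_one`, `ft_psd`, `ft_pow`. -/
theorem tens_gram_le (S : Matrix V V ℝ) {η : ℝ} (hS : Sᵀ = S) (h0 : 0 ≤ η) (hN : Fintype.card ι * η ≤ 1)
    (gram : ∀ u : V → ℝ, u ⬝ᵥ u ≤ u ⬝ᵥ S *ᵥ u ∧ u ⬝ᵥ S *ᵥ u ≤ (1 + η) * (u ⬝ᵥ u)) (a : (ι → V) → ℝ) :
    a ⬝ᵥ tens (fun _ : ι => S) *ᵥ a ≤ 3 * (a ⬝ᵥ a) := by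
  have h1 : ∀ u : V → ℝ, u ⬝ᵥ ((1 + η) • (1 : Matrix V V ℝ)) *ᵥ u = (1 + η) * (u ⬝ᵥ u) := fun u => by
    rw [smul_mulVec, one_mulVec, dotProduct_smul, smul_eq_mul]
  have h2 := ft_mono (ι := ι) (C := fun _ => S) (D := fun _ => (1 + η) • (1 : Matrix V V ℝ))
    (fun _ => ft_psd hS fun u => (dot_self_nonneg u).trans (gram u).1)
    (fun _ => ft_psd (by simp) fun u => by rw [h1]; exact mul_nonneg (by linarith) (dot_self_nonneg u))
    (fun _ u => by rw [h1]; exact (gram u).2) a
  rw [tens_smul (fun _ : ι => 1 + η) fun _ => (1 : Matrix V V ℝ), tens_one, smul_mulVec, one_mulVec,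
    dotProduct_smul, smul_eq_mul, Finset.prod_const, Finset.card_univ] at h2
  have h3 := ft_pow h0 hN
  exact h2.trans (mul_le_mul_of_nonneg_right (by linarith) (dot_self_nonneg a))

/-- `Equiv.arrowProdEquivProdArrow`. -/
theorem sum_spn (F : (ι → V × Fin 2) → ℝ) :
    ∑ x, F x = ∑ s : ι → Fin 2, ∑ v : ι → V, F fun i => (v i, s i) := by
  rw [← (Equiv.arrowProdEquivProdArrow ι (fun _ => V) fun _ => Fin 2).symm.sum_comp, Fintype.sum_prod_type,
    Finset.sum_comm]
  rfl

theorem spn_dot (A : FSt ι V) : A ⬝ᵥ A = ∑ s, spn A s ⬝ᵥ spn A s :=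
  sum_spn fun x => A x * A x

/-- `tens (fun j => hsp (C j)) x y = if spins agree then tens C … else 0`. -/
theorem spn_tens (C : ι → Matrix V V ℝ) (A : FSt ι V) :
    A ⬝ᵥ tens (fun j => hsp (C j)) *ᵥ A = ∑ s, spn A s ⬝ᵥ tens C *ᵥ spn A s := by
  simp only [dotProduct, mulVec]
  rw [sum_spn]
  refine Finset.sum_congr rfl fun s _ => Finset.sum_congr rfl fun v _ => ?_
  rw [sum_spn, Finset.sum_eq_single s (fun s' _ h => ?_) (by simp)]
  · simp [tn_tens_apply, hsp, spn]
  · obtain ⟨j, hj⟩ := Function.ne_iff.1 h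
    refine Finset.sum_eq_zero fun w _ => ?_
    rw [tn_tens_apply, Finset.prod_eq_zero (Finset.mem_univ j) (by simp [hsp, Ne.symm hj]), zero_mul]

theorem spn_update (S M : Matrix V V ℝ) (i : ι) (A : FSt ι V) :
    A ⬝ᵥ tens (Function.update (fun _ : ι => hsp S) i (hsp M)) *ᵥ A =
      ∑ s, spn A s ⬝ᵥ tens (Function.update (fun _ : ι => S) i M) *ᵥ spn A s := by
  rw [← spn_tens]
  congr 3
  funext j
  by_cases h : j = i
  · subst h; simp
  · simp [h]

theorem spn_fmat (k : Matrix V V ℝ) (A : FSt ι V) :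
    A ⬝ᵥ fmat ι k *ᵥ A = ∑ s, ∑ i, spn A s ⬝ᵥ loc i k *ᵥ spn A s := by
  rw [Finset.sum_comm, fmat, Matrix.sum_mulVec, dotProduct_sum]
  refine Finset.sum_congr rfl fun i _ => ?_
  rw [loc_eq_update, loc_eq_update, ← spn_update, hsp_one]

/-- `elPos i` is a continuous linear map; the support of `tp φ v` lies in the compact set
`pi univ fun j => tsupport (φ (v j))`, and `x ↦ fun i => elPos i x` is a homeomorphism (inverse `cfg`).
Antisymmetry: reindex `v ↦ v ∘ σ`. -/
theorem isC_lin {φ : V → Pos3 → ℝ} (hφ : ∀ p, Cc1 (φ p)) {A : FSt (Fin N) V} (hA : Anti A) :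
    IsC fun s x => lin (tp φ) (spn A s) fun i => elPos i x := by
  refine ⟨fun s => ⟨?_, ?_⟩, fun σ s x => ?_⟩
  · refine ContDiff.sum fun v _ => contDiff_const.mul (contDiff_prod fun j _ => (hφ (v j)).1.comp ?_)
    exact (contDiff_apply ℝ Pos3 j).comp (ms_cfgL N).symm.contDiff
  · have h1 : ∀ v : Fin N → V, HasCompactSupport (tp φ v) := fun v => by
      refine HasCompactSupport.intro (isCompact_univ_pi fun j => (hφ (v j)).2.isCompact) fun x hx => ?_
      simp only [mem_pi, mem_univ, true_imp_iff, not_forall] at hx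
      obtain ⟨j, hj⟩ := hx
      exact Finset.prod_eq_zero (Finset.mem_univ j) (image_eq_zero_of_notMem_tsupport hj)
    have h2 : HasCompactSupport (lin (tp φ) (spn A s)) := by
      have := HasCompactSupport.finset_sum (s := Finset.univ) fun v _ => (h1 v).mul_left (f := fun _ => spn A s v)
      have e : lin (tp φ) (spn A s) = ∑ v, (fun _ => spn A s v) * tp φ v := by
        funext x
        simp [lin]
      rwa [e]
    exact h2.comp_homeomorph (ms_cfgL N).symm.toHomeomorph
  · simp only [lin, Finset.mul_sum]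
    rw [← (Equiv.arrowCongr σ.symm (Equiv.refl V)).sum_comp]
    refine Finset.sum_congr rfl fun w _ => ?_
    have e1 : spn A (fun i => s (σ i)) (Equiv.arrowCongr σ.symm (Equiv.refl V) w) = _ :=
      hA σ fun i => (w i, s i)
    have e2 : (tp φ (Equiv.arrowCongr σ.symm (Equiv.refl V) w) fun i => elPos i (permConfig σ x)) =
        tp φ w fun i => elPos i x := Equiv.prod_comp σ fun j => φ (w j) (elPos j x)
    rw [e1, e2, mul_assoc]; rfl

/-- Change of variables `z ↦ z ∘ σ` (`volume_measurePreserving_piCongrLeft` or `Measure.pi_eq`), `permConfig_cfg`. -/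
theorem anti_coef (e : V → Pos3 → ℝ) {Ψ : Spin N → Config N → ℝ} (hΨ : IsC Ψ) :
    Anti (ι := Fin N) (V := V) fun x =>
      coef (tp e) (fun z => Ψ (fun i => (x i).2) (cfg z)) fun i => (x i).1 := by
  intro σ x
  have hm := volume_preserving_arrowCongr' σ.symm (MeasurableEquiv.refl Pos3) (MeasurePreserving.id volume)
  simp only [coef]
  rw [← hm.integral_comp', ← integral_const_mul]
  congr 1
  funext z
  have e1 : Ψ (fun i => ((x ∘ σ) i).2) (cfg (MeasurableEquiv.arrowCongr' σ.symm (MeasurableEquiv.refl Pos3) z)) = _ :=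
    hΨ.2 σ (fun i => (x i).2) (cfg z)
  have e2 : tp e (fun i => ((x ∘ σ) i).1) (MeasurableEquiv.arrowCongr' σ.symm (MeasurableEquiv.refl Pos3) z) =
      tp e (fun i => (x i).1) z := Equiv.prod_comp σ fun j => e (x j).1 (z j)
  rw [e1, e2]; ring

end Crest.Agent.R338
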