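import Crest.Agent.R338.Many_Defs

/-! # rid 338, `Many`: nice functions, Pythagoras, Bessel.  Prefix helper lemmas with `mn_`. -/

set_option autoImplicit false
set_option linter.dupNamespace false
set_option linter.unusedVariables false
set_option linter.unusedSectionVars false

noncomputable section

namespace Crest.Agent.R338

open Matrix MeasureTheory Set
open Crest.MathPhysics.ElectronicCoulomb

variable {X V W : Type} [NormedAddCommGroup X] [MeasureSpace X] [BorelSpace X] [ProperSpace X]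
  [IsFiniteMeasureOnCompacts (volume : Measure X)] [Fintype V] [DecidableEq V] [Fintype W] [DecidableEq W]

/-- Bounded by `C * indicator (closedBall 0 C)`. -/
theorem Nice.integrable {f : X → ℝ} (h : Nice f) : Integrable f := by
  obtain ⟨hm, C, hC⟩ := h
  have h1 : Integrable ((Metric.closedBall (0 : X) C).indicator fun _ => C) :=
    (integrable_indicator_iff measurableSet_closedBall).2
      (integrableOn_const (isCompact_closedBall _ _).measure_lt_top.ne)
  refine h1.mono' hm.aestronglyMeasurable (Filter.Eventually.of_forall fun x => ?_)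
  by_cases hx : C < ‖x‖
  · rw [(hC x).2 hx, norm_zero]
    exact indicator_nonneg (fun _ _ => (abs_nonneg _).trans (hC x).1) _
  · rw [indicator_of_mem (mem_closedBall_zero_iff.2 (not_lt.1 hx))]
    exact (hC x).1

theorem Nice.zero : Nice (fun _ : X => (0 : ℝ)) :=
  ⟨measurable_const, 0, fun _ => ⟨by simp, fun _ => rfl⟩⟩

theorem Nice.add {f g : X → ℝ} (hf : Nice f) (hg : Nice g) : Nice fun x => f x + g x := by
  obtain ⟨hm, C, hC⟩ := hf
  obtain ⟨hm', D, hD⟩ := hg
  refine ⟨hm.add hm', C + D, fun x => ⟨(abs_add_le _ _).trans (add_le_add (hC x).1 (hD x).1), fun hx => ?_⟩⟩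
  have h1 := (abs_nonneg _).trans (hC x).1
  have h2 := (abs_nonneg _).trans (hD x).1
  beta_reduce
  rw [(hC x).2 (by linarith), (hD x).2 (by linarith), add_zero]

/-- A nice function times a bounded measurable function. -/
theorem Nice.mul_bdd {f g : X → ℝ} (hf : Nice f) (hg : Measurable g) {C : ℝ} (hC : ∀ x, |g x| ≤ C) :
    Nice fun x => g x * f x := by
  obtain ⟨hm, D, hD⟩ := hf
  refine ⟨hg.mul hm, max D (C * D), fun x => ⟨?_, fun hx => ?_⟩⟩
  · rw [abs_mul]
    exact (mul_le_mul (hC x) (hD x).1 (abs_nonneg _) ((abs_nonneg _).trans (hC x))).trans (le_max_right _ _)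
  · beta_reduce
    rw [(hD x).2 ((le_max_left _ _).trans_lt hx), mul_zero]

theorem Nice.mul {f g : X → ℝ} (hf : Nice f) (hg : Nice g) : Nice fun x => f x * g x := by
  obtain ⟨hm, C, hC⟩ := hf
  exact hg.mul_bdd hm fun x => (hC x).1

theorem Nice.const_mul {f : X → ℝ} (hf : Nice f) (c : ℝ) : Nice fun x => c * f x :=
  hf.mul_bdd measurable_const (C := |c|) fun _ => le_rfl

theorem Nice.sub {f g : X → ℝ} (hf : Nice f) (hg : Nice g) : Nice fun x => f x - g x := by
  simpa [sub_eq_add_neg] using hf.add (hg.const_mul (-1))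

theorem Nice.sq {f : X → ℝ} (hf : Nice f) : Nice fun x => f x ^ 2 := by
  simpa [_root_.sq] using hf.mul hf

theorem Nice.sum {κ : Type} (s : Finset κ) {f : κ → X → ℝ} (hf : ∀ k ∈ s, Nice (f k)) :
    Nice fun x => ∑ k ∈ s, f k x := by
  classical
  induction s using Finset.induction_on with
  | empty => simpa using Nice.zero
  | insert a s ha ih =>
    simp only [Finset.sum_insert ha]
    exact (hf a (Finset.mem_insert_self _ _)).add (ih fun k hk => hf k (Finset.mem_insert_of_mem hk))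

theorem Nice.lin {e : V → X → ℝ} (he : ∀ p, Nice (e p)) (c : V → ℝ) : Nice (lin e c) :=
  Nice.sum _ fun p _ => (he p).const_mul (c p)

/-- `x ↦ α x ⬝ᵥ k *ᵥ α x` is a finite sum of products. -/
theorem Nice.form {α : X → V → ℝ} (h : ∀ p, Nice fun x => α x p) (k : Matrix V V ℝ) :
    Nice fun x => α x ⬝ᵥ k *ᵥ α x :=
  Nice.sum _ fun p _ => (h p).mul (Nice.sum _ fun q _ => (h q).const_mul (k p q))

theorem Nice.dot {α : X → V → ℝ} (h : ∀ p, Nice fun x => α x p) : Nice fun x => α x ⬝ᵥ α x :=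
  Nice.sum _ fun p _ => (h p).mul (h p)

theorem nice_of_cont {f : X → ℝ} (h : Continuous f) (h' : HasCompactSupport f) : Nice f := by
  obtain ⟨C, hC⟩ := h.bounded_above_of_compact_support h'
  obtain ⟨D, hD⟩ := h'.isCompact.isBounded.exists_norm_le
  refine ⟨h.measurable, max C D, fun x => ⟨(hC x).trans (le_max_left _ _), fun hx => ?_⟩⟩
  by_contra hne
  exact absurd (hD x (subset_tsupport _ hne)) (not_le.2 ((le_max_right _ _).trans_lt hx))

/-- Sup norm on `ι → Pos3`: if `C < ‖x‖` (`C ≥ 0` a common bound) some `‖x j‖ > C` (`pi_norm_le_iff_of_nonneg`);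
take the constant `max C (C ^ card ι)`. -/
theorem nice_tp {ι : Type} [Fintype ι] [DecidableEq ι] {e : V → Pos3 → ℝ} (he : ∀ p, Nice (e p)) (v : ι → V) :
    Nice (tp e v) := by
  choose C hC using fun p => (he p).2
  have hC0 : ∀ p, 0 ≤ C p := fun p => (abs_nonneg _).trans (hC p 0).1
  have hS : 0 ≤ ∑ j, C (v j) := Finset.sum_nonneg fun j _ => hC0 _
  refine ⟨Finset.measurable_prod _ fun j _ => (he (v j)).1.comp (measurable_pi_apply j),
    max (∑ j, C (v j)) (∏ j, C (v j)), fun x => ⟨?_, fun hx => ?_⟩⟩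
  · rw [tp, Finset.abs_prod]
    exact (Finset.prod_le_prod (fun j _ => abs_nonneg _) fun j _ => (hC _ _).1).trans (le_max_right _ _)
  · have h1 : ¬ ∀ j, ‖x j‖ ≤ ∑ j, C (v j) := fun h =>
      absurd ((pi_norm_le_iff_of_nonneg hS).2 h) (not_le.2 ((le_max_left _ _).trans_lt hx))
    push Not at h1
    obtain ⟨j, hj⟩ := h1
    exact Finset.prod_eq_zero (Finset.mem_univ j) ((hC _ _).2
      ((Finset.single_le_sum (f := fun j => C (v j)) (fun j _ => hC0 _) (Finset.mem_univ j)).trans_lt hj))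

/-- `integral_fintype_prod_volume_eq_prod`. -/
theorem ON.tp {ι : Type} [Fintype ι] [DecidableEq ι] {e : V → Pos3 → ℝ} (he : ON e) :
    ON (tp e : (ι → V) → (ι → Pos3) → ℝ) := by
  refine ⟨nice_tp he.nice, fun v w y h => ?_, fun v => ?_⟩
  · obtain ⟨j, hj⟩ := Function.ne_iff.1 h
    rw [R338.tp, R338.tp, ← Finset.prod_mul_distrib]
    exact Finset.prod_eq_zero (Finset.mem_univ j) (he.disj _ _ _ hj)
  · simp only [R338.tp, ← Finset.prod_pow]
    rw [integral_fintype_prod_volume_eq_prod fun j y => e (v j) y ^ 2]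
    simp [he.norm]

/-- Disjoint supports: the cross terms vanish pointwise. -/
theorem ON.lin_sq {e : V → X → ℝ} (he : ON e) (c : V → ℝ) (x : X) :
    lin e c x ^ 2 = ∑ p, c p ^ 2 * e p x ^ 2 := by
  rw [lin, _root_.sq, Finset.sum_mul_sum]
  refine Finset.sum_congr rfl fun p _ => ?_
  rw [Finset.sum_eq_single p (fun q _ h => ?_) (by simp)]
  · ring
  · have := he.disj p q x h.symm
    calc c p * e p x * (c q * e q x) = c p * c q * (e p x * e q x) := by ring
      _ = 0 := by rw [this, mul_zero]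

theorem coef_sub {e : V → X → ℝ} (he : ∀ p, Nice (e p)) {g g' : X → ℝ} (hg : Nice g) (hg' : Nice g') :
    coef e (fun x => g x - g' x) = coef e g - coef e g' := by
  funext p
  simp only [coef, Pi.sub_apply, mul_sub]
  exact integral_sub ((he p).mul hg).integrable ((he p).mul hg').integrable

theorem coef_lin {e : V → X → ℝ} (he : ∀ p, Nice (e p)) {u : W → X → ℝ} (hu : ∀ w, Nice (u w)) (c : W → ℝ)
    (p : V) : coef e (lin u c) p = ∑ w, c w * coef e (u w) p := by
  simp only [coef, lin, Finset.mul_sum]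
  rw [integral_finsetSum _ fun w _ => ((he p).mul ((hu w).const_mul _)).integrable]
  refine Finset.sum_congr rfl fun w _ => ?_
  rw [← integral_const_mul]
  congr 1; funext y; ring

/-- Expand the square. -/
theorem ON.pyth {e : V → X → ℝ} (he : ON e) {g : X → ℝ} (hg : Nice g) (c : V → ℝ) :
    ∫ x, (g x - lin e c x) ^ 2 = (∫ x, g x ^ 2) - 2 * (c ⬝ᵥ coef e g) + c ⬝ᵥ c := by
  have h1 : ∀ x, (g x - lin e c x) ^ 2 =
      g x ^ 2 - 2 * (∑ p, c p * (e p x * g x)) + ∑ p, c p ^ 2 * e p x ^ 2 := by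
    intro x
    rw [← he.lin_sq, sub_sq]
    congr 2
    rw [lin, mul_assoc, Finset.mul_sum]
    congr 1
    exact Finset.sum_congr rfl fun p _ => by ring
  have i1 := hg.sq.integrable
  have i2 := fun p => (((he.nice p).mul hg).const_mul (c p)).integrable
  have i3 := fun p => ((he.nice p).sq.const_mul (c p ^ 2)).integrable
  simp only [h1]
  have i4 : Integrable fun x => g x ^ 2 - 2 * ∑ p, c p * (e p x * g x) :=
    i1.sub ((integrable_finsetSum _ fun p _ => i2 p).const_mul 2)
  rw [integral_add i4 (integrable_finsetSum _ fun p _ => i3 p),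
    integral_sub i1 ((integrable_finsetSum _ fun p _ => i2 p).const_mul 2), integral_const_mul,
    integral_finsetSum _ fun p _ => i2 p, integral_finsetSum _ fun p _ => i3 p]
  simp only [integral_const_mul, he.norm, dotProduct, coef, mul_one, _root_.sq (c _)]

theorem ON.pyth' {e : V → X → ℝ} (he : ON e) {g : X → ℝ} (hg : Nice g) :
    ∫ x, (g x - lin e (coef e g) x) ^ 2 = (∫ x, g x ^ 2) - coef e g ⬝ᵥ coef e g := by
  rw [he.pyth hg]; ring

theorem ON.bessel {e : V → X → ℝ} (he : ON e) {g : X → ℝ} (hg : Nice g) :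
    coef e g ⬝ᵥ coef e g ≤ ∫ x, g x ^ 2 := by
  have h1 := he.pyth' hg
  have h2 : 0 ≤ ∫ x, (g x - lin e (coef e g) x) ^ 2 := integral_nonneg fun x => sq_nonneg _
  linarith

/-- With `a = coef e g`, `a' = coef e g'`: the left side is `∫ g² - a⬝a + (a - a')⬝(a - a')` (`pyth`), and
`a - a' = coef e (g - g')`, `bessel`. -/
theorem ON.two {e : V → X → ℝ} (he : ON e) {g g' : X → ℝ} (hg : Nice g) (hg' : Nice g') :
    ∫ x, (g x - lin e (coef e g') x) ^ 2 ≤
      (∫ x, (g x - lin e (coef e g) x) ^ 2) + ∫ x, (g x - g' x) ^ 2 := by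
  have h1 := he.bessel (hg.sub hg')
  rw [coef_sub he.nice hg hg'] at h1
  rw [he.pyth' hg, he.pyth hg]
  simp only [sub_dotProduct, dotProduct_sub] at h1
  rw [dotProduct_comm (coef e g) (coef e g')] at h1
  linarith

/-- Bessel for a vector valued function.  `S = ½ (k + kᵀ) + ν • 1` is symmetric and `≥ 0` (`OpLe.form_le`), so
`S = Rᵀ R` (`ft_psd`) and `z ⬝ k z + ν z ⬝ z = (R z) ⬝ (R z)`.  Apply `bessel` to the components
`x ↦ (R *ᵥ α x) q`, whose coefficients are `(R *ᵥ a w) q`. -/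
theorem ON.vbessel {u : W → X → ℝ} (hu : ON u) {α : X → V → ℝ} (hα : ∀ p, Nice fun x => α x p)
    {k : Matrix V V ℝ} {ν : ℝ} (hk : OpLe k ν) (hν : 0 ≤ ν) (a : W → V → ℝ)
    (ha : ∀ w p, a w p = coef u (fun x => α x p) w) :
    ∑ w, (a w ⬝ᵥ k *ᵥ a w + ν * (a w ⬝ᵥ a w)) ≤ (∫ x, α x ⬝ᵥ k *ᵥ α x) + ν * ∫ x, α x ⬝ᵥ α x := by
  have hq : ∀ z : V → ℝ, z ⬝ᵥ ((1 / 2 : ℝ) • (k + kᵀ) + ν • (1 : Matrix V V ℝ)) *ᵥ z =
      z ⬝ᵥ k *ᵥ z + ν * (z ⬝ᵥ z) := by
    intro z
    have : z ⬝ᵥ kᵀ *ᵥ z = z ⬝ᵥ k *ᵥ z := by rw [← ft_dot, dotProduct_comm]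
    simp only [add_mulVec, smul_mulVec, one_mulVec, dotProduct_add, dotProduct_smul, this, smul_eq_mul]
    ring
  obtain ⟨R, hR⟩ := ft_psd (S := (1 / 2 : ℝ) • (k + kᵀ) + ν • (1 : Matrix V V ℝ))
    (by simp [transpose_add, transpose_smul, add_comm]) fun z => by
      rw [hq]
      have := neg_abs_le (z ⬝ᵥ k *ᵥ z)
      have := hk.form_le hν z
      linarith
  have hz : ∀ z : V → ℝ, z ⬝ᵥ k *ᵥ z + ν * (z ⬝ᵥ z) = ∑ q, (R *ᵥ z) q ^ 2 := by
    intro z
    rw [← hq, ← hR, ← ft_sq_dot]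
    simp only [dotProduct, _root_.sq]
  have hN : ∀ q, Nice fun x => (R *ᵥ α x) q := fun q => Nice.sum _ fun p _ => (hα p).const_mul (R q p)
  have hc : ∀ q w, coef u (fun x => (R *ᵥ α x) q) w = (R *ᵥ a w) q := by
    intro q w
    have := coef_lin hu.nice (u := fun p x => α x p) hα (R q) w
    simp only [← ha] at this
    exact this
  rw [← integral_const_mul, ← integral_add (Nice.form hα k).integrable ((Nice.dot hα).const_mul ν).integrable]
  simp only [hz]
  rw [integral_finsetSum _ fun q _ => (hN q).sq.integrable, Finset.sum_comm]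
  refine Finset.sum_le_sum fun q _ => ?_
  have := hu.bessel (hN q)
  simpa only [dotProduct, hc, ← _root_.sq] using this

end Crest.Agent.R338
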