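import Crest.Agent.R338.Many_Nice

/-! # rid 338, `Many`: Fubini in one variable, `Config N ≃ (Fin N → Pos3)`, slices of the energy.
Prefix helper lemmas with `ms_`. -/

set_option autoImplicit false
set_option linter.dupNamespace false
set_option linter.unusedVariables false
set_option linter.unusedSectionVars false

noncomputable section

namespace Crest.Agent.R338

open Matrix MeasureTheory Set
open Crest.MathPhysics.ElectronicCoulomb
open scoped ENNReal

variable {ι : Type} [Fintype ι] [DecidableEq ι] {N : ℕ}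

theorem ms_cont_ins (i : ι) : Continuous fun p : Pos3 × ({j // j ≠ i} → Pos3) => ins i p.1 p.2 := by
  refine continuous_pi fun j => ?_
  by_cases h : j = i
  · subst h
    simpa using continuous_fst
  · simp only [ins_ne _ _ _ h]
    fun_prop

/-- `ins` as a homeomorphism. -/
def ms_insH (i : ι) : Pos3 × ({j // j ≠ i} → Pos3) ≃ₜ (ι → Pos3) where
  toEquiv := insE i Pos3
  continuous_toFun := ms_cont_ins i
  continuous_invFun := by
    change Continuous fun x : ι → Pos3 => (x i, fun j : {j // j ≠ i} => x j)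
    fun_prop

/-- `Measure.pi_eq`: the preimage of a box is `s i ×ˢ pi univ (fun j => s j)`; `prod_split`. -/
theorem mp_ins (i : ι) :
    MeasurePreserving (fun p : Pos3 × ({j // j ≠ i} → Pos3) => ins i p.1 p.2) (volume.prod volume) volume := by
  refine ⟨(ms_cont_ins i).measurable, ?_⟩
  symm
  refine Measure.pi_eq fun s hs => ?_
  rw [Measure.map_apply (ms_cont_ins i).measurable (MeasurableSet.univ_pi hs)]
  have : (fun p : Pos3 × ({j // j ≠ i} → Pos3) => ins i p.1 p.2) ⁻¹' Set.pi univ s =
      s i ×ˢ Set.pi univ fun j : {j // j ≠ i} => s j := by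
    ext p
    simp only [mem_preimage, mem_pi, mem_univ, true_imp_iff, mem_prod]
    constructor
    · intro h
      exact ⟨by simpa using h i, fun j => by simpa using h j⟩
    · rintro ⟨h1, h2⟩ j
      by_cases h : j = i
      · subst h; simpa using h1
      · rw [ins_ne _ _ _ h]; exact h2 ⟨j, h⟩
  rw [this, Measure.prod_prod, volume_pi_pi, prod_split i]

theorem ms_emb (i : ι) : MeasurableEmbedding fun p : Pos3 × ({j // j ≠ i} → Pos3) => ins i p.1 p.2 :=
  (ms_insH i).measurableEmbedding

theorem integral_ins (i : ι) {G : (ι → Pos3) → ℝ} (hG : Integrable G) :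
    Integrable (fun y => ∫ t, G (ins i t y)) ∧ ∫ x, G x = ∫ y, ∫ t, G (ins i t y) := by
  have h := ((mp_ins i).integrable_comp_emb (ms_emb i)).2 hG
  refine ⟨h.integral_prod_right, ?_⟩
  rw [← (mp_ins i).integral_comp (ms_emb i)]
  exact integral_prod_symm _ h

theorem integral_ins' (i : ι) {G : (ι → Pos3) → ℝ} (hG : Integrable G) :
    Integrable (fun t => ∫ y, G (ins i t y)) ∧ ∫ x, G x = ∫ t, ∫ y, G (ins i t y) := by
  have h := ((mp_ins i).integrable_comp_emb (ms_emb i)).2 hG
  refine ⟨h.integral_prod_left, ?_⟩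
  rw [← (mp_ins i).integral_comp (ms_emb i)]
  exact integral_prod _ h

theorem lintegral_ins (i : ι) {G : (ι → Pos3) → ℝ≥0∞} (hG : Measurable G) :
    ∫⁻ x, G x = ∫⁻ y, ∫⁻ t, G (ins i t y) := by
  rw [← (mp_ins i).lintegral_comp hG]
  exact lintegral_prod_symm' _ (hG.comp (ms_cont_ins i).measurable)

theorem lintegral_ins' (i : ι) {G : (ι → Pos3) → ℝ≥0∞} (hG : Measurable G) :
    ∫⁻ x, G x = ∫⁻ t, ∫⁻ y, G (ins i t y) := by
  rw [← (mp_ins i).lintegral_comp hG]
  exact lintegral_prod _ (hG.comp (ms_cont_ins i).measurable).aemeasurable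

theorem ms_uncurry {κ : Type} [Fintype κ] :
    MeasurePreserving (fun (x : ι → κ → ℝ) (ic : ι × κ) => x ic.1 ic.2) := by
  have hm : Measurable fun (x : ι → κ → ℝ) (ic : ι × κ) => x ic.1 ic.2 := by fun_prop
  refine ⟨hm, ?_⟩
  symm
  refine Measure.pi_eq fun s hs => ?_
  rw [Measure.map_apply hm (MeasurableSet.univ_pi hs)]
  have : (fun (x : ι → κ → ℝ) (ic : ι × κ) => x ic.1 ic.2) ⁻¹' Set.pi univ s =
      Set.pi univ fun i => Set.pi univ fun c => s (i, c) := by
    ext x
    simp
  rw [this, volume_pi_pi, Fintype.prod_prod_type]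
  simp only [volume_pi_pi]

/-- `cfg` as a continuous linear equivalence. -/
def ms_cfgL (N : ℕ) : (Fin N → Pos3) ≃L[ℝ] Config N :=
  LinearEquiv.toContinuousLinearEquiv
    { toFun := cfg
      invFun := fun x i => elPos i x
      map_add' := fun _ _ => rfl
      map_smul' := fun _ _ => rfl
      left_inv := fun _ => rfl
      right_inv := fun _ => rfl }

theorem ms_cfgL_apply (x : Fin N → Pos3) : ms_cfgL N x = cfg x := rfl

/-- `PiLp.volume_preserving_ofLp` in each variable (`volume_preserving_pi`), uncurrying (`Measure.pi_eq`),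
`PiLp.volume_preserving_toLp`. -/
theorem mp_cfg : MeasurePreserving (cfg : (Fin N → Pos3) → Config N) :=
  ((PiLp.volume_preserving_toLp (Fin N × Fin 3)).comp ms_uncurry).comp
    (volume_preserving_pi fun _ : Fin N => PiLp.volume_preserving_ofLp (Fin 3))

/-- `cfg` is a homeomorphism, hence a measurable embedding. -/
theorem integral_cfg (G : Config N → ℝ) : ∫ x, G x = ∫ x, G (cfg x) :=
  (mp_cfg.integral_comp (ms_cfgL N).toHomeomorph.measurableEmbedding G).symm

theorem integrable_cfg (G : Config N → ℝ) : Integrable (fun x => G (cfg x)) ↔ Integrable G :=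
  mp_cfg.integrable_comp_emb (ms_cfgL N).toHomeomorph.measurableEmbedding

theorem nice_cfg {f : Config N → ℝ} (hf : Cc1 f) : Nice fun x => f (cfg x) :=
  nice_of_cont (hf.1.continuous.comp (ms_cfgL N).continuous) (hf.2.comp_homeomorph (ms_cfgL N).toHomeomorph)

theorem ms_ins_eq (i : ι) (t : Pos3) (y : {j // j ≠ i} → Pos3) :
    ins i t y = ins i 0 y + ContinuousLinearMap.single ℝ (fun _ : ι => Pos3) i t := by
  funext j
  by_cases h : j = i
  · subst h; simp
  · simp [ins_ne _ _ _ h, h]

theorem ms_hasFDerivAt (i : Fin N) (y : {j // j ≠ i} → Pos3) (t : Pos3) :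
    HasFDerivAt (fun t => cfg (ins i t y))
      ((ms_cfgL N : (Fin N → Pos3) →L[ℝ] Config N).comp (ContinuousLinearMap.single ℝ (fun _ : Fin N => Pos3) i)) t := by
  have : (fun t => cfg (ins i t y)) =
      fun t => ms_cfgL N (ins i 0 y + ContinuousLinearMap.single ℝ (fun _ : Fin N => Pos3) i t) := by
    funext t; rw [← ms_ins_eq]; rfl
  rw [this]
  exact (ms_cfgL N).hasFDerivAt.comp t ((ContinuousLinearMap.hasFDerivAt _).const_add _)

/-- `t ↦ cfg (ins i t y)` is affine and a closed embedding. -/
theorem cc1_slice {f : Config N → ℝ} (hf : Cc1 f) (i : Fin N) (y : {j // j ≠ i} → Pos3) :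
    Cc1 fun t => f (cfg (ins i t y)) := by
  constructor
  · have : (fun t => cfg (ins i t y)) =
        fun t => ms_cfgL N (ins i 0 y + ContinuousLinearMap.single ℝ (fun _ : Fin N => Pos3) i t) := by
      funext t; rw [← ms_ins_eq]; rfl
    refine hf.1.comp (f := fun t => cfg (ins i t y)) ?_
    rw [this]
    exact (ms_cfgL N).contDiff.comp (contDiff_const.add (ContinuousLinearMap.contDiff _))
  · refine hf.2.comp_isClosedEmbedding (g := fun t => cfg (ins i t y)) ?_
    refine Function.LeftInverse.isClosedEmbedding (f := fun x : Config N => (ms_cfgL N).symm x i)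
      (fun t => ins_self i t y) (by fun_prop) ?_
    exact (ms_cfgL N).continuous.comp ((ms_cont_ins i).comp (Continuous.prodMk_left y))

theorem ms_locInt (R : Pos3) (C : ℝ) : IntegrableOn (fun t : Pos3 => 1 / ‖t - R‖) (Metric.closedBall 0 C) := by
  have h0 : LocallyIntegrable (fun t : Pos3 => 1 / ‖t‖) volume :=
    locallyIntegrable_of_norm_le_rpow (C := 1) (α := 1) (by simp) (by simp)
      (Filter.Eventually.of_forall fun x => by simp [Real.rpow_neg_one])
      (measurable_norm.const_div 1).aestronglyMeasurable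
  have h1 : IntegrableOn (fun t : Pos3 => 1 / ‖t‖) (Metric.closedBall 0 (C + ‖R‖)) :=
    h0.integrableOn_isCompact (isCompact_closedBall _ _)
  have h2 := ((measurePreserving_sub_right volume R).integrableOn_comp_preimage
    (Homeomorph.subRight R).measurableEmbedding).2 h1
  refine h2.mono_set fun t ht => ?_
  rw [mem_preimage, mem_closedBall_zero_iff]
  exact (norm_sub_le _ _).trans (add_le_add (mem_closedBall_zero_iff.1 ht) le_rfl)

/-- `|g x| ≤ C * ∏ j, indicator (closedBall 0 C) 1 (x j)`, `Integrable.fintype_prod`, and `t ↦ 1/‖t - R‖` is locally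
integrable on `Pos3` (`locallyIntegrable_of_norm_le_rpow`, translation). -/
theorem coul_int (i : ι) (R : Pos3) {g : (ι → Pos3) → ℝ} (hg : Nice g) :
    Integrable fun x => 1 / ‖x i - R‖ * g x := by
  obtain ⟨hm, C, hC⟩ := hg
  have hC0 : 0 ≤ C := (abs_nonneg _).trans (hC 0).1
  let F : ι → Pos3 → ℝ := fun j => (Metric.closedBall 0 C).indicator fun t => if j = i then 1 / ‖t - R‖ else 1
  have hF : ∀ j, Integrable (F j) := fun j => by
    refine (integrable_indicator_iff measurableSet_closedBall).2 ?_
    split_ifs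
    · exact ms_locInt R C
    · exact integrableOn_const (isCompact_closedBall _ _).measure_lt_top.ne
  have hP : Integrable fun x : ι → Pos3 => ∏ j, F j (x j) := Integrable.fintype_prod (μ := fun _ => volume) hF
  have hm0 : Measurable fun x : ι → Pos3 => 1 / ‖x i - R‖ := by fun_prop
  have hm' : Measurable fun x : ι → Pos3 => 1 / ‖x i - R‖ * g x := hm0.mul hm
  refine (hP.const_mul C).mono' hm'.aestronglyMeasurable (Filter.Eventually.of_forall fun x => ?_)
  by_cases hx : C < ‖x‖
  · rw [(hC x).2 hx, mul_zero, norm_zero]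
    refine mul_nonneg hC0 (Finset.prod_nonneg fun j _ => indicator_nonneg (fun t _ => ?_) _)
    split_ifs <;> positivity
  · have h1 : ∀ j, F j (x j) = if j = i then 1 / ‖x j - R‖ else 1 := fun j =>
      indicator_of_mem (mem_closedBall_zero_iff.2 ((norm_le_pi_norm x j).trans (not_lt.1 hx))) _
    simp only [h1, Finset.prod_ite_eq', Finset.mem_univ, if_true]
    rw [norm_mul, mul_comm, Real.norm_of_nonneg (by positivity : 0 ≤ 1 / ‖x i - R‖)]
    exact mul_le_mul_of_nonneg_right (hC x).1 (by positivity)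

/-- the part of the squared gradient that belongs to the electron `i` -/
def ms_gr (f : Config N → ℝ) (i : Fin N) (z : Fin N → Pos3) : ℝ :=
  ∑ c : Fin 3, (fderiv ℝ f (cfg z) (EuclideanSpace.single (i, c) 1)) ^ 2

theorem ms_gr_sum (f : Config N → ℝ) (z : Fin N → Pos3) : gradSq f (cfg z) = ∑ i, ms_gr f i z := by
  rw [gradSq, Fintype.sum_prod_type]; rfl

theorem ms_gr_slice {f : Config N → ℝ} (hf : Cc1 f) (i : Fin N) (y : {j // j ≠ i} → Pos3) (t : Pos3) :
    gradSq (fun t => f (cfg (ins i t y))) t = ms_gr f i (ins i t y) := by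
  have h := ((hf.1.differentiable (by simp)) _).hasFDerivAt.comp t (ms_hasFDerivAt i y t)
  refine Finset.sum_congr rfl fun c _ => ?_
  have h' : fderiv ℝ (fun t => f (cfg (ins i t y))) t = _ := h.fderiv
  rw [h']
  simp only [ContinuousLinearMap.comp_apply]
  congr 2
  ext ⟨j, c'⟩
  change (Pi.single (M := fun _ : Fin N => Pos3) i (EuclideanSpace.single c (1 : ℝ)) j) c' = _
  by_cases hj : j = i
  · subst hj; simp
  · simp [hj]

theorem ms_gr_nice {f : Config N → ℝ} (hf : Cc1 f) (i : Fin N) : Nice (ms_gr f i) := by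
  refine Nice.sum _ fun c _ => Nice.sq (nice_of_cont ?_ ?_)
  · exact ((hf.1.continuous_fderiv (by simp)).comp (ms_cfgL N).continuous).clm_apply continuous_const
  · exact ((hf.2.fderiv ℝ).comp_left (g := fun L : Config N →L[ℝ] ℝ => L (EuclideanSpace.single (i, c) 1))
      rfl).comp_homeomorph (ms_cfgL N).toHomeomorph

theorem ms_attr_int {M : ℕ} (R : Fin M → Pos3) (i : ι) {g : (ι → Pos3) → ℝ} (hg : Nice g) :
    Integrable fun x => attr0 R (x i) * g x := by
  simp only [attr0, Finset.sum_mul, neg_mul]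
  exact integrable_finsetSum _ fun α _ => (coul_int i (R α) hg).neg

/-- `gradSq f (cfg x) = ∑ i, gradSq (fun t => f (cfg (update x i t))) (x i)` (chain rule), the `i`-th term is nice
(continuous with compact support); `integral_cfg`, `integral_ins`, `update_ins_self`, `coul_int`. -/
theorem qf_slices {M : ℕ} (R : Fin M → Pos3) {f : Config N → ℝ} (hf : Cc1 f) :
    (∀ i : Fin N, Integrable fun y => qf gradSq (attr0 R) fun t => f (cfg (ins i t y))) ∧
      (Integrable fun x => (∑ i, attr0 R (elPos i x)) * f x ^ 2) ∧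
      qf gradSq (fun x => ∑ i, attr0 R (elPos i x)) f =
        ∑ i : Fin N, ∫ y, qf gradSq (attr0 R) fun t => f (cfg (ins i t y)) := by
  have hg := (nice_cfg hf).sq
  have h1 := fun i : Fin N => integral_ins i (ms_gr_nice hf i).integrable
  have h2 := fun i : Fin N => integral_ins i (ms_attr_int R i hg)
  have e : ∀ (i : Fin N) (y : {j // j ≠ i} → Pos3), (qf gradSq (attr0 R) fun t => f (cfg (ins i t y))) =
      1 / 2 * (∫ t, ms_gr f i (ins i t y)) + ∫ t, attr0 R (ins i t y i) * f (cfg (ins i t y)) ^ 2 := by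
    intro i y
    simp only [qf, ms_gr_slice hf, ins_self]
  refine ⟨fun i => ?_, ?_, ?_⟩
  · simp only [e]
    exact ((h1 i).1.const_mul _).add (h2 i).1
  · rw [← integrable_cfg]
    simp only [elPos_cfg, Finset.sum_mul]
    exact integrable_finsetSum _ fun i _ => ms_attr_int R i hg
  · rw [qf, integral_cfg, integral_cfg fun x => (∑ i, attr0 R (elPos i x)) * f x ^ 2]
    simp only [elPos_cfg, Finset.sum_mul, ms_gr_sum, e]
    rw [integral_finsetSum _ fun i _ => (ms_gr_nice hf i).integrable,
      integral_finsetSum _ fun i _ => ms_attr_int R i hg, Finset.mul_sum, ← Finset.sum_add_distrib]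
    refine Finset.sum_congr rfl fun i _ => ?_
    rw [integral_add ((h1 i).1.const_mul _) (h2 i).1, integral_const_mul, ← (h1 i).2, ← (h2 i).2]

end Crest.Agent.R338
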