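import Crest.Agent.R338.Defs
import Crest.Agent.R290.MachRun

/-! # `PolyTime → PT`
Adapt `Crest.Agent.R290.MachRun` (`exists_md`, `exists_simMD`: numeric machine `MD`, PT simulation
of `t` steps given in unary) from one-bit answers to list outputs: after `p.eval x.length` steps
(or more) read off the whole output stack and decode every symbol.  Copy what has to be changed
into this file (do not edit R290). -/

set_option autoImplicit false
set_option linter.dupNamespace false
set_option linter.unusedVariables false

noncomputable section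

namespace Crest.Agent.R338

open Crest.Agent.Lib.PT Matrix

open Crest.Agent.R290

section md

open Turing Crest.Agent.Lib.CookLevin Turing.TM2

/-- `R290.exists_md` with list outputs. -/
theorem exists_mdL (tm : TM2ComputableAux Bool Bool) : ∃ (M : MD) (cO : Bool → ℕ),
    (∀ b, cO b ≠ 0) ∧ (∀ b, (cO b != M.cF) = b) ∧ ∀ (x y : List Bool) (T : ℕ),
    Nonempty (TM2OutputsInTime tm.tm (x.map tm.inputAlphabet.invFun)
      (some (y.map tm.outputAlphabet.invFun)) T) → ∃ st cell b, M.Run x b T st cell ∧
      ∀ j, cell T M.k₁ j = (y.map cO).getD j 0 := by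
  classical
  obtain ⟨tm, iA, oA⟩ := tm
  let := tm.kFin
  let := tm.ΛFin
  let := tm.σFin
  let := tm.Γk₀Fin
  obtain ⟨d, hd⟩ : ∃ d, ∀ l, depth (tm.m l) ≤ d :=
    ⟨Finset.univ.sup fun l => depth (tm.m l), fun l =>
      Finset.le_sup (f := fun l => depth (tm.m l)) (Finset.mem_univ l)⟩
  let G : Set (Σ k, tm.Γ k) := (⋃ l, pushed (tm.m l)) ∪
    ((Set.range fun a : tm.Γ tm.k₀ => (⟨tm.k₀, a⟩ : Σ k, tm.Γ k)) ∪
      Set.range fun b : Bool => (⟨tm.k₁, oA.symm b⟩ : Σ k, tm.Γ k))
  have hG : G.Finite := (Set.finite_iUnion fun l => pushed_finite _).union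
    ((Set.finite_range _).union (Set.finite_range _))
  have hGp : ∀ l, pushed (tm.m l) ⊆ G := fun l a ha => Or.inl (Set.mem_iUnion.2 ⟨l, ha⟩)
  let L := hG.toFinset.toList
  have hL : ∀ a, a ∈ L ↔ a ∈ G := fun a => by simp [L]
  have hW := finite_windows (Λ := tm.Λ) (σ := tm.σ) hG d
  let rule : Cfg tm.Γ tm.Λ tm.σ → MRule := fun c =>
    (sc c, SL L c, sc (nxt tm.m c), SL L (nxt tm.m c))
  let M : MD := ((⟨Fintype.card tm.K⟩, ⟨d⟩, ⟨L.length + 2⟩),
    ((Fintype.equivFin _ tm.k₀).val, (Fintype.equivFin _ tm.k₁).val, sc (initList tm [])),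
    (code L _ (iA.symm false), code L _ (iA.symm true), code L _ (oA.symm false)),
    hW.toFinset.toList.map rule)
  have eκ : M.κ = Fintype.card tm.K := rfl
  have ed : M.d = d := rfl
  have eg : M.g = L.length + 2 := rfl
  have e₀ : M.k₀ = (Fintype.equivFin _ tm.k₀).val := rfl
  have e₁ : M.k₁ = (Fintype.equivFin _ tm.k₁).val := rfl
  have eL : M.cL = fun c => code L _ (iA.symm c) := by
    funext c; cases c <;> rfl
  have eF : M.cF = code L _ (oA.symm false) := rfl
  have eR : M.R = hW.toFinset.toList.map rule := rfl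
  refine ⟨M, fun b => code L _ (oA.symm b), fun b => by simp [Lib.CookLevin.code], fun b => ?_,
    fun x y T hT => ?_⟩
  · rw [eF]
    cases b
    · simp
    · rw [bne_iff_ne]
      intro e
      have := code_injOn L tm.k₁ ((hL _).2 (Or.inr (Or.inr ⟨_, rfl⟩)))
        ((hL _).2 (Or.inr (Or.inr ⟨_, rfl⟩))) e
      exact absurd (oA.symm.injective this) (by decide)
  let c₀ : Cfg tm.Γ tm.Λ tm.σ := initList tm (x.map iA.invFun)
  let c : ℕ → Cfg tm.Γ tm.Λ tm.σ := fun t => (nxt tm.m)^[t] c₀
  have hc : ∀ t, c (t + 1) = nxt tm.m (c t) := fun t => Function.iterate_succ_apply' _ _ _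
  have hgood : ∀ t, Lib.CookLevin.Good G (c t).stk := by
    intro t
    induction t with
    | zero =>
      intro k a ha
      by_cases hk : k = tm.k₀
      · subst hk; exact Or.inr (Or.inl ⟨a, rfl⟩)
      · simp [c, c₀, initList, hk] at ha
    | succ t ih => rw [hc]; exact nxt_good _ hGp _ ih
  have hwin : ∀ t, (∀ k, ((win d (c t)).stk k).length ≤ d) ∧ Lib.CookLevin.Good G (win d (c t)).stk :=
    fun t => ⟨fun k => by simp [win], fun k a ha => hgood t k a (List.mem_of_mem_take ha)⟩
  have hfin : ∀ t, T ≤ t → ∀ j, ((SL L (c t)).getD M.k₁ []).getD j 0 =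
      (y.map fun b => code L _ (oA.symm b)).getD j 0 := by
    intro t ht j
    obtain ⟨⟨n, hn⟩, hle⟩ := hT.some
    have h1 : c n = haltList tm (y.map oA.symm) := iterate_getD tm.step n _ _ hn
    have h2 : ∀ m, c (n + m) = haltList tm (y.map oA.symm) := by
      intro m
      induction m with
      | zero => exact h1
      | succ m ih => rw [← Nat.add_assoc, hc, ih]; rfl
    obtain ⟨m, rfl⟩ := Nat.exists_eq_add_of_le (hle.trans ht)
    simp only [SL_getD, e₁]
    have h3 : (c (n + m)).stk tm.k₁ = y.map oA.symm := by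
      rw [h2]; simp [haltList]
    rw [h3, List.map_map]
    rfl
  refine ⟨fun t => sc (c t), fun t k j => ((SL L (c t)).getD k []).getD j 0,
    (y.map fun b => code L _ (oA.symm b)).getD 0 0 != M.cF,
    ⟨Fin.is_lt _, Fin.is_lt _, ?_, ?_, ?_, ?_, ?_, ?_⟩, hfin T le_rfl⟩
  · rfl
  · intro i hi j
    rw [eκ] at hi
    obtain ⟨k, rfl⟩ := exists_equivFin hi
    simp only [SL_getD, e₀, eL]
    by_cases hk : k = tm.k₀
    · subst hk
      simp [c, c₀, initList, Function.comp_def]
    · have : (Fintype.equivFin tm.K k).val ≠ (Fintype.equivFin tm.K tm.k₀).val := fun e =>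
        hk ((Fintype.equivFin tm.K).injective (Fin.ext e))
      simp [c, c₀, initList, hk, this]
  · intro t
    refine ⟨rule (win d (c t)), List.mem_map_of_mem (by simpa using hwin t), rfl, ?_⟩
    intro i hi j hj
    rw [eκ] at hi
    rw [ed] at hj
    obtain ⟨k, rfl⟩ := exists_equivFin hi
    simp only [rule, SL_getD, win, List.map_take]
    simp [List.getD_eq_getElem?_getD, hj]
  · intro t r hr hm
    obtain ⟨u, hu, rfl⟩ := List.mem_map.1 hr
    have hu' : (∀ k, (u.stk k).length ≤ d) ∧ Lib.CookLevin.Good G u.stk := by simpa using hu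
    have e : u = win d (c t) := by
      obtain ⟨h1, h2⟩ := sc_inj hm.1
      have h3 : ∀ k, u.stk k = (win d (c t)).stk k := fun k => by
        refine map_inj_of_injOn (code_injOn L k) (fun a ha => (hL _).2 (hu'.2 k a ha))
          (fun a ha => (hL _).2 ((hwin t).2 k a ha)) ?_
        refine list_eq_of_getD (d := d) (by simpa using hu'.1 k) (by simpa using (hwin t).1 k)
          (by simp [Lib.CookLevin.code]) (by simp [Lib.CookLevin.code]) fun j hj => ?_
        have := hm.2 _ (Fintype.equivFin tm.K k).is_lt j hj
        simp only [rule, SL_getD] at this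
        rw [← this]
        simp [win, List.getD_eq_getElem?_getD, hj]
      obtain ⟨l, v, S⟩ := u
      simp only at h1 h2 h3
      simp only [win, h1, h2]
      congr 1
      funext k
      exact h3 k
    subst e
    have hf := nxt_frame tm.m hd (c t)
    refine ⟨?_, fun i hi j => ?_⟩
    · simp only [rule, hc]
      rw [hf]; rfl
    · rw [eκ] at hi
      obtain ⟨k, rfl⟩ := exists_equivFin hi
      simp only [rule, SL_getD, hc, ed]
      rw [← getD_append_drop, ← List.map_drop, ← List.map_append]
      conv_lhs => rw [hf]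
      rfl
  · intro t i j
    rw [eg]
    by_cases hi : i < Fintype.card tm.K
    · obtain ⟨k, rfl⟩ := exists_equivFin hi
      simp only [SL_getD]
      rw [List.getD_eq_getElem?_getD, List.getElem?_map]
      cases ((c t).stk k)[j]? with
      | none => simp
      | some a => simpa using code_lt L k a
    · have e : (SL L (c t)).getD i [] = [] :=
        List.getD_eq_default _ _ (by simp [SL]; omega)
      simp only [e]
      simp
  · intro t ht
    simp only [hfin t ht]
    simp

end md

theorem ptof_takeWhile {l' : List ℕ} (h' : ∀ a ∈ l', a ≠ 0) : ∀ {l : List ℕ},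
    (∀ j, l.getD j 0 = l'.getD j 0) → l.takeWhile (fun a => a != 0) = l' := by
  induction l' with
  | nil =>
    intro l h
    cases l with
    | nil => rfl
    | cons a l =>
      have := h 0
      simp only [List.getD_cons_zero, List.getD_nil] at this
      simp [this]
  | cons b l' ih =>
    intro l h
    have hb := h' b List.mem_cons_self
    cases l with
    | nil =>
      have := h 0
      simp only [List.getD_cons_zero, List.getD_nil] at this
      exact absurd this.symm hb
    | cons a l =>
      have e := h 0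
      simp only [List.getD_cons_zero] at e
      subst e
      rw [List.takeWhile_cons_of_pos (by simpa using hb),
        ih (fun a ha => h' a (List.mem_cons_of_mem _ ha)) fun j => by simpa using h (j + 1)]

/-- Evaluation of a fixed polynomial at the length of the input, in unary. -/
theorem pt_un_eval (p : Polynomial ℕ) : PT fun x : List Bool => Un.mk (p.eval x.length) := by
  fun_prop

theorem pt_of_polyTime {f : List Bool → List Bool} (hf : Crest.Complexity.PolyTime f) : PT f := by
  obtain ⟨tm⟩ := hf
  obtain ⟨M, cO, h0, hF, hM⟩ := exists_mdL tm.toTM2ComputableAux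
  have h1 : PT fun x : List Bool =>
      (simStep M)^[tm.time.eval x.length] (simInit M x) :=
    simIter_pt.comp (f := fun x : List Bool => (M, x, Un.mk (tm.time.eval x.length)))
      ((PT.const M).pair (PT.id.pair (pt_un_eval tm.time)))
  have h2 : PT fun c : ℕ × List (List ℕ) =>
      ((c.2.getD M.k₁ []).takeWhile fun a => a != 0).map fun a => a != M.cF := by fun_prop
  refine (h2.comp h1).of_eq fun x => ?_
  obtain ⟨st, cell, b, hr, hy⟩ := hM x (f x) _ ⟨tm.outputsFun x⟩
  have h3 := (simIter_spec hr (tm.time.eval x.length)).2 _ hr.k1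
  rw [ptof_takeWhile (l' := (f x).map cO) (List.forall_mem_map.2 fun b _ => h0 b)
    fun j => (h3 j).trans (hy j), List.map_map]
  conv_rhs => rw [← List.map_id (f x)]
  exact List.map_congr_left fun b _ => hF b

end Crest.Agent.R338
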