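import Crest.Agent.R338.Pert

/-! # The abstract mediator gadget -/

set_option autoImplicit false
set_option linter.dupNamespace false

noncomputable section

namespace Crest.Agent.R338

open Matrix

variable {κ ι : Type} [Fintype κ] [DecidableEq κ] [Fintype ι] [DecidableEq ι]
  {c : κ → ι → Bool} {P X A C : ι → Matrix κ κ ℝ} {H1 M : Matrix κ κ ℝ} {p a b : κ → ℝ}

/-- mediators: `P m` projects on "mediator `m` is excited", `X m` flips it -/
structure Med (c : κ → ι → Bool) (P X : ι → Matrix κ κ ℝ) : Prop where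
  hP : ∀ m x σ, (P m *ᵥ x) σ = if c σ m then x σ else 0
  sP : ∀ m, (P m)ᵀ = P m
  sX : ∀ m, (X m)ᵀ = X m
  XX : ∀ m, X m * X m = 1
  PX : ∀ m, P m * X m = X m * (1 - P m)
  PX' : ∀ m m', m ≠ m' → P m * X m' = X m' * P m

/-- symmetric operators on the system -/
structure Sy (P X : ι → Matrix κ κ ℝ) (M : Matrix κ κ ℝ) : Prop where
  s : Mᵀ = M
  cP : ∀ m, P m * M = M * P m
  cX : ∀ m, X m * M = M * X m

omit [DecidableEq κ] [Fintype ι] [DecidableEq ι] in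
theorem Sy.add {M' : Matrix κ κ ℝ} (h : Sy P X M) (h' : Sy P X M') : Sy P X (M + M') :=
  ⟨by rw [transpose_add, h.s, h'.s], fun m => by rw [mul_add, add_mul, h.cP, h'.cP],
    fun m => by rw [mul_add, add_mul, h.cX, h'.cX]⟩

omit [DecidableEq κ] [Fintype ι] [DecidableEq ι] in
theorem Sy.smul (h : Sy P X M) (t : ℝ) : Sy P X (t • M) :=
  ⟨by rw [transpose_smul, h.s], fun m => by rw [mul_smul_comm, smul_mul_assoc, h.cP],
    fun m => by rw [mul_smul_comm, smul_mul_assoc, h.cX]⟩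

omit [DecidableEq κ] [Fintype ι] [DecidableEq ι] in
theorem Sy.sum {α : Type} [Fintype α] {M : α → Matrix κ κ ℝ} (h : ∀ i, Sy P X (M i)) : Sy P X (∑ i, M i) :=
  ⟨by simp only [transpose_sum, (h _).s], fun m => by simp only [Finset.mul_sum, Finset.sum_mul, (h _).cP],
    fun m => by simp only [Finset.mul_sum, Finset.sum_mul, (h _).cX]⟩

omit [DecidableEq κ] [Fintype ι] [DecidableEq ι] in
theorem Sy.pv (h : Sy P X M) (j : ι) (a : κ → ℝ) : P j *ᵥ M *ᵥ a = M *ᵥ P j *ᵥ a := by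
  rw [mulVec_mulVec, mulVec_mulVec, h.cP]

omit [DecidableEq κ] in
theorem pl_dot (h : Mᵀ = M) (a b : κ → ℝ) : a ⬝ᵥ M *ᵥ b = (M *ᵥ a) ⬝ᵥ b := by
  rw [dotProduct_mulVec, ← mulVec_transpose, h]

omit [Fintype ι] [DecidableEq ι] in
theorem Med.orth (h : Med c P X) {j : ι} (ha : P j *ᵥ a = 0) (hb : P j *ᵥ b = b) : a ⬝ᵥ b = 0 := by
  rw [← hb, pl_dot (h.sP j), ha, zero_dotProduct]

omit [Fintype ι] [DecidableEq ι] in
theorem Med.flip (h : Med c P X) {j : ι} (ha : P j *ᵥ a = 0) : P j *ᵥ X j *ᵥ a = X j *ᵥ a := by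
  rw [mulVec_mulVec, h.PX, ← mulVec_mulVec, sub_mulVec, ha, one_mulVec, sub_zero]

omit [Fintype ι] [DecidableEq ι] in
theorem Med.pv (h : Med c P X) {j l : ι} (hj : j ≠ l) (a : κ → ℝ) : P j *ᵥ X l *ᵥ a = X l *ᵥ P j *ᵥ a := by
  rw [mulVec_mulVec, mulVec_mulVec, h.PX' _ _ hj]

/-- ground space -/
def plK (P : ι → Matrix κ κ ℝ) : Submodule ℝ (κ → ℝ) where
  carrier := {p | ∀ m, P m *ᵥ p = 0}
  add_mem' ha hb m := by rw [mulVec_add, ha m, hb m, add_zero]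
  zero_mem' m := mulVec_zero _
  smul_mem' t x hx m := by rw [mulVec_smul, hx m, smul_zero]

/-- excited space -/
def plQ (c : κ → ι → Bool) : Submodule ℝ (κ → ℝ) where
  carrier := {q | ∀ σ, (∀ m, c σ m = false) → q σ = 0}
  add_mem' ha hb σ h := by rw [Pi.add_apply, ha σ h, hb σ h, add_zero]
  zero_mem' _ _ := rfl
  smul_mem' t x hx σ h := by rw [Pi.smul_apply, hx σ h, smul_zero]

omit [Fintype ι] [DecidableEq ι] in
theorem Med.orthKQ (h : Med c P X) (hp : p ∈ plK P) {q : κ → ℝ} (hq : q ∈ plQ c) : p ⬝ᵥ q = 0 :=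
  Finset.sum_eq_zero fun σ _ => by
    by_cases h1 : ∀ m, c σ m = false
    · rw [hq σ h1, mul_zero]
    · obtain ⟨m, hm⟩ := not_forall.1 h1
      have := congrFun (hp m) σ
      rw [h.hP, if_pos (by simpa using hm)] at this
      rw [this, Pi.zero_apply, zero_mul]

theorem Med.eff (h : Med c P X) (h1 : Sy P X H1) (hA : ∀ m, Sy P X (A m)) (hC : ∀ m, Sy P X (C m)) {Δ : ℝ}
    (hΔ : Δ ≠ 0) (hp : p ∈ plK P) : ∃ d, IsCorr (∑ m, P m) (H1 + ∑ m, (A m * X m + C m * P m)) (plQ c) Δ p d ∧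
      effForm (H1 + ∑ m, (A m * X m + C m * P m)) p d =
        p ⬝ᵥ (H1 - Δ⁻¹ • ∑ m, A m * A m + Δ⁻¹ ^ 2 • ∑ m, A m * (C m + H1) * A m) *ᵥ p := by
  have hu : ∀ m j, P j *ᵥ A m *ᵥ p = 0 := fun m j => by rw [(hA m).pv, hp j, mulVec_zero]
  obtain ⟨y, hy⟩ : ∃ y : ι → κ → ℝ, ∀ m, y m = X m *ᵥ A m *ᵥ p := ⟨_, fun _ => rfl⟩
  have y1 : ∀ m, P m *ᵥ y m = y m := fun m => hy m ▸ h.flip (hu m m)
  have y0 : ∀ j m, j ≠ m → P j *ᵥ y m = 0 := fun j m hj => by rw [hy, h.pv hj, hu, mulVec_zero]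
  have yy : ∀ M, Sy P X M → ∀ m l, y m ⬝ᵥ M *ᵥ y l = if m = l then p ⬝ᵥ (A m * M * A m) *ᵥ p else 0 := by
    intro M hM m l
    split_ifs with e
    · rw [← e, hy, ← pl_dot (h.sX m), ← pl_dot (hA m).s]
      simp only [mulVec_mulVec]
      rw [← mul_assoc (X m), ← mul_assoc, ← mul_assoc, mul_assoc (A m), (hM.cX m), mul_assoc M, h.XX, mul_one]
    · exact h.orth (y0 l m (Ne.symm e)) (by rw [hM.pv, y1])
  have hV : ∀ a, (H1 + ∑ m, (A m * X m + C m * P m)) *ᵥ a =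
      H1 *ᵥ a + ∑ m, (A m *ᵥ X m *ᵥ a + C m *ᵥ P m *ᵥ a) := fun a => by
    simp only [add_mulVec, sum_mulVec, mulVec_mulVec]
  have Vp : (H1 + ∑ m, (A m * X m + C m * P m)) *ᵥ p = H1 *ᵥ p + ∑ m, y m := by
    simp only [hV, hp _, mulVec_zero, add_zero, hy, mulVec_mulVec, (hA _).cX]
  have hH : H1 *ᵥ p ∈ plK P := fun m => by rw [h1.pv, hp m, mulVec_zero]
  have yQ : ∀ m, y m ∈ plQ c := fun m σ hσ => by rw [← y1, h.hP, hσ m]; rfl
  have Vy : ∀ m l, y m ⬝ᵥ (H1 + ∑ m, (A m * X m + C m * P m)) *ᵥ y l =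
      if m = l then p ⬝ᵥ (A m * (C m + H1) * A m) *ᵥ p else 0 := fun m l => by
    have e1 : ∀ j, y m ⬝ᵥ A j *ᵥ X j *ᵥ y l = 0 := fun j => by
      by_cases e : j = l
      · rw [dotProduct_comm]
        refine h.orth ?_ (y1 m)
        rw [e, hy l, mulVec_mulVec _ (X l), h.XX, one_mulVec, (hA l).pv, hu, mulVec_zero]
      · by_cases e' : j = m
        · exact h.orth (y0 l m fun e2 => e (e'.trans e2.symm)) (by rw [(hA j).pv, h.pv (Ne.symm e), y1])
        · exact h.orth (y0 j m e') (by rw [(hA j).pv, h.flip (y0 j l e)])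
    rw [hV, dotProduct_add, dotProduct_sum, Finset.sum_eq_single l (fun j _ hj => by
      rw [dotProduct_add, e1, y0 j l hj, mulVec_zero, dotProduct_zero, add_zero]) (by simp), dotProduct_add, e1,
      y1, zero_add, ← dotProduct_add, ← add_mulVec, yy _ (h1.add (hC l))]
    split_ifs with e
    · rw [e, add_comm]
    · rfl
  refine ⟨Δ⁻¹ • ∑ m, y m, ⟨Submodule.smul_mem _ _ (Submodule.sum_mem _ fun m _ => yQ m), fun q hq => ?_⟩, ?_⟩
  · have : (∑ m, P m) *ᵥ ∑ m, y m = ∑ m, y m := by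
      rw [mulVec_sum]
      exact Finset.sum_congr rfl fun m _ => by
        rw [sum_mulVec, Finset.sum_eq_single m (fun j _ hj => y0 j m hj) (by simp), y1]
    rw [mulVec_smul, this, Vp, dotProduct_add, dotProduct_comm q (H1 *ᵥ p), h.orthKQ hH hq, dotProduct_smul,
      smul_eq_mul, mul_inv_cancel_left₀ hΔ, zero_add]
  · have e1 : ∀ m l, y m ⬝ᵥ y l = if m = l then p ⬝ᵥ (A m * A m) *ᵥ p else 0 := fun m l => by
      simpa using yy 1 ⟨by simp, by simp, by simp⟩ m l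
    have e2 : ∀ m, y m ⬝ᵥ H1 *ᵥ p = 0 := fun m => (dotProduct_comm _ _).trans (h.orthKQ hH (yQ m))
    rw [effForm, Vp]
    generalize H1 + ∑ m, (A m * X m + C m * P m) = V at Vy
    simp only [mulVec_smul, mulVec_sum,
      dotProduct_add, dotProduct_sum, smul_dotProduct, dotProduct_smul, sum_dotProduct, Vy, e1, e2,
      h.orthKQ hp (yQ _), Finset.sum_ite_eq', Finset.mem_univ, if_true, add_mulVec, sub_mulVec, dotProduct_sub,
      smul_mulVec, sum_mulVec, smul_eq_mul, Finset.sum_const_zero, ← Finset.mul_sum]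
    ring

omit [DecidableEq ι] in
theorem Med.data (h : Med c P X) (h1 : Sy P X H1) (hA : ∀ m, Sy P X (A m)) (hC : ∀ m, Sy P X (C m)) {Δ v : ℝ}
    (hv : OpLe (H1 + ∑ m, (A m * X m + C m * P m)) v) (h0 : 0 ≤ v) (hΔ : 0 < Δ) (hb : 4 * v ≤ Δ) :
    PertData (∑ m, P m) (H1 + ∑ m, (A m * X m + C m * P m)) (plK P) (plQ c) Δ v := by
  refine ⟨by simp only [transpose_sum, h.sP], ?_, fun p hp q hq => h.orthKQ hp hq,
    fun p hp => by simp only [sum_mulVec, hp _, Finset.sum_const_zero], fun q hq => ?_, hv, h0, hΔ, hb⟩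
  · simp only [transpose_add, transpose_sum, transpose_mul, h1.s, h.sP, h.sX, (hA _).s, (hC _).s, (hA _).cX,
      (hC _).cP]
  · refine Finset.sum_le_sum fun σ _ => ?_
    by_cases h1 : ∀ m, c σ m = false
    · simp [hq σ h1]
    · obtain ⟨m, hm⟩ := not_forall.1 h1
      rw [sum_mulVec, Finset.sum_apply, Finset.mul_sum]
      refine le_trans ?_ (Finset.single_le_sum (fun j _ => ?_) (Finset.mem_univ m))
      · rw [h.hP, if_pos (by simpa using hm)]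
      · rw [h.hP]
        split_ifs
        exacts [mul_self_nonneg _, by simp]

/-- The gadget: `H` is the target, `e` the error of the effective Hamiltonian. -/
theorem Med.main (h : Med c P X) (h1 : Sy P X H1) (hA : ∀ m, Sy P X (A m)) (hC : ∀ m, Sy P X (C m)) {Δ v e : ℝ}
    (hv : OpLe (H1 + ∑ m, (A m * X m + C m * P m)) v) (hΔ : 0 < Δ) (hb : 4 * v ≤ Δ) {H : Matrix κ κ ℝ}
    (he : OpLe (H1 - Δ⁻¹ • ∑ m, A m * A m + Δ⁻¹ ^ 2 • ∑ m, A m * (C m + H1) * A m - H) e) (he0 : 0 ≤ e)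
    {β η : ℝ} (hβ : β ≤ v) (hη : e + (β * v ^ 2 / Δ ^ 2 + 16 * v ^ 4 / Δ ^ 3) ≤ η) (t : ℝ) (ht : |t| + e ≤ β) :
    ((∃ p ∈ plK P, p ≠ 0 ∧ p ⬝ᵥ H *ᵥ p ≤ t * (p ⬝ᵥ p)) →
      MYes (Δ • ∑ m, P m + (H1 + ∑ m, (A m * X m + C m * P m))) (t + η)) ∧
    ((∀ p ∈ plK P, t * (p ⬝ᵥ p) ≤ p ⬝ᵥ H *ᵥ p) →
      MNo (Δ • ∑ m, P m + (H1 + ∑ m, (A m * X m + C m * P m))) (t - η)) := by
  have h0 : 0 ≤ v := by linarith [abs_nonneg t]
  have hD := h.data h1 hA hC hv h0 hΔ hb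
  have h2 : 0 ≤ 16 * v ^ 4 / Δ ^ 3 := by positivity
  have h3 : ∀ s, |s| ≤ β → |s| * v ^ 2 / Δ ^ 2 ≤ β * v ^ 2 / Δ ^ 2 := fun s hs => by gcongr
  refine ⟨fun ⟨p, hp, hp0, hH⟩ => ?_, fun hH x => ?_⟩
  · obtain ⟨d, hd, h4⟩ := h.eff h1 hA hC hΔ.ne' hp
    have h5 := (abs_le.1 (he.form_le he0 p)).2
    rw [sub_mulVec, dotProduct_sub, ← h4] at h5
    refine MYes.mono ⟨_, pert_yes (lam := t + e) hD hp hp0 hd (by linarith)⟩ ?_
    linarith [h3 (t + e) ((abs_add_le _ _).trans (by rwa [abs_of_nonneg he0]))]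
  · classical
    have hp : (fun σ => if ∀ m, c σ m = false then x σ else 0) ∈ plK P := fun m => funext fun σ => by
      rw [h.hP]
      split_ifs with e1 e2
      · simp [e2 m] at e1
      all_goals rfl
    obtain ⟨d, hd, h4⟩ := h.eff h1 hA hC hΔ.ne' hp
    have h5 := (abs_le.1 (he.form_le he0 fun σ => if ∀ m, c σ m = false then x σ else 0)).1
    rw [sub_mulVec, dotProduct_sub, ← h4] at h5
    have h6 : |t - e| ≤ β := (abs_sub _ _).trans (by rwa [abs_of_nonneg he0])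
    have h7 := pert_no (lam := t - e) (q := x - fun σ => if ∀ m, c σ m = false then x σ else 0) hD
      (h6.trans hβ) hp (fun σ hσ => by simp [hσ]) hd (by linarith [hH _ hp])
    rw [add_sub_cancel] at h7
    exact (mul_le_mul_of_nonneg_right (by linarith [h3 _ h6]) (dot_self_nonneg x)).trans h7

end Crest.Agent.R338
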