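import Crest.Agent.R338.Word
import Crest.Agent.R338.Peel_Abs

/-! # Stage P: one third order gadget lowers the locality from `k+1` to `k` (`k ≥ 2`)

Instance `(B, n, ts, a, b)`, `M = ts.length`.  Term number `m` gets the mediator qubit `n + m`; new
number of qubits `n + M`.  Let `r = 10^9 (B+1)^9` (any large polynomial), `Δ = r³`, `α = r²`.  For
the term `(c, w)`:
* if `w.length ≤ 2` keep it (`A m = 0`, `C m = 0`);
* if `w = l₁ :: l₂ :: rest` with `rest ≠ []`, put `a = [l₁]`, `b = [l₂]`, `C = rest` (commuting symmetric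
  involutions) and emit `α (a + b) X_m + (c r²/2) C P1_m + 2 r (1 + a b) - c C`, `P1_m = (1 - Z_m)/2`.
Add `Δ ∑_m P1_m`.  All words have length `≤ max 2 k`.  So `H' = Δ H0 + V`,
`V = H₁ + ∑ (A m X_m + C m P1_m)`, `A m = α(a+b)`, `C m = (c r²/2) C`, `H₁` = kept + compensation terms
(`‖H₁‖ ≤ M (4r + B)`, `‖V‖ ≤ v = M (B + 8) r²`).  `K` = vectors supported on strings with all mediators
`false`, `Q` = vectors vanishing there, `H0` diagonal.  For `p = p₀ ⊗ |0…0⟩`,
`d = (1/Δ) ∑_m A m p₀ ⊗ |e_m⟩`, and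
`effForm = p₀⬝H₁p₀ - (1/Δ) ∑ |A m p₀|² + (1/Δ²) ∑ (A m p₀)⬝(C m + H₁)(A m p₀)`
(X-terms change the parity of the mediators).  `(a+b)² = 2(1 + ab)`, `(a+b) C (a+b) = 2C + 2abC`, so
`effForm = p₀⬝H p₀ + err`, `|err| ≤ M · 4 r⁻² · M(4r+B) |p₀|²`.  With `pert_yes/pert_no` the total error
is `≤ 1/4`; finally multiply all coefficients by `2`, `a' = 2a + 1/2`, `b' = 2b - 1/2`,
`B'` = a polynomial in `B` (unary).  A clean way: first prove an abstract mediator lemma on
`(Fin n ⊕ Fin M → Bool)` or on `κ × (Fin M → Bool)` for arbitrary symmetric matrices `H₁, A m, C m` on `κ`,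
then transport along `finSumFinEquiv` (`mYes_submatrix`).  In matrix form: `J` = isometry
`p₀ ↦ p₀ ⊗ |0⟩`, `Jᵀ X_m X_m' J = δ`, `P1_m J = 0`, `P1_m X_m' J = δ X_m J`, `Jᵀ X_m X_m' X_m'' J = 0`. -/

set_option autoImplicit false
set_option linter.dupNamespace false
set_option linter.unusedVariables false

noncomputable section

namespace Crest.Agent.R338

open Crest.Agent.Lib.PT Matrix

/-- the (doubled) gadget of one term; no case distinction on the length of the word is needed -/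
def plGad (r : ℚ) (q : ℕ) (t : ℚ × Word) : List (ℚ × Word) :=
  [(2 * r ^ 2, (q, true) :: t.2.take 1), (2 * r ^ 2, (q, true) :: (t.2.drop 1).take 1),
    (t.1 * r ^ 2 / 2 - 2 * t.1, t.2.drop 2), (-(t.1 * r ^ 2 / 2), (q, false) :: t.2.drop 2),
    (4 * r + r ^ 3, []), (4 * r, t.2.take 1 ++ (t.2.drop 1).take 1), (-r ^ 3, [(q, false)])]

@[fun_prop] theorem plGad_pt {α : Type} [Enc α] {r : α → ℚ} {q : α → ℕ} {t : α → ℚ × Word} (hr : PT r)
    (hq : PT q) (ht : PT t) : PT fun a => plGad (r a) (q a) (t a) := by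
  unfold plGad
  fun_prop

@[irreducible] def plR (B : ℕ) : ℕ := 10 ^ 6 * (B + 1) ^ 8

@[fun_prop] theorem plR_pt {α : Type} [Enc α] {B : α → ℕ} (h : PT B) : PT fun a => plR (B a) := by
  unfold plR
  exact PT.nat_mul (n := fun _ => 10 ^ 6) (m := fun a => (B a + 1) ^ 8) (PT.const _)
    (PT.nat_pow (n := fun a => B a + 1) (m := fun _ => 8) (by fun_prop) (PT.const _) (PB.const _))

@[fun_prop] theorem plR_pb {α : Type} [Enc α] {B : α → ℕ} (h : PB B) : PB fun a => plR (B a) := by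
  unfold plR
  fun_prop

def plMap (x : PHI) : PHI :=
  (⟨2 * plR x.1.n ^ 3⟩, x.2.1 + x.2.2.1.length,
    (x.2.2.1.mapIdx fun m t => plGad (plR x.1.n) (x.2.1 + m) t).flatten,
    2 * x.2.2.2.1 + 1 / 2, 2 * x.2.2.2.2 - 1 / 2)

theorem plMap_pt : PT plMap := by
  unfold plMap
  fun_prop

theorem pl_split (w : Word) : w.take 1 ++ (w.drop 1).take 1 ++ w.drop 2 = w := by
  rcases w with _ | ⟨a, _ | ⟨b, w⟩⟩ <;> simp

theorem pl_sub (w : Word) : (w.take 1).Sublist w ∧ ((w.drop 1).take 1).Sublist w ∧ (w.drop 2).Sublist w ∧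
    (w.take 1 ++ (w.drop 1).take 1).Sublist w :=
  ⟨List.take_sublist _ _, (List.take_sublist _ _).trans (List.drop_sublist _ _), List.drop_sublist _ _,
    (List.sublist_append_left _ (w.drop 2)).trans (by rw [pl_split])⟩

theorem pl_notMem {n q : ℕ} {w w' : Word} (h : ∀ l ∈ w, l.1 < n) (hq : n ≤ q) (hw : w'.Sublist w) :
    q ∉ w'.map Prod.fst := fun hm => by
  obtain ⟨l, hl, rfl⟩ := List.mem_map.1 hm
  exact (h l (hw.subset hl)).not_ge hq

theorem pl_valid {k : ℕ} (hk : 2 ≤ k) {x : PHI} (h : ValidPH (k + 1) x) : ValidPH k (plMap x) := by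
  obtain ⟨B, n, ts, a, b⟩ := x
  obtain ⟨h1, h2, h3, h4, h5, h6, h7⟩ := h
  dsimp only at h1 h2 h3 h4 h5 h6 h7
  have hr : 10 * (B.n + 1) ≤ plR B.n := by
    rw [plR]
    exact Nat.mul_le_mul (by norm_num) (Nat.le_self_pow (by norm_num) _)
  have hr3 : plR B.n ≤ plR B.n ^ 3 := Nat.le_self_pow (by norm_num) _
  have hq : 10 * ((B.n : ℚ) + 1) ≤ plR B.n := by exact_mod_cast hr
  have hq3 : (plR B.n : ℚ) ≤ (plR B.n : ℚ) ^ 3 := by exact_mod_cast hr3
  have hB : (0 : ℚ) ≤ B.n := by positivity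
  refine ⟨by dsimp only [plMap]; omega, by dsimp only [plMap]; omega, ?_, fun t ht => ?_, ?_, ?_, ?_⟩ <;>
    dsimp only [plMap] at *
  · have : ∀ L ∈ (ts.mapIdx fun m t => plGad (plR B.n) (n + m) t).map List.length, L ≤ 7 := fun L hL => by
      obtain ⟨l, hl, rfl⟩ := List.mem_map.1 hL
      obtain ⟨i, -, rfl⟩ := List.mem_mapIdx.1 hl
      rfl
    have := List.sum_le_card_nsmul _ _ this
    rw [List.length_map, List.length_mapIdx, smul_eq_mul] at this
    rw [List.length_flatten]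
    omega
  · obtain ⟨l, hl, ht⟩ := List.mem_flatten.1 ht
    obtain ⟨i, hi, rfl⟩ := List.mem_mapIdx.1 hl
    obtain ⟨c1, w1, w2, w3⟩ := h4 _ (List.getElem_mem hi)
    generalize ts[i] = u at *
    have k1 : ∀ {w}, w.Sublist u.2 → w.length ≤ k → WordOK (n + ts.length) k w := fun hw hl =>
      ⟨w1.sublist (hw.map _), fun l h => (w2 l (hw.subset h)).trans_le (by omega), hl⟩
    have k2 : ∀ {w} (s : Bool), w.Sublist u.2 → w.length + 1 ≤ k → WordOK (n + ts.length) k ((n + i, s) :: w) :=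
      fun s hw hl => ⟨List.nodup_cons.2 ⟨pl_notMem w2 (by simp) hw, (k1 hw (by omega)).1⟩,
        List.forall_mem_cons.2 ⟨by simpa, (k1 hw (by omega)).2.1⟩, hl⟩
    obtain ⟨s1, s2, s3, s4⟩ := pl_sub u.2
    push_cast
    generalize (plR B.n : ℚ) = r at *
    have c2 := abs_le.1 c1
    have c3 : (B.n : ℚ) * r ^ 2 ≤ r ^ 3 := by nlinarith [sq_nonneg r]
    have c4 : r ^ 2 ≤ r ^ 3 := by nlinarith [sq_nonneg r]
    have c5 := mul_le_mul_of_nonneg_right c2.1 (sq_nonneg r)
    have c6 := mul_le_mul_of_nonneg_right c2.2 (sq_nonneg r)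
    have c7 : 10 * r ≤ r ^ 2 := by nlinarith
    simp only [plGad, List.mem_cons, List.not_mem_nil, or_false] at ht
    rcases ht with rfl | rfl | rfl | rfl | rfl | rfl | rfl <;>
      refine ⟨abs_le.2 ⟨by linarith, by linarith⟩, ?_⟩
    · exact k2 _ s1 (by simp; omega)
    · exact k2 _ s2 (by simp; omega)
    · exact k1 s3 (by simp; omega)
    · exact k2 _ s3 (by simp; omega)
    · exact k1 (List.nil_sublist _) (by simp)
    · exact k1 s4 (by simp; omega)
    · exact k2 _ (List.nil_sublist _) (by simp; omega)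
  · push_cast
    exact abs_le.2 ⟨by linarith [abs_le.1 h5], by linarith [abs_le.1 h5]⟩
  · push_cast
    exact abs_le.2 ⟨by linarith [abs_le.1 h6], by linarith [abs_le.1 h6]⟩
  · linarith

section

variable {n M : ℕ}

/-- projections and flips of the mediators -/
def plP (n M : ℕ) (A : Matrix Bool Bool ℝ) (m : Fin M) : Matrix (Fin (n + M) → Bool) (Fin (n + M) → Bool) ℝ :=
  loc (Fin.natAdd n m) A

theorem pl_med : Med (fun (σ : Fin (n + M) → Bool) m => σ (Fin.natAdd n m)) (plP n M p1) (plP n M pX) := by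
  refine ⟨fun m x σ => ?_, fun m => by rw [plP, loc_transpose, p1_transpose],
    fun m => by rw [plP, loc_transpose, pX_transpose], fun m => by rw [plP, loc_mul, pX_mul_self, loc_one],
    fun m => ?_, fun m m' h => loc_comm (by simpa using h) _ _⟩
  · rw [plP, loc_mulVec]
    cases h : σ (Fin.natAdd n m)
    · simp [p1]
    · simp [p1, ← h]
  · rw [plP, plP, ← loc_one (Fin.natAdd n m), ← loc_sub, loc_mul, loc_mul]
    congr 1
    ext a b
    cases a <;> cases b <;> simp [p1, pX, mul_apply, one_apply]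

theorem pl_sy {w w' : Word} (h : ∀ l ∈ w, l.1 < n) (hw : w'.Sublist w) :
    Sy (plP n M p1) (plP n M pX) (wordMat (n + M) w') :=
  ⟨wordMat_transpose _ _, fun m => loc_comm_wordMat _ _ (pl_notMem h (by simp) hw),
    fun m => loc_comm_wordMat _ _ (pl_notMem h (by simp) hw)⟩

theorem pl_disj {w w' : Word} (h : ((w ++ w').map Prod.fst).Nodup) :
    ∀ q, q ∈ w.map Prod.fst → q ∉ w'.map Prod.fst := fun q h1 h2 => by
  rw [List.map_append] at h
  exact (List.nodup_append.1 h).2.2 q h1 q h2 rfl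

theorem pl_gad (r : ℚ) (m : Fin M) {t : ℚ × Word} (h1 : (t.2.map Prod.fst).Nodup) (h2 : ∀ l ∈ t.2, l.1 < n) :
    hamMat (n + M) (plGad r (n + m) t) = (2 : ℝ) • ((r : ℝ) ^ 3 • plP n M p1 m +
      (((2 * r : ℝ) • (wordMat (n + M) [] + wordMat (n + M) (t.2.take 1 ++ (t.2.drop 1).take 1)) +
        (-t.1 : ℝ) • wordMat (n + M) (t.2.drop 2)) +
      ((r : ℝ) ^ 2 • (wordMat (n + M) (t.2.take 1) + wordMat (n + M) ((t.2.drop 1).take 1)) * plP n M pX m +
        (t.1 * r ^ 2 / 2 : ℝ) • wordMat (n + M) (t.2.drop 2) * plP n M p1 m))) := by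
  obtain ⟨s1, s2, s3, -⟩ := pl_sub t.2
  have k : ∀ {w : Word} (s : Bool), w.Sublist t.2 → wordMat (n + M) ((n + m, s) :: w) =
      wordMat (n + M) w * plP n M (letter (some s)) m := fun s hw =>
    (wordMat_cons (Fin.natAdd n m).2 s (pl_notMem h2 (by simp) hw)).trans
      (loc_comm_wordMat _ _ (pl_notMem h2 (by simp) hw))
  have e : plP n M p1 m = (1 / 2 : ℝ) • (1 - plP n M pZ m) := by rw [plP, p1_eq, loc_smul, loc_sub, loc_one, plP]
  simp only [plGad, hamMat_cons, hamMat_nil, k _ s1, k _ s2, k _ s3, k _ (List.nil_sublist _), letter, e,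
    wordMat_nil, smul_mul_assoc, add_mul, mul_smul_comm, mul_sub, mul_one, one_mul]
  push_cast
  module

theorem pl_alg {R : Type} [Ring R] [Algebra ℝ R] {a b C : R} (ha : a * a = 1) (hb : b * b = 1)
    (hab : b * a = a * b) (hac : a * C = C * a) (hbc : b * C = C * b) (H : R) {r : ℝ} (hr : r ≠ 0) (c : ℝ) :
    (2 * r) • (1 + a * b) + (-c) • C - (r ^ 3)⁻¹ • (r ^ 2 • (a + b) * r ^ 2 • (a + b)) +
      (r ^ 3)⁻¹ ^ 2 • (r ^ 2 • (a + b) * ((c * r ^ 2 / 2) • C + H) * r ^ 2 • (a + b)) - c • (C * (a * b)) =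
      (r ^ 3)⁻¹ ^ 2 • (r ^ 2 • (a + b) * H * r ^ 2 • (a + b)) := by
  have h1 : (a + b) * (a + b) = (2 : ℝ) • (1 + a * b) := by
    rw [add_mul, mul_add, mul_add, ha, hb, hab]; module
  have h2 : (a + b) * C * (a + b) = (2 : ℝ) • (C + C * (a * b)) := by
    rw [add_mul a, hac, hbc, ← mul_add, mul_assoc, h1, mul_smul_comm, mul_add, mul_one]
  generalize a + b = s at *
  simp only [mul_add, add_mul, smul_mul_assoc, mul_smul_comm, h1, h2]
  match_scalars <;> field_simp <;> ring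

theorem pl_dot_ext {p : (Fin (n + M) → Bool) → ℝ} (hp : p ∈ plK (plP n M p1)) (g : (Fin (n + M) → Bool) → ℝ) :
    g ⬝ᵥ p = (fun σ => g (Fin.append σ fun _ => false)) ⬝ᵥ fun σ => p (Fin.append σ fun _ => false) := by
  refine (Fintype.sum_of_injective (fun σ : Fin n → Bool => Fin.append σ fun _ : Fin M => false)
    (fun σ τ h => funext fun i => by simpa using congrFun h (Fin.castAdd M i)) _ _ (fun σ hσ => ?_)
    fun _ => rfl).symm
  by_cases h : ∀ m, σ (Fin.natAdd n m) = false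
  · refine (hσ ⟨fun i => σ (Fin.castAdd M i), funext fun i => ?_⟩).elim
    refine Fin.addCases (fun i => ?_) (fun i => ?_) i <;> simp [h]
  · obtain ⟨m, hm⟩ := not_forall.1 h
    have := congrFun (hp m) σ
    rw [pl_med.hP, if_pos (by simpa using hm)] at this
    rw [this, Pi.zero_apply, mul_zero]

theorem pl_ham_ext {ts : List (ℚ × Word)} (h : ∀ t ∈ ts, ∀ l ∈ t.2, l.1 < n) (σ τ : Fin n → Bool) :
    hamMat (n + M) ts (Fin.append σ fun _ => false) (Fin.append τ fun _ => false) = hamMat n ts σ τ := by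
  induction ts with
  | nil => simp [hamMat_nil]
  | cons t ts ih =>
    have : ∀ m : Fin M, t.2.lookup (n + m) = none := fun m => List.lookup_eq_none_iff.2 fun l hl => by
      have := h t (by simp) l hl
      simp only [bne_iff_ne]
      omega
    rw [hamMat_cons, hamMat_cons, Matrix.add_apply, Matrix.add_apply, ih fun t ht => h t (by simp [ht])]
    simp only [wordMat, tens, of_apply, Matrix.smul_apply, Fin.prod_univ_add, Fin.append_left, Fin.append_right,
      Fin.val_natAdd, Fin.val_castAdd, this]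
    simp [letter]

theorem pl_form_ext {ts : List (ℚ × Word)} (h : ∀ t ∈ ts, ∀ l ∈ t.2, l.1 < n)
    {p : (Fin (n + M) → Bool) → ℝ} (hp : p ∈ plK (plP n M p1)) :
    p ⬝ᵥ hamMat (n + M) ts *ᵥ p = (fun σ => p (Fin.append σ fun _ => false)) ⬝ᵥ
      hamMat n ts *ᵥ fun σ => p (Fin.append σ fun _ => false) := by
  rw [dotProduct_comm, pl_dot_ext hp, dotProduct_comm]
  congr 1
  ext σ
  exact (pl_dot_ext hp _).trans (by simp only [pl_ham_ext h]; rfl)

theorem pl_sum {κ : Type} [Fintype κ] {F : Fin M → Matrix κ κ ℝ} {v β : ℝ} (h : ∀ m, OpLe (F m) v) (hv : 0 ≤ v)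
    (hβ : (M : ℝ) ≤ β) : OpLe (∑ m, F m) (β * v) :=
  (OpLe.sum _ (fun m _ => h m) fun _ _ => hv).mono (by positivity) (by simpa using mul_le_mul_of_nonneg_right hβ hv)

end

theorem pl_num {β r : ℝ} (hβ : 1 ≤ β) (hr : r = 10 ^ 6 * β ^ 8) :
    β ≤ r ∧ 4 * (8 * β ^ 2 * r ^ 2) ≤ r ^ 3 ∧ 20 * β ^ 2 / r ≤ 1 / 100 ∧
      β * (8 * β ^ 2 * r ^ 2) ^ 2 / (r ^ 3) ^ 2 + 16 * (8 * β ^ 2 * r ^ 2) ^ 4 / (r ^ 3) ^ 3 ≤ 1 / 10 := by
  have h1 : β ≤ β ^ 8 := le_self_pow₀ hβ (by norm_num)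
  have h2 : β ^ 2 ≤ β ^ 8 := pow_le_pow_right₀ hβ (by norm_num)
  have h5 : β ^ 5 ≤ β ^ 8 := pow_le_pow_right₀ hβ (by norm_num)
  have h0 : 0 < r := by rw [hr]; positivity
  refine ⟨by linarith, by nlinarith [sq_nonneg r], (div_le_iff₀ h0).2 (by linarith), ?_⟩
  have : β * (8 * β ^ 2 * r ^ 2) ^ 2 / (r ^ 3) ^ 2 + 16 * (8 * β ^ 2 * r ^ 2) ^ 4 / (r ^ 3) ^ 3 =
      (64 * β ^ 5 + 65536 * β ^ 8 * r) / r ^ 2 := by field_simp; ring
  rw [this, div_le_iff₀ (by positivity)]
  have h8 : β ^ 8 = r / 10 ^ 6 := by rw [hr]; ring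
  rw [h8] at *
  nlinarith

theorem pl_main {n B k : ℕ} {ts : List (ℚ × Word)} (h3 : ts.length ≤ B)
    (h4 : ∀ t ∈ ts, |t.1| ≤ B ∧ WordOK n k t.2) (s : ℝ) (hs : |s| ≤ B) :
    (MYes (hamMat n ts) s → MYes (hamMat (n + ts.length)
      (ts.mapIdx fun m t => plGad (plR B) (n + m) t).flatten) (2 * s + 1 / 2)) ∧
    (MNo (hamMat n ts) s → MNo (hamMat (n + ts.length)
      (ts.mapIdx fun m t => plGad (plR B) (n + m) t).flatten) (2 * s - 1 / 2)) := by
  obtain ⟨β, hβ⟩ : ∃ β : ℝ, β = B + 1 := ⟨_, rfl⟩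
  have hβ1 : 1 ≤ β := by rw [hβ]; linarith [B.cast_nonneg (α := ℝ)]
  obtain ⟨r, hr⟩ : ∃ r : ℝ, r = ((plR B : ℚ) : ℝ) := ⟨_, rfl⟩
  obtain ⟨n1, n2, n3, n4⟩ := pl_num hβ1 (r := r) (by rw [hr, hβ, plR]; push_cast; norm_num)
  have hr0 : 0 < r := by linarith
  have hM : (ts.length : ℝ) ≤ β := by rw [hβ]; exact_mod_cast h3.trans B.le_succ
  have hw : ∀ m : Fin ts.length, WordOK n k (ts.get m).2 := fun m => (h4 _ (List.get_mem _ _)).2
  have hc : ∀ m : Fin ts.length, |((ts.get m).1 : ℝ)| ≤ β := fun m => by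
    have : |((ts.get m).1 : ℝ)| ≤ B := by exact_mod_cast (h4 _ (List.get_mem _ _)).1
    linarith
  set W := wordMat (n + ts.length)
  let G : Fin ts.length → Matrix _ _ ℝ := fun m => (2 * r) • (W [] + W ((ts.get m).2.take 1 ++
    ((ts.get m).2.drop 1).take 1)) + (-(ts.get m).1 : ℝ) • W ((ts.get m).2.drop 2)
  let A : Fin ts.length → Matrix _ _ ℝ := fun m =>
    r ^ 2 • (W ((ts.get m).2.take 1) + W (((ts.get m).2.drop 1).take 1))
  let C : Fin ts.length → Matrix _ _ ℝ := fun m => ((ts.get m).1 * r ^ 2 / 2 : ℝ) • W ((ts.get m).2.drop 2)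
  have e1 : hamMat (n + ts.length) (ts.mapIdx fun m t => plGad (plR B) (n + m) t).flatten =
      (2 : ℝ) • (r ^ 3 • ∑ m, plP n _ p1 m + (∑ m, G m + ∑ m, (A m * plP n _ pX m + C m * plP n _ p1 m))) +
        (0 : ℝ) • 1 := by
    rw [hamMat_flatten, List.mapIdx_eq_ofFn, List.map_ofFn, List.sum_ofFn, zero_smul, add_zero, Finset.smul_sum,
      ← Finset.sum_add_distrib, ← Finset.sum_add_distrib, Finset.smul_sum]
    refine Finset.sum_congr rfl fun m _ => ?_
    have := pl_gad (plR B) m (hw m).1 (hw m).2.1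
    rwa [← hr] at this
  have e2 : ∑ m, G m - (r ^ 3)⁻¹ • ∑ m, A m * A m + (r ^ 3)⁻¹ ^ 2 • ∑ m, A m * (C m + ∑ m, G m) * A m -
      hamMat (n + ts.length) ts = (r ^ 3)⁻¹ ^ 2 • ∑ m, A m * (∑ m, G m) * A m := by
    rw [hamMat, ← Fin.sum_univ_fun_getElem]
    generalize hH : ∑ m, G m = H
    rw [show H - (r ^ 3)⁻¹ • ∑ m, A m * A m = ∑ m, G m - (r ^ 3)⁻¹ • ∑ m, A m * A m by rw [hH]]
    simp only [Finset.smul_sum, ← Finset.sum_add_distrib, ← Finset.sum_sub_distrib]
    refine Finset.sum_congr rfl fun m _ => ?_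
    have d0 := (hw m).1
    rw [← pl_split (ts.get m).2] at d0
    have d1 := pl_disj d0
    have d2 := pl_disj ((hw m).1.sublist ((pl_sub _).2.2.2.map _))
    have d3 := wordMat_append (n + ts.length) d1
    rw [pl_split, wordMat_comm _ d1, wordMat_append _ d2] at d3
    simp only [G, A, C, W, wordMat_nil, wordMat_append _ d2]
    rw [show ts[m.1] = ts.get m from rfl, d3]
    exact pl_alg (wordMat_mul_self _ _) (wordMat_mul_self _ _) (wordMat_comm _ d2).symm
      (wordMat_comm _ fun q hq => d1 q (by simp only [List.map_append, List.mem_append, hq, true_or]))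
      (wordMat_comm _ fun q hq => d1 q (by simp only [List.map_append, List.mem_append, hq, or_true])) H hr0.ne' _
  have sy : ∀ m {w}, w.Sublist (ts.get m).2 → Sy (plP n _ p1) (plP n _ pX) (W w) := fun m _ h => pl_sy (hw m).2.1 h
  have oW : ∀ w, OpLe (W w) 1 := wordMat_opLe _
  have oG : OpLe (∑ m, G m) (β * (5 * r)) := pl_sum (fun m => (((((oW _).add (oW _) one_pos.le one_pos.le).smul
    _).add ((oW _).smul _) (by positivity) (by positivity))).mono (by positivity) (by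
      rw [abs_of_pos (by positivity), abs_neg]
      linarith [hc m])) (by positivity) hM
  have oA : ∀ m, OpLe (A m) (2 * r ^ 2) := fun m => (((oW _).add (oW _) one_pos.le one_pos.le).smul _).mono
    (by positivity) (by rw [abs_of_pos (by positivity)]; linarith)
  have oC : ∀ m, OpLe (C m) (β * r ^ 2) := fun m => ((oW _).smul _).mono (by positivity) (by
    rw [abs_div, abs_mul, abs_of_pos (by positivity : 0 < r ^ 2), abs_two]
    nlinarith [mul_le_mul_of_nonneg_right (hc m) (sq_nonneg r), sq_nonneg r])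
  have key := pl_med.main (H1 := ∑ m, G m) (A := A) (C := C) (Δ := r ^ 3) (v := 8 * β ^ 2 * r ^ 2)
    (e := 20 * β ^ 2 / r) (H := hamMat (n + ts.length) ts) (β := β) (η := 1 / 4)
    (Sy.sum fun m => (((sy m (List.nil_sublist _)).add (sy m (pl_sub _).2.2.2)).smul _).add
      ((sy m (pl_sub _).2.2.1).smul _))
    (fun m => ((sy m (pl_sub _).1).add (sy m (pl_sub _).2.1)).smul _) (fun m => (sy m (pl_sub _).2.2.1).smul _)
    ((oG.add (pl_sum (fun m => ((oA m).mul (.of_orth (by rw [pl_med.sX, pl_med.XX]))).add ((oC m).mul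
      (.loc _ (.of_proj p1_transpose p1_mul_self))) (by positivity) (by positivity)) (by positivity) hM)
      (by positivity) (by positivity)).mono (by positivity) (by
        have h1 : r ≤ r ^ 2 := le_self_pow₀ (by linarith) (by norm_num)
        have h2 : β * r ^ 2 ≤ β ^ 2 * r ^ 2 := by gcongr; exact le_self_pow₀ hβ1 (by norm_num)
        nlinarith))
    (by positivity) n2
    (e2 ▸ ((pl_sum (fun m => ((oA m).mul oG).mul (oA m)) (by positivity) hM).smul _).mono (by positivity)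
      (by rw [abs_of_pos (by positivity)]; exact le_of_eq (by field_simp; norm_num)))
    (by positivity) (by nlinarith [one_le_pow₀ (n := 2) (hβ1.trans n1)]) (by linarith) s (by linarith)
  have hl : ∀ t ∈ ts, ∀ l ∈ t.2, l.1 < n := fun t ht => (h4 t ht).2.2.1
  rw [e1]
  refine ⟨fun ⟨x, hx, h⟩ => ((key.1 ?_).affine two_pos.le).mono (by linarith),
    fun h => ((key.2 fun p hp => ?_).affine two_pos.le).mono (by linarith)⟩
  · have hp : (fun σ : Fin (n + ts.length) → Bool => if ∀ m, σ (Fin.natAdd n m) = false then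
        x fun i => σ (Fin.castAdd _ i) else 0) ∈ plK (plP n _ p1) := fun m => funext fun σ => by
      rw [pl_med.hP]
      split_ifs with e1 e2
      · simp [e2 m] at e1
      all_goals rfl
    refine ⟨_, hp, fun h0 => hx (funext fun σ => by simpa using congrFun h0 (Fin.append σ fun _ => false)), ?_⟩
    rw [pl_form_ext hl hp, pl_dot_ext hp]
    simpa using h
  · rw [pl_form_ext hl hp, pl_dot_ext hp]
    exact h _

theorem red_peel (k : ℕ) (hk : 2 ≤ k) : Red (YesPH (k + 1)) (NoPH (k + 1)) (YesPH k) (NoPH k) := by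
  refine ⟨plMap, plMap_pt, fun x hx => ⟨pl_valid hk hx.1, ?_⟩, fun x hx => ⟨pl_valid hk hx.1, ?_⟩⟩
  · exact ((pl_main hx.1.2.2.1 hx.1.2.2.2.1 _ (by exact_mod_cast hx.1.2.2.2.2.1)).1 hx.2).mono
      (le_of_eq (by simp [plMap]))
  · exact ((pl_main hx.1.2.2.1 hx.1.2.2.2.1 _ (by exact_mod_cast hx.1.2.2.2.2.2.1)).2 hx.2).mono
      (le_of_eq (by simp [plMap]))

end Crest.Agent.R338
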