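import Crest.Agent.R338.Plane_Rho

/-!
# Planar package: derivative bounds, `v`, `ε`, the ground state transform

Helper prefix `pbd_`.  Use `exists_sig_bd` and the calculus of `Bd` (`Bd.mul`, `Bd.sum`, `Bd.fst`, `Bd.snd`, `Bd.dx`, `Bd.lap2`,
`Bd.mono`).  With `X = K (1 + Ssea) / a ≥ 1`: `K ≤ X`, `Ssea ≤ X`, `1 / a ≤ X`, `|Ssea - lv| ≤ Ssea`, `|ep| ≤ ν ≤ 1`.
-/

set_option autoImplicit false
set_option linter.dupNamespace false
set_option linter.unusedVariables false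

noncomputable section

namespace Crest.Agent.R338

open Matrix MeasureTheory Set
open Crest.MathPhysics.ElectronicCoulomb

theorem pbd_sum {n m k : ℕ} {X M : ℝ} {f : ℕ → ℕ → P2 → ℝ} (hn : (n : ℝ) ≤ X) (hm : (m : ℝ) ≤ X)
    (hM : 0 ≤ M) (h : ∀ i < n, ∀ j < m, Bd k M (f i j)) :
    Bd k (X ^ 2 * M) fun p => ∑ i ∈ Finset.range n, ∑ j ∈ Finset.range m, f i j p := by
  refine (Bd.sum _ fun i hi => Bd.sum _ fun j hj =>
    h i (Finset.mem_range.1 hi) j (Finset.mem_range.1 hj)).mono le_rfl ?_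
  simp only [Finset.sum_const, Finset.card_range, nsmul_eq_mul]
  rw [← mul_assoc, sq]
  have : (0 : ℝ) ≤ X := (Nat.cast_nonneg _).trans hn
  gcongr

theorem pbd_core {g : Geo ℝ} {D1 X Q B : ℝ} (h : GeoS g D1) (hep : ∀ i < g.K, ∀ j < g.K, |g.ep i j| ≤ 1)
    (hXK : (g.K : ℝ) ≤ X) (hXS : g.Ssea ≤ X) (hQ1 : 1 ≤ Q) (hQB : 4 * (X ^ 3 * Q) ≤ B)
    (bb : ∀ α β α' β', Bd 8 Q fun p : P2 => bump g.a α β p.1 * bump g.a α' β' p.2)
    (gb : ∀ α β α' β', Bd 8 Q fun p : P2 => gap g.a α β p.1 * bump g.a α' β' p.2)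
    (bg : ∀ α β α' β', Bd 8 Q fun p : P2 => bump g.a α β p.1 * gap g.a α' β' p.2) :
    Bd 8 B g.S ∧ Bd 8 B g.v ∧ Bd 8 B g.ε := by
  have hS := h.sea_nonneg
  have hK : (1 : ℝ) ≤ g.K := by exact_mod_cast h.K_pos
  have hX1 : 1 ≤ X := hK.trans hXK
  have hXK' : ((g.K - 1 : ℕ) : ℝ) ≤ X := le_trans (by exact_mod_cast Nat.sub_le _ _) hXK
  have hcm : ∀ {f : P2 → ℝ} {c : ℝ}, |c| ≤ X → Bd 8 Q f → Bd 8 (X * Q) fun p => c * f p :=
    fun hc hf => (hf.const_mul _).mono le_rfl (mul_le_mul_of_nonneg_right hc (by linarith))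
  have hX3 : X ≤ X ^ 3 := le_self_pow₀ hX1 (by norm_num)
  have hX3Q : X ^ 3 ≤ X ^ 3 * Q := le_mul_of_one_le_right (by positivity) hQ1
  have hQX3 : Q ≤ X ^ 3 * Q := le_mul_of_one_le_left (by linarith) (by linarith)
  have hXQ : 0 ≤ X * Q := by positivity
  have e3 : X ^ 2 * (X * Q) = X ^ 3 * Q := by ring
  refine ⟨?_, ?_, ?_⟩
  · have t1 := (pbd_sum hXK hXK (by linarith) fun i _ j _ =>
      bb (cen g.D i - g.sd i j / 2) (cen g.D i + g.sd i j / 2)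
        (cen g.D j - g.sd i j / 2) (cen g.D j + g.sd i j / 2)).const_mul g.Ssea
    have t2 := pbd_sum hXK' hXK hXQ fun i hi j hj => hcm (c := g.Ssea - g.lvH i j)
      (by
        have := h.lvH i j (by omega) hj
        rw [abs_of_nonneg (by linarith)]
        linarith)
      (gb (cen g.D i + g.sd i j / 2) (cen g.D (i + 1) - g.sd (i + 1) j / 2)
        (cen g.D j - 1 / 2) (cen g.D j + 1 / 2))
    have t3 := pbd_sum hXK hXK' hXQ fun i hi j hj => hcm (c := g.Ssea - g.lvV i j)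
      (by
        have := h.lvV i j hi (by omega)
        rw [abs_of_nonneg (by linarith)]
        linarith)
      (bg (cen g.D i - 1 / 2) (cen g.D i + 1 / 2)
        (cen g.D j + g.sd i j / 2) (cen g.D (j + 1) - g.sd i (j + 1) / 2))
    refine ((Bd.const 8 g.Ssea).sub ((t1.add t2).add t3)).mono le_rfl ?_
    rw [abs_of_nonneg hS]
    have e1 : g.Ssea * (X ^ 2 * Q) ≤ X * (X ^ 2 * Q) :=
      mul_le_mul_of_nonneg_right hXS (by positivity)
    have e2 : X * (X ^ 2 * Q) = X ^ 3 * Q := by ring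
    linarith
  · refine ((Bd.const 8 1).sub (bb (3 * g.D / 4) (g.D * g.K + g.D / 4)
      (3 * g.D / 4) (g.D * g.K + g.D / 4))).mono le_rfl ?_
    rw [abs_one]
    linarith
  · refine (pbd_sum hXK hXK hXQ fun i hi j hj => hcm (c := g.ep i j) ((hep i hi j hj).trans hX1)
      (bb (cen g.D i - g.sd i j / 2 - g.a) (cen g.D i + g.sd i j / 2 + g.a)
        (cen g.D j - g.sd i j / 2 - g.a) (cen g.D j + g.sd i j / 2 + g.a))).mono le_rfl ?_
    linarith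

theorem pbd_w {S v ε : P2 → ℝ} {B : ℝ} (hB : 1 ≤ B) (hS : Bd 8 B S) (hv : Bd 6 B v) (hε : Bd 6 B ε) :
    Bd 6 (67 * (B * B)) (wOf S v ε) := by
  have hw : wOf S v ε = fun p => 1 / 2 * (dx S p * dx S p + dy S p * dy S p - lap2 S p) + v p + ε p := by
    funext p
    simp only [wOf, sq]
  have d1 : Bd 6 B (dx S) := (hS.mono (k' := 6 + 1) (by norm_num) le_rfl).dx
  have d2 : Bd 6 B (dy S) := (hS.mono (k' := 6 + 1) (by norm_num) le_rfl).dy
  have d3 : Bd 6 (2 * B) (lap2 S) := Bd.lap2 (k := 6) hS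
  rw [hw]
  refine ((((((d1.mul d1).add (d2.mul d2)).sub d3).const_mul (1 / 2)).add hv).add hε).mono le_rfl ?_
  have e' : B ≤ B * B := le_mul_of_one_le_right (by linarith) hB
  rw [abs_of_pos (by norm_num)]
  linarith

theorem pbd_loc {O : Set P2} (hO : IsOpen O) {f : P2 → ℝ} {c : ℝ} (h : ∀ z ∈ O, f z = c) {z : P2}
    (hz : z ∈ O) : fderiv ℝ f z = 0 := by
  have : f =ᶠ[nhds z] fun _ => c := Filter.eventually_of_mem (hO.mem_nhds hz) h
  rw [this.fderiv_eq]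
  simp

theorem exists_bd_S : ∃ C : ℝ, 1 ≤ C ∧ ∀ (g : Geo ℝ) (D1 : ℝ), GeoS g D1 →
    (∀ i < g.K, ∀ j < g.K, |g.ep i j| ≤ 1) →
    Bd 8 (C * (g.K * (1 + g.Ssea) / g.a) ^ 40) g.S ∧ Bd 6 (C * (g.K * (1 + g.Ssea) / g.a) ^ 40) g.v ∧
      Bd 6 (C * (g.K * (1 + g.Ssea) / g.a) ^ 40) g.ε ∧
      Bd 6 (C * (g.K * (1 + g.Ssea) / g.a) ^ 80) (wOf g.S g.v g.ε) := by
  obtain ⟨C, hC, -, hb⟩ := exists_sig_bd
  refine ⟨67 * (1024 * C ^ 2) ^ 2, ?_, fun g D1 h hep => ?_⟩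
  · have : 1 ≤ 1024 * C ^ 2 := by nlinarith
    nlinarith
  have ha := h.a_pos
  have ha1 : g.a ≤ 1 := h.a_le.trans (by norm_num)
  have hS := h.sea_nonneg
  have hK : (1 : ℝ) ≤ g.K := by exact_mod_cast h.K_pos
  obtain ⟨X, hX⟩ : ∃ X, X = g.K * (1 + g.Ssea) / g.a := ⟨_, rfl⟩
  rw [← hX]
  have hX0 : g.K * (1 + g.Ssea) ≤ X := by
    rw [hX, le_div_iff₀ ha]
    exact mul_le_of_le_one_right (by positivity) ha1
  have hXK : (g.K : ℝ) ≤ X := le_trans (by nlinarith) hX0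
  have hXS : g.Ssea ≤ X := le_trans (by nlinarith) hX0
  have hX1 : 1 ≤ X := hK.trans hXK
  have hXa : 1 / g.a ≤ X := by
    rw [hX]
    exact div_le_div_of_nonneg_right (by nlinarith) ha.le
  have hM : C / g.a ^ (2 * 8) ≤ C * X ^ 16 := by
    rw [div_eq_mul_one_div, ← _root_.one_div_pow]
    gcongr
  have b1 : ∀ α β, Bd 8 (C * X ^ 16) (bump g.a α β) := fun α β =>
    (hb g.a α β ha ha1 8 (by norm_num)).2.2.1.mono le_rfl hM
  have b2 : ∀ β α, Bd 8 (C * X ^ 16) (gap g.a β α) := fun β α =>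
    (hb g.a α β ha ha1 8 (by norm_num)).2.2.2.mono le_rfl hM
  have hprod : ∀ {f f' : ℝ → ℝ}, Bd 8 (C * X ^ 16) f → Bd 8 (C * X ^ 16) f' →
      Bd 8 (256 * C ^ 2 * X ^ 32) fun p : P2 => f p.1 * f' p.2 := fun hf hf' =>
    (hf.fst.mul hf'.snd).mono le_rfl (le_of_eq (by ring))
  have hC2 : 1 ≤ 1024 * C ^ 2 := by nlinarith
  have hQ1 : 1 ≤ 256 * C ^ 2 * X ^ 32 :=
    one_le_mul_of_one_le_of_one_le (by nlinarith) (one_le_pow₀ hX1)
  have hQB : 4 * (X ^ 3 * (256 * C ^ 2 * X ^ 32)) ≤ 1024 * C ^ 2 * X ^ 40 := by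
    have : X ^ 35 ≤ X ^ 40 := pow_le_pow_right₀ hX1 (by norm_num)
    calc 4 * (X ^ 3 * (256 * C ^ 2 * X ^ 32)) = 1024 * C ^ 2 * X ^ 35 := by ring
      _ ≤ _ := by gcongr
  obtain ⟨h1, h2, h3⟩ := pbd_core h hep hXK hXS hQ1 hQB (fun _ _ _ _ => hprod (b1 _ _) (b1 _ _))
    (fun _ _ _ _ => hprod (b2 _ _) (b1 _ _)) (fun _ _ _ _ => hprod (b1 _ _) (b2 _ _))
  have hBC : 1024 * C ^ 2 * X ^ 40 ≤ 67 * (1024 * C ^ 2) ^ 2 * X ^ 40 := by
    refine mul_le_mul_of_nonneg_right ?_ (by positivity)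
    generalize 1024 * C ^ 2 = T at hC2 ⊢
    nlinarith
  refine ⟨h1.mono le_rfl hBC, h2.mono (by norm_num) hBC, h3.mono (by norm_num) hBC, ?_⟩
  exact (pbd_w (one_le_mul_of_one_le_of_one_le hC2 (one_le_pow₀ hX1)) h1
    (h2.mono (by norm_num) le_rfl) (h3.mono (by norm_num) le_rfl)).mono le_rfl (le_of_eq (by ring))

theorem Geo.v_mem (g : Geo ℝ) (y : P2) : 0 ≤ g.v y ∧ g.v y ≤ 1 := by
  have h1 := bump_mem g.a (3 * g.D / 4) (g.D * g.K + g.D / 4) y.1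
  have h2 := bump_mem g.a (3 * g.D / 4) (g.D * g.K + g.D / 4) y.2
  have h3 := mul_nonneg h1.1 h2.1
  have h4 := mul_le_one₀ h1.2 h2.1 h2.2
  unfold Geo.v
  constructor <;> linarith

theorem GeoS.v_in {g : Geo ℝ} {D1 : ℝ} (h : GeoS g D1) {y : P2} (hy : y ∈ inner4 g.K g.D) : g.v y = 0 := by
  unfold Geo.v
  rw [bump_eq_one h.a_pos hy.1.1 hy.1.2, bump_eq_one h.a_pos hy.2.1 hy.2.2]
  ring

theorem GeoS.v_out {g : Geo ℝ} {D1 : ℝ} (h : GeoS g D1) {y : P2} (hy : y ∉ allc g.K g.D) : g.v y = 1 := by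
  have h1 := h.D1_ge
  have h2 := h.D1_le
  have h3 := h.a_le
  have key : ∀ x, x ∉ Ico (g.D / 2) (g.D * g.K + g.D / 2) →
      bump g.a (3 * g.D / 4) (g.D * g.K + g.D / 4) x = 0 := by
    intro x hx
    refine bump_eq_zero h.a_pos ?_
    rcases not_and_or.1 hx with c | c
    · left; linarith [not_le.1 c]
    · right; linarith [not_lt.1 c]
  unfold Geo.v
  rcases not_and_or.1 hy with c | c <;> rw [key _ c] <;> simp

theorem Geo.continuous_v (g : Geo ℝ) : Continuous g.v := by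
  unfold Geo.v
  exact continuous_const.sub (((prho_cd_bump _ _ _).continuous.comp continuous_fst).mul
    ((prho_cd_bump _ _ _).continuous.comp continuous_snd))

theorem GeoS.chi {g : Geo ℝ} {D1 : ℝ} (h : GeoS g D1) : Chi g.K g.D g.a g.sd g.chi := by
  have ha := h.a_pos
  refine ⟨fun i j => ?_, fun i j y => ?_, fun i hi j hj y hy => ?_, fun i hi j hj y hy => ?_⟩
  · unfold Geo.chi
    exact ((prho_cd_bump _ _ _).continuous.comp continuous_fst).mul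
      ((prho_cd_bump _ _ _).continuous.comp continuous_snd)
  · unfold Geo.chi
    exact ⟨mul_nonneg (bump_mem _ _ _ _).1 (bump_mem _ _ _ _).1,
      mul_le_one₀ (bump_mem _ _ _ _).2 (bump_mem _ _ _ _).1 (bump_mem _ _ _ _).2⟩
  · rw [mem_sqr] at hy
    unfold Geo.chi
    rw [bump_eq_one ha (by linarith [hy.1.1]) (by linarith [hy.1.2]),
      bump_eq_one ha (by linarith [hy.2.1]) (by linarith [hy.2.2]), mul_one]
  · have key : ∀ c x : ℝ, ¬ (c - (g.sd i j / 2 + 2 * g.a) ≤ x ∧ x ≤ c + (g.sd i j / 2 + 2 * g.a)) →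
        bump g.a (c - g.sd i j / 2 - g.a) (c + g.sd i j / 2 + g.a) x = 0 := by
      intro c x hx
      refine bump_eq_zero ha ?_
      rcases not_and_or.1 hx with c | c
      · left; linarith [not_le.1 c]
      · right; linarith [not_le.1 c]
    rw [mem_sqr] at hy
    unfold Geo.chi
    rcases not_and_or.1 hy with c | c <;> rw [key _ _ c] <;> simp

theorem Geo.ε_eq (g : Geo ℝ) (y : P2) : g.ε y = sum2 g.K fun i j => g.ep i j * g.chi i j y := rfl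

theorem pbd_chi_zero {g : Geo ℝ} {D1 : ℝ} (h : GeoS g D1) {i j : ℕ} (hi : i < g.K) (hj : j < g.K) {y : P2}
    (hy : y ∉ cell g.D i j) : g.chi i j y = 0 :=
  h.chi.zero i hi j hj y fun hc => hy (sqr_subset_cell
    (by linarith [h.s_le i hi j hj, h.D1_ge, h.D1_le, h.a_le]) i j hc)

theorem pbd_sum_zero {g : Geo ℝ} {D1 : ℝ} (h : GeoS g D1) {y : P2}
    (hy : ¬ ∃ i < g.K, ∃ j < g.K, y ∈ cell g.D i j) :
    (sum2 g.K fun i j => g.ep i j * g.chi i j y) = 0 := by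
  refine Finset.sum_eq_zero fun i hi => Finset.sum_eq_zero fun j hj => ?_
  have hi' := Finset.mem_range.1 hi
  have hj' := Finset.mem_range.1 hj
  beta_reduce
  rw [pbd_chi_zero h hi' hj' fun hc => hy ⟨i, hi', j, hj', hc⟩, mul_zero]

/-- at most one `chi i j y` is nonzero (`Chi.zero`, `sqr_subset_cell`, `ci_unique`) -/
theorem GeoS.ε_le {g : Geo ℝ} {D1 ν : ℝ} (h : GeoS g D1) (hν : 0 ≤ ν)
    (he : ∀ i < g.K, ∀ j < g.K, |g.ep i j| ≤ ν) (y : P2) : |g.ε y| ≤ ν := by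
  rw [g.ε_eq]
  by_cases hy : ∃ i < g.K, ∃ j < g.K, y ∈ cell g.D i j
  · obtain ⟨i, hi, j, hj, hy⟩ := hy
    simp only [sum2]
    rw [Finset.sum_eq_single_of_mem i (Finset.mem_range.2 hi),
      Finset.sum_eq_single_of_mem j (Finset.mem_range.2 hj)]
    · have := h.chi.mem i j y
      rw [abs_mul, abs_of_nonneg this.1]
      exact (mul_le_of_le_one_right (abs_nonneg _) this.2).trans (he i hi j hj)
    · intro j' hj' hne
      rw [pbd_chi_zero h hi (Finset.mem_range.1 hj') fun hc => hne (ci_unique hc.2 hy.2), mul_zero]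
    · intro i' hi' hne
      refine Finset.sum_eq_zero fun j' hj' => ?_
      rw [pbd_chi_zero h (Finset.mem_range.1 hi') (Finset.mem_range.1 hj')
        fun hc => hne (ci_unique hc.1 hy.1), mul_zero]
  · rw [pbd_sum_zero h hy, abs_zero]
    exact hν

theorem allc_subset_box {K : ℕ} {D : ℝ} (hD : 4 ≤ D) : allc K D ⊆ box2 (D * (K + 1)) := by
  rintro y ⟨⟨h1, h2⟩, h3, h4⟩
  refine ⟨⟨?_, ?_⟩, ?_, ?_⟩ <;> linarith

/-- The complement of the closed box is open and `S = Ssea` on it (`S_out` and its mirror image), so `dx S`, `dy S`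
vanish on this open set, hence also `lap2 S`; `v = 1` and `ε = 0` there. -/
theorem GeoS.w_out {g : Geo ℝ} {D1 : ℝ} (h : GeoS g D1) {y : P2} (hy : y ∉ box2 (g.D * (g.K + 1))) :
    wOf g.S g.v g.ε y = 1 := by
  have hD : 100 ≤ g.D := by linarith [h.D1_ge, h.D1_le]
  have hO : IsOpen (box2 (g.D * (g.K + 1)))ᶜ := (isClosed_Icc.prod isClosed_Icc).isOpen_compl
  have hall : ∀ z ∈ (box2 (g.D * (g.K + 1)))ᶜ, z ∉ allc g.K g.D := fun z hz hc =>
    hz (allc_subset_box (by linarith) hc)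
  have hS : ∀ z ∈ (box2 (g.D * (g.K + 1)))ᶜ, g.S z = g.Ssea := by
    rintro ⟨x, x'⟩ hz
    rcases not_and_or.1 (hall _ hz) with c | c
    · exact prho_out h x' c
    · rw [← g.swap_S]
      exact prho_out h.swap x c
  have h1 : ∀ z ∈ (box2 (g.D * (g.K + 1)))ᶜ, dx g.S z = 0 := fun z hz => by
    unfold dx
    rw [pbd_loc hO hS hz]
    rfl
  have h2 : ∀ z ∈ (box2 (g.D * (g.K + 1)))ᶜ, dy g.S z = 0 := fun z hz => by
    unfold dy
    rw [pbd_loc hO hS hz]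
    rfl
  have h3 : dx (dx g.S) y = 0 := by
    rw [dx, pbd_loc hO h1 hy]
    rfl
  have h4 : dy (dy g.S) y = 0 := by
    rw [dy, pbd_loc hO h2 hy]
    rfl
  have h5 : g.ε y = 0 := by
    rw [g.ε_eq]
    exact pbd_sum_zero h fun hc => hall y hy ((mem_allc (by linarith)).2 hc)
  unfold wOf lap2
  rw [h1 y hy, h2 y hy, h3, h4, h5, h.v_out (hall y hy)]
  ring

theorem Geo.sqrt_ρ (g : Geo ℝ) (y : P2) : √(g.ρ y) = Real.exp (-g.S y) := by
  unfold Geo.ρ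
  rw [show -2 * g.S y = -g.S y + -g.S y by ring, Real.exp_add, Real.sqrt_mul_self (Real.exp_pos _).le]

/-- `∇ψ + ψ ∇S = exp (-S) ∇f` for `ψ = exp (-S) f` -/
theorem Geo.X2_eq (g : Geo ℝ) {f : P2 → ℝ} (hf : ContDiff ℝ 1 f) :
    X2 g.S g.v (fun y => √(g.ρ y) * f y) =
      1 / 2 * (∫ y, g.ρ y * (dx f y ^ 2 + dy f y ^ 2)) + ∫ y, g.v y * (g.ρ y * f y ^ 2) := by
  have hρ : ∀ y, g.ρ y = Real.exp (-g.S y) ^ 2 := fun y => by
    rw [← g.sqrt_ρ]
    exact (Real.sq_sqrt (Real.exp_pos _).le).symm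
  have hd : ∀ p e : P2, fderiv ℝ (fun y => Real.exp (-g.S y) * f y) p e +
      Real.exp (-g.S p) * f p * fderiv ℝ g.S p e = Real.exp (-g.S p) * fderiv ℝ f p e := by
    intro p e
    have h1 := (g.contDiff_S.differentiable (by norm_num) p).hasFDerivAt
    have h2 := (hf.differentiable (by norm_num) p).hasFDerivAt
    have h3 : HasFDerivAt (fun y => Real.exp (-g.S y) * f y) _ p := h1.neg.exp.mul h2
    rw [h3.fderiv]
    simp
    ring
  unfold X2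
  simp only [g.sqrt_ρ]
  simp only [dx, dy, hd, hρ]
  congr 1
  · congr 2
    funext p
    ring
  · congr 1
    funext p
    ring

/-- `f = exp S * ψ` -/
theorem Geo.exists_f (g : Geo ℝ) {ψ : P2 → ℝ} (hψ : Cc1 ψ) :
    ∃ f, Cc1 f ∧ ψ = fun y => √(g.ρ y) * f y := by
  refine ⟨fun y => Real.exp (g.S y) * ψ y,
    ⟨(g.contDiff_S.of_le (by norm_num)).exp.mul hψ.1, hψ.2.mul_left⟩, ?_⟩
  funext y
  rw [g.sqrt_ρ, ← mul_assoc, ← Real.exp_add]
  simp

end Crest.Agent.R338
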