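import Crest.Agent.R338.Plane_Defs

/-!
# Planar package: the cell lemma

Helper prefix `pcell_`.
-/

set_option autoImplicit false
set_option linter.dupNamespace false
set_option linter.unusedVariables false

noncomputable section

namespace Crest.Agent.R338

open Matrix MeasureTheory Set
open Crest.MathPhysics.ElectronicCoulomb

variable {K : ℕ} {D D1 a η ν δ sea : ℝ} {s dH dV : ℕ → ℕ → ℝ} {ρ f : P2 → ℝ}

theorem pcell_cs {α : Type} [MeasurableSpace α] (μ : Measure α) [IsFiniteMeasure μ] {h : α → ℝ}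
    (h1 : Integrable h μ) (h2 : Integrable (fun x => h x ^ 2) μ) :
    (∫ x, h x ∂μ) ^ 2 ≤ μ.real univ * ∫ x, h x ^ 2 ∂μ := by
  have key : ∀ m : ℝ, 0 ≤ μ.real univ * (m * m) + -2 * (∫ x, h x ∂μ) * m + ∫ x, h x ^ 2 ∂μ := by
    intro m
    have h0 : 0 ≤ ∫ x, (m * m + (-2 * m * h x + h x ^ 2)) ∂μ :=
      integral_nonneg fun x => by have := sq_nonneg (h x - m); simp only [Pi.zero_apply]; nlinarith
    have h3 : Integrable (fun x => -2 * m * h x + h x ^ 2) μ := (h1.const_mul _).add h2
    rw [integral_add (integrable_const _) h3, integral_add (h1.const_mul _) h2,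
      integral_const, integral_const_mul, smul_eq_mul] at h0
    linarith
  have hd := discrim_le_zero key
  unfold discrim at hd
  nlinarith

theorem pcell_ftc {u u' w : ℝ → ℝ} (hu : ∀ t, HasDerivAt u (u' t) t) (hu' : Continuous u')
    (hw : Continuous w) (hw0 : ∀ t, 0 ≤ w t) {l L x x' r : ℝ} (hx : x ∈ Icc l (l + L)) (hx' : x' ∈ Icc l (l + L))
    (hle : x ≤ x') (hr : ∀ t ∈ Icc x x', r ≤ w t) :
    r * (u x' - u x) ^ 2 ≤ L * ∫ t in l..(l + L), w t * u' t ^ 2 := by
  have hL : 0 ≤ L := by linarith [hx.1, hx.2]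
  have hc : Continuous fun t => w t * u' t ^ 2 := hw.mul (hu'.pow 2)
  have hn : ∀ t, 0 ≤ w t * u' t ^ 2 := fun t => mul_nonneg (hw0 t) (sq_nonneg _)
  have h0 : 0 ≤ ∫ t in x..x', w t * u' t ^ 2 := intervalIntegral.integral_nonneg hle fun t _ => hn t
  have h1 : ∫ t in x..x', w t * u' t ^ 2 ≤ ∫ t in l..(l + L), w t * u' t ^ 2 :=
    intervalIntegral.integral_mono_interval hx.1 hle hx'.2 (Filter.Eventually.of_forall hn)
      (hc.intervalIntegrable _ _)
  by_cases hr0 : 0 ≤ r
  · have h2 := pcell_cs (volume.restrict (Ioc x x')) (h := u') (hu'.integrableOn_Ioc)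
      ((hu'.pow 2).integrableOn_Ioc)
    rw [← intervalIntegral.integral_of_le hle, ← intervalIntegral.integral_of_le hle,
      intervalIntegral.integral_eq_sub_of_hasDerivAt (fun t _ => hu t) (hu'.intervalIntegrable _ _),
      measureReal_restrict_apply_univ, Real.volume_real_Ioc_of_le hle] at h2
    have h3 : r * ∫ t in x..x', u' t ^ 2 ≤ ∫ t in x..x', w t * u' t ^ 2 := by
      rw [← intervalIntegral.integral_const_mul]
      exact intervalIntegral.integral_mono_on hle ((continuous_const.mul (hu'.pow 2)).intervalIntegrable _ _)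
        (hc.intervalIntegrable _ _) fun t ht => mul_le_mul_of_nonneg_right (hr t ht) (sq_nonneg _)
    calc r * (u x' - u x) ^ 2 ≤ r * ((x' - x) * ∫ t in x..x', u' t ^ 2) := by gcongr
      _ = (x' - x) * (r * ∫ t in x..x', u' t ^ 2) := by ring
      _ ≤ (x' - x) * ∫ t in x..x', w t * u' t ^ 2 := by gcongr
      _ ≤ _ := mul_le_mul (by linarith [hx.1, hx'.2]) h1 h0 hL
  · exact (mul_nonpos_of_nonpos_of_nonneg (not_le.1 hr0).le (sq_nonneg _)).trans (mul_nonneg hL (h0.trans h1))

/-- Weighted one-dimensional inequality: FTC and Cauchy-Schwarz, `(u x - u x')² ≤ |x - x'| ∫_{[x,x']} u'²`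
(e.g. from `0 ≤ ∫ (u' - m)²` with `m` the mean), then `r ≤ w` on the segment, which lies in `[l, l + L]`. -/
theorem weighted_ftc {u u' w : ℝ → ℝ} (hu : ∀ t, HasDerivAt u (u' t) t) (hu' : Continuous u')
    (hw : Continuous w) (hw0 : ∀ t, 0 ≤ w t) {l L x x' r : ℝ} (hx : x ∈ Icc l (l + L)) (hx' : x' ∈ Icc l (l + L))
    (hr : ∀ t ∈ uIcc x x', r ≤ w t) : r * (u x - u x') ^ 2 ≤ L * ∫ t in l..(l + L), w t * u' t ^ 2 := by
  rcases le_total x x' with c | c
  · rw [uIcc_of_le c] at hr
    rw [← neg_sub, neg_sq]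
    exact pcell_ftc hu hu' hw hw0 hx hx' c hr
  · rw [uIcc_of_ge c] at hr
    exact pcell_ftc hu hu' hw hw0 hx' hx c hr

theorem pcell_vol (D : ℝ) (i j : ℕ) : (volume : Measure P2).real (sqr D i j (1 / 2)) = 1 := by
  rw [volume_real_sqr D i j (by norm_num)]; norm_num

instance pcell_fin (D : ℝ) (i j : ℕ) (r : ℝ) : IsFiniteMeasure ((volume : Measure P2).restrict (sqr D i j r)) :=
  isFiniteMeasure_restrict.2 (isCompact_sqr D i j r).measure_lt_top.ne

instance pcell_fin' (D : ℝ) (i j : ℕ) : IsFiniteMeasure ((volume : Measure P2).restrict (cell D i j)) :=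
  isFiniteMeasure_restrict.2
    ((measure_mono (cell_subset_sqr D i j)).trans_lt (isCompact_sqr D i j _).measure_lt_top).ne

theorem pcell_fub1 {F : P2 → ℝ} {A B : Set ℝ} (hF : IntegrableOn F (A ×ˢ B)) :
    ∫ z in A ×ˢ B, F z = ∫ x in A, ∫ y in B, F (x, y) := by
  rw [Measure.volume_eq_prod] at hF ⊢
  exact setIntegral_prod F hF

theorem pcell_fub2 {F : P2 → ℝ} {A B : Set ℝ} (hF : IntegrableOn F (A ×ˢ B)) :
    ∫ z in A ×ˢ B, F z = ∫ y in B, ∫ x in A, F (x, y) := by
  unfold IntegrableOn at hF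
  rw [Measure.volume_eq_prod, ← Measure.prod_restrict] at hF ⊢
  exact integral_prod_symm F hF

theorem pcell_ci {D : ℝ} (hD : 0 ≤ D) (i : ℕ) (h : ℝ → ℝ) :
    ∫ t in (cen D i - D / 2)..(cen D i - D / 2 + D), h t = ∫ t in ci D i, h t := by
  unfold ci
  rw [intervalIntegral.integral_of_le (by linarith), integral_Ioc_eq_integral_Ioo, integral_Ico_eq_integral_Ioo]
  congr 3
  ring

theorem pcell_ci_vol {D : ℝ} (hD : 0 ≤ D) (i : ℕ) : (volume : Measure ℝ).real (ci D i) = D := by
  unfold ci
  rw [Real.volume_real_Ico_of_le (by linarith)]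
  ring

/-- Jensen on the unit square -/
theorem sq_sub_avg_le (hf : Continuous f) (D : ℝ) (i j : ℕ) (c : ℝ) :
    (c - avg D f i j) ^ 2 ≤ ∫ z in sqr D i j (1 / 2), (c - f z) ^ 2 := by
  have hc : Continuous fun z => c - f z := continuous_const.sub hf
  have h := pcell_cs (volume.restrict (sqr D i j (1 / 2))) (integrableOn_sqr hc D i j _)
    (integrableOn_sqr (hc.pow 2) D i j _)
  rw [measureReal_restrict_apply_univ, pcell_vol, one_mul,
    integral_sub (integrable_const _) (integrableOn_sqr hf D i j _), setIntegral_const, pcell_vol, one_smul] at h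
  exact h

/-- For `(x,y)` in the cell and `(x',y')` in the unit square go `(x,y) → (x,y') → (x',y')`; by `uniV`, `uniH` the weight
increases along the path: `ρ(x,y) (f(x,y) - f(x',y'))² ≤ 2 D A(x) + 2 D B(y')`, `A(x) = ∫ ρ(x,t) (dy f (x,t))² dt`,
`B(y') = ∫ ρ(t,y') (dx f (t,y'))² dt` (`t` over the cell intervals; `weighted_ftc`, `hasDerivAt_dx`).  Average over
`(x',y')` (`sq_sub_avg_le`; `∫_{y'} B ≤ ∫_cell ρ (dx f)²`), then integrate over the cell (`setIntegral_prod`):
`≤ 2 D² ∫ ρ (dy f)² + 2 D³ ∫ ρ (dx f)²`. -/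
theorem cell_lemma (hD : 100 ≤ D) (hR : Rho K D D1 a δ sea s dH dV ρ) (hf : ContDiff ℝ 1 f) {i j : ℕ}
    (hi : i < K) (hj : j < K) :
    ∫ y in cell D i j, ρ y * (f y - avg D f i j) ^ 2 ≤ 2 * D ^ 3 * enC D ρ f i j := by
  have hD0 : 0 ≤ D := by linarith
  have hfd : Differentiable ℝ f := hf.differentiable (by norm_num)
  have hfc := hf.continuous
  have cX : Continuous fun z => ρ z * dx f z ^ 2 := hR.cont.mul ((continuous_dx hf).pow 2)
  have cY : Continuous fun z => ρ z * dy f z ^ 2 := hR.cont.mul ((continuous_dy hf).pow 2)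
  set A : ℝ → ℝ := fun x => ∫ t in (cen D j - D / 2)..(cen D j - D / 2 + D), ρ (x, t) * dy f (x, t) ^ 2 with hA
  set B : ℝ → ℝ := fun y => ∫ t in (cen D i - D / 2)..(cen D i - D / 2 + D), ρ (t, y) * dx f (t, y) ^ 2 with hB
  have cA : Continuous A :=
    intervalIntegral.continuous_parametric_intervalIntegral_of_continuous' (f := fun x t => ρ (x, t) * dy f (x, t) ^ 2)
      cY _ _
  have cB : Continuous B :=
    intervalIntegral.continuous_parametric_intervalIntegral_of_continuous' (f := fun y t => ρ (t, y) * dx f (t, y) ^ 2)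
      (cX.comp continuous_swap) _ _
  have cA1 : Continuous fun z : P2 => A z.1 := cA.comp continuous_fst
  have cB2 : Continuous fun z : P2 => B z.2 := cB.comp continuous_snd
  have cA1' : Continuous fun z : P2 => 2 * D * A z.1 := continuous_const.mul cA1
  have cB2' : Continuous fun z : P2 => 2 * D * B z.2 := continuous_const.mul cB2
  have hB0 : ∀ y, 0 ≤ B y := fun y =>
    intervalIntegral.integral_nonneg (by linarith) fun t _ => mul_nonneg (hR.nonneg _) (sq_nonneg _)
  have pw : ∀ x y, (x, y) ∈ cell D i j → ∀ z ∈ sqr D i j (1 / 2),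
      ρ (x, y) * (f (x, y) - f z) ^ 2 ≤ 2 * D * A x + 2 * D * B z.2 := by
    rintro x y hxy ⟨x', y'⟩ hz
    have hx1 : cen D i - D / 2 ≤ x := hxy.1.1
    have hx2 : x < cen D i + D / 2 := hxy.1.2
    have hy1 : cen D j - D / 2 ≤ y := hxy.2.1
    have hy2 : y < cen D j + D / 2 := hxy.2.2
    have hz1 : cen D i - 1 / 2 ≤ x' := hz.1.1
    have hz2 : x' ≤ cen D i + 1 / 2 := hz.1.2
    have hz3 : cen D j - 1 / 2 ≤ y' := hz.2.1
    have hz4 : y' ≤ cen D j + 1 / 2 := hz.2.2
    have hv : ∀ t ∈ uIcc y y', ρ (x, y) ≤ ρ (x, t) := fun t ht =>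
      hR.uniV i hi j hj x y t hxy ((min_le_min le_rfl hz3).trans ht.1) (ht.2.trans (max_le_max le_rfl hz4))
    have hxy' : (x, y') ∈ cell D i j := ⟨hxy.1, by change _ ≤ y'; linarith, by change y' < _; linarith⟩
    have hh : ∀ t ∈ uIcc x x', ρ (x, y) ≤ ρ (t, y') := fun t ht => (hv y' right_mem_uIcc).trans
      (hR.uniH i hi j hj x y' t hxy' ((min_le_min le_rfl hz1).trans ht.1) (ht.2.trans (max_le_max le_rfl hz2)))
    have a1 := weighted_ftc (u := fun t => f (x, t)) (w := fun t => ρ (x, t)) (hasDerivAt_dy hfd x)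
      ((continuous_dy hf).comp (Continuous.prodMk_right x)) (hR.cont.comp (Continuous.prodMk_right x))
      (fun t => hR.nonneg _) (l := cen D j - D / 2) (L := D) (x := y) (x' := y') ⟨hy1, by linarith⟩
      ⟨by linarith, by linarith⟩ hv
    have a2 := weighted_ftc (u := fun t => f (t, y')) (w := fun t => ρ (t, y')) (fun t => hasDerivAt_dx hfd t y')
      ((continuous_dx hf).comp (Continuous.prodMk_left y')) (hR.cont.comp (Continuous.prodMk_left y'))
      (fun t => hR.nonneg _) (l := cen D i - D / 2) (L := D) (x := x) (x' := x') ⟨hx1, by linarith⟩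
      ⟨by linarith, by linarith⟩ hh
    have a3 : (f (x, y) - f (x', y')) ^ 2 ≤ 2 * (f (x, y) - f (x, y')) ^ 2 + 2 * (f (x, y') - f (x', y')) ^ 2 := by
      nlinarith [sq_nonneg (f (x, y) - f (x, y') - (f (x, y') - f (x', y')))]
    have a4 := mul_le_mul_of_nonneg_left a3 (hR.nonneg (x, y))
    change ρ (x, y) * (f (x, y) - f (x, y')) ^ 2 ≤ D * A x at a1
    change ρ (x, y) * (f (x, y') - f (x', y')) ^ 2 ≤ D * B y' at a2
    change _ ≤ 2 * D * A x + 2 * D * B y'
    linarith
  set EX := ∫ z in cell D i j, ρ z * dx f z ^ 2 with hEX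
  set EY := ∫ z in cell D i j, ρ z * dy f z ^ 2 with hEY
  have hEX0 : 0 ≤ EX := integral_nonneg fun z => mul_nonneg (hR.nonneg _) (sq_nonneg _)
  have hEY0 : 0 ≤ EY := integral_nonneg fun z => mul_nonneg (hR.nonneg _) (sq_nonneg _)
  have hBint : ∫ z in sqr D i j (1 / 2), B z.2 ≤ EX := by
    have e1 : ∫ z in sqr D i j (1 / 2), B z.2 = ∫ y in Icc (cen D j - 1 / 2) (cen D j + 1 / 2), B y := by
      unfold sqr
      rw [pcell_fub1 (integrableOn_sqr cB2 D i j _)]
      dsimp only
      rw [setIntegral_const, Real.volume_real_Icc_of_le (by linarith)]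
      simp only [smul_eq_mul]
      ring
    have e2 : EX = ∫ y in ci D j, B y := by
      rw [hEX]
      unfold cell
      rw [pcell_fub2 (integrableOn_cell cX D i j)]
      simp only [hB, pcell_ci hD0]
    rw [e1, e2]
    refine setIntegral_mono_set (cB.integrableOn_Icc.mono_set Ico_subset_Icc_self)
      (Filter.Eventually.of_forall hB0) (LE.le.eventuallyLE fun y hy => ?_)
    exact ⟨by linarith [hy.1], by linarith [hy.2]⟩
  have pw2 : ∀ z ∈ cell D i j, ρ z * (f z - avg D f i j) ^ 2 ≤ 2 * D * A z.1 + 2 * D * EX := by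
    rintro ⟨x, y⟩ hxy
    have cq : Continuous fun z => (f (x, y) - f z) ^ 2 := (continuous_const.sub hfc).pow 2
    calc ρ (x, y) * (f (x, y) - avg D f i j) ^ 2
        ≤ ρ (x, y) * ∫ z in sqr D i j (1 / 2), (f (x, y) - f z) ^ 2 :=
          mul_le_mul_of_nonneg_left (sq_sub_avg_le hfc D i j _) (hR.nonneg _)
      _ = ∫ z in sqr D i j (1 / 2), ρ (x, y) * (f (x, y) - f z) ^ 2 := (integral_const_mul _ _).symm
      _ ≤ ∫ z in sqr D i j (1 / 2), (2 * D * A x + 2 * D * B z.2) :=
          setIntegral_mono_on (integrableOn_sqr (continuous_const.mul cq) D i j _)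
            (integrableOn_sqr (continuous_const.add cB2') D i j _)
            (measurableSet_sqr _ _ _ _) (pw x y hxy)
      _ = 2 * D * A x + 2 * D * ∫ z in sqr D i j (1 / 2), B z.2 := by
          rw [integral_add (integrable_const _)
            (integrableOn_sqr cB2' D i j _),
            setIntegral_const, pcell_vol, one_smul, integral_const_mul]
      _ ≤ _ := by gcongr
  have hAint : ∫ z in cell D i j, A z.1 = D * EY := by
    rw [hEY]
    unfold cell
    rw [pcell_fub2 (integrableOn_cell cA1 D i j)]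
    dsimp only
    rw [setIntegral_const, pcell_ci_vol hD0, pcell_fub1 (integrableOn_cell cY D i j)]
    simp only [hA, pcell_ci hD0, smul_eq_mul]
  have hen : enC D ρ f i j = EX + EY := by
    unfold enC
    rw [hEX, hEY, ← integral_add (integrableOn_cell cX D i j) (integrableOn_cell cY D i j)]
    simp only [mul_add]
  calc ∫ y in cell D i j, ρ y * (f y - avg D f i j) ^ 2
      ≤ ∫ z in cell D i j, (2 * D * A z.1 + 2 * D * EX) :=
        setIntegral_mono_on (integrableOn_cell (hR.cont.mul ((hfc.sub continuous_const).pow 2)) D i j)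
          (integrableOn_cell (cA1'.add continuous_const) D i j)
          (measurableSet_cell _ _ _) pw2
    _ = 2 * D * (D * EY) + D ^ 2 * (2 * D * EX) := by
        rw [integral_add (integrableOn_cell cA1' D i j)
          (integrable_const _), setIntegral_const, volume_real_cell hD0, integral_const_mul, hAint, smul_eq_mul]
    _ ≤ 2 * D ^ 3 * enC D ρ f i j := by
        rw [hen]
        have : D ^ 2 * EY ≤ D ^ 3 * EY := by
          gcongr
          · linarith
          · norm_num
        nlinarith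

end Crest.Agent.R338
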