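import Crest.Agent.R338.Sig
import Crest.Agent.R338.Op

/-!
# The planar package: definitions (sub-lead helper78; do not edit)

Everything after the ground state transform is stated for an abstract weight `ρ` (`= exp (-2 S)`) satisfying `Rho`;
a state is `ψ = √ρ * f`.  `Rho.swap`, `Num.swap` exchange the two coordinates.
-/

set_option autoImplicit false
set_option linter.dupNamespace false
set_option linter.unusedVariables false

noncomputable section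

namespace Crest.Agent.R338

open Matrix MeasureTheory Set
open Crest.MathPhysics.ElectronicCoulomb

/-- the half-open interval of the cell number `i` -/
def ci (D : ℝ) (i : ℕ) : Set ℝ := Ico (cen D i - D / 2) (cen D i + D / 2)
-- (the real name is `Pl.cell`: `Pot_Defs` also has a `cell`)
def Pl.cell (D : ℝ) (i j : ℕ) : Set P2 := ci D i ×ˢ ci D j
export Pl (cell)
/-- the closed square of half side `r` at the centre of the cell -/
def sqr (D : ℝ) (i j : ℕ) (r : ℝ) : Set P2 :=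
  Icc (cen D i - r) (cen D i + r) ×ˢ Icc (cen D j - r) (cen D j + r)
/-- the union of the cells -/
def allc (K : ℕ) (D : ℝ) : Set P2 := Ico (D / 2) (D * K + D / 2) ×ˢ Ico (D / 2) (D * K + D / 2)
/-- the region where `v = 0` -/
def inner4 (K : ℕ) (D : ℝ) : Set P2 :=
  Icc (3 * D / 4) (D * K + D / 4) ×ˢ Icc (3 * D / 4) (D * K + D / 4)
def mass (D : ℝ) (ρ : P2 → ℝ) (i j : ℕ) : ℝ := ∫ y in cell D i j, ρ y
/-- average over the unit square at the centre -/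
def avg (D : ℝ) (f : P2 → ℝ) (i j : ℕ) : ℝ := ∫ y in sqr D i j (1 / 2), f y
/-- energy of a cell -/
def enC (D : ℝ) (ρ f : P2 → ℝ) (i j : ℕ) : ℝ := ∫ y in cell D i j, ρ y * (dx f y ^ 2 + dy f y ^ 2)
def eF (D : ℝ) (ρ : P2 → ℝ) (i j : ℕ) : P2 → ℝ :=
  (cell D i j).indicator fun y => √(ρ y) / √(mass D ρ i j)
/-- the coefficient of `√ρ * f` along `eF` -/
def alp (D : ℝ) (ρ f : P2 → ℝ) (i j : ℕ) : ℝ := ∫ y, eF D ρ i j y * (√(ρ y) * f y)

/-- extension by zero of a vector on the grid -/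
def ext {K : ℕ} (α : Fin K × Fin K → ℝ) (i j : ℕ) : ℝ :=
  if h : i < K ∧ j < K then α (⟨i, h.1⟩, ⟨j, h.2⟩) else 0

/-- double sum over the grid -/
def sum2 (K : ℕ) (F : ℕ → ℕ → ℝ) : ℝ := ∑ i ∈ Finset.range K, ∑ j ∈ Finset.range K, F i j

/-- weighted sum of squared differences over the horizontal edges -/
def QH (K : ℕ) (c x : ℕ → ℕ → ℝ) : ℝ :=
  ∑ i ∈ Finset.range (K - 1), ∑ j ∈ Finset.range K, c i j * (x i j - x (i + 1) j) ^ 2
/-- weighted sum of squared differences over the vertical edges -/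
def QV (K : ℕ) (c x : ℕ → ℕ → ℝ) : ℝ :=
  ∑ i ∈ Finset.range K, ∑ j ∈ Finset.range (K - 1), c i j * (x i j - x i (j + 1)) ^ 2

/-- numerical hypotheses -/
structure Num (K : ℕ) (D D1 a η ν : ℝ) (s : ℕ → ℕ → ℝ) : Prop where
  K_pos : 1 ≤ K
  a_pos : 0 < a
  a_le : a ≤ η
  η_le : η ≤ 1 / 100
  D1_ge : 1 ≤ D1
  D1_le : D1 ≤ η * D
  ν_pos : 0 < ν
  ν_small : ν * (K * D) ^ 5 ≤ η ^ 2
  s_ge : ∀ i < K, ∀ j < K, 1 ≤ s i j
  s_le : ∀ i < K, ∀ j < K, s i j ≤ D1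

/-- the design facts on the weight -/
structure Rho (K : ℕ) (D D1 a δ sea : ℝ) (s dH dV : ℕ → ℕ → ℝ) (ρ : P2 → ℝ) : Prop where
  cont : Continuous ρ
  nonneg : ∀ y, 0 ≤ ρ y
  le_one : ∀ y, ρ y ≤ 1
  δ_nonneg : 0 ≤ δ
  sea_nonneg : 0 ≤ sea
  dH_nonneg : ∀ i j, 0 ≤ dH i j
  dV_nonneg : ∀ i j, 0 ≤ dV i j
  isl : ∀ i < K, ∀ j < K, ∀ y ∈ sqr D i j (s i j / 2), ρ y = 1
  small : ∀ i < K, ∀ j < K, ∀ y ∈ cell D i j, y ∉ sqr D i j (s i j / 2 + a) → ρ y ≤ δ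
  uniH : ∀ i < K, ∀ j < K, ∀ x y t : ℝ, (x, y) ∈ cell D i j → min x (cen D i - 1 / 2) ≤ t →
    t ≤ max x (cen D i + 1 / 2) → ρ (x, y) ≤ ρ (t, y)
  uniV : ∀ i < K, ∀ j < K, ∀ x y t : ℝ, (x, y) ∈ cell D i j → min y (cen D j - 1 / 2) ≤ t →
    t ≤ max y (cen D j + 1 / 2) → ρ (x, y) ≤ ρ (x, t)
  coreH : ∀ i j, i + 1 < K → j < K → ∀ x y : ℝ, cen D i - 1 / 2 ≤ x → x ≤ cen D (i + 1) + 1 / 2 →
    |y - cen D j| ≤ 1 / 2 → dH i j ≤ ρ (x, y)
  coreV : ∀ i j, i < K → j + 1 < K → ∀ x y : ℝ, cen D j - 1 / 2 ≤ y → y ≤ cen D (j + 1) + 1 / 2 →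
    |x - cen D i| ≤ 1 / 2 → dV i j ≤ ρ (x, y)
  gapH : ∀ i j, i + 1 < K → j < K → ∀ x y : ℝ, cen D i + D1 / 2 + a ≤ x →
    x ≤ cen D (i + 1) - D1 / 2 - a → |y - cen D j| ≤ 1 / 2 + a → ρ (x, y) ≤ dH i j
  gapV : ∀ i j, i < K → j + 1 < K → ∀ x y : ℝ, cen D j + D1 / 2 + a ≤ y →
    y ≤ cen D (j + 1) - D1 / 2 - a → |x - cen D i| ≤ 1 / 2 + a → ρ (x, y) ≤ dV i j
  seaH : ∀ x y : ℝ, (∀ i < K, D1 / 2 + a ≤ |x - cen D i|) → (∀ j < K, 1 / 2 + a ≤ |y - cen D j|) →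
    ρ (x, y) ≤ sea
  seaV : ∀ x y : ℝ, (∀ j < K, D1 / 2 + a ≤ |y - cen D j|) → (∀ i < K, 1 / 2 + a ≤ |x - cen D i|) →
    ρ (x, y) ≤ sea
  outH : ∀ x y : ℝ, (x ≤ cen D 0 - D1 / 2 - a ∨ cen D (K - 1) + D1 / 2 + a ≤ x) → ρ (x, y) ≤ sea
  outV : ∀ x y : ℝ, (y ≤ cen D 0 - D1 / 2 - a ∨ cen D (K - 1) + D1 / 2 + a ≤ y) → ρ (x, y) ≤ sea

/-- cut-off functions of the islands -/
structure Chi (K : ℕ) (D a : ℝ) (s : ℕ → ℕ → ℝ) (χ : ℕ → ℕ → P2 → ℝ) : Prop where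
  cont : ∀ i j, Continuous (χ i j)
  mem : ∀ i j y, 0 ≤ χ i j y ∧ χ i j y ≤ 1
  one : ∀ i < K, ∀ j < K, ∀ y ∈ sqr D i j (s i j / 2), χ i j y = 1
  zero : ∀ i < K, ∀ j < K, ∀ y ∉ sqr D i j (s i j / 2 + 2 * a), χ i j y = 0

/-- left end of the ramp number `i ≤ K` -/
def rl (D D1 a : ℝ) (i : ℕ) : ℝ := if i = 0 then 3 * D / 4 else cen D (i - 1) + D1 / 2 + 2 * a
/-- right end of the ramp number `i ≤ K` -/
def rr (K : ℕ) (D D1 a : ℝ) (i : ℕ) : ℝ := if i = K then D * K + D / 4 else cen D i - D1 / 2 - 2 * a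

/-- the ramps: `u i` goes from `0` to `1` on `[rl i, rr i]` -/
structure Ramps (K : ℕ) (D D1 a η M : ℝ) (u : ℕ → ℝ → ℝ) : Prop where
  bd : ∀ i, Bd 4 M (u i)
  mem : ∀ i x, 0 ≤ u i x ∧ u i x ≤ 1
  zero : ∀ i ≤ K, ∀ x, x ≤ rl D D1 a i → u i x = 0
  one : ∀ i ≤ K, ∀ x, rr K D D1 a i ≤ x → u i x = 1
  en_in : ∀ i, 0 < i → i < K → ∫ x, deriv (u i) x ^ 2 ≤ (1 + 2 * η) / D
  en_out : ∀ i ≤ K, ∫ x, deriv (u i) x ^ 2 ≤ 5 / D

def hat (u : ℕ → ℝ → ℝ) (i : ℕ) (x : ℝ) : ℝ := u i x - u (i + 1) x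

/-- interpolation of the values `β` -/
def comb (K : ℕ) (u : ℕ → ℝ → ℝ) (β : ℕ → ℕ → ℝ) (y : P2) : ℝ :=
  sum2 K fun i j => β i j * (hat u i y.1 * hat u j y.2)

/-- the trial functions -/
def φF (ρ : P2 → ℝ) (s : ℕ → ℕ → ℝ) (u : ℕ → ℝ → ℝ) (i j : ℕ) (y : P2) : ℝ :=
  √(ρ y) * (hat u i y.1 * hat u j y.2 / s i j)

def Geo.ρ (g : Geo ℝ) (y : P2) : ℝ := Real.exp (-2 * g.S y)

def Geo.chi (g : Geo ℝ) (i j : ℕ) (p : P2) : ℝ :=
  bump g.a (cen g.D i - g.sd i j / 2 - g.a) (cen g.D i + g.sd i j / 2 + g.a) p.1 *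
    bump g.a (cen g.D j - g.sd i j / 2 - g.a) (cen g.D j + g.sd i j / 2 + g.a) p.2

/-- the part of `GeoOK` that the design facts use -/
structure GeoS (g : Geo ℝ) (D1 : ℝ) : Prop where
  K_pos : 1 ≤ g.K
  a_pos : 0 < g.a
  a_le : g.a ≤ 1 / 100
  D1_ge : 1 ≤ D1
  D1_le : 100 * D1 ≤ g.D
  sea_nonneg : 0 ≤ g.Ssea
  s_ge : ∀ i < g.K, ∀ j < g.K, 1 ≤ g.sd i j
  s_le : ∀ i < g.K, ∀ j < g.K, g.sd i j ≤ D1
  lvH : ∀ i j, i + 1 < g.K → j < g.K → 0 ≤ g.lvH i j ∧ g.lvH i j ≤ g.Ssea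
  lvV : ∀ i j, i < g.K → j + 1 < g.K → 0 ≤ g.lvV i j ∧ g.lvV i j ≤ g.Ssea

/-- the mirror image of the geometry -/
def Geo.swap (g : Geo ℝ) : Geo ℝ :=
  ⟨g.K, g.D, g.a, g.Ssea, fun i j => g.sd j i, fun i j => g.lvV j i, fun i j => g.lvH j i,
    fun i j => g.ep j i⟩

/-! ### elementary facts -/

theorem cen_succ (D : ℝ) (i : ℕ) : cen D (i + 1) = cen D i + D := by
  unfold cen; push_cast; ring

theorem cen_zero (D : ℝ) : cen D 0 = D := by simp [cen]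

theorem cen_pred {K : ℕ} (hK : 1 ≤ K) (D : ℝ) : cen D (K - 1) = D * K := by
  unfold cen; rw [Nat.cast_sub hK]; push_cast; ring

theorem cen_add_le {D : ℝ} (hD : 0 ≤ D) {i j : ℕ} (h : i < j) : cen D i + D ≤ cen D j := by
  have : (i : ℝ) + 1 ≤ j := by exact_mod_cast h
  unfold cen; nlinarith

theorem cen_mono {D : ℝ} (hD : 0 ≤ D) {i j : ℕ} (h : i ≤ j) : cen D i ≤ cen D j := by
  have : (i : ℝ) ≤ j := by exact_mod_cast h
  unfold cen; nlinarith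

theorem mem_cell {D : ℝ} {i j : ℕ} {y : P2} : y ∈ cell D i j ↔
    (cen D i - D / 2 ≤ y.1 ∧ y.1 < cen D i + D / 2) ∧ (cen D j - D / 2 ≤ y.2 ∧ y.2 < cen D j + D / 2) :=
  Iff.rfl

theorem mem_sqr {D r : ℝ} {i j : ℕ} {y : P2} : y ∈ sqr D i j r ↔
    (cen D i - r ≤ y.1 ∧ y.1 ≤ cen D i + r) ∧ (cen D j - r ≤ y.2 ∧ y.2 ≤ cen D j + r) := Iff.rfl

theorem Pl.measurableSet_cell (D : ℝ) (i j : ℕ) : MeasurableSet (cell D i j) :=
  measurableSet_Ico.prod measurableSet_Ico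
export Pl (measurableSet_cell)

theorem measurableSet_sqr (D : ℝ) (i j : ℕ) (r : ℝ) : MeasurableSet (sqr D i j r) :=
  measurableSet_Icc.prod measurableSet_Icc

theorem measurableSet_allc (K : ℕ) (D : ℝ) : MeasurableSet (allc K D) :=
  measurableSet_Ico.prod measurableSet_Ico

theorem isCompact_sqr (D : ℝ) (i j : ℕ) (r : ℝ) : IsCompact (sqr D i j r) :=
  isCompact_Icc.prod isCompact_Icc

theorem cell_subset_sqr (D : ℝ) (i j : ℕ) : cell D i j ⊆ sqr D i j (D / 2) :=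
  prod_mono Ico_subset_Icc_self Ico_subset_Icc_self

theorem sqr_subset_cell {D r : ℝ} (h : r < D / 2) (i j : ℕ) : sqr D i j r ⊆ cell D i j := by
  intro y hy
  rw [mem_sqr] at hy
  rw [mem_cell]
  refine ⟨⟨?_, ?_⟩, ?_, ?_⟩ <;> linarith [hy.1.1, hy.1.2, hy.2.1, hy.2.2]

theorem sqr_mono {D r r' : ℝ} (h : r ≤ r') (i j : ℕ) : sqr D i j r ⊆ sqr D i j r' := by
  intro y hy
  rw [mem_sqr] at hy ⊢
  refine ⟨⟨?_, ?_⟩, ?_, ?_⟩ <;> linarith [hy.1.1, hy.1.2, hy.2.1, hy.2.2]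

theorem integrableOn_cell {F : P2 → ℝ} (hF : Continuous F) (D : ℝ) (i j : ℕ) :
    IntegrableOn F (cell D i j) :=
  (hF.continuousOn.integrableOn_compact (isCompact_sqr D i j _)).mono_set (cell_subset_sqr D i j)

theorem integrableOn_sqr {F : P2 → ℝ} (hF : Continuous F) (D : ℝ) (i j : ℕ) (r : ℝ) :
    IntegrableOn F (sqr D i j r) :=
  hF.continuousOn.integrableOn_compact (isCompact_sqr D i j _)

theorem volume_real_sqr (D : ℝ) (i j : ℕ) {r : ℝ} (hr : 0 ≤ r) :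
    (volume : Measure P2).real (sqr D i j r) = (2 * r) ^ 2 := by
  unfold sqr
  rw [Measure.volume_eq_prod, measureReal_prod_prod, Real.volume_real_Icc_of_le (by linarith),
    Real.volume_real_Icc_of_le (by linarith)]
  ring

theorem volume_real_cell {D : ℝ} (hD : 0 ≤ D) (i j : ℕ) :
    (volume : Measure P2).real (cell D i j) = D ^ 2 := by
  unfold cell ci
  rw [Measure.volume_eq_prod, measureReal_prod_prod, Real.volume_real_Ico_of_le (by linarith),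
    Real.volume_real_Ico_of_le (by linarith)]
  ring

theorem volume_real_allc (K : ℕ) {D : ℝ} (hD : 0 ≤ D) :
    (volume : Measure P2).real (allc K D) = (K * D) ^ 2 := by
  have : 0 ≤ D * K := by positivity
  unfold allc
  rw [Measure.volume_eq_prod, measureReal_prod_prod, Real.volume_real_Ico_of_le (by linarith)]
  ring

theorem ci_unique {D : ℝ} {i i' : ℕ} {x : ℝ} (h : x ∈ ci D i) (h' : x ∈ ci D i') : i = i' := by
  have hD : 0 ≤ D := by linarith [h.1, h.2]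
  rcases lt_trichotomy i i' with hl | hl | hl
  · linarith [cen_add_le hD hl, h.2, h'.1]
  · exact hl
  · linarith [cen_add_le hD hl, h.1, h'.2]

theorem exists_ci {K : ℕ} {D x : ℝ} (hD : 0 < D) (h : x ∈ Ico (D / 2) (D * K + D / 2)) :
    ∃ i < K, x ∈ ci D i := by
  have h0 : 0 ≤ (x - D / 2) / D := div_nonneg (by linarith [h.1]) hD.le
  refine ⟨⌊(x - D / 2) / D⌋₊, ?_, ?_, ?_⟩
  · rw [Nat.floor_lt h0, div_lt_iff₀ hD]; linarith [h.2]
  · have := Nat.floor_le h0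
    rw [le_div_iff₀ hD] at this
    unfold cen; linarith
  · have := Nat.lt_floor_add_one ((x - D / 2) / D)
    rw [div_lt_iff₀ hD] at this
    unfold cen; linarith

theorem mem_allc {K : ℕ} {D : ℝ} (hD : 0 < D) {y : P2} :
    y ∈ allc K D ↔ ∃ i < K, ∃ j < K, y ∈ cell D i j := by
  constructor
  · intro h
    obtain ⟨i, hi, hi'⟩ := exists_ci hD h.1
    obtain ⟨j, hj, hj'⟩ := exists_ci hD h.2
    exact ⟨i, hi, j, hj, hi', hj'⟩
  · rintro ⟨i, hi, j, hj, h⟩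
    have hK : 1 ≤ K := by omega
    have a1 := cen_mono hD.le (Nat.zero_le i)
    have a2 := cen_mono hD.le (Nat.zero_le j)
    have a3 := cen_mono hD.le (show i ≤ K - 1 by omega)
    have a4 := cen_mono hD.le (show j ≤ K - 1 by omega)
    rw [cen_zero] at a1 a2
    rw [cen_pred hK] at a3 a4
    rw [mem_cell] at h
    refine ⟨⟨?_, ?_⟩, ?_, ?_⟩ <;> linarith [h.1.1, h.1.2, h.2.1, h.2.2]

theorem ext_coe {K : ℕ} (α : Fin K × Fin K → ℝ) (p : Fin K × Fin K) : ext α p.1 p.2 = α p := by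
  unfold ext; rw [dif_pos ⟨p.1.2, p.2.2⟩]

theorem sum_eq_sum2 (K : ℕ) (F : ℕ → ℕ → ℝ) : ∑ p : Fin K × Fin K, F p.1 p.2 = sum2 K F := by
  unfold sum2
  rw [Fintype.sum_prod_type, ← Fin.sum_univ_eq_sum_range (fun i => ∑ j ∈ Finset.range K, F i j)]
  exact Finset.sum_congr rfl fun i _ => Fin.sum_univ_eq_sum_range (fun j => F i j) K

theorem dot_eq_sum2 {K : ℕ} (α : Fin K × Fin K → ℝ) : α ⬝ᵥ α = sum2 K fun i j => ext α i j ^ 2 := by
  rw [← sum_eq_sum2 K fun i j => ext α i j ^ 2]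
  exact Finset.sum_congr rfl fun p _ => by rw [ext_coe]; ring

theorem sum2_le_sum2 {K : ℕ} {F G : ℕ → ℕ → ℝ} (h : ∀ i < K, ∀ j < K, F i j ≤ G i j) :
    sum2 K F ≤ sum2 K G :=
  Finset.sum_le_sum fun i hi => Finset.sum_le_sum fun j hj =>
    h i (Finset.mem_range.1 hi) j (Finset.mem_range.1 hj)

theorem sum2_congr {K : ℕ} {F G : ℕ → ℕ → ℝ} (h : ∀ i < K, ∀ j < K, F i j = G i j) :
    sum2 K F = sum2 K G :=
  Finset.sum_congr rfl fun i hi => Finset.sum_congr rfl fun j hj =>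
    h i (Finset.mem_range.1 hi) j (Finset.mem_range.1 hj)

theorem sum2_nonneg {K : ℕ} {F : ℕ → ℕ → ℝ} (h : ∀ i < K, ∀ j < K, 0 ≤ F i j) : 0 ≤ sum2 K F :=
  Finset.sum_nonneg fun i hi => Finset.sum_nonneg fun j hj =>
    h i (Finset.mem_range.1 hi) j (Finset.mem_range.1 hj)

theorem sum2_add (K : ℕ) (F G : ℕ → ℕ → ℝ) :
    sum2 K (fun i j => F i j + G i j) = sum2 K F + sum2 K G := by
  simp only [sum2, Finset.sum_add_distrib]

theorem sum2_mul (K : ℕ) (c : ℝ) (F : ℕ → ℕ → ℝ) : sum2 K (fun i j => c * F i j) = c * sum2 K F := by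
  simp only [sum2, Finset.mul_sum]

theorem sum2_swap (K : ℕ) (F : ℕ → ℕ → ℝ) : sum2 K (fun i j => F j i) = sum2 K F := Finset.sum_comm

theorem QV_eq_QH (K : ℕ) (c x : ℕ → ℕ → ℝ) : QV K c x = QH K (fun i j => c j i) fun i j => x j i :=
  Finset.sum_comm

theorem Num.η_pos {K : ℕ} {D D1 a η ν : ℝ} {s : ℕ → ℕ → ℝ} (h : Num K D D1 a η ν s) : 0 < η :=
  h.a_pos.trans_le h.a_le

theorem Num.D_ge' {K : ℕ} {D D1 a η ν : ℝ} {s : ℕ → ℕ → ℝ} (h : Num K D D1 a η ν s) : 100 * D1 ≤ D := by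
  have h1 := h.D1_le; have h2 := h.η_le; have h3 := h.D1_ge; have h4 := h.η_pos
  have : 0 < D := by by_contra hc; push Not at hc; nlinarith
  nlinarith

theorem Num.D_ge {K : ℕ} {D D1 a η ν : ℝ} {s : ℕ → ℕ → ℝ} (h : Num K D D1 a η ν s) : 100 ≤ D := by
  linarith [h.D_ge', h.D1_ge]

theorem Num.D_le_KD {K : ℕ} {D D1 a η ν : ℝ} {s : ℕ → ℕ → ℝ} (h : Num K D D1 a η ν s) : D ≤ K * D := by
  have : (1 : ℝ) ≤ K := by exact_mod_cast h.K_pos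
  nlinarith [h.D_ge]

/-- `ν (K D)^3 ≤ η² / 10⁴` -/
theorem Num.ν3 {K : ℕ} {D D1 a η ν : ℝ} {s : ℕ → ℕ → ℝ} (h : Num K D D1 a η ν s) :
    ν * (K * D) ^ 3 ≤ η ^ 2 / 10000 := by
  have h1 : 100 ≤ K * D := h.D_ge.trans h.D_le_KD
  have h2 : 10000 ≤ (K * D) ^ 2 := by nlinarith
  have h3 : 0 ≤ ν * (K * D) ^ 3 := mul_nonneg h.ν_pos.le (by positivity)
  have h4 := h.ν_small
  have : ν * (K * D) ^ 5 = ν * (K * D) ^ 3 * (K * D) ^ 2 := by ring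
  nlinarith

theorem Num.νD3 {K : ℕ} {D D1 a η ν : ℝ} {s : ℕ → ℕ → ℝ} (h : Num K D D1 a η ν s) :
    ν * D ^ 3 ≤ η ^ 2 / 10000 := by
  refine le_trans ?_ h.ν3
  have := h.D_ge
  have := h.ν_pos
  gcongr
  exact h.D_le_KD

theorem Num.swap {K : ℕ} {D D1 a η ν : ℝ} {s : ℕ → ℕ → ℝ} (h : Num K D D1 a η ν s) :
    Num K D D1 a η ν fun i j => s j i :=
  { h with s_ge := fun i hi j hj => h.s_ge j hj i hi, s_le := fun i hi j hj => h.s_le j hj i hi }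

theorem Rho.swap {K : ℕ} {D D1 a δ sea : ℝ} {s dH dV : ℕ → ℕ → ℝ} {ρ : P2 → ℝ}
    (h : Rho K D D1 a δ sea s dH dV ρ) :
    Rho K D D1 a δ sea (fun i j => s j i) (fun i j => dV j i) (fun i j => dH j i) fun y => ρ y.swap where
  cont := h.cont.comp continuous_swap
  nonneg y := h.nonneg _
  le_one y := h.le_one _
  δ_nonneg := h.δ_nonneg
  sea_nonneg := h.sea_nonneg
  dH_nonneg i j := h.dV_nonneg j i
  dV_nonneg i j := h.dH_nonneg j i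
  isl i hi j hj y hy := h.isl j hj i hi _ ⟨hy.2, hy.1⟩
  small i hi j hj y hy hy' := h.small j hj i hi _ ⟨hy.2, hy.1⟩ fun hc => hy' ⟨hc.2, hc.1⟩
  uniH i hi j hj x y t hy := h.uniV j hj i hi y x t ⟨hy.2, hy.1⟩
  uniV i hi j hj x y t hy := h.uniH j hj i hi y x t ⟨hy.2, hy.1⟩
  coreH i j hi hj x y := h.coreV j i hj hi y x
  coreV i j hi hj x y := h.coreH j i hj hi y x
  gapH i j hi hj x y := h.gapV j i hj hi y x
  gapV i j hi hj x y := h.gapH j i hj hi y x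
  seaH x y := h.seaV y x
  seaV x y := h.seaH y x
  outH x y := h.outV y x
  outV x y := h.outH y x

theorem GeoS.swap {g : Geo ℝ} {D1 : ℝ} (h : GeoS g D1) : GeoS g.swap D1 :=
  { h with
    s_ge := fun i hi j hj => h.s_ge j hj i hi
    s_le := fun i hi j hj => h.s_le j hj i hi
    lvH := fun i j hi hj => h.lvV j i hj hi
    lvV := fun i j hi hj => h.lvH j i hj hi }

theorem Geo.swap_S (g : Geo ℝ) (x y : ℝ) : g.swap.S (x, y) = g.S (y, x) := by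
  unfold Geo.S Geo.swap
  simp only
  rw [Finset.sum_comm (s := Finset.range g.K) (t := Finset.range g.K),
    Finset.sum_comm (s := Finset.range (g.K - 1)) (t := Finset.range g.K),
    Finset.sum_comm (s := Finset.range g.K) (t := Finset.range (g.K - 1))
      (f := fun i j => (g.Ssea - g.lvH j i) * _)]
  simp only [mul_comm]
  ring

theorem GeoOK.num {g : Geo ℝ} {tH tV ε : ℕ → ℕ → ℝ} {hc : Fin g.K × Fin g.K → Prop} {D1 η ν : ℝ}
    (h : GeoOK g tH tV ε hc D1 η ν) : Num g.K g.D D1 g.a η ν g.sd := by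
  have hs : ∀ i < g.K, ∀ j < g.K, 1 ≤ g.sd i j ∧ g.sd i j ≤ D1 := by
    intro i hi j hj
    have := h.sd_eq (⟨i, hi⟩, ⟨j, hj⟩)
    by_cases hp : hc (⟨i, hi⟩, ⟨j, hj⟩)
    · have e : g.sd i j = 1 := this.1 hp
      rw [e]; exact ⟨le_rfl, h.D1_ge⟩
    · have e : g.sd i j = D1 := this.2 hp
      rw [e]; exact ⟨h.D1_ge, le_rfl⟩
  exact ⟨h.K_pos, h.a_pos, h.a_le, h.η_le, h.D1_ge, h.D1_le, h.ν_pos, h.ν_small,
    fun i hi j hj => (hs i hi j hj).1, fun i hi j hj => (hs i hi j hj).2⟩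

theorem GeoOK.geoS {g : Geo ℝ} {tH tV ε : ℕ → ℕ → ℝ} {hc : Fin g.K × Fin g.K → Prop} {D1 η ν : ℝ}
    (h : GeoOK g tH tV ε hc D1 η ν) : GeoS g D1 :=
  ⟨h.K_pos, h.a_pos, h.a_le.trans h.η_le, h.D1_ge, h.num.D_ge', h.sea_nonneg, h.num.s_ge, h.num.s_le,
    fun i j hi hj => ⟨(h.hor i j hi hj).2.2.1, (h.hor i j hi hj).2.2.2.1⟩,
    fun i j hi hj => ⟨(h.ver i j hi hj).2.2.1, (h.ver i j hi hj).2.2.2.1⟩⟩

theorem dx_swap {f : P2 → ℝ} (hf : Differentiable ℝ f) (y : P2) :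
    dx (fun z : P2 => f z.swap) y = dy f y.swap := by
  unfold dx dy
  have h : HasFDerivAt (fun z : P2 => z.swap)
      (ContinuousLinearEquiv.prodComm ℝ ℝ ℝ : P2 →L[ℝ] P2) y :=
    (ContinuousLinearEquiv.prodComm ℝ ℝ ℝ).hasFDerivAt
  have h2 : HasFDerivAt (fun z : P2 => f z.swap) _ y := (hf y.swap).hasFDerivAt.comp y h
  rw [h2.fderiv]
  rfl

theorem integral_swap2 (F : P2 → ℝ) : ∫ y : P2, F y.swap = ∫ y, F y := by
  rw [Measure.volume_eq_prod]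
  exact integral_prod_swap F

theorem Cc1.swap {f : P2 → ℝ} (hf : Cc1 f) : Cc1 fun z : P2 => f z.swap :=
  ⟨hf.1.comp (contDiff_snd.prodMk contDiff_fst), hf.2.comp_homeomorph (Homeomorph.prodComm ℝ ℝ)⟩

theorem continuous_dx {f : P2 → ℝ} (hf : ContDiff ℝ 1 f) : Continuous (dx f) :=
  (hf.continuous_fderiv (by norm_num)).clm_apply continuous_const

theorem continuous_dy {f : P2 → ℝ} (hf : ContDiff ℝ 1 f) : Continuous (dy f) :=
  (hf.continuous_fderiv (by norm_num)).clm_apply continuous_const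

theorem hasDerivAt_dx {f : P2 → ℝ} (hf : Differentiable ℝ f) (x y : ℝ) :
    HasDerivAt (fun t => f (t, y)) (dx f (x, y)) x :=
  (hf (x, y)).hasFDerivAt.comp_hasDerivAt x ((hasDerivAt_id x).prodMk (hasDerivAt_const x y))

theorem hasDerivAt_dy {f : P2 → ℝ} (hf : Differentiable ℝ f) (x y : ℝ) :
    HasDerivAt (fun t => f (x, t)) (dy f (x, y)) y :=
  (hf (x, y)).hasFDerivAt.comp_hasDerivAt y ((hasDerivAt_const y x).prodMk (hasDerivAt_id y))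

theorem Cc1.hasCompactSupport_dx {f : P2 → ℝ} (hf : Cc1 f) : HasCompactSupport (dx f) :=
  hf.2.fderiv_apply (𝕜 := ℝ) (1, 0)

theorem Cc1.hasCompactSupport_dy {f : P2 → ℝ} (hf : Cc1 f) : HasCompactSupport (dy f) :=
  hf.2.fderiv_apply (𝕜 := ℝ) (0, 1)

end Crest.Agent.R338
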