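import Crest.Agent.R338.Plane_Defs

/-!
# Planar package: ramps, hats and the interpolation `comb`

Helper prefix `phat_`.
-/

set_option autoImplicit false
set_option linter.dupNamespace false
set_option linter.unusedVariables false

noncomputable section

namespace Crest.Agent.R338

open Matrix MeasureTheory Set
open Crest.MathPhysics.ElectronicCoulomb

variable {K : ℕ} {D D1 a η ν M : ℝ} {s : ℕ → ℕ → ℝ} {u : ℕ → ℝ → ℝ}

/-- `u x = (∫ t in l..x, b t) / N` with `b = bump a (l + a) (r - a)`, `N = ∫ t in l..r, b t ≥ r - l - 2a ≥ 1`; `u' = b / N ≤ 1 / N`,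
`∫ u'² ≤ (1/N) ∫ u' = 1/N`.  For `Bd`: order `0` from `0 ≤ u ≤ 1`, order `j + 1` from `iteratedDeriv_succ'`,
`norm_iteratedFDeriv_eq_norm_iteratedDeriv` and `exists_sig_bd` (`k = 3`); `contDiff_succ_iff_deriv`. -/
theorem exists_ramp : ∃ C : ℝ, 1 ≤ C ∧ ∀ a l r : ℝ, 0 < a → a ≤ 1 → l + 2 * a + 1 ≤ r → ∃ u : ℝ → ℝ,
    Bd 4 (C / a ^ 8) u ∧ (∀ x, 0 ≤ u x ∧ u x ≤ 1) ∧ (∀ x, x ≤ l → u x = 0) ∧ (∀ x, r ≤ x → u x = 1) ∧
      ∫ x, deriv u x ^ 2 ≤ 1 / (r - l - 2 * a) := by
  obtain ⟨C, hC, -, hb⟩ := exists_sig_bd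
  refine ⟨C, hC, fun a l r ha ha1 hlr => ?_⟩
  have hB : Bd 3 (C / a ^ (2 * 3)) (bump a (l + a) (r - a)) := (hb a (l + a) (r - a) ha ha1 3 (by norm_num)).2.2.1
  set b : ℝ → ℝ := bump a (l + a) (r - a) with hbdef
  have hbc : Continuous b := hB.1.continuous
  have hb0 : ∀ x, 0 ≤ b x := fun x => (bump_mem _ _ _ x).1
  have hb1 : ∀ x, b x ≤ 1 := fun x => (bump_mem _ _ _ x).2
  have hbl : ∀ x, x ≤ l → b x = 0 := fun x hx => bump_eq_zero ha (Or.inl (by linarith))
  have hbr : ∀ x, r ≤ x → b x = 0 := fun x hx => bump_eq_zero ha (Or.inr (by linarith))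
  have hI : ∀ x y, IntervalIntegrable b volume x y := fun x y => hbc.intervalIntegrable x y
  set N : ℝ := ∫ t in l..r, b t with hN
  have hN1 : r - l - 2 * a ≤ N := by
    have e1 := intervalIntegral.integral_add_adjacent_intervals (hI l (l + a)) (hI (l + a) (r - a))
    have e2 := intervalIntegral.integral_add_adjacent_intervals (hI l (r - a)) (hI (r - a) r)
    have e3 : ∫ t in (l + a)..(r - a), b t = r - l - 2 * a := by
      rw [intervalIntegral.integral_congr (g := fun _ => (1 : ℝ))]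
      · simp; ring
      · intro t ht
        rw [uIcc_of_le (by linarith)] at ht
        exact bump_eq_one ha ht.1 ht.2
    have p1 : 0 ≤ ∫ t in l..(l + a), b t := intervalIntegral.integral_nonneg (by linarith) fun t _ => hb0 t
    have p2 : 0 ≤ ∫ t in (r - a)..r, b t := intervalIntegral.integral_nonneg (by linarith) fun t _ => hb0 t
    linarith
  have hN2 : 1 ≤ N := by linarith
  have hN0 : 0 < N := by linarith
  set u : ℝ → ℝ := fun x => (∫ t in l..x, b t) / N with hu
  have hd : ∀ x, HasDerivAt u (b x / N) x := fun x =>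
    (intervalIntegral.integral_hasDerivAt_right (hI l x) hbc.aestronglyMeasurable.stronglyMeasurableAtFilter
      hbc.continuousAt).div_const N
  have hderiv : deriv u = fun x => 1 / N * b x := by
    funext x; rw [(hd x).deriv]; ring
  have hzero : ∀ x, x ≤ l → u x = 0 := by
    intro x hx
    have : ∫ t in l..x, b t = 0 := by
      rw [intervalIntegral.integral_congr (g := fun _ => (0 : ℝ))]
      · simp
      · intro t ht
        rw [uIcc_of_ge hx] at ht
        exact hbl t ht.2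
    simp only [hu, this, zero_div]
  have hone : ∀ x, r ≤ x → u x = 1 := by
    intro x hx
    have h1 : ∫ t in r..x, b t = 0 := by
      rw [intervalIntegral.integral_congr (g := fun _ => (0 : ℝ))]
      · simp
      · intro t ht
        rw [uIcc_of_le hx] at ht
        exact hbr t ht.1
    have h2 := intervalIntegral.integral_add_adjacent_intervals (hI l r) (hI r x)
    simp only [hu]
    rw [← h2, h1, add_zero]
    exact div_self hN0.ne'
  have hmono : Monotone u := monotone_of_deriv_nonneg (fun x => (hd x).differentiableAt) fun x => by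
    rw [(hd x).deriv]; exact div_nonneg (hb0 x) hN0.le
  have hmem : ∀ x, 0 ≤ u x ∧ u x ≤ 1 := fun x =>
    ⟨(hzero _ (min_le_right x l)).symm.le.trans (hmono (min_le_left x l)),
      (hmono (le_max_left x r)).trans (hone _ (le_max_right x r)).le⟩
  have ha8 : a ^ 8 ≤ a ^ (2 * 3) := pow_le_pow_of_le_one ha.le ha1 (by norm_num)
  have hB' : Bd 3 (C / a ^ 8) (deriv u) := by
    rw [hderiv]
    refine (hB.const_mul (1 / N)).mono le_rfl ?_
    rw [abs_of_pos (by positivity)]
    calc 1 / N * (C / a ^ (2 * 3)) ≤ 1 * (C / a ^ 8) := by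
          gcongr
          exact (div_le_one hN0).2 hN2
      _ = C / a ^ 8 := one_mul _
  refine ⟨u, ⟨?_, ?_⟩, hmem, hzero, hone, ?_⟩
  · have : ContDiff ℝ ((3 : ℕ) + 1) u :=
      contDiff_succ_iff_deriv.2 ⟨fun x => (hd x).differentiableAt, by simp, hB'.1⟩
    exact_mod_cast this
  · intro j hj x
    rcases j with _ | j
    · rw [norm_iteratedFDeriv_zero, Real.norm_eq_abs, abs_of_nonneg (hmem x).1]
      refine (hmem x).2.trans ?_
      rw [le_div_iff₀ (by positivity), one_mul]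
      exact (pow_le_one₀ ha.le ha1).trans hC
    · rw [norm_iteratedFDeriv_eq_norm_iteratedDeriv, iteratedDeriv_succ',
        ← norm_iteratedFDeriv_eq_norm_iteratedDeriv]
      exact hB'.2 j (by omega) x
  · have hsupp : Function.support b ⊆ Ioc l r := by
      intro x hx
      by_contra hc
      rw [mem_Ioc, not_and_or, not_lt, not_le] at hc
      rcases hc with hc | hc
      · exact hx (hbl x hc)
      · exact hx (hbr x hc.le)
    have hcs : HasCompactSupport b := HasCompactSupport.intro (isCompact_Icc (a := l) (b := r)) fun x hx => by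
      by_contra hc
      exact hx (Ioc_subset_Icc_self (hsupp hc))
    have hint : Integrable b := hbc.integrable_of_hasCompactSupport hcs
    have htot : ∫ x, b x = N := (intervalIntegral.integral_eq_integral_of_support_subset hsupp).symm
    rw [hderiv]
    calc ∫ x, (1 / N * b x) ^ 2 ≤ ∫ x, (1 / N) ^ 2 * b x := by
          refine integral_mono_of_nonneg (Filter.Eventually.of_forall fun x => sq_nonneg _) (hint.const_mul _)
            (Filter.Eventually.of_forall fun x => ?_)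
          simp only [mul_pow]
          gcongr
          nlinarith [hb0 x, hb1 x]
      _ = 1 / N := by rw [integral_const_mul, htot]; field_simp
      _ ≤ 1 / (r - l - 2 * a) := one_div_le_one_div_of_le (by linarith) hN1

theorem phat_len_in {i : ℕ} (h0 : 0 < i) (hi : i < K) :
    rr K D D1 a i - rl D D1 a i - 2 * a = D - D1 - 6 * a := by
  obtain ⟨k, rfl⟩ : ∃ k, i = k + 1 := ⟨i - 1, by omega⟩
  unfold rr rl
  rw [if_neg hi.ne, if_neg h0.ne', Nat.add_sub_cancel, cen_succ]
  ring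

theorem phat_len (hN : Num K D D1 a η ν s) {i : ℕ} (hi : i ≤ K) :
    D / 5 ≤ rr K D D1 a i - rl D D1 a i - 2 * a := by
  have h1 := hN.D_ge'
  have h2 := hN.D_ge
  have h3 := hN.a_le.trans hN.η_le
  have hK := hN.K_pos
  rcases Nat.eq_zero_or_pos i with rfl | h0
  · unfold rr rl
    rw [if_neg (by omega), if_pos rfl, cen_zero]
    linarith
  rcases hi.eq_or_lt with rfl | hi
  · unfold rr rl
    rw [if_pos rfl, if_neg h0.ne', cen_pred hK]
    linarith
  · rw [phat_len_in h0 hi]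
    linarith

/-- `rr i - rl i - 2a` is `D - D1 - 6a ≥ D / (1 + 2η)` for `0 < i < K` and `D/4 - D1/2 - 4a ≥ D/5` for `i = 0, K`
(`cen_succ`, `cen_zero`, `cen_pred`); for `i > K` take any ramp. -/
theorem exists_ramps : ∃ C : ℝ, 1 ≤ C ∧ ∀ (K : ℕ) (D D1 a η ν : ℝ) (s : ℕ → ℕ → ℝ), Num K D D1 a η ν s →
    ∃ u, Ramps K D D1 a η (C / a ^ 8) u := by
  obtain ⟨C, hC, hr⟩ := exists_ramp
  refine ⟨C, hC, fun K D D1 a η ν s hN => ?_⟩
  have ha := hN.a_pos
  have hD := hN.D_ge
  have ha1 : a ≤ 1 := by linarith [hN.a_le, hN.η_le]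
  have H : ∀ i : ℕ, ∃ u : ℝ → ℝ, Bd 4 (C / a ^ 8) u ∧ (∀ x, 0 ≤ u x ∧ u x ≤ 1) ∧ (i ≤ K →
      (∀ x, x ≤ rl D D1 a i → u x = 0) ∧ (∀ x, rr K D D1 a i ≤ x → u x = 1) ∧
        ∫ x, deriv u x ^ 2 ≤ 1 / (rr K D D1 a i - rl D D1 a i - 2 * a)) := by
    intro i
    by_cases hi : i ≤ K
    · obtain ⟨u, h1, h2, h3⟩ := hr a (rl D D1 a i) (rr K D D1 a i) ha ha1 (by linarith [phat_len hN hi])
      exact ⟨u, h1, h2, fun _ => h3⟩
    · obtain ⟨u, h1, h2, -⟩ := hr a 0 (0 + 2 * a + 1) ha ha1 le_rfl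
      exact ⟨u, h1, h2, fun h => absurd h hi⟩
  choose u h1 h2 h3 using H
  refine ⟨u, h1, h2, fun i hi => (h3 i hi).1, fun i hi => (h3 i hi).2.1, fun i h0 hi => ?_, fun i hi => ?_⟩
  · refine (h3 i hi.le).2.2.trans ?_
    have hl := phat_len hN hi.le
    rw [phat_len_in h0 hi] at hl ⊢
    rw [div_le_div_iff₀ (by linarith) (by linarith)]
    have e1 := hN.D1_le
    have e2 := hN.a_le
    have e3 := hN.η_le
    have e4 := hN.η_pos
    have e5 : 100 * η ≤ η * D := by nlinarith
    have e6 : (1 - 53 / 50 * η) * D ≤ D - D1 - 6 * a := by nlinarith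
    have e7 : (1 + 2 * η) * ((1 - 53 / 50 * η) * D) ≤ (1 + 2 * η) * (D - D1 - 6 * a) := by gcongr
    have e8 : η * (η * D) ≤ 1 / 100 * (η * D) := by gcongr
    nlinarith
  · refine (h3 i hi).2.2.trans ?_
    have hl := phat_len hN hi
    rw [div_le_div_iff₀ (by linarith) (by linarith)]
    linarith

theorem rl_le_rr (hN : Num K D D1 a η ν s) {i : ℕ} (hi : i ≤ K) : rl D D1 a i ≤ rr K D D1 a i := by
  linarith [phat_len hN hi, hN.D_ge, hN.a_pos]

theorem rr_le_rl (hN : Num K D D1 a η ν s) {i j : ℕ} (hij : i < j) (hj : j ≤ K) :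
    rr K D D1 a i + 1 ≤ rl D D1 a j := by
  unfold rr rl
  rw [if_neg (by omega), if_neg (by omega)]
  linarith [cen_mono (show 0 ≤ D by linarith [hN.D_ge]) (show i ≤ j - 1 by omega), hN.D1_ge, hN.a_pos]

theorem phat_rl_mono (hN : Num K D D1 a η ν s) {i j : ℕ} (hij : i ≤ j) (hj : j ≤ K) :
    rl D D1 a i ≤ rl D D1 a j := by
  rcases hij.eq_or_lt with rfl | h
  · exact le_rfl
  · linarith [rl_le_rr hN (hij.trans hj), rr_le_rl hN h hj]

theorem phat_rr_mono (hN : Num K D D1 a η ν s) {i j : ℕ} (hij : i ≤ j) (hj : j ≤ K) :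
    rr K D D1 a i ≤ rr K D D1 a j := by
  rcases hij.eq_or_lt with rfl | h
  · exact le_rfl
  · linarith [rl_le_rr hN hj, rr_le_rl hN h hj]

theorem phat_left (hN : Num K D D1 a η ν s) (hu : Ramps K D D1 a η M u) {i : ℕ} (hi : i < K) {x : ℝ}
    (hx : x ≤ rl D D1 a i) : hat u i x = 0 := by
  unfold hat
  rw [hu.zero i hi.le x hx, hu.zero (i + 1) hi x (hx.trans (phat_rl_mono hN (Nat.le_succ i) hi)), sub_zero]

theorem phat_right (hN : Num K D D1 a η ν s) (hu : Ramps K D D1 a η M u) {i : ℕ} (hi : i < K) {x : ℝ}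
    (hx : rr K D D1 a (i + 1) ≤ x) : hat u i x = 0 := by
  unfold hat
  rw [hu.one (i + 1) hi x hx, hu.one i hi.le x ((phat_rr_mono hN (Nat.le_succ i) hi).trans hx), sub_self]

/-- where `u (i+1) > 0`, `u i = 1` -/
theorem hat_mem (hN : Num K D D1 a η ν s) (hu : Ramps K D D1 a η M u) {i : ℕ} (hi : i < K) (x : ℝ) :
    0 ≤ hat u i x ∧ hat u i x ≤ 1 := by
  unfold hat
  refine ⟨?_, by linarith [(hu.mem i x).2, (hu.mem (i + 1) x).1]⟩
  rcases le_total x (rl D D1 a (i + 1)) with h | h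
  · rw [hu.zero (i + 1) hi x h]; linarith [(hu.mem i x).1]
  · rw [hu.one i hi.le x (by linarith [rr_le_rl hN (Nat.lt_succ_self i) hi])]
    linarith [(hu.mem (i + 1) x).2]

/-- telescoping -/
theorem sum_hat_le (hu : Ramps K D D1 a η M u) (x : ℝ) : ∑ i ∈ Finset.range K, hat u i x ≤ 1 := by
  unfold hat
  rw [Finset.sum_range_sub' (fun i => u i x)]
  linarith [(hu.mem 0 x).2, (hu.mem K x).1]

theorem hat_eq_ite (hN : Num K D D1 a η ν s) (hu : Ramps K D D1 a η M u) {i i' : ℕ} (hi : i < K) (hi' : i' < K)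
    {x : ℝ} (hx : |x - cen D i| ≤ D1 / 2 + 2 * a) : hat u i' x = if i' = i then 1 else 0 := by
  rw [abs_le] at hx
  have h1 : rr K D D1 a i ≤ x := by
    unfold rr; rw [if_neg hi.ne]; linarith [hx.1]
  have h2 : x ≤ rl D D1 a (i + 1) := by
    unfold rl; rw [if_neg (Nat.succ_ne_zero i), Nat.add_sub_cancel]; linarith [hx.2]
  rcases lt_trichotomy i' i with h | rfl | h
  · rw [if_neg h.ne]
    exact phat_right hN hu hi' ((phat_rr_mono hN h hi.le).trans h1)
  · rw [if_pos rfl]
    unfold hat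
    rw [hu.one i' hi.le x h1, hu.zero (i' + 1) hi x h2, sub_zero]
  · rw [if_neg h.ne']
    exact phat_left hN hu hi' (h2.trans (phat_rl_mono hN h hi'.le))

theorem hat_far (hN : Num K D D1 a η ν s) (hu : Ramps K D D1 a η M u) {i : ℕ} (hi : i < K) {x : ℝ}
    (hx : D ≤ |x - cen D i|) : hat u i x = 0 := by
  have hD := hN.D_ge
  have h1 := hN.D1_ge
  have ha := hN.a_pos
  rcases le_abs.1 hx with h | h
  · refine phat_right hN hu hi ?_
    unfold rr
    split_ifs with hK
    · have := cen_pred hN.K_pos D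
      rw [← hK, Nat.add_sub_cancel] at this
      rw [← hK]
      linarith
    · rw [cen_succ]; linarith
  · refine phat_left hN hu hi ?_
    unfold rl
    split_ifs with h0
    · subst h0
      rw [cen_zero] at h
      linarith
    · obtain ⟨k, rfl⟩ : ∃ k, i = k + 1 := ⟨i - 1, by omega⟩
      rw [cen_succ] at h
      rw [Nat.add_sub_cancel]
      linarith

theorem hat_out (hN : Num K D D1 a η ν s) (hu : Ramps K D D1 a η M u) {i : ℕ} (hi : i < K) {x : ℝ}
    (hx : x ∉ Icc (3 * D / 4) (D * K + D / 4)) : hat u i x = 0 := by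
  rw [mem_Icc, not_and_or, not_le, not_le] at hx
  rcases hx with h | h
  · refine phat_left hN hu hi (le_trans ?_ (phat_rl_mono hN (Nat.zero_le i) hi.le))
    unfold rl; rw [if_pos rfl]; exact h.le
  · refine phat_right hN hu hi ((phat_rr_mono hN hi le_rfl).trans ?_)
    unfold rr; rw [if_pos rfl]; exact h.le

theorem bd_hat (hu : Ramps K D D1 a η M u) (i : ℕ) : Bd 4 (2 * M) (hat u i) := by
  rw [two_mul]
  exact (hu.bd i).sub (hu.bd (i + 1))

/-- Jensen for a sub-probability vector -/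
theorem sq_sum_le {ι : Type} (S : Finset ι) {w : ι → ℝ} (hw : ∀ i ∈ S, 0 ≤ w i) (h1 : ∑ i ∈ S, w i ≤ 1)
    (b : ι → ℝ) : (∑ i ∈ S, b i * w i) ^ 2 ≤ ∑ i ∈ S, b i ^ 2 * w i := by
  have h2 : 0 ≤ ∑ i ∈ S, b i ^ 2 * w i := Finset.sum_nonneg fun i hi => mul_nonneg (sq_nonneg _) (hw i hi)
  refine (Finset.sum_sq_le_sum_mul_sum_of_sq_le_mul S (f := fun i => b i ^ 2 * w i) (g := w)
    (fun i hi => mul_nonneg (sq_nonneg _) (hw i hi)) hw fun i _ => le_of_eq (by ring)).trans ?_
  exact mul_le_of_le_one_right h2 h1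

theorem sum2_hat_le (hN : Num K D D1 a η ν s) (hu : Ramps K D D1 a η M u) (y : P2) :
    (sum2 K fun i j => hat u i y.1 * hat u j y.2) ≤ 1 := by
  unfold sum2
  rw [← Finset.sum_mul_sum]
  exact mul_le_one₀ (sum_hat_le hu _)
    (Finset.sum_nonneg fun j hj => (hat_mem hN hu (Finset.mem_range.1 hj) _).1) (sum_hat_le hu _)

theorem comb_sq_le (hN : Num K D D1 a η ν s) (hu : Ramps K D D1 a η M u) (β : ℕ → ℕ → ℝ) (y : P2) :
    comb K u β y ^ 2 ≤ sum2 K fun i j => β i j ^ 2 := by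
  have h1 := sum2_hat_le hN hu y
  unfold comb
  unfold sum2 at h1 ⊢
  rw [← Finset.sum_product'] at h1
  rw [← Finset.sum_product', ← Finset.sum_product']
  have hm : ∀ p ∈ Finset.range K ×ˢ Finset.range K,
      0 ≤ hat u p.1 y.1 * hat u p.2 y.2 ∧ hat u p.1 y.1 * hat u p.2 y.2 ≤ 1 := by
    intro p hp
    rw [Finset.mem_product, Finset.mem_range, Finset.mem_range] at hp
    have e1 := hat_mem hN hu hp.1 y.1
    have e2 := hat_mem hN hu hp.2 y.2
    exact ⟨mul_nonneg e1.1 e2.1, mul_le_one₀ e1.2 e2.1 e2.2⟩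
  refine (sq_sum_le _ (fun p hp => (hm p hp).1) h1 fun p => β p.1 p.2).trans ?_
  exact Finset.sum_le_sum fun p hp => mul_le_of_le_one_right (sq_nonneg _) (hm p hp).2

theorem comb_isl (hN : Num K D D1 a η ν s) (hu : Ramps K D D1 a η M u) (β : ℕ → ℕ → ℝ) {i j : ℕ} (hi : i < K)
    (hj : j < K) {y : P2} (hy : y ∈ sqr D i j (D1 / 2 + 2 * a)) : comb K u β y = β i j := by
  rw [mem_sqr] at hy
  have h1 : |y.1 - cen D i| ≤ D1 / 2 + 2 * a := abs_le.2 ⟨by linarith [hy.1.1], by linarith [hy.1.2]⟩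
  have h2 : |y.2 - cen D j| ≤ D1 / 2 + 2 * a := abs_le.2 ⟨by linarith [hy.2.1], by linarith [hy.2.2]⟩
  unfold comb
  rw [sum2_congr (G := fun i' j' => if i' = i then if j' = j then β i' j' else 0 else 0) fun i' hi' j' hj' => by
    rw [hat_eq_ite hN hu hi hi' h1, hat_eq_ite hN hu hj hj' h2]
    split_ifs <;> simp]
  unfold sum2
  rw [Finset.sum_eq_single i]
  · simp [hj]
  · intro i' _ h; simp [h]
  · intro h; exact absurd (Finset.mem_range.2 hi) h

theorem comb_out (hN : Num K D D1 a η ν s) (hu : Ramps K D D1 a η M u) (β : ℕ → ℕ → ℝ) {y : P2}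
    (hy : y ∉ inner4 K D) : comb K u β y = 0 := by
  unfold comb
  rw [sum2_congr (G := fun _ _ => 0) fun i hi j hj => ?_]
  · simp [sum2]
  · unfold inner4 at hy
    rw [mem_prod, not_and_or] at hy
    rcases hy with h | h
    · rw [hat_out hN hu hi h]; simp
    · rw [hat_out hN hu hj h]; simp

theorem inner4_subset_allc (hD : 0 < D) : inner4 K D ⊆ allc K D := by
  have h : Icc (3 * D / 4) (D * K + D / 4) ⊆ Ico (D / 2) (D * K + D / 2) := fun x hx =>
    ⟨by linarith [hx.1], by linarith [hx.2]⟩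
  exact prod_mono h h

theorem cc1_comb (hN : Num K D D1 a η ν s) (hu : Ramps K D D1 a η M u) (β : ℕ → ℕ → ℝ) : Cc1 (comb K u β) := by
  constructor
  · have h : ∀ i, ContDiff ℝ 1 (hat u i) := fun i => (bd_hat hu i).1.of_le (by norm_num)
    unfold comb sum2
    exact ContDiff.sum fun i _ => ContDiff.sum fun j _ =>
      contDiff_const.mul (((h i).comp contDiff_fst).mul ((h j).comp contDiff_snd))
  · exact HasCompactSupport.intro (K := inner4 K D) (isCompact_Icc.prod isCompact_Icc)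
      fun y hy => comb_out hN hu β hy

theorem comb_swap (β : ℕ → ℕ → ℝ) (y : P2) : comb K u (fun i j => β j i) y = comb K u β y.swap := by
  unfold comb
  rw [← sum2_swap]
  exact sum2_congr fun i _ j _ => by simp only [Prod.fst_swap, Prod.snd_swap]; ring

theorem lin_φF (ρ : P2 → ℝ) (α : Fin K × Fin K → ℝ) :
    lin (fun p : Fin K × Fin K => φF ρ s u p.1 p.2) α =
      fun y => √(ρ y) * comb K u (fun i j => ext α i j / s i j) y := by
  funext y
  unfold lin φF comb
  rw [← sum_eq_sum2, Finset.mul_sum]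
  exact Finset.sum_congr rfl fun p _ => by simp only [ext_coe]; ring

end Crest.Agent.R338
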