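import Crest.Agent.R338.Plane_Defs

/-!
# Planar package: the local form of `S`

Helper prefix `ploc_`.  Only the vanishing lemmas of `Sig` (`bump_eq_zero`, `gap_eq_zero`, `stepUp_eq_one`, ...) and
`cen_add_le`, `cen_succ` are used; collapse the double sums with `Finset.sum_eq_single` / `Finset.sum_eq_zero`
(or `Finset.sum_eq_add` for the two wires `i - 1` and `i`).  Note `1 ≤ sd ≤ D1 ≤ D / 100`, `a ≤ 1 / 100`.
-/

set_option autoImplicit false
set_option linter.dupNamespace false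
set_option linter.unusedVariables false

noncomputable section

namespace Crest.Agent.R338

open Matrix MeasureTheory Set
open Crest.MathPhysics.ElectronicCoulomb

/-- amplitude of the wire to the right / left / up / down of the island `(i, j)` -/
def Geo.aR (g : Geo ℝ) (i j : ℕ) : ℝ := if i + 1 < g.K then g.Ssea - g.lvH i j else 0
def Geo.aL (g : Geo ℝ) (i j : ℕ) : ℝ := if 0 < i then g.Ssea - g.lvH (i - 1) j else 0
def Geo.aU (g : Geo ℝ) (i j : ℕ) : ℝ := if j + 1 < g.K then g.Ssea - g.lvV i j else 0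
def Geo.aD (g : Geo ℝ) (i j : ℕ) : ℝ := if 0 < j then g.Ssea - g.lvV i (j - 1) else 0

/-- `Ssea - S` on the closed cell `(i, j)` -/
def Geo.Tloc (g : Geo ℝ) (i j : ℕ) (x y : ℝ) : ℝ :=
  g.Ssea * (bump g.a (cen g.D i - g.sd i j / 2) (cen g.D i + g.sd i j / 2) x *
      bump g.a (cen g.D j - g.sd i j / 2) (cen g.D j + g.sd i j / 2) y) +
    (g.aR i j * (1 - stepDn g.a (cen g.D i + g.sd i j / 2) x) +
      g.aL i j * (1 - stepUp g.a (cen g.D i - g.sd i j / 2) x)) *
        bump g.a (cen g.D j - 1 / 2) (cen g.D j + 1 / 2) y +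
    bump g.a (cen g.D i - 1 / 2) (cen g.D i + 1 / 2) x *
      (g.aU i j * (1 - stepDn g.a (cen g.D j + g.sd i j / 2) y) +
        g.aD i j * (1 - stepUp g.a (cen g.D j - g.sd i j / 2) y))

theorem GeoS.amp_mem {g : Geo ℝ} {D1 : ℝ} (h : GeoS g D1) {i j : ℕ} (hi : i < g.K) (hj : j < g.K) :
    (0 ≤ g.aR i j ∧ g.aR i j ≤ g.Ssea) ∧ (0 ≤ g.aL i j ∧ g.aL i j ≤ g.Ssea) ∧
      (0 ≤ g.aU i j ∧ g.aU i j ≤ g.Ssea) ∧ (0 ≤ g.aD i j ∧ g.aD i j ≤ g.Ssea) := by
  have h0 := h.sea_nonneg
  unfold Geo.aR Geo.aL Geo.aU Geo.aD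
  refine ⟨?_, ?_, ?_, ?_⟩
  · split_ifs with hc
    · have := h.lvH i j hc hj; constructor <;> linarith [this.1, this.2]
    · exact ⟨le_rfl, h0⟩
  · split_ifs with hc
    · have := h.lvH (i - 1) j (by omega) hj; constructor <;> linarith [this.1, this.2]
    · exact ⟨le_rfl, h0⟩
  · split_ifs with hc
    · have := h.lvV i j hi hc; constructor <;> linarith [this.1, this.2]
    · exact ⟨le_rfl, h0⟩
  · split_ifs with hc
    · have := h.lvV i (j - 1) hi (by omega); constructor <;> linarith [this.1, this.2]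
    · exact ⟨le_rfl, h0⟩

/-- island terms -/
def Geo.TI (g : Geo ℝ) (x y : ℝ) : ℝ :=
  ∑ i ∈ Finset.range g.K, ∑ j ∈ Finset.range g.K,
    bump g.a (cen g.D i - g.sd i j / 2) (cen g.D i + g.sd i j / 2) x *
      bump g.a (cen g.D j - g.sd i j / 2) (cen g.D j + g.sd i j / 2) y

/-- horizontal wires -/
def Geo.TH (g : Geo ℝ) (x y : ℝ) : ℝ :=
  ∑ i ∈ Finset.range (g.K - 1), ∑ j ∈ Finset.range g.K, (g.Ssea - g.lvH i j) *
    (gap g.a (cen g.D i + g.sd i j / 2) (cen g.D (i + 1) - g.sd (i + 1) j / 2) x *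
      bump g.a (cen g.D j - 1 / 2) (cen g.D j + 1 / 2) y)

theorem ploc_S (g : Geo ℝ) (x y : ℝ) :
    g.S (x, y) = g.Ssea - (g.Ssea * g.TI x y + g.TH x y + g.swap.TH y x) := by
  unfold Geo.S Geo.TI Geo.TH Geo.swap
  simp only
  rw [Finset.sum_comm (s := Finset.range g.K) (t := Finset.range (g.K - 1))]
  simp only [mul_comm]

theorem ploc_bump {a c r x : ℝ} (ha : 0 < a) (h : r + a ≤ |x - c|) : bump a (c - r) (c + r) x = 0 := by
  apply bump_eq_zero ha
  rcases le_abs.1 h with h | h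
  · right; linarith
  · left; linarith

/-- a point of the closed cell interval `i` is at distance `≥ D / 2` from the other centres -/
theorem ploc_far {D x : ℝ} (hD : 0 ≤ D) {i i' : ℕ} (hne : i' ≠ i) (h1 : cen D i - D / 2 ≤ x)
    (h2 : x ≤ cen D i + D / 2) : D / 2 ≤ |x - cen D i'| := by
  rcases lt_or_gt_of_ne hne with hl | hl
  · exact le_abs.2 (Or.inl (by linarith [cen_add_le hD hl]))
  · exact le_abs.2 (Or.inr (by linarith [cen_add_le hD hl]))

theorem ploc_TI_zero {g : Geo ℝ} {D1 : ℝ} (h : GeoS g D1) {x : ℝ} (y : ℝ)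
    (hx : ∀ i < g.K, D1 / 2 + g.a ≤ |x - cen g.D i|) : g.TI x y = 0 := by
  refine Finset.sum_eq_zero fun i hi => Finset.sum_eq_zero fun j hj => ?_
  rw [Finset.mem_range] at hi hj
  rw [ploc_bump h.a_pos (by linarith [hx i hi, h.s_le i hi j hj]), zero_mul]

theorem ploc_TH_zero {g : Geo ℝ} {D1 : ℝ} (h : GeoS g D1) (x : ℝ) {y : ℝ}
    (hy : ∀ j < g.K, 1 / 2 + g.a ≤ |y - cen g.D j|) : g.TH x y = 0 := by
  refine Finset.sum_eq_zero fun i hi => Finset.sum_eq_zero fun j hj => ?_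
  rw [Finset.mem_range] at hi hj
  rw [ploc_bump h.a_pos (hy j hj), mul_zero, mul_zero]

theorem ploc_TI_loc {g : Geo ℝ} {D1 : ℝ} (h : GeoS g D1) {i j : ℕ} (hi : i < g.K) (hj : j < g.K) {x y : ℝ}
    (hxy : (x, y) ∈ sqr g.D i j (g.D / 2)) :
    g.TI x y = bump g.a (cen g.D i - g.sd i j / 2) (cen g.D i + g.sd i j / 2) x *
      bump g.a (cen g.D j - g.sd i j / 2) (cen g.D j + g.sd i j / 2) y := by
  have hD1 := h.D1_ge
  have hD := h.D1_le
  have ha := h.a_le
  unfold Geo.TI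
  rw [Finset.sum_eq_single_of_mem i (Finset.mem_range.2 hi), Finset.sum_eq_single_of_mem j (Finset.mem_range.2 hj)]
  · intro j' hj' hne
    rw [Finset.mem_range] at hj'
    have := ploc_far (by linarith) hne hxy.2.1 hxy.2.2
    rw [ploc_bump (x := y) h.a_pos (by linarith [h.s_le i hi j' hj']), mul_zero]
  · intro i' hi' hne
    rw [Finset.mem_range] at hi'
    refine Finset.sum_eq_zero fun j' hj' => ?_
    rw [Finset.mem_range] at hj'
    have := ploc_far (by linarith) hne hxy.1.1 hxy.1.2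
    rw [ploc_bump (x := x) h.a_pos (by linarith [h.s_le i' hi' j' hj']), zero_mul]

theorem ploc_TH_row {g : Geo ℝ} {D1 : ℝ} (h : GeoS g D1) {j : ℕ} (hj : j < g.K) (x : ℝ) {y : ℝ}
    (h1 : cen g.D j - g.D / 2 ≤ y) (h2 : y ≤ cen g.D j + g.D / 2) :
    g.TH x y = (∑ i ∈ Finset.range (g.K - 1), (g.Ssea - g.lvH i j) *
      gap g.a (cen g.D i + g.sd i j / 2) (cen g.D (i + 1) - g.sd (i + 1) j / 2) x) *
        bump g.a (cen g.D j - 1 / 2) (cen g.D j + 1 / 2) y := by
  have hD1 := h.D1_ge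
  have hD := h.D1_le
  have ha := h.a_le
  unfold Geo.TH
  rw [Finset.sum_mul]
  refine Finset.sum_congr rfl fun i hi => ?_
  rw [Finset.sum_eq_single_of_mem j (Finset.mem_range.2 hj), mul_assoc]
  intro j' hj' hne
  have := ploc_far (by linarith) hne h1 h2
  rw [ploc_bump (x := y) h.a_pos (by linarith), mul_zero, mul_zero]

theorem ploc_row {g : Geo ℝ} {D1 : ℝ} (h : GeoS g D1) {i j : ℕ} (hi : i < g.K) (hj : j < g.K) {x : ℝ}
    (h1 : cen g.D i - g.D / 2 ≤ x) (h2 : x ≤ cen g.D i + g.D / 2) :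
    ∑ i' ∈ Finset.range (g.K - 1), (g.Ssea - g.lvH i' j) *
      gap g.a (cen g.D i' + g.sd i' j / 2) (cen g.D (i' + 1) - g.sd (i' + 1) j / 2) x =
    g.aR i j * (1 - stepDn g.a (cen g.D i + g.sd i j / 2) x) +
      g.aL i j * (1 - stepUp g.a (cen g.D i - g.sd i j / 2) x) := by
  have hD1 := h.D1_ge
  have hD := h.D1_le
  have ha := h.a_le
  have hD0 : 0 ≤ g.D := by linarith
  have key : ∀ i' ∈ Finset.range (g.K - 1), (g.Ssea - g.lvH i' j) *
      gap g.a (cen g.D i' + g.sd i' j / 2) (cen g.D (i' + 1) - g.sd (i' + 1) j / 2) x =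
      (if i' = i then (g.Ssea - g.lvH i j) * (1 - stepDn g.a (cen g.D i + g.sd i j / 2) x) else 0) +
      (if i' = i - 1 then (if 0 < i then
        (g.Ssea - g.lvH (i - 1) j) * (1 - stepUp g.a (cen g.D i - g.sd i j / 2) x) else 0) else 0) := by
    intro i' hi'
    rw [Finset.mem_range] at hi'
    have s1 := h.s_ge i' (by omega) j hj
    have s2 := h.s_le i' (by omega) j hj
    have s3 := h.s_ge (i' + 1) (by omega) j hj
    have s4 := h.s_le (i' + 1) (by omega) j hj
    by_cases e1 : i' = i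
    · subst e1
      rw [if_pos rfl]
      have : (if i' = i' - 1 then (if 0 < i' then
          (g.Ssea - g.lvH (i' - 1) j) * (1 - stepUp g.a (cen g.D i' - g.sd i' j / 2) x) else 0) else 0) = 0 := by
        split_ifs with c1 c2
        · omega
        · rfl
        · rfl
      rw [this, add_zero]
      unfold gap
      rw [stepUp_eq_zero h.a_pos (by rw [cen_succ]; linarith), sub_zero, mul_one]
    · rw [if_neg e1, zero_add]
      by_cases e2 : i' + 1 = i
      · subst e2
        rw [if_pos (by omega), if_pos (by omega), Nat.add_sub_cancel]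
        unfold gap
        rw [stepDn_eq_zero h.a_pos (by rw [cen_succ] at h1; linarith), sub_zero, one_mul]
      · have : (if i' = i - 1 then (if 0 < i then
            (g.Ssea - g.lvH (i - 1) j) * (1 - stepUp g.a (cen g.D i - g.sd i j / 2) x) else 0) else 0) = 0 := by
          split_ifs with c1 c2
          · omega
          · rfl
          · rfl
        rw [this, gap_eq_zero h.a_pos, mul_zero]
        rcases lt_or_gt_of_ne e1 with hl | hl
        · right
          linarith [cen_add_le hD0 (show i' + 1 < i by omega)]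
        · left
          linarith [cen_add_le hD0 hl]
  rw [Finset.sum_congr rfl key, Finset.sum_add_distrib, Finset.sum_ite_eq', Finset.sum_ite_eq']
  unfold Geo.aR Geo.aL
  simp only [Finset.mem_range]
  congr 1
  · by_cases c : i + 1 < g.K
    · rw [if_pos (by omega), if_pos c]
    · rw [if_neg (by omega), if_neg c, zero_mul]
  · by_cases c : 0 < i
    · rw [if_pos (by omega), if_pos c, if_pos c]
    · rw [if_neg c, if_neg c, zero_mul, ite_self]

/-- In the closed cell only the island and its (at most four) wires contribute; in `gap a β α x` one of the two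
factors is `1`. -/
theorem GeoS.S_loc {g : Geo ℝ} {D1 : ℝ} (h : GeoS g D1) {i j : ℕ} (hi : i < g.K) (hj : j < g.K) {x y : ℝ}
    (hxy : (x, y) ∈ sqr g.D i j (g.D / 2)) : g.S (x, y) = g.Ssea - g.Tloc i j x y := by
  rw [ploc_S, ploc_TI_loc h hi hj hxy, ploc_TH_row h hj x hxy.2.1 hxy.2.2, ploc_row h hi hj hxy.1.1 hxy.1.2,
    ploc_TH_row h.swap (j := i) hi y hxy.1.1 hxy.1.2, ploc_row h.swap (i := j) (j := i) hj hi hxy.2.1 hxy.2.2]
  unfold Geo.Tloc
  rw [mul_comm _ (bump g.swap.a _ _ x)]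
  rfl

theorem ploc_out_far {g : Geo ℝ} {D1 : ℝ} (h : GeoS g D1) {x : ℝ}
    (hx : x ≤ cen g.D 0 - D1 / 2 - g.a ∨ cen g.D (g.K - 1) + D1 / 2 + g.a ≤ x) :
    ∀ i < g.K, D1 / 2 + g.a ≤ |x - cen g.D i| := by
  have hD0 : 0 ≤ g.D := by linarith [h.D1_ge, h.D1_le]
  intro i hi
  rcases hx with hx | hx
  · exact le_abs.2 (Or.inr (by linarith [cen_mono hD0 (Nat.zero_le i)]))
  · exact le_abs.2 (Or.inl (by linarith [cen_mono hD0 (show i ≤ g.K - 1 by omega)]))

/-- to the left of the first and to the right of the last column of islands all terms vanish -/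
theorem GeoS.S_out {g : Geo ℝ} {D1 : ℝ} (h : GeoS g D1) {x : ℝ} (y : ℝ)
    (hx : x ≤ cen g.D 0 - D1 / 2 - g.a ∨ cen g.D (g.K - 1) + D1 / 2 + g.a ≤ x) : g.S (x, y) = g.Ssea := by
  have hD1 := h.D1_ge
  have hD0 : 0 ≤ g.D := by linarith [h.D1_le]
  have ha := h.a_pos
  have hf := ploc_out_far h hx
  have hH : g.TH x y = 0 := by
    refine Finset.sum_eq_zero fun i hi => Finset.sum_eq_zero fun j hj => ?_
    rw [Finset.mem_range] at hi hj
    rw [gap_eq_zero h.a_pos, zero_mul, mul_zero]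
    rcases hx with hx | hx
    · left; linarith [cen_mono hD0 (Nat.zero_le i), h.s_ge i (by omega) j hj]
    · right; linarith [cen_mono hD0 (show i + 1 ≤ g.K - 1 by omega), h.s_ge (i + 1) (by omega) j hj]
  rw [ploc_S, ploc_TI_zero h y hf, hH, ploc_TH_zero h.swap y fun i hi => le_trans (by
    change 1 / 2 + g.a ≤ _; linarith) (hf i hi)]
  ring

/-- away from the columns of islands and from the rows of wires all terms vanish -/
theorem GeoS.S_sea {g : Geo ℝ} {D1 : ℝ} (h : GeoS g D1) {x y : ℝ}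
    (hx : ∀ i < g.K, D1 / 2 + g.a ≤ |x - cen g.D i|) (hy : ∀ j < g.K, 1 / 2 + g.a ≤ |y - cen g.D j|) :
    g.S (x, y) = g.Ssea := by
  have hD1 := h.D1_ge
  rw [ploc_S, ploc_TI_zero h y hx, ploc_TH_zero h x hy, ploc_TH_zero h.swap y fun i hi => le_trans (by
    change 1 / 2 + g.a ≤ _; linarith) (hx i hi)]
  ring

/-- in the gap only the wire `(i, j)` contributes, with a factor in `[0, 1]` -/
theorem GeoS.S_gap {g : Geo ℝ} {D1 : ℝ} (h : GeoS g D1) {i j : ℕ} (hi : i + 1 < g.K) (hj : j < g.K) {x y : ℝ}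
    (h1 : cen g.D i + D1 / 2 + g.a ≤ x) (h2 : x ≤ cen g.D (i + 1) - D1 / 2 - g.a)
    (hy : |y - cen g.D j| ≤ 1 / 2 + g.a) : g.lvH i j ≤ g.S (x, y) := by
  have hD1 := h.D1_ge
  have hD := h.D1_le
  have hD0 : 0 ≤ g.D := by linarith
  have ha := h.a_pos
  have ha1 := h.a_le
  have hf : ∀ i' < g.K, D1 / 2 + g.a ≤ |x - cen g.D i'| := by
    intro i' _
    by_cases c : i' ≤ i
    · exact le_abs.2 (Or.inl (by linarith [cen_mono hD0 c]))
    · exact le_abs.2 (Or.inr (by linarith [cen_mono hD0 (show i + 1 ≤ i' by omega)]))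
  rw [abs_le] at hy
  rw [ploc_S, ploc_TI_zero h y hf, ploc_TH_zero h.swap y fun i hi => le_trans (by
    change 1 / 2 + g.a ≤ _; linarith) (hf i hi), ploc_TH_row h hj x (by linarith [hy.1]) (by linarith [hy.2]),
    Finset.sum_eq_single_of_mem i (Finset.mem_range.2 (by omega))]
  · have b1 := gap_mem g.a (cen g.D i + g.sd i j / 2) (cen g.D (i + 1) - g.sd (i + 1) j / 2) x
    have b2 := bump_mem g.a (cen g.D j - 1 / 2) (cen g.D j + 1 / 2) y
    have b3 := (h.lvH i j hi hj).2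
    have b4 := mul_le_of_le_one_right (sub_nonneg.2 b3) (mul_le_one₀ b1.2 b2.1 b2.2)
    rw [mul_assoc]
    linarith
  · intro i' hi' hne
    rw [Finset.mem_range] at hi'
    rw [gap_eq_zero h.a_pos, mul_zero]
    rcases lt_or_gt_of_ne hne with hl | hl
    · right
      linarith [cen_mono hD0 (show i' + 1 ≤ i by omega), h.s_ge (i' + 1) (by omega) j hj]
    · left
      linarith [cen_mono hD0 (show i + 1 ≤ i' by omega), h.s_ge i' (by omega) j hj]

end Crest.Agent.R338
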