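import Crest.Agent.R338.Plane_Loc

/-!
# Planar package: the design facts

Helper prefix `prho_`.  All statements about the `y` direction follow from those about the `x` direction for `g.swap`
(`GeoS.swap`, `Geo.swap_S`).
-/

set_option autoImplicit false
set_option linter.dupNamespace false
set_option linter.unusedVariables false

noncomputable section

namespace Crest.Agent.R338

open Matrix MeasureTheory Set
open Crest.MathPhysics.ElectronicCoulomb

theorem prho_stepUp_le {a α α' : ℝ} (ha : 0 < a) (h : α' ≤ α) (x : ℝ) : stepUp a α x ≤ stepUp a α' x := by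
  unfold stepUp
  apply sig_mono
  gcongr

theorem prho_stepDn_le {a β β' : ℝ} (ha : 0 < a) (h : β ≤ β') (x : ℝ) : stepDn a β x ≤ stepDn a β' x := by
  unfold stepDn
  apply sig_mono
  gcongr

theorem prho_bump_le {a c r r' : ℝ} (ha : 0 < a) (h : r ≤ r') (x : ℝ) :
    bump a (c - r) (c + r) x ≤ bump a (c - r') (c + r') x := by
  unfold bump
  exact mul_le_mul (prho_stepUp_le ha (by linarith) x) (prho_stepDn_le ha (by linarith) x)
    (stepDn_mem _ _ _).1 (stepUp_mem _ _ _).1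

theorem prho_anti {g : Geo ℝ} {D1 : ℝ} (h : GeoS g D1) {i j : ℕ} (hi : i < g.K) (hj : j < g.K) {x t : ℝ} (y : ℝ)
    (h1 : cen g.D i - 1 / 2 ≤ t) (h2 : t ≤ x) : g.Tloc i j x y ≤ g.Tloc i j t y := by
  have ha := h.a_pos
  have hs := h.s_ge i hi j hj
  obtain ⟨aR, aL, aU, aD⟩ := h.amp_mem hi hj
  have hb := prho_bump_le (c := cen g.D j) ha (show (1 : ℝ) / 2 ≤ g.sd i j / 2 by linarith) y
  have hb0 := bump_mem g.a (cen g.D j - 1 / 2) (cen g.D j + 1 / 2) y
  have hV : 0 ≤ g.aU i j * (1 - stepDn g.a (cen g.D j + g.sd i j / 2) y) +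
      g.aD i j * (1 - stepUp g.a (cen g.D j - g.sd i j / 2) y) :=
    add_nonneg (mul_nonneg aU.1 (sub_nonneg.2 (stepDn_mem _ _ _).2))
      (mul_nonneg aD.1 (sub_nonneg.2 (stepUp_mem _ _ _).2))
  have d1 : stepDn g.a (cen g.D i + g.sd i j / 2) x ≤ stepDn g.a (cen g.D i + g.sd i j / 2) t := stepDn_anti ha h2
  have d2 : stepDn g.a (cen g.D i + 1 / 2) x ≤ stepDn g.a (cen g.D i + 1 / 2) t := stepDn_anti ha h2
  have hc : 0 ≤ g.Ssea * bump g.a (cen g.D j - g.sd i j / 2) (cen g.D j + g.sd i j / 2) y -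
      g.aR i j * bump g.a (cen g.D j - 1 / 2) (cen g.D j + 1 / 2) y :=
    sub_nonneg.2 (mul_le_mul aR.2 hb hb0.1 h.sea_nonneg)
  unfold Geo.Tloc
  generalize bump g.a (cen g.D j - g.sd i j / 2) (cen g.D j + g.sd i j / 2) y = B at *
  generalize bump g.a (cen g.D j - 1 / 2) (cen g.D j + 1 / 2) y = b at *
  generalize g.aU i j * (1 - stepDn g.a (cen g.D j + g.sd i j / 2) y) +
      g.aD i j * (1 - stepUp g.a (cen g.D j - g.sd i j / 2) y) = V at *
  unfold bump
  rw [stepUp_eq_one (x := x) ha (by linarith), stepUp_eq_one (x := t) ha (by linarith),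
    stepUp_eq_one (x := x) ha (by linarith), stepUp_eq_one (x := t) ha (by linarith)]
  have e1 := mul_le_mul_of_nonneg_left d1 hc
  have e2 := mul_le_mul_of_nonneg_right d2 hV
  linarith

theorem prho_mono {g : Geo ℝ} {D1 : ℝ} (h : GeoS g D1) {i j : ℕ} (hi : i < g.K) (hj : j < g.K) {x t : ℝ} (y : ℝ)
    (h1 : t ≤ cen g.D i + 1 / 2) (h2 : x ≤ t) : g.Tloc i j x y ≤ g.Tloc i j t y := by
  have ha := h.a_pos
  have hs := h.s_ge i hi j hj
  obtain ⟨aR, aL, aU, aD⟩ := h.amp_mem hi hj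
  have hb := prho_bump_le (c := cen g.D j) ha (show (1 : ℝ) / 2 ≤ g.sd i j / 2 by linarith) y
  have hb0 := bump_mem g.a (cen g.D j - 1 / 2) (cen g.D j + 1 / 2) y
  have hV : 0 ≤ g.aU i j * (1 - stepDn g.a (cen g.D j + g.sd i j / 2) y) +
      g.aD i j * (1 - stepUp g.a (cen g.D j - g.sd i j / 2) y) :=
    add_nonneg (mul_nonneg aU.1 (sub_nonneg.2 (stepDn_mem _ _ _).2))
      (mul_nonneg aD.1 (sub_nonneg.2 (stepUp_mem _ _ _).2))
  have d1 : stepUp g.a (cen g.D i - g.sd i j / 2) x ≤ stepUp g.a (cen g.D i - g.sd i j / 2) t := stepUp_mono ha h2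
  have d2 : stepUp g.a (cen g.D i - 1 / 2) x ≤ stepUp g.a (cen g.D i - 1 / 2) t := stepUp_mono ha h2
  have hc : 0 ≤ g.Ssea * bump g.a (cen g.D j - g.sd i j / 2) (cen g.D j + g.sd i j / 2) y -
      g.aL i j * bump g.a (cen g.D j - 1 / 2) (cen g.D j + 1 / 2) y :=
    sub_nonneg.2 (mul_le_mul aL.2 hb hb0.1 h.sea_nonneg)
  unfold Geo.Tloc
  generalize bump g.a (cen g.D j - g.sd i j / 2) (cen g.D j + g.sd i j / 2) y = B at *
  generalize bump g.a (cen g.D j - 1 / 2) (cen g.D j + 1 / 2) y = b at *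
  generalize g.aU i j * (1 - stepDn g.a (cen g.D j + g.sd i j / 2) y) +
      g.aD i j * (1 - stepUp g.a (cen g.D j - g.sd i j / 2) y) = V at *
  unfold bump
  rw [stepDn_eq_one (x := x) ha (by linarith), stepDn_eq_one (x := t) ha (by linarith),
    stepDn_eq_one (x := x) ha (by linarith), stepDn_eq_one (x := t) ha (by linarith)]
  have e1 := mul_le_mul_of_nonneg_left d1 hc
  have e2 := mul_le_mul_of_nonneg_right d2 hV
  linarith

/-- Unimodality.  With `U, Dn` the steps at `c ∓ s/2` and `b` the unit bumps: for `x ≥ c i - ½`, `U x = 1`, `b x = stepDn (c i + ½) x`,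
`Tloc = aR b(y) + (Ssea B(y) - aR b(y)) Dn(x) + V(y) stepDn (c i + ½) x` with nonnegative coefficients (`b ≤ B` because
`1 ≤ s`, `aR ≤ Ssea`), so `Tloc` is antitone in `x` on `[c i - ½, ∞)`; in the same way it is monotone on `(-∞, c i + ½]`. -/
theorem GeoS.S_uni {g : Geo ℝ} {D1 : ℝ} (h : GeoS g D1) {i j : ℕ} (hi : i < g.K) (hj : j < g.K) {x y t : ℝ}
    (hxy : (x, y) ∈ cell g.D i j) (h1 : min x (cen g.D i - 1 / 2) ≤ t) (h2 : t ≤ max x (cen g.D i + 1 / 2)) :
    g.S (t, y) ≤ g.S (x, y) := by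
  have hD : 100 ≤ g.D := by linarith [h.D1_ge, h.D1_le]
  have hxy' := cell_subset_sqr _ _ _ hxy
  have hx1 : cen g.D i - g.D / 2 ≤ x := hxy'.1.1
  have hx2 : x ≤ cen g.D i + g.D / 2 := hxy'.1.2
  have hty : (t, y) ∈ sqr g.D i j (g.D / 2) :=
    ⟨⟨le_trans (le_min hx1 (by linarith)) h1, h2.trans (max_le hx2 (by linarith))⟩, hxy'.2⟩
  rw [h.S_loc hi hj hxy', h.S_loc hi hj hty]
  refine sub_le_sub_left ?_ _
  rcases le_total t x with c | c
  · rcases min_le_iff.1 h1 with c' | c'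
    · rw [le_antisymm c c']
    · exact prho_anti h hi hj y c' c
  · rcases le_max_iff.1 h2 with c' | c'
    · rw [le_antisymm c c']
    · exact prho_mono h hi hj y c' c

/-- on the island `Tloc = Ssea` -/
theorem GeoS.S_isl {g : Geo ℝ} {D1 : ℝ} (h : GeoS g D1) {i j : ℕ} (hi : i < g.K) (hj : j < g.K) {y : P2}
    (hy : y ∈ sqr g.D i j (g.sd i j / 2)) : g.S y = 0 := by
  obtain ⟨x, y⟩ := y
  have ha := h.a_pos
  rw [h.S_loc hi hj (sqr_mono (by linarith [h.s_le i hi j hj, h.D1_le, h.D1_ge]) i j hy)]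
  unfold Geo.Tloc
  rw [bump_eq_one ha hy.1.1 hy.1.2, bump_eq_one ha hy.2.1 hy.2.2, stepDn_eq_one ha hy.1.2, stepUp_eq_one ha hy.1.1,
    stepDn_eq_one ha hy.2.2, stepUp_eq_one ha hy.2.1]
  ring

theorem prho_TH_nonneg {g : Geo ℝ} {D1 : ℝ} (h : GeoS g D1) (x y : ℝ) : 0 ≤ g.TH x y := by
  refine Finset.sum_nonneg fun i hi => Finset.sum_nonneg fun j hj => ?_
  rw [Finset.mem_range] at hi hj
  exact mul_nonneg (sub_nonneg.2 (h.lvH i j (by omega) hj).2) (mul_nonneg (gap_mem _ _ _ _).1 (bump_mem _ _ _ _).1)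

theorem prho_out {g : Geo ℝ} {D1 : ℝ} (h : GeoS g D1) {x : ℝ} (y : ℝ)
    (hx : x ∉ Ico (g.D / 2) (g.D * g.K + g.D / 2)) : g.S (x, y) = g.Ssea := by
  apply h.S_out
  rw [cen_zero, cen_pred h.K_pos]
  have := h.D1_ge
  have := h.D1_le
  have := h.a_le
  rcases not_and_or.1 hx with c | c
  · left; linarith [not_le.1 c]
  · right; linarith [not_lt.1 c]

/-- `S ≤ Ssea`: all terms are nonnegative.  `0 ≤ S`: in a cell use `S_uni` in both directions to move to the centre;
outside all cells (`mem_allc`) `S = Ssea` by `S_out` (and its mirror image). -/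
theorem GeoS.S_mem {g : Geo ℝ} {D1 : ℝ} (h : GeoS g D1) (y : P2) : 0 ≤ g.S y ∧ g.S y ≤ g.Ssea := by
  obtain ⟨x, y⟩ := y
  have hD : 100 ≤ g.D := by linarith [h.D1_ge, h.D1_le]
  constructor
  · by_cases hc : (x, y) ∈ allc g.K g.D
    · obtain ⟨i, hi, j, hj, hxy⟩ := (mem_allc (by linarith)).1 hc
      have h1 := h.S_uni hi hj (t := cen g.D i) hxy ((min_le_right _ _).trans (by linarith))
        (le_trans (by linarith) (le_max_right _ _))
      have hci : cen g.D i ∈ ci g.D i := ⟨by linarith, by linarith⟩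
      have h2 := h.swap.S_uni (i := j) (j := i) hj hi (x := y) (y := cen g.D i) (t := cen g.D j) ⟨hxy.2, hci⟩
        ((min_le_right _ _).trans (by change cen g.D j - 1 / 2 ≤ _; linarith))
        (le_trans (by change _ ≤ cen g.D j + 1 / 2; linarith) (le_max_right _ _))
      rw [g.swap_S, g.swap_S] at h2
      have hs := h.s_ge i hi j hj
      have h3 := h.S_isl hi hj (y := (cen g.D i, cen g.D j))
        ⟨⟨by change _ ≤ cen g.D i; linarith, by change cen g.D i ≤ _; linarith⟩,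
          by change _ ≤ cen g.D j; linarith, by change cen g.D j ≤ _; linarith⟩
      linarith
    · rcases not_and_or.1 hc with c | c
      · rw [prho_out h y c]; exact h.sea_nonneg
      · rw [← g.swap_S, prho_out h.swap x c]; exact h.sea_nonneg
  · rw [ploc_S]
    have h1 : 0 ≤ g.TI x y := Finset.sum_nonneg fun i _ => Finset.sum_nonneg fun j _ =>
      mul_nonneg (bump_mem _ _ _ _).1 (bump_mem _ _ _ _).1
    linarith [prho_TH_nonneg h x y, prho_TH_nonneg h.swap y x, mul_nonneg h.sea_nonneg h1]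

/-- On the core of the wire: for `x ≤ c i + D/2` use `S_loc` in the cell `(i, j)`: `Tloc = Ssea Dn + aR (1 - Dn) ≥ aR`;
otherwise the cell `(i+1, j)` and `aL`. -/
theorem GeoS.S_core {g : Geo ℝ} {D1 : ℝ} (h : GeoS g D1) {i j : ℕ} (hi : i + 1 < g.K) (hj : j < g.K) {x y : ℝ}
    (h1 : cen g.D i - 1 / 2 ≤ x) (h2 : x ≤ cen g.D (i + 1) + 1 / 2) (hy : |y - cen g.D j| ≤ 1 / 2) :
    g.S (x, y) ≤ g.lvH i j := by
  have hD : 100 ≤ g.D := by linarith [h.D1_ge, h.D1_le]
  have ha := h.a_pos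
  have hl := h.lvH i j hi hj
  rw [abs_le] at hy
  rw [cen_succ] at h2
  rcases le_total x (cen g.D i + g.D / 2) with c | c
  · have hs := h.s_ge i (by omega) j hj
    rw [h.S_loc (i := i) (by omega) hj ⟨⟨by change _ ≤ x; linarith, c⟩, by change _ ≤ y; linarith [hy.1],
      by change y ≤ _; linarith [hy.2]⟩]
    unfold Geo.Tloc
    rw [bump_eq_one (x := y) ha (by linarith [hy.1]) (by linarith [hy.2]),
      bump_eq_one (x := y) ha (by linarith [hy.1]) (by linarith [hy.2]),
      stepDn_eq_one (x := y) ha (by linarith [hy.2]), stepUp_eq_one (x := y) ha (by linarith [hy.1])]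
    unfold bump Geo.aR
    rw [stepUp_eq_one (x := x) ha (by linarith), if_pos hi]
    have := mul_nonneg hl.1 (stepDn_mem g.a (cen g.D i + g.sd i j / 2) x).1
    linarith
  · have hs := h.s_ge (i + 1) hi j hj
    rw [h.S_loc (i := i + 1) hi hj ⟨⟨by change _ ≤ x; rw [cen_succ]; linarith,
      by change x ≤ _; rw [cen_succ]; linarith⟩, by change _ ≤ y; linarith [hy.1],
      by change y ≤ _; linarith [hy.2]⟩]
    unfold Geo.Tloc
    rw [bump_eq_one (x := y) ha (by linarith [hy.1]) (by linarith [hy.2]),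
      bump_eq_one (x := y) ha (by linarith [hy.1]) (by linarith [hy.2]),
      stepDn_eq_one (x := y) ha (by linarith [hy.2]), stepUp_eq_one (x := y) ha (by linarith [hy.1])]
    unfold bump Geo.aL
    rw [stepDn_eq_one (x := x) ha (by rw [cen_succ]; linarith), if_pos (Nat.succ_pos i), Nat.add_sub_cancel]
    have := mul_nonneg hl.1 (stepUp_mem g.a (cen g.D (i + 1) - g.sd (i + 1) j / 2) x).1
    linarith

/-- In the cell, to the right or to the left of the enlarged island, `Tloc ≤ aR` resp. `Tloc ≤ aL`. -/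
theorem GeoS.S_side {g : Geo ℝ} {D1 : ℝ} (h : GeoS g D1) {i j : ℕ} (hi : i < g.K) (hj : j < g.K) {x y L : ℝ}
    (hxy : (x, y) ∈ cell g.D i j) (hx : g.sd i j / 2 + g.a ≤ |x - cen g.D i|) (hL : L ≤ g.Ssea)
    (hH : ∀ i j, i + 1 < g.K → j < g.K → L ≤ g.lvH i j) : L ≤ g.S (x, y) := by
  have ha := h.a_pos
  have hs := h.s_ge i hi j hj
  obtain ⟨aR, aL, -, -⟩ := h.amp_mem hi hj
  have hb := bump_mem g.a (cen g.D j - 1 / 2) (cen g.D j + 1 / 2) y
  have hR : g.aR i j ≤ g.Ssea - L := by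
    unfold Geo.aR
    split_ifs with c
    · linarith [hH i j c hj]
    · linarith
  have hL' : g.aL i j ≤ g.Ssea - L := by
    unfold Geo.aL
    split_ifs with c
    · linarith [hH (i - 1) j (by omega) hj]
    · linarith
  rw [h.S_loc hi hj (cell_subset_sqr _ _ _ hxy)]
  unfold Geo.Tloc
  rw [ploc_bump (x := x) ha hx, ploc_bump (x := x) ha (by linarith)]
  rcases le_abs.1 hx with c | c
  · rw [stepDn_eq_zero (x := x) ha (by linarith), stepUp_eq_one (x := x) ha (by linarith)]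
    have := mul_le_of_le_one_right aR.1 hb.2
    linarith
  · rw [stepDn_eq_one (x := x) ha (by linarith), stepUp_eq_zero (x := x) ha (by linarith)]
    have := mul_le_of_le_one_right aL.1 hb.2
    linarith

theorem prho_cd_up (a α : ℝ) : ContDiff ℝ 9 (stepUp a α) :=
  contDiff_sig.comp (((contDiff_id.sub contDiff_const).div_const a).add contDiff_const)

theorem prho_cd_dn (a β : ℝ) : ContDiff ℝ 9 (stepDn a β) :=
  contDiff_sig.comp (((contDiff_const.sub contDiff_id).div_const a).add contDiff_const)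

theorem prho_cd_bump (a α β : ℝ) : ContDiff ℝ 9 (bump a α β) := (prho_cd_up a α).mul (prho_cd_dn a β)

theorem prho_cd_gap (a β α : ℝ) : ContDiff ℝ 9 (gap a β α) :=
  (contDiff_const.sub (prho_cd_dn a β)).mul (contDiff_const.sub (prho_cd_up a α))

/-- smoothness from `contDiff_sig` -/
theorem Geo.contDiff_S (g : Geo ℝ) : ContDiff ℝ 9 g.S := by
  unfold Geo.S
  refine contDiff_const.sub (((contDiff_const.mul ?_).add ?_).add ?_)
  · exact ContDiff.sum fun i _ => ContDiff.sum fun j _ =>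
      ((prho_cd_bump _ _ _).comp contDiff_fst).mul ((prho_cd_bump _ _ _).comp contDiff_snd)
  · exact ContDiff.sum fun i _ => ContDiff.sum fun j _ => contDiff_const.mul
      (((prho_cd_gap _ _ _).comp contDiff_fst).mul ((prho_cd_bump _ _ _).comp contDiff_snd))
  · exact ContDiff.sum fun i _ => ContDiff.sum fun j _ => contDiff_const.mul
      (((prho_cd_bump _ _ _).comp contDiff_fst).mul ((prho_cd_gap _ _ _).comp contDiff_snd))

theorem prho_exp {a b : ℝ} (h : a ≤ b) : Real.exp (-2 * b) ≤ Real.exp (-2 * a) :=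
  Real.exp_le_exp.2 (by linarith)

theorem prho_log {δ l : ℝ} (hδ : 0 < δ) : -Real.log δ / 2 ≤ l ↔ Real.exp (-2 * l) ≤ δ := by
  rw [← Real.le_log_iff_exp_le hδ]
  constructor <;> intro h <;> linarith

/-- Collect.  For `small` use `S_side` (for `g` or `g.swap`) with `L = -log (3 D ν) / 2`: the hypotheses give
`exp (-2 lv) ≤ (1 + η) D ν + η ν ≤ 3 D ν` and `exp (-2 Ssea) ≤ η ν ≤ 3 D ν`. -/
theorem GeoOK.rho {g : Geo ℝ} {tH tV ε : ℕ → ℕ → ℝ} {hc : Fin g.K × Fin g.K → Prop} {D1 η ν : ℝ}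
    (h : GeoOK g tH tV ε hc D1 η ν) :
    Rho g.K g.D D1 g.a (3 * g.D * ν) (Real.exp (-2 * g.Ssea)) g.sd (fun i j => Real.exp (-2 * g.lvH i j))
      (fun i j => Real.exp (-2 * g.lvV i j)) g.ρ := by
  have hS := h.geoS
  have hN := h.num
  have hD := hN.D_ge
  have hν := hN.ν_pos
  have hη := hN.η_pos
  have hη1 := hN.η_le
  have hδ : 0 < 3 * g.D * ν := by positivity
  have hsea : Real.exp (-2 * g.Ssea) ≤ η * ν := by
    refine le_trans ?_ h.sea_small
    exact le_mul_of_one_le_right (Real.exp_pos _).le (one_le_pow₀ (by linarith [hN.D_le_KD]))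
  have hην : η * ν ≤ g.D * ν := by gcongr; linarith
  have hlv : ∀ c l : ℝ, c ≤ ν → Real.exp (-2 * l) ≤ (1 + η) * (g.D * c) + Real.exp (-2 * g.Ssea) →
      -Real.log (3 * g.D * ν) / 2 ≤ l := by
    intro c l hc hl
    rw [prho_log hδ]
    have a1 : (1 + η) * (g.D * c) ≤ (1 + η) * (g.D * ν) := by gcongr
    have a2 : (1 + η) * (g.D * ν) ≤ 2 * (g.D * ν) := by gcongr; linarith
    linarith
  have hL0 : -Real.log (3 * g.D * ν) / 2 ≤ g.Ssea := by
    rw [prho_log hδ]
    have : 0 ≤ g.D * ν := by positivity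
    linarith
  refine
    { cont := Real.continuous_exp.comp (continuous_const.mul g.contDiff_S.continuous)
      nonneg := fun y => (Real.exp_pos _).le
      le_one := fun y => Real.exp_le_one_iff.2 (by linarith [(hS.S_mem y).1])
      δ_nonneg := hδ.le
      sea_nonneg := (Real.exp_pos _).le
      dH_nonneg := fun i j => (Real.exp_pos _).le
      dV_nonneg := fun i j => (Real.exp_pos _).le
      isl := fun i hi j hj y hy => by unfold Geo.ρ; rw [hS.S_isl hi hj hy]; simp
      small := ?_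
      uniH := fun i hi j hj x y t hxy h1 h2 => prho_exp (hS.S_uni hi hj hxy h1 h2)
      uniV := ?_
      coreH := fun i j hi hj x y h1 h2 h3 => prho_exp (hS.S_core hi hj h1 h2 h3)
      coreV := ?_
      gapH := fun i j hi hj x y h1 h2 h3 => prho_exp (hS.S_gap hi hj h1 h2 h3)
      gapV := ?_
      seaH := fun x y h1 h2 => prho_exp (hS.S_sea h1 h2).ge
      seaV := ?_
      outH := fun x y h1 => prho_exp (hS.S_out y h1).ge
      outV := ?_ }
  · rintro i hi j hj ⟨x, y⟩ hxy hn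
    unfold Geo.ρ
    rw [← prho_log hδ]
    have hab : ∀ z c r : ℝ, ¬ (c - r ≤ z ∧ z ≤ c + r) → r ≤ |z - c| := by
      intro z c r hz
      rcases not_and_or.1 hz with c' | c'
      · exact le_abs.2 (Or.inr (by linarith [not_le.1 c']))
      · exact le_abs.2 (Or.inl (by linarith [not_le.1 c']))
    rcases not_and_or.1 hn with c | c
    · exact hS.S_side hi hj hxy (hab _ _ _ c) hL0 fun i j hi hj =>
        hlv _ _ (h.hor i j hi hj).2.1 (h.hor i j hi hj).2.2.2.2.2
    · rw [← g.swap_S]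
      exact hS.swap.S_side (i := j) (j := i) hj hi ⟨hxy.2, hxy.1⟩ (hab _ _ _ c) hL0 fun i j hi hj =>
        hlv _ _ (h.ver j i hj hi).2.1 (h.ver j i hj hi).2.2.2.2.2
  · intro i hi j hj x y t hxy h1 h2
    have := hS.swap.S_uni (i := j) (j := i) hj hi (x := y) (y := x) ⟨hxy.2, hxy.1⟩ h1 h2
    rw [g.swap_S, g.swap_S] at this
    exact prho_exp this
  · intro i j hi hj x y h1 h2 h3
    have := hS.swap.S_core (i := j) (j := i) hj hi h1 h2 h3
    rw [g.swap_S] at this
    exact prho_exp this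
  · intro i j hi hj x y h1 h2 h3
    have := hS.swap.S_gap (i := j) (j := i) hj hi h1 h2 h3
    rw [g.swap_S] at this
    exact prho_exp this
  · intro x y h1 h2
    have := hS.swap.S_sea h1 h2
    rw [g.swap_S] at this
    exact prho_exp this.ge
  · intro x y h1
    have := hS.swap.S_out x h1
    rw [g.swap_S] at this
    exact prho_exp this.ge

end Crest.Agent.R338
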