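import Crest.Agent.R338.Pot_D

/-! # Pot_Cell: the midpoint rule on one cell
Keep the statements; auxiliary lemmas get the prefix `pcell_`.
Suggested proof.  Replace `cell c h s` by `c + Q`, `Q = (Icc (-h/2) (h/2) ×ˢ Icc (-h/2) (h/2)) ×ˢ Icc (-s/2) (s/2)` (a.e. equal:
`Ioc_ae_eq_Icc`, `Measure.set_prod_ae_eq`); `Q = -Q`, so `2 ∫_cell G = ∫_Q (G (c + u) + G (c - u))`.  For `g t = G (c + t • u)`:
`|g 1 + g (-1) - 2 g 0| ≤ sup |g''|`, `|g 1 + g (-1) - 2 g 0 - g'' 0| ≤ sup |g⁗| / 12` (Taylor: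
`map_add_eq_sum_add_integral_iteratedFDeriv` for `u` and `-u`, the odd terms cancel by `ContinuousMultilinearMap.map_smul_univ`;
remainder `≤ K ‖u‖ ^ n` by `ContinuousMultilinearMap.le_opNorm`).  `D²G c [u,u] = ∑ uᵢ uⱼ dᵢ dⱼ G c`, `∫_Q uᵢ uⱼ = δᵢⱼ vol aᵢ² / 12`
(`setIntegral_prod_mul`).  Alternatively iterate the one-dimensional rule (z, then y, then x). -/

set_option autoImplicit false
set_option linter.dupNamespace false
set_option linter.unusedVariables false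

noncomputable section

namespace Crest.Agent.R338

open MeasureTheory Set Filter Topology

theorem pcell_taylor {n : ℕ} {G : P3 → ℝ} (hG : ContDiff ℝ (n + 1 : ℕ) G) {c u : P3} {r K : ℝ}
    (hu : ‖u - c‖ ≤ r) (hK : ∀ u, ‖u - c‖ ≤ r → ‖iteratedFDeriv ℝ (n + 1) G u‖ ≤ K) :
    |G u - ∑ k ∈ Finset.range (n + 1),
      (k.factorial : ℝ)⁻¹ * iteratedFDeriv ℝ k G c (fun _ => u - c)| ≤ K * r ^ (n + 1) := by
  have h := map_add_eq_sum_add_integral_iteratedFDeriv (f := G) (x := c) (y := u - c) (n := n)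
    fun t _ => by exact_mod_cast hG.contDiffAt
  rw [add_sub_cancel] at h
  simp only [smul_eq_mul] at h
  rw [h, add_sub_cancel_left, abs_mul]
  have hr : 0 ≤ r := (norm_nonneg _).trans hu
  have hK0 : 0 ≤ K := (norm_nonneg _).trans (hK u hu)
  have h1 : |(n.factorial : ℝ)⁻¹| ≤ 1 := by
    rw [abs_of_nonneg (by positivity)]
    exact inv_le_one_of_one_le₀ (by exact_mod_cast n.factorial_pos)
  refine (mul_le_of_le_one_left (abs_nonneg _) h1).trans ?_
  have h2 := intervalIntegral.norm_integral_le_of_norm_le_const (a := 0) (b := 1)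
    (f := fun t : ℝ => (1 - t) ^ n * iteratedFDeriv ℝ (n + 1) G (c + t • (u - c)) fun _ => u - c)
    (C := K * r ^ (n + 1)) fun t ht => by
      rw [uIoc_of_le zero_le_one] at ht
      have h3 : ‖(1 - t) ^ n‖ ≤ 1 := by
        rw [norm_pow, Real.norm_of_nonneg (by linarith [ht.2])]
        exact pow_le_one₀ (by linarith [ht.2]) (by linarith [ht.1])
      rw [norm_mul]
      refine (mul_le_of_le_one_left (norm_nonneg _) h3).trans
        ((ContinuousMultilinearMap.le_opNorm _ _).trans ?_)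
      rw [Finset.prod_const, Finset.card_univ, Fintype.card_fin]
      refine mul_le_mul (hK _ ?_) (pow_le_pow_left₀ (norm_nonneg _) hu _) (by positivity) hK0
      rw [add_sub_cancel_left, norm_smul, Real.norm_of_nonneg ht.1.le]
      exact (mul_le_of_le_one_left (norm_nonneg _) ht.2).trans hu
  simpa using h2

theorem pcell_int {G : P3 → ℝ} (hG : Continuous G) (c : P3) (h s : ℝ) : IntegrableOn G (cell c h s) :=
  integrableOn_of_bounded3 hG (isBounded_cell c h s)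

theorem pcell_rem {F : P3 → ℝ} {c : P3} {h s C : ℝ} (hh : 0 < h) (hs : 0 < s)
    (hF : ∀ u ∈ cell c h s, |F u| ≤ C) : |∫ u in cell c h s, F u| ≤ h ^ 2 * s * C := by
  have := norm_setIntegral_le_of_norm_le_const (μ := volume) (f := F) (C := C)
    (isBounded_cell c h s).measure_lt_top hF
  rwa [volume_cell c hh.le hs.le, mul_comm] at this

theorem pcell_const (c : P3) {h s : ℝ} (hh : 0 < h) (hs : 0 < s) (a : ℝ) :
    ∫ _u in cell c h s, a = h ^ 2 * s * a := by
  rw [setIntegral_const, volume_cell c hh.le hs.le, smul_eq_mul]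

theorem pcell_odd {φ : P3 → ℝ} (hφ : ∀ y, φ (-y) = -φ y) (c : P3) (h s : ℝ) :
    ∫ u in cell c h s, φ (u - c) = 0 := by
  have hm : MeasurableSet ((Icc (c.1.1 - h / 2) (c.1.1 + h / 2) ×ˢ Icc (c.1.2 - h / 2) (c.1.2 + h / 2)) ×ˢ
      Icc (c.2 - s / 2) (c.2 + s / 2)) := (measurableSet_Icc.prod measurableSet_Icc).prod measurableSet_Icc
  have e : cell c h s =ᵐ[volume] (Icc (c.1.1 - h / 2) (c.1.1 + h / 2) ×ˢ Icc (c.1.2 - h / 2) (c.1.2 + h / 2)) ×ˢ
      Icc (c.2 - s / 2) (c.2 + s / 2) :=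
    Measure.set_prod_ae_eq (Measure.set_prod_ae_eq Ioc_ae_eq_Icc Ioc_ae_eq_Icc) Ioc_ae_eq_Icc
  rw [setIntegral_congr_set e, ← integral_indicator hm]
  generalize hS : (Icc (c.1.1 - h / 2) (c.1.1 + h / 2) ×ˢ Icc (c.1.2 - h / 2) (c.1.2 + h / 2)) ×ˢ
      Icc (c.2 - s / 2) (c.2 + s / 2) = S
  have h1 : ∀ u, c + c - u ∈ S ↔ u ∈ S := fun u => by
    rw [← hS]
    simp only [mem_prod, mem_Icc, Prod.fst_sub, Prod.snd_sub, Prod.fst_add, Prod.snd_add]
    constructor <;> rintro ⟨⟨⟨a1, a2⟩, a3, a4⟩, a5, a6⟩ <;>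
      exact ⟨⟨⟨by linarith, by linarith⟩, by linarith, by linarith⟩, by linarith, by linarith⟩
  have : (volume : Measure P3).IsAddHaarMeasure := Measure.prod.instIsAddHaarMeasure _ _
  have h2 := integral_sub_left_eq_self (S.indicator fun u => φ (u - c)) volume (c + c)
  have h3 : ∀ u, S.indicator (fun u => φ (u - c)) (c + c - u) = -S.indicator (fun u => φ (u - c)) u := by
    intro u
    by_cases hu : u ∈ S
    · rw [indicator_of_mem hu, indicator_of_mem ((h1 u).2 hu), ← hφ]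
      congr 1
      abel
    · rw [indicator_of_notMem hu, indicator_of_notMem (mt (h1 u).1 hu), neg_zero]
  simp only [h3, integral_neg] at h2
  linarith

theorem pcell_odd_iter (G : P3 → ℝ) {k : ℕ} (hk : Odd k) (c : P3) (h s : ℝ) :
    ∫ u in cell c h s, iteratedFDeriv ℝ k G c (fun _ => u - c) = 0 := by
  refine pcell_odd (φ := fun y => iteratedFDeriv ℝ k G c fun _ => y) (fun y => ?_) c h s
  have := (iteratedFDeriv ℝ k G c).map_smul_univ (fun _ => (-1 : ℝ)) fun _ => y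
  simpa [hk.neg_one_pow] using this

theorem pcell_mom (k : ℕ) (c : ℝ) {s : ℝ} (hs : 0 < s) :
    ∫ x in iv c s, (x - c) ^ k = ((s / 2) ^ (k + 1) - (-(s / 2)) ^ (k + 1)) / (k + 1) := by
  rw [iv, ← intervalIntegral.integral_of_le (by linarith),
    intervalIntegral.integral_comp_sub_right (fun x => x ^ k), integral_pow]
  congr 3 <;> ring

theorem pcell_mono (i j k : ℕ) (c : P3) (h s : ℝ) :
    ∫ u in cell c h s, (u.1.1 - c.1.1) ^ i * (u.1.2 - c.1.2) ^ j * (u.2 - c.2) ^ k =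
      (∫ x in iv c.1.1 h, (x - c.1.1) ^ i) * (∫ x in iv c.1.2 h, (x - c.1.2) ^ j) *
        ∫ x in iv c.2 s, (x - c.2) ^ k := by
  rw [cell, Measure.volume_eq_prod, setIntegral_prod_mul
    (fun p : ℝ × ℝ => (p.1 - c.1.1) ^ i * (p.2 - c.1.2) ^ j) (fun z : ℝ => (z - c.2) ^ k),
    Measure.volume_eq_prod, setIntegral_prod_mul (fun x : ℝ => (x - c.1.1) ^ i)
      fun x : ℝ => (x - c.1.2) ^ j]

theorem pcell_dd {G : P3 → ℝ} (hG : ContDiff ℝ 2 G) (c e : P3) :
    fderiv ℝ (fun u => fderiv ℝ G u e) c e = fderiv ℝ (fderiv ℝ G) c e e := by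
  have h : DifferentiableAt ℝ (fderiv ℝ G) c :=
    (hG.fderiv_right (m := 1) (by norm_num)).differentiable (by norm_num) c
  rw [fderiv_clm_apply h (differentiableAt_const e)]
  simp

theorem pcell_quad (B : P3 →L[ℝ] P3 →L[ℝ] ℝ) (c : P3) {h s : ℝ} (hh : 0 < h) (hs : 0 < s) :
    ∫ u in cell c h s, B (u - c) (u - c) = h ^ 2 * s *
      (h ^ 2 * B ((1, 0), 0) ((1, 0), 0) + h ^ 2 * B ((0, 1), 0) ((0, 1), 0) +
        s ^ 2 * B ((0, 0), 1) ((0, 0), 1)) / 12 := by
  obtain ⟨m, hm⟩ : ∃ m : ℕ → ℕ → ℕ → P3 → ℝ, m = fun i j k u =>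
    (u.1.1 - c.1.1) ^ i * (u.1.2 - c.1.2) ^ j * (u.2 - c.2) ^ k := ⟨_, rfl⟩
  have e : ∀ u : P3, B (u - c) (u - c) =
      B ((1, 0), 0) ((1, 0), 0) * m 2 0 0 u + B ((0, 1), 0) ((0, 1), 0) * m 0 2 0 u +
      B ((0, 0), 1) ((0, 0), 1) * m 0 0 2 u +
      (B ((1, 0), 0) ((0, 1), 0) + B ((0, 1), 0) ((1, 0), 0)) * m 1 1 0 u +
      (B ((1, 0), 0) ((0, 0), 1) + B ((0, 0), 1) ((1, 0), 0)) * m 1 0 1 u +
      (B ((0, 1), 0) ((0, 0), 1) + B ((0, 0), 1) ((0, 1), 0)) * m 0 1 1 u := fun u => by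
    have : u - c = (u.1.1 - c.1.1) • (((1, 0), 0) : P3) + (u.1.2 - c.1.2) • (((0, 1), 0) : P3) +
        (u.2 - c.2) • (((0, 0), 1) : P3) := by
      ext <;> simp
    rw [this, hm]
    simp only [map_add, map_smul, _root_.add_apply, _root_.smul_apply,
      smul_eq_mul]
    ring
  have hc : ∀ (a : ℝ) i j k, Continuous fun u => a * m i j k u := fun a i j k => by
    rw [hm]
    fun_prop
  have hi : ∀ i j k, ∫ u in cell c h s, m i j k u =
      ((h / 2) ^ (i + 1) - (-(h / 2)) ^ (i + 1)) / (i + 1) *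
        (((h / 2) ^ (j + 1) - (-(h / 2)) ^ (j + 1)) / (j + 1)) *
        (((s / 2) ^ (k + 1) - (-(s / 2)) ^ (k + 1)) / (k + 1)) := fun i j k => by
    rw [hm]
    dsimp only
    rw [pcell_mono, pcell_mom _ _ hh, pcell_mom _ _ hh, pcell_mom _ _ hs]
  simp only [e]
  rw [integral_add (pcell_int (by fun_prop) c h s) (pcell_int (hc _ _ _ _) c h s),
    integral_add (pcell_int (by fun_prop) c h s) (pcell_int (hc _ _ _ _) c h s),
    integral_add (pcell_int (by fun_prop) c h s) (pcell_int (hc _ _ _ _) c h s),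
    integral_add (pcell_int (by fun_prop) c h s) (pcell_int (hc _ _ _ _) c h s),
    integral_add (pcell_int (hc _ _ _ _) c h s) (pcell_int (hc _ _ _ _) c h s)]
  simp only [integral_const_mul, hi]
  push_cast
  ring

theorem pcell_cont (G : P3 → ℝ) (k : ℕ) (c : P3) :
    Continuous fun u : P3 => iteratedFDeriv ℝ k G c fun _ => u - c :=
  (iteratedFDeriv ℝ k G c).cont.comp (continuous_pi fun _ => continuous_id.sub continuous_const)

theorem cell2 {G : P3 → ℝ} (hG : ContDiff ℝ 2 G) {c : P3} {h s δ K : ℝ} (hh : 0 < h) (hs : 0 < s) (hhδ : h ≤ δ)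
    (hsδ : s ≤ δ) (hK : ∀ u, ‖u - c‖ ≤ δ / 2 → ‖iteratedFDeriv ℝ 2 G u‖ ≤ K) :
    |h ^ 2 * s * G c - ∫ u in cell c h s, G u| ≤ h ^ 2 * s * (δ ^ 2 * K) := by
  have hδ : 0 < δ := hh.trans_le hhδ
  have hK0 : 0 ≤ K := (norm_nonneg _).trans (hK c (by rw [sub_self, norm_zero]; positivity))
  have h1 := pcell_rem (c := c) (F := fun u => G u - (G c + iteratedFDeriv ℝ 1 G c fun _ => u - c))
    (C := δ ^ 2 * K) hh hs fun u hu => by
      have h2 := pcell_taylor (n := 1) hG (norm_sub_le_of_mem_cell hu hhδ hsδ) hK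
      simp only [Finset.sum_range_succ, Finset.range_zero, Finset.sum_empty, zero_add,
        Nat.factorial_zero, Nat.factorial_one, Nat.cast_one, inv_one, one_mul,
        iteratedFDeriv_zero_apply] at h2
      refine h2.trans ?_
      have : 0 ≤ K * δ ^ 2 := by positivity
      nlinarith
  rw [integral_sub (pcell_int hG.continuous c h s)
      (pcell_int (continuous_const.fun_add (pcell_cont G 1 c)) c h s),
    integral_add (pcell_int continuous_const c h s) (pcell_int (pcell_cont G 1 c) c h s),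
    pcell_const c hh hs, pcell_odd_iter G odd_one, add_zero, abs_sub_comm] at h1
  exact h1

/-- Fourth order Taylor, then `cell2` for `dᵢ (dᵢ G)` (`norm_iteratedFDeriv_d1` twice).  The constant `1` is generous
(`1/384 + 3/24` suffices). -/
theorem cell4 {G : P3 → ℝ} (hG : ContDiff ℝ 4 G) {c : P3} {h s δ K : ℝ} (hh : 0 < h) (hs : 0 < s) (hhδ : h ≤ δ)
    (hsδ : s ≤ δ) (hK : ∀ u, ‖u - c‖ ≤ δ / 2 → ‖iteratedFDeriv ℝ 4 G u‖ ≤ K) :
    |h ^ 2 * s * G c - (∫ u in cell c h s, G u) + (h ^ 2 * (∫ u in cell c h s, d1 (d1 G) u) +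
      h ^ 2 * (∫ u in cell c h s, d2 (d2 G) u) + s ^ 2 * ∫ u in cell c h s, d3 (d3 G) u) / 24| ≤
      h ^ 2 * s * (δ ^ 4 * K) := by
  have hδ : 0 < δ := hh.trans_le hhδ
  have hK0 : 0 ≤ K := (norm_nonneg _).trans (hK c (by rw [sub_self, norm_zero]; positivity))
  have hG2 : ContDiff ℝ 2 G := hG.of_le (by norm_num)
  have h1 := pcell_rem (c := c) (F := fun u => G u - (G c + (iteratedFDeriv ℝ 1 G c fun _ => u - c) +
      2⁻¹ * fderiv ℝ (fderiv ℝ G) c (u - c) (u - c) + 6⁻¹ * iteratedFDeriv ℝ 3 G c fun _ => u - c))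
    (C := δ ^ 4 * K / 16) hh hs fun u hu => by
      have h2 := pcell_taylor (n := 3) hG (norm_sub_le_of_mem_cell hu hhδ hsδ) hK
      simp only [Finset.sum_range_succ, Finset.range_zero, Finset.sum_empty, zero_add,
        Nat.factorial_zero, Nat.factorial_one, Nat.cast_one, inv_one, one_mul,
        iteratedFDeriv_zero_apply, iteratedFDeriv_two_apply, Nat.factorial_two, Nat.cast_ofNat,
        show Nat.factorial 3 = 6 from rfl] at h2
      refine h2.trans (le_of_eq ?_)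
      ring
  have c1 := pcell_cont G 1 c
  have c2 : Continuous fun u : P3 => 2⁻¹ * fderiv ℝ (fderiv ℝ G) c (u - c) (u - c) := by fun_prop
  have c3 : Continuous fun u : P3 => 6⁻¹ * iteratedFDeriv ℝ 3 G c fun _ => u - c :=
    continuous_const.mul (pcell_cont G 3 c)
  rw [integral_sub (pcell_int hG.continuous c h s)
      (pcell_int (((continuous_const.fun_add c1).fun_add c2).fun_add c3) c h s),
    integral_add (pcell_int ((continuous_const.fun_add c1).fun_add c2) c h s) (pcell_int c3 c h s),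
    integral_add (pcell_int (continuous_const.fun_add c1) c h s) (pcell_int c2 c h s),
    integral_add (pcell_int continuous_const c h s) (pcell_int c1 c h s),
    pcell_const c hh hs, pcell_odd_iter G odd_one, integral_const_mul, integral_const_mul,
    pcell_odd_iter G (by decide), pcell_quad _ c hh hs, ← pcell_dd hG2, ← pcell_dd hG2,
    ← pcell_dd hG2] at h1
  have g1 := cell2 (contDiff_d1 (n := 2) (contDiff_d1 (n := 3) hG)) hh hs hhδ hsδ fun u hu =>
    ((norm_iteratedFDeriv_d1 (n := 2) (contDiff_d1 (n := 3) hG) u).trans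
      (norm_iteratedFDeriv_d1 (n := 3) hG u)).trans (hK u hu)
  have g2 := cell2 (contDiff_d2 (n := 2) (contDiff_d2 (n := 3) hG)) hh hs hhδ hsδ fun u hu =>
    ((norm_iteratedFDeriv_d2 (n := 2) (contDiff_d2 (n := 3) hG) u).trans
      (norm_iteratedFDeriv_d2 (n := 3) hG u)).trans (hK u hu)
  have g3 := cell2 (contDiff_d3 (n := 2) (contDiff_d3 (n := 3) hG)) hh hs hhδ hsδ fun u hu =>
    ((norm_iteratedFDeriv_d3 (n := 2) (contDiff_d3 (n := 3) hG) u).trans
      (norm_iteratedFDeriv_d3 (n := 3) hG u)).trans (hK u hu)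
  change |(∫ u in cell c h s, G u) - (h ^ 2 * s * G c + 0 + 2⁻¹ * (h ^ 2 * s *
    (h ^ 2 * d1 (d1 G) c + h ^ 2 * d2 (d2 G) c + s ^ 2 * d3 (d3 G) c) / 12) + 6⁻¹ * 0)| ≤ _ at h1
  have key : ∀ {a x : ℝ}, 0 < a → a ≤ δ → |x| ≤ h ^ 2 * s * (δ ^ 2 * K) →
      |a ^ 2 * x| ≤ h ^ 2 * s * (δ ^ 4 * K) := fun {a x} ha haδ hx => by
    rw [abs_mul, abs_of_nonneg (by positivity)]
    calc _ ≤ δ ^ 2 * (h ^ 2 * s * (δ ^ 2 * K)) := by gcongr
      _ = _ := by ring
  have k1 := abs_le.1 (key hh hhδ g1)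
  have k2 := abs_le.1 (key hh hhδ g2)
  have k3 := abs_le.1 (key hs hsδ g3)
  have k4 := abs_le.1 h1
  have k5 : 0 ≤ h ^ 2 * s * (δ ^ 4 * K) := by positivity
  rw [abs_le]
  constructor <;> linarith [k1.1, k1.2, k2.1, k2.2, k3.1, k3.2, k4.1, k4.2]

end Crest.Agent.R338
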