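import Crest.Agent.R338.Pot_Defs

/-! # Pot_D: small tools (proved; owner helper42) -/

set_option autoImplicit false
set_option linter.dupNamespace false
set_option linter.unusedVariables false

noncomputable section

namespace Crest.Agent.R338

open MeasureTheory Set Filter Topology

instance haarP2 : (volume : Measure P2).IsAddHaarMeasure := Measure.prod.instIsAddHaarMeasure _ _
instance haarP3 : (volume : Measure P3).IsAddHaarMeasure := Measure.prod.instIsAddHaarMeasure _ _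

theorem contDiff_dv {n : ℕ} {G : P3 → ℝ} (hG : ContDiff ℝ (n + 1 : ℕ) G) (e : P3) :
    ContDiff ℝ n fun u => fderiv ℝ G u e :=
  (hG.fderiv_right (m := n) (by push_cast; exact le_rfl)).clm_apply contDiff_const

theorem contDiff_d1 {n : ℕ} {G : P3 → ℝ} (hG : ContDiff ℝ (n + 1 : ℕ) G) : ContDiff ℝ n (d1 G) := contDiff_dv hG _
theorem contDiff_d2 {n : ℕ} {G : P3 → ℝ} (hG : ContDiff ℝ (n + 1 : ℕ) G) : ContDiff ℝ n (d2 G) := contDiff_dv hG _
theorem contDiff_d3 {n : ℕ} {G : P3 → ℝ} (hG : ContDiff ℝ (n + 1 : ℕ) G) : ContDiff ℝ n (d3 G) := contDiff_dv hG _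

theorem norm_iteratedFDeriv_dv {n : ℕ} {G : P3 → ℝ} (hG : ContDiff ℝ (n + 1 : ℕ) G) {e : P3} (he : ‖e‖ ≤ 1) (u : P3) :
    ‖iteratedFDeriv ℝ n (fun u => fderiv ℝ G u e) u‖ ≤ ‖iteratedFDeriv ℝ (n + 1) G u‖ := by
  have h := norm_iteratedFDeriv_clm_apply_const (f := fderiv ℝ G) (c := e) (x := u) (N := n) (n := n)
    (hG.fderiv_right (m := n) (by push_cast; exact le_rfl)).contDiffAt le_rfl
  rw [norm_iteratedFDeriv_fderiv] at h
  exact h.trans (mul_le_of_le_one_left (norm_nonneg _) he)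

theorem norm_e1 : ‖(((1, 0), 0) : P3)‖ ≤ 1 := by simp [Prod.norm_def]
theorem norm_e2 : ‖(((0, 1), 0) : P3)‖ ≤ 1 := by simp [Prod.norm_def]
theorem norm_e3 : ‖(((0, 0), 1) : P3)‖ ≤ 1 := by simp [Prod.norm_def]

theorem norm_iteratedFDeriv_d1 {n : ℕ} {G : P3 → ℝ} (hG : ContDiff ℝ (n + 1 : ℕ) G) (u : P3) :
    ‖iteratedFDeriv ℝ n (d1 G) u‖ ≤ ‖iteratedFDeriv ℝ (n + 1) G u‖ := norm_iteratedFDeriv_dv hG norm_e1 u
theorem norm_iteratedFDeriv_d2 {n : ℕ} {G : P3 → ℝ} (hG : ContDiff ℝ (n + 1 : ℕ) G) (u : P3) :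
    ‖iteratedFDeriv ℝ n (d2 G) u‖ ≤ ‖iteratedFDeriv ℝ (n + 1) G u‖ := norm_iteratedFDeriv_dv hG norm_e2 u
theorem norm_iteratedFDeriv_d3 {n : ℕ} {G : P3 → ℝ} (hG : ContDiff ℝ (n + 1 : ℕ) G) (u : P3) :
    ‖iteratedFDeriv ℝ n (d3 G) u‖ ≤ ‖iteratedFDeriv ℝ (n + 1) G u‖ := norm_iteratedFDeriv_dv hG norm_e3 u

theorem abs_dv_le (G : P3 → ℝ) {e : P3} (he : ‖e‖ ≤ 1) (u : P3) : |fderiv ℝ G u e| ≤ ‖fderiv ℝ G u‖ :=
  ((fderiv ℝ G u).le_opNorm e).trans (mul_le_of_le_one_right (norm_nonneg _) he)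

theorem abs_d1_le (G : P3 → ℝ) (u : P3) : |d1 G u| ≤ ‖fderiv ℝ G u‖ := abs_dv_le G norm_e1 u
theorem abs_d2_le (G : P3 → ℝ) (u : P3) : |d2 G u| ≤ ‖fderiv ℝ G u‖ := abs_dv_le G norm_e2 u
theorem abs_d3_le (G : P3 → ℝ) (u : P3) : |d3 G u| ≤ ‖fderiv ℝ G u‖ := abs_dv_le G norm_e3 u

theorem abs_d1_d1_le {G : P3 → ℝ} (hG : ContDiff ℝ 2 G) (u : P3) : |d1 (d1 G) u| ≤ ‖iteratedFDeriv ℝ 2 G u‖ :=
  (abs_d1_le _ u).trans ((norm_iteratedFDeriv_one (𝕜 := ℝ) (x := u) (d1 G)).ge.trans (norm_iteratedFDeriv_d1 (n := 1) hG u))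
theorem abs_d2_d2_le {G : P3 → ℝ} (hG : ContDiff ℝ 2 G) (u : P3) : |d2 (d2 G) u| ≤ ‖iteratedFDeriv ℝ 2 G u‖ :=
  (abs_d2_le _ u).trans ((norm_iteratedFDeriv_one (𝕜 := ℝ) (x := u) (d2 G)).ge.trans (norm_iteratedFDeriv_d2 (n := 1) hG u))
theorem abs_d3_d3_le {G : P3 → ℝ} (hG : ContDiff ℝ 2 G) (u : P3) : |d3 (d3 G) u| ≤ ‖iteratedFDeriv ℝ 2 G u‖ :=
  (abs_d3_le _ u).trans ((norm_iteratedFDeriv_one (𝕜 := ℝ) (x := u) (d3 G)).ge.trans (norm_iteratedFDeriv_d3 (n := 1) hG u))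

theorem fderiv_apply_eq (G : P3 → ℝ) (u v : P3) :
    fderiv ℝ G u v = v.1.1 * d1 G u + v.1.2 * d2 G u + v.2 * d3 G u := by
  have : v = v.1.1 • (((1, 0), 0) : P3) + v.1.2 • (((0, 1), 0) : P3) + v.2 • (((0, 0), 1) : P3) := by
    ext <;> simp
  conv_lhs => rw [this]
  simp only [map_add, map_smul, smul_eq_mul, d1, d2, d3]

theorem norm_fderiv_le_sum (G : P3 → ℝ) (u : P3) : ‖fderiv ℝ G u‖ ≤ |d1 G u| + |d2 G u| + |d3 G u| := by
  refine ContinuousLinearMap.opNorm_le_bound _ (by positivity) fun v => ?_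
  have h1 : |v.1.1| ≤ ‖v‖ := (norm_fst_le v.1).trans (norm_fst_le v)
  have h2 : |v.1.2| ≤ ‖v‖ := (norm_snd_le v.1).trans (norm_fst_le v)
  have h3 : |v.2| ≤ ‖v‖ := norm_snd_le v
  rw [fderiv_apply_eq, Real.norm_eq_abs]
  refine (abs_add_three _ _ _).trans ?_
  rw [abs_mul, abs_mul, abs_mul]
  nlinarith [abs_nonneg (d1 G u), abs_nonneg (d2 G u), abs_nonneg (d3 G u)]

theorem norm_fderiv_sq_le (G : P3 → ℝ) (u : P3) : ‖fderiv ℝ G u‖ ^ 2 ≤ 3 * gsq3 G u := by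
  refine (pow_le_pow_left₀ (norm_nonneg _) (norm_fderiv_le_sum G u) 2).trans ?_
  rw [gsq3, ← sq_abs (d1 G u), ← sq_abs (d2 G u), ← sq_abs (d3 G u)]
  nlinarith [sq_nonneg (|d1 G u| - |d2 G u|), sq_nonneg (|d1 G u| - |d3 G u|), sq_nonneg (|d2 G u| - |d3 G u|)]

theorem d3_mf {μ : P2 → ℝ} {F : P3 → ℝ} {u : P3} (hμ : DifferentiableAt ℝ μ u.1) (hF : DifferentiableAt ℝ F u) :
    d3 (mf μ F) u = μ u.1 * d3 F u := by
  have h := ((hμ.hasFDerivAt.comp u hasFDerivAt_fst).mul hF.hasFDerivAt).fderiv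
  unfold d3
  rw [show mf μ F = (μ ∘ Prod.fst) * F from rfl, h]
  simp [show ((0, 0) : P2) = 0 from rfl]

theorem measurableSet_cell (c : P3) (h s : ℝ) : MeasurableSet (cell c h s) :=
  (measurableSet_Ioc.prod measurableSet_Ioc).prod measurableSet_Ioc

theorem measurableSet_base (a : Atoms) (i j : ℕ) : MeasurableSet (base a i j) := measurableSet_Ioc.prod measurableSet_Ioc

theorem measurableSet_sq2 (A : ℝ) : MeasurableSet (sq2 A) := measurableSet_Ioc.prod measurableSet_Ioc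

theorem measurableSet_bx (A L : ℝ) : MeasurableSet (bx A L) := (measurableSet_sq2 A).prod measurableSet_Ioc

theorem isCompact_Mis (L Λ : ℝ) : IsCompact (Mis L Λ) := by
  refine (isCompact_Icc.prod isCompact_Icc).prod ((isCompact_Icc (a := -(L + 3)) (b := L + 3)).of_isClosed_subset
    ((isClosed_le continuous_const continuous_abs).inter (isClosed_le continuous_abs continuous_const)) ?_)
  exact fun z hz => abs_le.1 hz.2

theorem isCompact_box2 (Λ : ℝ) : IsCompact (box2 Λ) := isCompact_Icc.prod isCompact_Icc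

theorem isCompact_box3 (Λ : ℝ) : IsCompact (box3 Λ) := (isCompact_box2 Λ).prod isCompact_Icc

theorem volume_cell (c : P3) {h s : ℝ} (hh : 0 ≤ h) (hs : 0 ≤ s) : volume.real (cell c h s) = h ^ 2 * s := by
  simp only [Measure.real, cell, iv, Measure.volume_eq_prod, Measure.prod_prod, Real.volume_Ioc, ENNReal.toReal_mul]
  rw [ENNReal.toReal_ofReal (by linarith), ENNReal.toReal_ofReal (by linarith), ENNReal.toReal_ofReal (by linarith)]
  ring

theorem abs_sub_le_of_mem_iv {c s x : ℝ} (h : x ∈ iv c s) : |x - c| ≤ s / 2 :=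
  abs_le.2 ⟨by linarith [h.1], by linarith [h.2]⟩

theorem norm_sub_le_of_mem_cell {c u : P3} {h s δ : ℝ} (hu : u ∈ cell c h s) (hh : h ≤ δ) (hs : s ≤ δ) :
    ‖u - c‖ ≤ δ / 2 := by
  have h1 := abs_sub_le_of_mem_iv hu.1.1
  have h2 := abs_sub_le_of_mem_iv hu.1.2
  have h3 := abs_sub_le_of_mem_iv hu.2
  simp only [Prod.norm_def, Prod.fst_sub, Prod.snd_sub, Real.norm_eq_abs, max_le_iff]
  exact ⟨⟨by linarith, by linarith⟩, by linarith⟩

theorem isBounded_cell (c : P3) (h s : ℝ) : Bornology.IsBounded (cell c h s) :=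
  ((Metric.isBounded_Ioc _ _).prod (Metric.isBounded_Ioc _ _)).prod (Metric.isBounded_Ioc _ _)

theorem isBounded_base (a : Atoms) (i j : ℕ) : Bornology.IsBounded (base a i j) :=
  (Metric.isBounded_Ioc _ _).prod (Metric.isBounded_Ioc _ _)

theorem isBounded_sq2 (A : ℝ) : Bornology.IsBounded (sq2 A) := (Metric.isBounded_Ioc _ _).prod (Metric.isBounded_Ioc _ _)

theorem isBounded_bx (A L : ℝ) : Bornology.IsBounded (bx A L) := (isBounded_sq2 A).prod (Metric.isBounded_Ioc _ _)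

theorem integrableOn_of_bounded3 {G : P3 → ℝ} (hG : Continuous G) {S : Set P3} (hS : Bornology.IsBounded S) :
    IntegrableOn G S :=
  (hG.continuousOn.integrableOn_compact hS.isCompact_closure).mono_set subset_closure

theorem integrableOn_of_bounded2 {G : P2 → ℝ} (hG : Continuous G) {S : Set P2} (hS : Bornology.IsBounded S) :
    IntegrableOn G S :=
  (hG.continuousOn.integrableOn_compact hS.isCompact_closure).mono_set subset_closure

theorem integrableOn_bx {G : P3 → ℝ} (hG : Continuous G) (A L : ℝ) : IntegrableOn G (bx A L) :=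
  integrableOn_of_bounded3 hG (isBounded_bx A L)

theorem volume_bx_ne_top (A L : ℝ) : volume (bx A L) ≠ ⊤ := (isBounded_bx A L).measure_lt_top.ne

theorem Atoms.sum_add (a : Atoms) (F G : P3 → ℝ) : (a.sum fun u => F u + G u) = a.sum F + a.sum G := by
  simp only [Atoms.sum, Finset.sum_add_distrib]

theorem Atoms.sum_sub (a : Atoms) (F G : P3 → ℝ) : (a.sum fun u => F u - G u) = a.sum F - a.sum G := by
  simp only [Atoms.sum, Finset.sum_sub_distrib]

theorem Err_sub (a : Atoms) {μ : P2 → ℝ} (ℓ L : ℝ) {F G : P3 → ℝ} (hμ : Continuous μ) (hF : Continuous F)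
    (hG : Continuous G) : (Err a μ ℓ L fun u => F u - G u) = Err a μ ℓ L F - Err a μ ℓ L G := by
  have h : ∀ {F : P3 → ℝ}, Continuous F → IntegrableOn (mf μ F) (bx a.A L) := fun hF =>
    integrableOn_bx ((hμ.comp continuous_fst).mul hF) _ _
  have e : (fun u => mf μ (fun u => F u - G u) u) = fun u => mf μ F u - mf μ G u := funext fun u => mul_sub _ _ _
  rw [Err, Err, Err, Atoms.sum_sub, e, integral_sub (h hF) (h hG)]
  ring

end Crest.Agent.R338
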