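import Crest.Agent.R338.Sig

/-! # Potential of the atoms: definitions (owner helper42; DO NOT EDIT)

The norm `‖·‖` of `P2`, `P3` is the sup norm.  `Err F = ℓ ∑ F (atoms) - ∫_box μ F` is the discretisation error.
Map of the files: `Pot_D` (small tools, proved), `Pot_Ker` (kernels), `Pot_Rad` (radial integrals), `Pot_Cell` (midpoint rule on one cell), `Pot_Sum` (cells tile the
box), `Pot_FTC`, `Pot_Disc` (abstract midpoint rules), `Pot_Maj` (integrals of the majorants), `Pot_Leib` (derivatives of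
`μ · kernel`), `Pot_E2`, `Pot_E4`, `Pot_Near` (the three discretisation errors), `Pot_Hardy`, `Pot_Core` (singular part),
`Pot_Newton`, `Pot_Nw`, `Pot_SlabA`, `Pot_SlabB` (continuous potential), `Pot_B`, `Pot` (assembly). -/

set_option autoImplicit false
set_option linter.dupNamespace false
set_option linter.unusedVariables false

noncomputable section

namespace Crest.Agent.R338

open MeasureTheory Set Filter Topology

/-- half side of the slab -/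
def Atoms.A (a : Atoms) : ℝ := a.Ka * a.h

/-- the atoms -/
def ctr (a : Atoms) (i j k : ℕ) : P3 := ((xc a.h a.Ka i, xc a.h a.Ka j), xc (a.sp i j) (a.nc i j) k)

/-- the interval of length `s` with midpoint `c` -/
def iv (c s : ℝ) : Set ℝ := Ioc (c - s / 2) (c + s / 2)

/-- the cell of size `h × h × s` with centre `c` -/
def cell (c : P3) (h s : ℝ) : Set P3 := (iv c.1.1 h ×ˢ iv c.1.2 h) ×ˢ iv c.2 s

/-- base of the column `(i, j)` -/
def base (a : Atoms) (i j : ℕ) : Set P2 := iv (xc a.h a.Ka i) a.h ×ˢ iv (xc a.h a.Ka j) a.h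

def sq2 (A : ℝ) : Set P2 := Ioc (-A) A ×ˢ Ioc (-A) A

def bx (A L : ℝ) : Set P3 := sq2 A ×ˢ Ioc (-L) L

/-- where the union of the cells may differ from the box -/
def Mis (L Λ : ℝ) : Set P3 := (Icc 0 (Λ + 2) ×ˢ Icc 0 (Λ + 2)) ×ˢ {z : ℝ | L - 3 ≤ |z| ∧ |z| ≤ L + 3}

/-- sum over the atoms -/
def csum (a : Atoms) (e : ℕ → ℕ → ℕ → ℝ) : ℝ :=
  ∑ i ∈ Finset.range (2 * a.Ka), ∑ j ∈ Finset.range (2 * a.Ka), ∑ k ∈ Finset.range (2 * a.nc i j), e i j k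

/-- Riemann sum -/
def Rs (a : Atoms) (G : P3 → ℝ) : ℝ := csum a fun i j k => a.h ^ 2 * a.sp i j * G (ctr a i j k)

/-- integral over the union of the cells -/
def Ci (a : Atoms) (G : P3 → ℝ) : ℝ := csum a fun i j k => ∫ u in cell (ctr a i j k) a.h (a.sp i j), G u

/-- the density -/
def mu (ω : ℝ) (w : P2 → ℝ) (p : P2) : ℝ := (ω ^ 2 + lap2 w p) / (4 * Real.pi)

/-- Coulomb kernel cut off at scale `ς` -/
def ks (ς : ℝ) (u : P3) : ℝ := kfar (ς⁻¹ • u) / ς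

/-- singular part of the Coulomb kernel -/
def kn (ς : ℝ) (u : P3) : ℝ := 1 / nrm3 u - ks ς u

/-- density times test function -/
def mf (μ : P2 → ℝ) (F : P3 → ℝ) (u : P3) : ℝ := μ u.1 * F u

/-- discretisation error -/
def Err (a : Atoms) (μ : P2 → ℝ) (ℓ L : ℝ) (F : P3 → ℝ) : ℝ :=
  ℓ * a.sum F - ∫ u in bx a.A L, mf μ F u

def wt (ς : ℝ) (y u : P3) : ℝ := (ς + ‖y - u‖)⁻¹

/-- majorant of the derivatives of `μ · ks ς (y - ·)` -/
def maj (ς Λ : ℝ) (y u : P3) : ℝ := wt ς y u ^ 3 + indicator {u : P3 | ‖u.1‖ ≤ Λ + 3} (wt ς y) u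

/-- `m` majorises `f` at distance `δ` -/
def Maj (δ : ℝ) (f m : P3 → ℝ) : Prop := ∀ u u', ‖u - u'‖ ≤ δ → f u ≤ m u'

/-- potential of the homogeneous box -/
def Pb (A L : ℝ) (y : P3) : ℝ := ∫ u in bx A L, 1 / nrm3 (y - u)

/-- potential of the modulation -/
def Nw (w : P2 → ℝ) (A L : ℝ) (y : P3) : ℝ := ∫ u in bx A L, lap2 w u.1 / (4 * Real.pi) * (1 / nrm3 (y - u))

/-- potential of the continuous density -/
def Vb (μ : P2 → ℝ) (A L : ℝ) (y : P3) : ℝ := ∫ u in bx A L, μ u.1 * (1 / nrm3 (y - u))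

/-- the singular part of the potential of the atoms -/
def Vc (a : Atoms) (ℓ : ℝ) (y : P3) : ℝ := ℓ * a.sum fun Y => kn (a.h / 8) (y - Y)

/-- a density which is constant off `box2 Λ` -/
structure Den (μ : P2 → ℝ) (M Λ : ℝ) : Prop where
  bd : Bd 4 M μ
  out : ∃ c : ℝ, ∀ p, p ∉ box2 Λ → μ p = c

/-- the standing hypotheses -/
structure Hyp (a : Atoms) (w : P2 → ℝ) (ℓ ω L τ Λ M Λg : ℝ) : Prop where
  ok : AtomsOK a w ℓ ω L τ Λ
  bd : Bd 6 M w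
  out : ∀ p, p ∉ box2 Λ → w p = 1
  M1 : 1 ≤ M
  ωM : ω ^ 2 ≤ M
  ℓ0 : 0 < ℓ
  τ0 : 0 ≤ τ
  τ1 : τ ≤ 1
  Λ2 : 2 ≤ Λ
  L8 : 8 ≤ L
  ΛL : 4 * Λ ≤ L
  LA : L ≤ a.A
  lg : 1 + Real.log (8 * a.Ka) ≤ Λg

theorem Atoms.sum_eq (a : Atoms) (F : P3 → ℝ) : a.sum F = csum a fun i j k => F (ctr a i j k) := rfl

theorem Hyp.Λg1 {a : Atoms} {w : P2 → ℝ} {ℓ ω L τ Λ M Λg : ℝ} (H : Hyp a w ℓ ω L τ Λ M Λg) : 1 ≤ Λg := by
  have h1 : (8 : ℝ) ≤ a.Ka * a.h := H.L8.trans H.LA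
  have h2 : (a.Ka : ℝ) * a.h ≤ a.Ka := mul_le_of_le_one_right (Nat.cast_nonneg _) H.ok.h_le
  have := Real.log_nonneg (show (1 : ℝ) ≤ 8 * a.Ka by linarith)
  linarith [H.lg]

end Crest.Agent.R338
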