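import Crest.Agent.R338.Pot_D

/-! # Pot_FTC: integrals of derivatives over boxes
Keep the statements; auxiliary lemmas get the prefix `pftc_`.
Fubini (`Measure.volume_eq_prod`, `setIntegral_prod`, `integral_prod_symm`, `Measure.prod_restrict`), then
`intervalIntegral.integral_eq_sub_of_hasDerivAt` on each line, `norm_integral_le_of_norm_le` / `norm_setIntegral_le_of_norm_le_const`. -/

set_option autoImplicit false
set_option linter.dupNamespace false
set_option linter.unusedVariables false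

noncomputable section

namespace Crest.Agent.R338

open MeasureTheory Set Filter Topology

theorem pftc_cont {H : P3 → ℝ} (hH : ContDiff ℝ 1 H) (e : P3) : Continuous fun u => fderiv ℝ H u e :=
  (hH.continuous_fderiv one_ne_zero).clm_apply continuous_const

theorem pftc_line {H : P3 → ℝ} (hH : ContDiff ℝ 1 H) (u e : P3) {a b : ℝ} (hab : a ≤ b) :
    ∫ t in Ioc a b, fderiv ℝ H (u + t • e) e = H (u + b • e) - H (u + a • e) := by
  rw [← intervalIntegral.integral_of_le hab]
  refine intervalIntegral.integral_eq_sub_of_hasDerivAt (f := fun t : ℝ => H (u + t • e)) (fun t _ => ?_)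
    (((pftc_cont hH e).comp (by fun_prop : Continuous fun t : ℝ => u + t • e)).intervalIntegrable _ _)
  have h1 : HasDerivAt (fun t : ℝ => u + t • e) e t := by
    simpa using ((hasDerivAt_id t).smul_const e).const_add u
  exact (hH.differentiable one_ne_zero _).hasFDerivAt.comp_hasDerivAt t h1

theorem pftc_Ioc {A K : ℝ} (hA : 0 ≤ A) {g : ℝ → ℝ} (h : ∀ x, |g x| ≤ K) : |∫ x in Ioc (-A) A, g x| ≤ K * (2 * A) := by
  have := norm_setIntegral_le_of_norm_le_const (μ := volume) (s := Ioc (-A) A) (f := g) (C := K)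
    measure_Ioc_lt_top fun x _ => h x
  rw [Real.volume_real_Ioc_of_le (by linarith)] at this
  exact this.trans (le_of_eq (by ring))

theorem pftc_box {G : P3 → ℝ} (hG : Continuous G) {A L K : ℝ} (hL : 0 ≤ L)
    (h : ∀ z, |∫ p in sq2 A, G (p, z)| ≤ K) : |∫ u in bx A L, G u| ≤ K * (2 * L) := by
  have hi := integrableOn_bx hG A L
  rw [bx, IntegrableOn, Measure.volume_eq_prod, ← Measure.prod_restrict] at hi
  rw [bx, Measure.volume_eq_prod, ← Measure.prod_restrict, integral_prod_symm _ hi]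
  exact pftc_Ioc hL h

theorem ftc3 {H : P3 → ℝ} (hH : ContDiff ℝ 1 H) {S : Set P2} (hS : MeasurableSet S) (hb : Bornology.IsBounded S)
    {T : ℝ} (hT : 0 ≤ T) {b : P2 → ℝ} (hi : IntegrableOn b S)
    (h : ∀ p ∈ S, |H (p, T)| ≤ b p ∧ |H (p, -T)| ≤ b p) :
    |∫ u in S ×ˢ Ioc (-T) T, d3 H u| ≤ 2 * ∫ p in S, b p := by
  have hc : Continuous (d3 H) := pftc_cont hH _
  rw [Measure.volume_eq_prod, setIntegral_prod _ (integrableOn_of_bounded3 hc (hb.prod (Metric.isBounded_Ioc _ _))),
    ← integral_const_mul, ← Real.norm_eq_abs]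
  refine norm_integral_le_of_norm_le (hi.const_mul 2) ((ae_restrict_iff' hS).2 (Eventually.of_forall fun p hp => ?_))
  have e := pftc_line hH (p, 0) ((0, 0), 1) (a := -T) (b := T) (by linarith)
  simp only [Prod.smul_mk, Prod.mk_add_mk, smul_eq_mul, mul_one, zero_add, Prod.mk_zero_zero, smul_zero,
    add_zero] at e
  have e' : ∫ z in Ioc (-T) T, d3 H (p, z) = H (p, T) - H (p, -T) := e
  rw [e', Real.norm_eq_abs]
  have := abs_sub (H (p, T)) (H (p, -T))
  linarith [(h p hp).1, (h p hp).2]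

theorem ftc1 {H : P3 → ℝ} (hH : ContDiff ℝ 1 H) {A L K : ℝ} (hA : 0 ≤ A) (hL : 0 ≤ L)
    (h : ∀ u : P3, |u.1.1| = A → |H u| ≤ K) : |∫ u in bx A L, d1 H u| ≤ 8 * K * A * L := by
  have hc : Continuous (d1 H) := pftc_cont hH _
  refine (pftc_box hc (K := 2 * K * (2 * A)) hL fun z => ?_).trans (le_of_eq (by ring))
  have hi := integrableOn_of_bounded2 (G := fun p => d1 H (p, z)) (hc.comp (by fun_prop)) (isBounded_sq2 A)
  rw [sq2, IntegrableOn, Measure.volume_eq_prod, ← Measure.prod_restrict] at hi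
  rw [sq2, Measure.volume_eq_prod, ← Measure.prod_restrict, integral_prod_symm _ hi]
  refine pftc_Ioc hA fun y => ?_
  have e := pftc_line hH ((0, y), z) ((1, 0), 0) (a := -A) (b := A) (by linarith)
  simp only [Prod.smul_mk, Prod.mk_add_mk, smul_eq_mul, mul_zero, mul_one, zero_add, add_zero] at e
  have e' : ∫ x in Ioc (-A) A, d1 H ((x, y), z) = H ((A, y), z) - H ((-A, y), z) := e
  rw [e']
  have := abs_sub (H ((A, y), z)) (H ((-A, y), z))
  linarith [h ((A, y), z) (abs_of_nonneg hA), h ((-A, y), z) (by simp [abs_of_nonneg hA])]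

theorem ftc2 {H : P3 → ℝ} (hH : ContDiff ℝ 1 H) {A L K : ℝ} (hA : 0 ≤ A) (hL : 0 ≤ L)
    (h : ∀ u : P3, |u.1.2| = A → |H u| ≤ K) : |∫ u in bx A L, d2 H u| ≤ 8 * K * A * L := by
  have hc : Continuous (d2 H) := pftc_cont hH _
  refine (pftc_box hc (K := 2 * K * (2 * A)) hL fun z => ?_).trans (le_of_eq (by ring))
  have hi := integrableOn_of_bounded2 (G := fun p => d2 H (p, z)) (hc.comp (by fun_prop)) (isBounded_sq2 A)
  rw [sq2, IntegrableOn, Measure.volume_eq_prod, ← Measure.prod_restrict] at hi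
  rw [sq2, Measure.volume_eq_prod, ← Measure.prod_restrict, integral_prod _ hi]
  refine pftc_Ioc hA fun x => ?_
  have e := pftc_line hH ((x, 0), z) ((0, 1), 0) (a := -A) (b := A) (by linarith)
  simp only [Prod.smul_mk, Prod.mk_add_mk, smul_eq_mul, mul_zero, mul_one, zero_add, add_zero] at e
  have e' : ∫ y in Ioc (-A) A, d2 H ((x, y), z) = H ((x, A), z) - H ((x, -A), z) := e
  rw [e']
  have := abs_sub (H ((x, A), z)) (H ((x, -A), z))
  linarith [h ((x, A), z) (abs_of_nonneg hA), h ((x, -A), z) (by simp [abs_of_nonneg hA])]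

end Crest.Agent.R338
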