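import Crest.Agent.R338.Pot_Cell
import Crest.Agent.R338.Pot_Sum
import Crest.Agent.R338.Pot_FTC

/-! # Pot_Disc: midpoint rules for the whole slab
Keep the statements; auxiliary lemmas get the prefix `pdisc_`. -/

set_option autoImplicit false
set_option linter.dupNamespace false
set_option linter.unusedVariables false

noncomputable section

namespace Crest.Agent.R338

open MeasureTheory Set Filter Topology

variable {a : Atoms} {w : P2 → ℝ} {ℓ ω L τ Λ M Λg : ℝ}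

theorem pdisc_sp (ok : AtomsOK a w ℓ ω L τ Λ) {i j : ℕ} (hi : i < 2 * a.Ka) (hj : j < 2 * a.Ka) :
    0 < a.sp i j := by
  linarith [(ok.col i hi j hj).1, ok.h_pos]

theorem pdisc_le (ok : AtomsOK a w ℓ ω L τ Λ) {E : ℕ → ℕ → ℕ → ℝ} {m : P3 → ℝ} {c : ℝ} (hc : 0 ≤ c)
    (h0 : ∀ u, 0 ≤ m u) (hm : IntegrableOn m (bx a.A (L + 3)))
    (h : ∀ i < 2 * a.Ka, ∀ j < 2 * a.Ka, ∀ k < 2 * a.nc i j, ∀ u ∈ cell (ctr a i j k) a.h (a.sp i j),
      |E i j k| ≤ a.h ^ 2 * a.sp i j * (c * m u)) :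
    |csum a E| ≤ c * ∫ u in bx a.A (L + 3), m u := by
  have hh := ok.h_pos
  have h1 := csum_le ok (e := fun i j k => |E i j k| / (a.h ^ 2 * a.sp i j)) (m := fun u => c * m u)
    (fun u => mul_nonneg hc (h0 u)) (hm.const_mul c) fun i hi j hj k hk u hu => by
      have := pdisc_sp ok hi hj
      exact (div_le_iff₀' (by positivity)).2 (h i hi j hj k hk u hu)
  rw [integral_const_mul] at h1
  refine le_trans ?_ h1
  unfold csum
  refine (Finset.abs_sum_le_sum_abs _ _).trans (Finset.sum_le_sum fun i hi => ?_)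
  refine (Finset.abs_sum_le_sum_abs _ _).trans (Finset.sum_le_sum fun j hj => ?_)
  refine (Finset.abs_sum_le_sum_abs _ _).trans (Finset.sum_le_sum fun k hk => ?_)
  have := pdisc_sp ok (Finset.mem_range.1 hi) (Finset.mem_range.1 hj)
  exact (mul_div_cancel₀ _ (by positivity)).ge

theorem pdisc_near (ok : AtomsOK a w ℓ ω L τ Λ) {i j k : ℕ} (hi : i < 2 * a.Ka) (hj : j < 2 * a.Ka)
    {u u' : P3} (hu : ‖u - ctr a i j k‖ ≤ 3 * a.h / 2) (hu' : u' ∈ cell (ctr a i j k) a.h (a.sp i j)) :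
    ‖u - u'‖ ≤ 3 * a.h := by
  have h1 := norm_sub_le_of_mem_cell hu' (δ := 3 * a.h) (by linarith [ok.h_pos]) (ok.col i hi j hj).2.1
  have h2 := norm_sub_le_norm_sub_add_norm_sub u (ctr a i j k) u'
  rw [norm_sub_rev (ctr a i j k)] at h2
  linarith

theorem pdisc_col (ok : AtomsOK a w ℓ ω L τ Λ) {G : P3 → ℝ} {b : P2 → ℝ} (hG : ContDiff ℝ 2 G)
    (hb0 : ∀ p, 0 ≤ b p) (hbi : IntegrableOn b (sq2 a.A)) (hb : ∀ u : P3, L - 3 ≤ |u.2| → |d3 G u| ≤ b u.1) :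
    |csum a fun i j k => a.sp i j ^ 2 / 24 * ∫ u in cell (ctr a i j k) a.h (a.sp i j), d3 (d3 G) u| ≤
      ∫ p in sq2 a.A, b p := by
  have hG1 : ContDiff ℝ 1 (d3 G) := contDiff_d3 (n := 1) hG
  rw [← sum_base ok.h_pos hbi]
  unfold csum
  refine (Finset.abs_sum_le_sum_abs _ _).trans (Finset.sum_le_sum fun i hi => ?_)
  refine (Finset.abs_sum_le_sum_abs _ _).trans (Finset.sum_le_sum fun j hj => ?_)
  rw [Finset.mem_range] at hi hj
  have s0 := pdisc_sp ok hi hj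
  obtain ⟨-, s1, -, s2, -⟩ := ok.col i hi j hj
  have h1 := ok.h_le
  have hT : 0 ≤ a.nc i j * a.sp i j := by positivity
  have hT' : L - 3 ≤ a.nc i j * a.sp i j := by linarith [(abs_le.1 s2).1]
  rw [← Finset.mul_sum, sum_cell ok hi hj (integrableOn_bx (contDiff_d3 (n := 0) hG1).continuous _ _),
    abs_mul, abs_of_nonneg (by positivity : 0 ≤ a.sp i j ^ 2 / 24)]
  have h2 := ftc3 hG1 (measurableSet_base a i j) (isBounded_base a i j) hT
    (hbi.mono_set (base_subset ok.h_pos hi hj)) fun p _ =>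
      ⟨hb (p, _) (by rwa [abs_of_nonneg hT]), hb (p, _) (by rwa [abs_neg, abs_of_nonneg hT])⟩
  have h3 : 0 ≤ ∫ p in base a i j, b p := integral_nonneg hb0
  have h4 : a.sp i j ^ 2 / 24 ≤ 1 / 2 := by nlinarith
  calc _ ≤ 1 / 2 * (2 * ∫ p in base a i j, b p) := mul_le_mul h4 h2 (abs_nonneg _) (by norm_num)
    _ = _ := by ring

/-- `|ℓ - h² s μ(centre)| ≤ τ h² s`; `csum_le` with `e = |F (ctr ..)|` (`norm_sub_le_of_mem_cell`) -/
theorem disc0 (ok : AtomsOK a w ℓ ω L τ Λ) (hτ : 0 ≤ τ) {F m : P3 → ℝ} (h0 : ∀ u, 0 ≤ m u)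
    (hm : IntegrableOn m (bx a.A (L + 3))) (h : Maj (3 * a.h) (fun u => |F u|) m) :
    |ℓ * a.sum F - Rs a (mf (mu ω w) F)| ≤ τ * ∫ u in bx a.A (L + 3), m u := by
  have e : ℓ * a.sum F - Rs a (mf (mu ω w) F) = csum a fun i j k =>
      (ℓ - a.h ^ 2 * a.sp i j * mu ω w (ctr a i j k).1) * F (ctr a i j k) := by
    simp only [Atoms.sum_eq, Rs, csum, mf, Finset.mul_sum, ← Finset.sum_sub_distrib, sub_mul, mul_assoc]
  rw [e]
  refine pdisc_le ok hτ h0 hm fun i hi j hj k hk u hu => ?_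
  have hh := ok.h_pos
  have s0 := pdisc_sp ok hi hj
  have h1 : |ℓ / (a.h ^ 2 * a.sp i j) - mu ω w (ctr a i j k).1| ≤ τ := (ok.col i hi j hj).2.2.1
  have h2 : |F (ctr a i j k)| ≤ m u := h _ _ (pdisc_near ok hi hj (by rw [sub_self, norm_zero]; positivity) hu)
  have e2 : ℓ - a.h ^ 2 * a.sp i j * mu ω w (ctr a i j k).1 =
      a.h ^ 2 * a.sp i j * (ℓ / (a.h ^ 2 * a.sp i j) - mu ω w (ctr a i j k).1) := by
    rw [mul_sub, mul_div_cancel₀ _ (by positivity)]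
  rw [e2, abs_mul, abs_mul, abs_of_nonneg (by positivity : 0 ≤ a.h ^ 2 * a.sp i j), mul_assoc]
  gcongr

/-- `cell2` with `δ = 3h`, `K = m u'` for every `u'` in the cell; `csum_le` with `e = |error| / (h² s 9h²)`; `ci_sub` -/
theorem disc2 (ok : AtomsOK a w ℓ ω L τ Λ) (hL : 0 ≤ L) {G m : P3 → ℝ} (hG : ContDiff ℝ 2 G) (h0 : ∀ u, 0 ≤ m u)
    (hm : IntegrableOn m (bx a.A (L + 3))) (h : Maj (3 * a.h) (fun u => ‖iteratedFDeriv ℝ 2 G u‖) m) :
    |Rs a G - ∫ u in bx a.A L, G u| ≤ 9 * a.h ^ 2 * (∫ u in bx a.A (L + 3), m u) + ∫ u in Mis L Λ, |G u| := by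
  have hh := ok.h_pos
  have e : Rs a G - Ci a G = csum a fun i j k => a.h ^ 2 * a.sp i j * G (ctr a i j k) -
      ∫ u in cell (ctr a i j k) a.h (a.sp i j), G u := by
    simp only [Rs, Ci, csum, Finset.sum_sub_distrib]
  have h1 : |Rs a G - Ci a G| ≤ (3 * a.h) ^ 2 * ∫ u in bx a.A (L + 3), m u := by
    rw [e]
    exact pdisc_le ok (by positivity) h0 hm fun i hi j hj k hk u hu =>
      cell2 hG hh (pdisc_sp ok hi hj) (by linarith) (ok.col i hi j hj).2.1 fun v hv =>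
        h _ _ (pdisc_near ok hi hj hv hu)
  have h2 := ci_sub ok hL hG.continuous
  have h3 := abs_sub_le (Rs a G) (Ci a G) (∫ u in bx a.A L, G u)
  linarith

/-- `cell4`, `csum_le`; `Ci G`, `Ci (d1 (d1 G))`, `Ci (d2 (d2 G))` are compared with the box integrals (`ci_sub`), the latter are
boundary terms (`ftc1`, `ftc2`: `h²/24 · 2 · 8 K A L`); in each column `sum_cell`, `ftc3` with `T = nc · sp ≥ L - 3`,
`sp² / 24 · 2 ≤ h²`, then `sum_base`. -/
theorem disc4 (ok : AtomsOK a w ℓ ω L τ Λ) (hL : 0 ≤ L) {G m : P3 → ℝ} {b : P2 → ℝ} {K : ℝ} (hG : ContDiff ℝ 4 G)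
    (h0 : ∀ u, 0 ≤ m u) (hm : IntegrableOn m (bx a.A (L + 3)))
    (h : Maj (3 * a.h) (fun u => ‖iteratedFDeriv ℝ 4 G u‖) m)
    (hK : ∀ u : P3, a.A ≤ ‖u.1‖ → ‖fderiv ℝ G u‖ ≤ K) (hb0 : ∀ p, 0 ≤ b p) (hbi : IntegrableOn b (sq2 a.A))
    (hb : ∀ u : P3, L - 3 ≤ |u.2| → |d3 G u| ≤ b u.1) :
    |Rs a G - ∫ u in bx a.A L, G u| ≤ 81 * a.h ^ 4 * (∫ u in bx a.A (L + 3), m u) +
      ((∫ u in Mis L Λ, |G u|) + (∫ u in Mis L Λ, |d1 (d1 G) u|) + ∫ u in Mis L Λ, |d2 (d2 G) u|) +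
      K * a.A * L + ∫ p in sq2 a.A, b p := by
  have hh := ok.h_pos
  have hA : 0 ≤ a.A := mul_nonneg (Nat.cast_nonneg _) hh.le
  have hG2 : ContDiff ℝ 2 G := hG.of_le (by norm_num)
  have g1 : ContDiff ℝ 1 (d1 G) := contDiff_d1 (n := 1) hG2
  have g2 : ContDiff ℝ 1 (d2 G) := contDiff_d2 (n := 1) hG2
  have e : Rs a G - Ci a G + a.h ^ 2 / 24 * Ci a (d1 (d1 G)) + a.h ^ 2 / 24 * Ci a (d2 (d2 G)) +
      (csum a fun i j k => a.sp i j ^ 2 / 24 * ∫ u in cell (ctr a i j k) a.h (a.sp i j), d3 (d3 G) u) =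
      csum a fun i j k => a.h ^ 2 * a.sp i j * G (ctr a i j k) -
        (∫ u in cell (ctr a i j k) a.h (a.sp i j), G u) +
        (a.h ^ 2 * (∫ u in cell (ctr a i j k) a.h (a.sp i j), d1 (d1 G) u) +
          a.h ^ 2 * (∫ u in cell (ctr a i j k) a.h (a.sp i j), d2 (d2 G) u) +
          a.sp i j ^ 2 * ∫ u in cell (ctr a i j k) a.h (a.sp i j), d3 (d3 G) u) / 24 := by
    simp only [Rs, Ci, csum, Finset.mul_sum, ← Finset.sum_sub_distrib, ← Finset.sum_add_distrib]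
    refine Finset.sum_congr rfl fun i _ => Finset.sum_congr rfl fun j _ =>
      Finset.sum_congr rfl fun k _ => ?_
    ring
  have h1 := pdisc_le ok (c := (3 * a.h) ^ 4) (by positivity) h0 hm fun i hi j hj k hk u hu =>
    cell4 hG hh (pdisc_sp ok hi hj) (by linarith) (ok.col i hi j hj).2.1 fun v hv =>
      h _ _ (pdisc_near ok hi hj hv hu)
  rw [← e] at h1
  have h2 := ci_sub ok hL hG.continuous
  have h3 := ci_sub ok hL (contDiff_d1 (n := 0) g1).continuous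
  have h4 := ci_sub ok hL (contDiff_d2 (n := 0) g2).continuous
  have h5 := ftc1 g1 hA hL fun u hu => (abs_d1_le G u).trans (hK u (hu ▸ norm_fst_le u.1))
  have h6 := ftc2 g2 hA hL fun u hu => (abs_d2_le G u).trans (hK u (hu ▸ norm_snd_le u.1))
  have h7 := pdisc_col ok hG2 hb0 hbi hb
  have c0 : 0 ≤ a.h ^ 2 / 24 := by positivity
  have c1 : a.h ^ 2 / 24 ≤ 1 / 24 := by nlinarith [ok.h_le]
  have key : ∀ {x y M B : ℝ}, |x - y| ≤ M → |y| ≤ B → |a.h ^ 2 / 24 * x| ≤ M + B / 24 := by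
    intro x y M B a1 a2
    have a3 : |x| ≤ M + B := by
      have := abs_add_le (x - y) y
      rw [sub_add_cancel] at this
      linarith
    have a4 := abs_nonneg (x - y)
    rw [abs_mul, abs_of_nonneg c0]
    calc _ ≤ 1 / 24 * (M + B) := mul_le_mul c1 a3 (abs_nonneg _) (by norm_num)
      _ ≤ _ := by linarith
  have h8 := abs_le.1 (key h3 h5)
  have h9 := abs_le.1 (key h4 h6)
  have h10 := (abs_nonneg _).trans h5
  obtain ⟨b1, b2⟩ := abs_le.1 h1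
  obtain ⟨b3, b4⟩ := abs_le.1 h2
  obtain ⟨b5, b6⟩ := abs_le.1 h7
  rw [abs_le]
  constructor <;> linarith [h8.1, h8.2, h9.1, h9.2]

end Crest.Agent.R338
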