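import Crest.Agent.R338.Pot_Disc
import Crest.Agent.R338.Pot_Leib

/-! # Pot_E2: second order error
Keep the statements; auxiliary lemmas get the prefix `pe2_`. -/

set_option autoImplicit false
set_option linter.dupNamespace false
set_option linter.unusedVariables false

noncomputable section

namespace Crest.Agent.R338

open MeasureTheory Set Filter Topology

/-- `Err F = (ℓ ∑ F - Rs (mf μ F)) + (Rs (mf μ F) - ∫ mf μ F)`; `disc0`, `disc2`, `exists_leib` with `δ = 3h`, `exists_maj`;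
`1 ≤ M, Λ, Λg` (`Hyp.Λg1`), `h ≤ 1`. -/
theorem exists_e2 : ∃ C : ℝ, 1 ≤ C ∧ ∀ {a : Atoms} {w : P2 → ℝ} {ℓ ω L τ Λ M Λg : ℝ}, Hyp a w ℓ ω L τ Λ M Λg →
    ∀ ς : ℝ, a.h / 8 ≤ ς → ς ≤ 1 → ∀ y : P3,
      (|y.2| ≤ L / 2 → |Err a (mu ω w) ℓ L fun u => ks ς (y - u)| ≤
        C * M * Λg ^ 3 * Λ ^ 2 * (a.h ^ 2 + 1 / L + τ * a.A ^ 2)) ∧
      |Err a (mu ω w) ℓ L fun u => ks ς (y - u)| ≤ C * M * Λg ^ 3 * Λ ^ 2 * (1 + τ * a.A ^ 2) := by
  obtain ⟨C1, c1, lb⟩ := exists_leib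
  obtain ⟨C2, c2, mj⟩ := exists_maj
  refine ⟨10 * (C1 * C2), by nlinarith, fun {a w ℓ ω L τ Λ M Λg} H ς h1 h2 y => ?_⟩
  have h0 := H.ok.h_pos
  have hh := H.ok.h_le
  have hς : 0 < ς := by linarith
  have hM := H.M1
  have hΛ := H.Λ2
  have hg := H.Λg1
  have hL := H.L8
  have hτ := H.τ0
  obtain ⟨l1, l2, l3⟩ := (lb H.den y).1 ς (3 * a.h) hς (by linarith) (by linarith)
  obtain ⟨m1, m2, m3, m4⟩ := (mj H).1 ς h1 h2 y
  have hF : ContDiff ℝ 4 fun u => ks ς (y - u) := (contDiff_ks ς).comp (contDiff_const.sub contDiff_id)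
  have hG := H.den.contDiff_mf hF
  have d0 := disc0 H.ok hτ (fun u => mul_nonneg (by linarith) (wt_nonneg hς y u))
    ((integrableOn_bx (continuous_wt hς y) _ _).const_mul C1) l1
  have d2 := disc2 H.ok (by linarith) (hG.of_le (by norm_num))
    (fun u => mul_nonneg (by positivity) (maj_nonneg hς Λ y u)) ((integrableOn_maj hς Λ y _ _).const_mul (C1 * M)) l2
  have d3 : ∫ u in Mis L Λ, |mf (mu ω w) (fun u => ks ς (y - u)) u| ≤ C1 * M * ∫ u in Mis L Λ, wt ς y u := by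
    rw [← integral_const_mul]
    exact integral_mono (hG.continuous.abs.continuousOn.integrableOn_compact (isCompact_Mis L Λ))
      (((continuous_wt hς y).continuousOn.integrableOn_compact (isCompact_Mis L Λ)).const_mul _) l3
  rw [integral_const_mul] at d0 d2
  obtain ⟨P, hP⟩ : ∃ P, P = C1 * C2 * M * Λg ^ 3 * Λ ^ 2 := ⟨_, rfl⟩
  have P0 : 0 ≤ P := by rw [hP]; positivity
  have g3 : Λg ≤ Λg ^ 3 := le_self_pow₀ hg (by norm_num)
  have e0 : τ * (C1 * ∫ u in bx a.A (L + 3), wt ς y u) ≤ P * (τ * a.A ^ 2) :=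
    calc _ ≤ τ * (C1 * (C2 * Λg * a.A ^ 2)) := by gcongr
      _ = C1 * C2 * 1 * Λg * 1 * (τ * a.A ^ 2) := by ring
      _ ≤ _ := by rw [hP]; gcongr; nlinarith
  have e2 : 9 * a.h ^ 2 * (C1 * M * ∫ u in bx a.A (L + 3), maj ς Λ y u) ≤ 9 * (P * a.h ^ 2) :=
    calc _ ≤ 9 * a.h ^ 2 * (C1 * M * (C2 * Λg ^ 3 * Λ ^ 2)) := by gcongr
      _ = _ := by rw [hP]; ring
  have key : |Err a (mu ω w) ℓ L fun u => ks ς (y - u)| ≤ P * (τ * a.A ^ 2) + 9 * (P * a.h ^ 2) +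
      C1 * M * ∫ u in Mis L Λ, wt ς y u := by
    have := abs_sub_le (ℓ * a.sum fun u => ks ς (y - u)) (Rs a (mf (mu ω w) fun u => ks ς (y - u)))
      (∫ u in bx a.A L, mf (mu ω w) (fun u => ks ς (y - u)) u)
    unfold Err
    linarith
  have r1 : 0 ≤ P * (τ * a.A ^ 2) := by positivity
  have r2 : 0 ≤ P * a.h ^ 2 := by positivity
  rw [show 10 * (C1 * C2) * M * Λg ^ 3 * Λ ^ 2 = 10 * P by rw [hP]; ring]
  refine ⟨fun hy => ?_, ?_⟩
  · have e3 : C1 * M * ∫ u in Mis L Λ, wt ς y u ≤ P * (1 / L) :=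
      calc _ ≤ C1 * M * (C2 * Λ ^ 2 / L) := by gcongr; exact m4 hy
        _ = C1 * C2 * M * 1 * Λ ^ 2 * (1 / L) := by ring
        _ ≤ _ := by rw [hP]; gcongr; linarith
    have r3 : 0 ≤ P * (1 / L) := by positivity
    linarith
  · have e3 : C1 * M * ∫ u in Mis L Λ, wt ς y u ≤ P :=
      calc _ ≤ C1 * M * (C2 * Λg * Λ ^ 2) := by gcongr
        _ = C1 * C2 * M * Λg * Λ ^ 2 := by ring
        _ ≤ _ := by rw [hP]; gcongr
    have r3 : P * a.h ^ 2 ≤ P := mul_le_of_le_one_right P0 (pow_le_one₀ h0.le hh)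
    linarith

end Crest.Agent.R338
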