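import Crest.Agent.R338.Pot_Rad

/-! # Pot_Hardy: a local Hardy inequality
Keep the statements; auxiliary lemmas get the prefix `phardy_`. -/

set_option autoImplicit false
set_option linter.dupNamespace false
set_option linter.unusedVariables false

noncomputable section

namespace Crest.Agent.R338

open MeasureTheory Set Filter Topology

instance phardy_haar2 : (volume : Measure P2).IsAddHaarMeasure := Measure.prod.instIsAddHaarMeasure _ _
instance phardy_haar3 : (volume : Measure P3).IsAddHaarMeasure := Measure.prod.instIsAddHaarMeasure _ _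

theorem phardy_ray {f : P3 → ℝ} (hf : Cc1 f) (u : P3) :
    ENNReal.ofReal (1 / nrm3 u * |f u|) ≤ ∫⁻ t in Ioi (1 : ℝ), ENNReal.ofReal ‖fderiv ℝ f (t • u)‖ := by
  by_cases hu : u = 0
  · simp [hu, nrm3]
  have hG : Continuous fun y => ‖fderiv ℝ f y‖ := (hf.1.continuous_fderiv (by simp)).norm
  have hemb := isClosedEmbedding_smul_left (𝕜 := ℝ) hu
  have h1 : ContDiff ℝ 1 fun t : ℝ => f (t • u) := hf.1.comp (contDiff_id.smul contDiff_const)
  have h2 : HasCompactSupport fun t : ℝ => f (t • u) := hf.2.comp_isClosedEmbedding hemb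
  have h3 : Integrable fun t : ℝ => ‖fderiv ℝ f (t • u)‖ :=
    (hG.comp hemb.continuous).integrable_of_hasCompactSupport
      (((hf.2.fderiv ℝ).norm).comp_isClosedEmbedding hemb)
  have h4 := h2.integral_Ioi_deriv_eq h1 1
  have h5 : |f u| ≤ ∫ t in Ioi (1 : ℝ), ‖fderiv ℝ f (t • u)‖ * ‖u‖ := by
    rw [one_smul] at h4
    rw [← abs_neg, ← h4, ← Real.norm_eq_abs]
    refine norm_integral_le_of_norm_le (h3.mul_const _).integrableOn (Eventually.of_forall fun t => ?_)
    have : HasDerivAt (fun t : ℝ => f (t • u)) (fderiv ℝ f (t • u) u) t := by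
      have h := ((hf.1.differentiable (by simp)) (t • u)).hasFDerivAt.comp_hasDerivAt t
        ((hasDerivAt_id t).smul_const u)
      rwa [one_smul] at h
    rw [this.deriv]
    exact ContinuousLinearMap.le_opNorm _ _
  rw [← ofReal_integral_eq_lintegral_ofReal h3.integrableOn (Eventually.of_forall fun t => norm_nonneg _)]
  refine ENNReal.ofReal_le_ofReal ?_
  rw [integral_mul_const] at h5
  have h6 : 0 < ‖u‖ := norm_pos_iff.2 hu
  have h7 := norm_le_nrm3 u
  rw [one_div, inv_mul_le_iff₀ (h6.trans_le h7), mul_comm]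
  exact h5.trans (mul_le_mul_of_nonneg_left h7 (integral_nonneg fun t => norm_nonneg _))

theorem phardy_zero {f : P3 → ℝ} (hf : Cc1 f) : ∫ y, 1 / nrm3 y * |f y| ≤ ∫ y, ‖fderiv ℝ f y‖ := by
  have hG : Continuous fun y => ‖fderiv ℝ f y‖ := (hf.1.continuous_fderiv (by simp)).norm
  have hI : Integrable fun y => ‖fderiv ℝ f y‖ := hG.integrable_of_hasCompactSupport (hf.2.fderiv ℝ).norm
  set I := ∫ y, ‖fderiv ℝ f y‖ with hIdef
  have hI0 : 0 ≤ I := integral_nonneg fun _ => norm_nonneg _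
  have hm : Measurable fun y => 1 / nrm3 y * |f y| :=
    (continuous_nrm3.measurable.const_div 1).mul hf.1.continuous.abs.measurable
  rw [integral_eq_lintegral_of_nonneg_ae (Eventually.of_forall fun y =>
    mul_nonneg (one_div_nonneg.2 (nrm3_nonneg y)) (abs_nonneg _)) hm.aestronglyMeasurable]
  refine ENNReal.toReal_le_of_le_ofReal hI0 ((lintegral_mono (phardy_ray hf)).trans ?_)
  rw [lintegral_lintegral_swap (f := fun (u : P3) (t : ℝ) => ENNReal.ofReal ‖fderiv ℝ f (t • u)‖)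
    (hG.comp (continuous_snd.smul continuous_fst)).measurable.ennreal_ofReal.aemeasurable]
  have h1 : ∀ t ∈ Ioi (1 : ℝ), ∫⁻ u : P3, ENNReal.ofReal ‖fderiv ℝ f (t • u)‖ =
      ENNReal.ofReal (t ^ (-3 : ℝ) * I) := by
    intro t ht
    have ht0 : (0 : ℝ) < t := one_pos.trans ht
    rw [← ofReal_integral_eq_lintegral_ofReal (hI.comp_smul ht0.ne') (Eventually.of_forall fun t => norm_nonneg _),
      Measure.integral_comp_smul volume (fun y => ‖fderiv ℝ f y‖) t, abs_of_pos (by positivity),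
      Real.rpow_neg ht0.le]
    simp [hIdef]
  rw [setLIntegral_congr_fun measurableSet_Ioi h1, ← ofReal_integral_eq_lintegral_ofReal
    ((integrableOn_Ioi_rpow_of_lt (by norm_num) one_pos).mul_const I)
    (ae_restrict_of_forall_mem measurableSet_Ioi fun t ht =>
      mul_nonneg (Real.rpow_nonneg (one_pos.trans ht).le _) hI0), integral_mul_const,
    integral_Ioi_rpow_of_lt (by norm_num) one_pos]
  refine ENNReal.ofReal_le_ofReal ?_
  norm_num
  linarith

/-- WLOG `Y = 0`.  For `u ≠ 0`, `f u = -∫_1^∞ fderiv f (t • u) u dt`, so `|f u| / nrm3 u ≤ ∫_1^∞ ‖fderiv f (t • u)‖ dt`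
(`‖u‖ ≤ nrm3 u`); Tonelli (work with `∫⁻`), `∫ g (t • u) du = t⁻³ ∫ g` (`Measure.integral_comp_smul` / `map_addHaar_smul`,
`finrank P3 = 3`), `∫_1^∞ t⁻³ = 1/2 ≤ 1`. -/
theorem hardy1 {f : P3 → ℝ} (hf : Cc1 f) (Y : P3) :
    ∫ y, 1 / nrm3 (y - Y) * |f y| ≤ ∫ y, ‖fderiv ℝ f y‖ := by
  have h := phardy_zero (f := fun u => f (u + Y))
    ⟨hf.1.comp (contDiff_id.add contDiff_const), hf.2.comp_homeomorph (Homeomorph.addRight Y)⟩
  simp only [fderiv_comp_add_right] at h
  rw [integral_add_right_eq_self (fun y => ‖fderiv ℝ f y‖) Y] at h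
  rw [← integral_add_right_eq_self _ Y]
  simpa using h

/-- `χ₀ : ContDiffBump (0 : P3)` with `rIn = 1`, `rOut = 3/2`, `‖fderiv χ₀‖ ≤ B`; `χ y = χ₀ (ς⁻¹ • (y - Y))`, `f = χ ψ²`;
`kn ς (y - Y) ψ² ≤ f / nrm3 (y - Y)`; `‖fderiv f‖ ≤ (B/ς) ψ² + 2 |ψ| ‖fderiv ψ‖ ≤ (B/ς + 1) ψ² + 3 gsq3 ψ` on the ball
(`norm_fderiv_sq_le`), `0` outside. -/
theorem exists_hardy : ∃ C : ℝ, 1 ≤ C ∧ ∀ ς : ℝ, 0 < ς → ς ≤ 1 → ∀ (Y : P3) (ψ : P3 → ℝ), Cc1 ψ →
    ∫ y, kn ς (y - Y) * ψ y ^ 2 ≤ C / ς * ∫ y in Metric.ball Y (2 * ς), (ψ y ^ 2 + gsq3 ψ y) := by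
  let χ0 : ContDiffBump (0 : P3) := ⟨1, 3 / 2, by norm_num, by norm_num⟩
  have hχ0 : ContDiff ℝ 1 χ0 := χ0.contDiff
  obtain ⟨B, hB⟩ := (hχ0.continuous_fderiv (by simp)).bounded_above_of_compact_support
    (χ0.hasCompactSupport.fderiv ℝ)
  have hB0 : 0 ≤ B := (norm_nonneg _).trans (hB 0)
  refine ⟨B + 3, by linarith, fun ς h0 h1 Y ψ hψ => ?_⟩
  let χ : P3 → ℝ := fun y => χ0 (ς⁻¹ • (y - Y))
  have hχ : ContDiff ℝ 1 χ := hχ0.comp ((contDiff_id.sub contDiff_const).const_smul _)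
  have hχd : ∀ y, ‖fderiv ℝ χ y‖ ≤ B / ς := fun y => by
    have h2 := ((hχ0.differentiable (by simp)) (ς⁻¹ • (y - Y))).hasFDerivAt.comp y
      (((hasFDerivAt_id y).sub_const Y).const_smul ς⁻¹)
    have h3 : fderiv ℝ χ y = _ := h2.fderiv
    rw [h3]
    refine (ContinuousLinearMap.opNorm_comp_le _ _).trans ?_
    rw [norm_smul, div_eq_mul_inv, Real.norm_of_nonneg (inv_pos.2 h0).le]
    exact mul_le_mul (hB _) (mul_le_of_le_one_right (inv_pos.2 h0).le ContinuousLinearMap.norm_id_le)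
      (by positivity) hB0
  have hn : ∀ y, ‖ς⁻¹ • (y - Y)‖ = ‖y - Y‖ / ς := fun y => by
    rw [norm_smul, Real.norm_of_nonneg (inv_pos.2 h0).le, inv_mul_eq_div]
  have hf : Cc1 fun y => χ y * ψ y ^ 2 :=
    ⟨hχ.mul (hψ.1.pow 2), HasCompactSupport.mul_left (f := χ) (hψ.2.comp_left (g := fun x => x ^ 2) (by simp))⟩
  have hg : Continuous (gsq3 ψ) :=
    (((contDiff_d1 (n := 0) hψ.1).continuous.pow 2).add ((contDiff_d2 (n := 0) hψ.1).continuous.pow 2)).add
      ((contDiff_d3 (n := 0) hψ.1).continuous.pow 2)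
  have hg0 : ∀ y, 0 ≤ gsq3 ψ y := fun y => by unfold gsq3; positivity
  calc ∫ y, kn ς (y - Y) * ψ y ^ 2 ≤ ∫ y, 1 / nrm3 (y - Y) * |χ y * ψ y ^ 2| := by
        refine integral_mono_of_nonneg (Eventually.of_forall fun y => mul_nonneg (kn_nonneg h0 _) (sq_nonneg _))
          (integrable_inv_mul Y hf.1.continuous.abs hf.2.abs) (Eventually.of_forall fun y => ?_)
        beta_reduce
        by_cases hy : ς ≤ nrm3 (y - Y)
        · rw [kn_eq_zero h0 hy, zero_mul]
          exact mul_nonneg (one_div_nonneg.2 (nrm3_nonneg _)) (abs_nonneg _)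
        · have : χ y = 1 := χ0.one_of_mem_closedBall (by
            rw [mem_closedBall_zero_iff, hn, div_le_one h0]
            exact (norm_le_nrm3 _).trans (not_le.1 hy).le)
          rw [this, one_mul, abs_of_nonneg (sq_nonneg _)]
          exact mul_le_mul_of_nonneg_right (kn_le h0 _) (sq_nonneg _)
    _ ≤ ∫ y, ‖fderiv ℝ (fun y => χ y * ψ y ^ 2) y‖ := hardy1 hf Y
    _ ≤ ∫ y, (Metric.ball Y (2 * ς)).indicator (fun y => (B + 3) / ς * (ψ y ^ 2 + gsq3 ψ y)) y := by
        refine integral_mono_of_nonneg (Eventually.of_forall fun y => norm_nonneg _)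
          ((integrable_indicator_iff measurableSet_ball).2 (integrableOn_of_bounded3
            (continuous_const.mul ((hψ.1.continuous.pow 2).add hg)) Metric.isBounded_ball))
          (Eventually.of_forall fun y => ?_)
        beta_reduce
        by_cases hy : y ∈ Metric.ball Y (2 * ς)
        · rw [indicator_of_mem hy]
          have d1 := ((hχ.differentiable (by simp)) y).hasFDerivAt
          have d2 := ((hψ.1.differentiable (by simp)) y).hasFDerivAt
          have d3 : fderiv ℝ (fun y => χ y * ψ y ^ 2) y = _ := (d1.mul (d2.pow 2)).fderiv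
          rw [d3]
          refine (norm_add_le _ _).trans ?_
          simp only [norm_smul, Real.norm_eq_abs, nsmul_eq_mul, abs_mul, Nat.add_one_sub_one, pow_one, Nat.cast_ofNat,
            abs_two, abs_pow, sq_abs]
          have e1 : |χ y| ≤ 1 := abs_le.2 ⟨by linarith [χ0.nonneg (x := ς⁻¹ • (y - Y))], χ0.le_one⟩
          have e2 := norm_fderiv_sq_le ψ y
          have e3 : 2 * |ψ y| * ‖fderiv ℝ ψ y‖ ≤ ψ y ^ 2 + 3 * gsq3 ψ y := by
            nlinarith [sq_nonneg (|ψ y| - ‖fderiv ℝ ψ y‖), sq_abs (ψ y)]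
          have e4 : |χ y| * (2 * |ψ y| * ‖fderiv ℝ ψ y‖) ≤ ψ y ^ 2 + 3 * gsq3 ψ y :=
            (mul_le_of_le_one_left (by positivity) e1).trans e3
          have e5 := mul_le_mul_of_nonneg_left (hχd y) (sq_nonneg (ψ y))
          have e6 : 3 ≤ 3 / ς := by rw [le_div_iff₀ h0]; linarith
          have e7 := mul_le_mul_of_nonneg_right e6 (add_nonneg (sq_nonneg (ψ y)) (hg0 y))
          have e8 := mul_nonneg (div_nonneg hB0 h0.le) (hg0 y)
          rw [add_div]
          nlinarith [sq_nonneg (ψ y)]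
        · rw [indicator_of_notMem hy]
          have h2 : (fun y => χ y * ψ y ^ 2) =ᶠ[𝓝 y] fun _ => 0 := by
            have h3 : y ∈ (Metric.closedBall Y (3 / 2 * ς))ᶜ := fun h =>
              hy (Metric.closedBall_subset_ball (by linarith) h)
            filter_upwards [Metric.isClosed_closedBall.isOpen_compl.mem_nhds h3] with z hz
            have : χ z = 0 := χ0.zero_of_le_dist (by
              rw [dist_zero_right, hn, le_div_iff₀ h0, ← dist_eq_norm]
              exact (not_le.1 (show ¬ dist z Y ≤ 3 / 2 * ς from hz)).le)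
            rw [this, zero_mul]
          rw [h2.fderiv_eq]
          simp
    _ = _ := by rw [integral_indicator measurableSet_ball, integral_const_mul]

end Crest.Agent.R338
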