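import Crest.Agent.R338.Pot_D

/-! # Pot_Ker: the kernels `kfar`, `ks`, `kn`
Keep the statements; auxiliary lemmas get the prefix `pker_`. -/

set_option autoImplicit false
set_option linter.dupNamespace false
set_option linter.unusedVariables false

noncomputable section

namespace Crest.Agent.R338

open MeasureTheory Set Filter Topology

theorem continuous_nrm3 : Continuous nrm3 := by
  unfold nrm3
  fun_prop

theorem nrm3_nonneg (u : P3) : 0 ≤ nrm3 u := by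
  exact Real.sqrt_nonneg _

theorem norm_le_nrm3 (u : P3) : ‖u‖ ≤ nrm3 u := by
  simp only [Prod.norm_def, Real.norm_eq_abs, max_le_iff]
  refine ⟨⟨?_, ?_⟩, ?_⟩ <;> refine Real.abs_le_sqrt ?_ <;> nlinarith [sq_nonneg u.1.1, sq_nonneg u.1.2, sq_nonneg u.2]

theorem nrm3_le (u : P3) : nrm3 u ≤ 2 * ‖u‖ := by
  have h1 : |u.1.1| ≤ ‖u‖ := (norm_fst_le u.1).trans (norm_fst_le u)
  have h2 : |u.1.2| ≤ ‖u‖ := (norm_snd_le u.1).trans (norm_fst_le u)
  have h3 : |u.2| ≤ ‖u‖ := norm_snd_le u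
  have h0 := norm_nonneg u
  refine Real.sqrt_le_iff.2 ⟨by positivity, ?_⟩
  rw [← sq_abs u.1.1, ← sq_abs u.1.2, ← sq_abs u.2]
  nlinarith [abs_nonneg u.1.1, abs_nonneg u.1.2, abs_nonneg u.2]

theorem nrm3_neg (u : P3) : nrm3 (-u) = nrm3 u := by
  simp [nrm3]

theorem nrm3_smul (c : ℝ) (u : P3) : nrm3 (c • u) = |c| * nrm3 u := by
  unfold nrm3
  rw [← Real.sqrt_sq_eq_abs, ← Real.sqrt_mul (sq_nonneg c)]
  congr 1
  simp only [Prod.smul_fst, Prod.smul_snd, smul_eq_mul]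
  ring

theorem pker_kfar (u : P3) : kfar u = sig (2 * nrm3 u ^ 2 - 1) / nrm3 u := by
  rw [kfar, nrm3, Real.sq_sqrt (by positivity)]

/-- `kfar u = sig (2 nrm3 u ^ 2 - 1) / nrm3 u` -/
theorem ks_eq {ς : ℝ} (hς : 0 < ς) (u : P3) : ks ς u = sig (2 * (nrm3 u / ς) ^ 2 - 1) / nrm3 u := by
  rw [ks, pker_kfar, nrm3_smul, abs_of_pos (inv_pos.2 hς), ← div_eq_inv_mul, div_div,
    div_mul_cancel₀ _ hς.ne']

theorem ks_one : ks 1 = kfar := by
  funext u
  simp [ks]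

theorem ks_neg (ς : ℝ) (u : P3) : ks ς (-u) = ks ς u := by
  rw [ks, ks, pker_kfar, pker_kfar, smul_neg, nrm3_neg]

theorem kn_neg (ς : ℝ) (u : P3) : kn ς (-u) = kn ς u := by
  rw [kn, kn, ks_neg, nrm3_neg]

theorem ks_nonneg {ς : ℝ} (hς : 0 < ς) (u : P3) : 0 ≤ ks ς u := by
  rw [ks_eq hς]
  exact div_nonneg (sig_nonneg _) (nrm3_nonneg u)

theorem kn_nonneg {ς : ℝ} (hς : 0 < ς) (u : P3) : 0 ≤ kn ς u := by
  rw [kn, ks_eq hς, sub_nonneg]
  exact div_le_div_of_nonneg_right (sig_le_one _) (nrm3_nonneg u)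

theorem kn_le {ς : ℝ} (hς : 0 < ς) (u : P3) : kn ς u ≤ 1 / nrm3 u := by
  exact sub_le_self _ (ks_nonneg hς u)

theorem kn_eq_zero {ς : ℝ} (hς : 0 < ς) {u : P3} (h : ς ≤ nrm3 u) : kn ς u = 0 := by
  have h1 : 1 ≤ nrm3 u / ς := (one_le_div hς).2 h
  rw [kn, ks_eq hς, sig_of_one_le (by nlinarith), sub_self]

/-- `kfar u = 0` if `nrm3 u ≤ 1/2` -/
theorem kfar_le (u : P3) : kfar u ≤ 2 := by
  rw [pker_kfar]
  have h0 := nrm3_nonneg u
  rcases le_or_gt (nrm3 u) (1 / 2) with h | h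
  · rw [sig_of_nonpos (by nlinarith), zero_div]
    norm_num
  · rw [div_le_iff₀ (by linarith)]
    linarith [sig_le_one (2 * nrm3 u ^ 2 - 1)]

/-- `ContDiffAt` at each point: near `0` the function vanishes, elsewhere `ContDiffAt.sqrt`, `.div`, `contDiff_sig`. -/
theorem contDiff_kfar : ContDiff ℝ 4 kfar := by
  refine contDiff_iff_contDiffAt.2 fun u => ?_
  rcases lt_or_ge (nrm3 u) (1 / 2) with h | h
  · refine (contDiffAt_const (c := (0 : ℝ))).congr_of_eventuallyEq ?_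
    filter_upwards [continuous_nrm3.continuousAt.eventually_lt continuousAt_const h] with v hv
    have h0 := nrm3_nonneg v
    rw [pker_kfar, sig_of_nonpos (by nlinarith), zero_div]
  · have h0 : 0 < nrm3 u := by linarith
    have hq : ContDiff ℝ 4 fun y : P3 => y.1.1 ^ 2 + y.1.2 ^ 2 + y.2 ^ 2 := by fun_prop
    refine ContDiffAt.div ?_ (hq.contDiffAt.sqrt (Real.sqrt_pos.1 h0).ne') h0.ne'
    exact ((contDiff_sig.of_le (by norm_num)).comp
      ((contDiff_const.mul hq).sub contDiff_const)).contDiffAt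

theorem contDiff_ks (ς : ℝ) : ContDiff ℝ 4 (ks ς) := by
  exact (contDiff_kfar.comp (contDiff_const_smul _)).div_const _

theorem measurable_kn (ς : ℝ) : Measurable (kn ς) := by
  exact (measurable_const.div continuous_nrm3.measurable).sub (contDiff_ks ς).continuous.measurable

theorem pker_scale {ς : ℝ} (hς : 0 < ς) {j : ℕ} (hj : j ≤ 4) (u : P3) :
    ‖iteratedFDeriv ℝ j (ks ς) u‖ = ς⁻¹ ^ (j + 1) * ‖iteratedFDeriv ℝ j kfar (ς⁻¹ • u)‖ := by
  have hk : ContDiff ℝ j kfar := contDiff_kfar.of_le (by exact_mod_cast hj)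
  have e : ks ς = ς⁻¹ • fun u => kfar (ς⁻¹ • u) := by
    funext u
    simp [ks, div_eq_inv_mul]
  have hk' : ContDiff ℝ j fun u => kfar (ς⁻¹ • u) := hk.comp (contDiff_const_smul _)
  rw [e, iteratedFDeriv_const_smul_apply hk'.contDiffAt,
    iteratedFDeriv_comp_const_smul _ hk, norm_smul, norm_smul, Real.norm_eq_abs, Real.norm_eq_abs,
    abs_of_pos (inv_pos.2 hς), abs_of_pos (by positivity)]
  ring

/-- First `ς = 1`.  `B` bounds `‖D^j kfar‖`, `j ≤ 4`, on the compact ball `‖u‖ ≤ 2` (`ContDiff.continuous_iteratedFDeriv`).  If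
`r = ‖u‖ ≥ 2`, `c = 2 / r ≤ 1`: near `u`, `kfar v = c * kfar (c • v)` (both are `1 / nrm3 v`), so
`‖D^j kfar u‖ ≤ c ^ (j+1) B` (`Filter.EventuallyEq.iteratedFDeriv`, `iteratedFDeriv_comp_const_smul`,
`iteratedFDeriv_const_smul_apply`), and `c ≤ 3 / (1 + r)`.  General `ς` by the same scaling lemma with `c = ς⁻¹`. -/
theorem exists_ker : ∃ C : ℝ, 1 ≤ C ∧ ∀ ς : ℝ, 0 < ς → ∀ j ≤ 4, ∀ u : P3,
    ‖iteratedFDeriv ℝ j (ks ς) u‖ ≤ C * (ς + ‖u‖)⁻¹ ^ (j + 1) := by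
  have hB : ∀ j : Fin 5, ∃ B, ∀ u ∈ Metric.closedBall (0 : P3) 2, ‖iteratedFDeriv ℝ j kfar u‖ ≤ B :=
    fun j => (isCompact_closedBall _ _).exists_bound_of_continuousOn
      (contDiff_kfar.continuous_iteratedFDeriv (by
        exact_mod_cast Nat.lt_succ_iff.1 j.2)).continuousOn
  choose B hB using hB
  obtain ⟨C, hC⟩ := (Set.finite_range B).bddAbove
  have hC1 : ∀ j ≤ 4, ∀ u : P3, ‖u‖ ≤ 2 → ‖iteratedFDeriv ℝ j kfar u‖ ≤ max C 1 := fun j hj u hu =>
    ((hB ⟨j, by omega⟩ u (by simpa using hu)).trans (hC ⟨_, rfl⟩)).trans (le_max_left _ _)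
  have h1 : (1 : ℝ) ≤ max C 1 := le_max_right _ _
  generalize max C 1 = D at hC1 h1
  have key : ∀ j ≤ 4, ∀ u : P3, ‖iteratedFDeriv ℝ j kfar u‖ ≤ D * (3 * (1 + ‖u‖)⁻¹) ^ (j + 1) := by
    intro j hj u
    have h0 := norm_nonneg u
    rcases le_or_gt ‖u‖ 2 with h | h
    · refine (hC1 j hj u h).trans (le_mul_of_one_le_right (by linarith) (one_le_pow₀ ?_))
      rw [← div_eq_mul_inv, one_le_div (by linarith)]
      linarith
    · have hr : 0 < ‖u‖ / 2 := by linarith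
      have e : kfar =ᶠ[𝓝 u] ks (‖u‖ / 2) := by
        have : ‖u‖ / 2 < nrm3 u := by linarith [norm_le_nrm3 u]
        filter_upwards [continuousAt_const.eventually_lt continuous_nrm3.continuousAt this] with v hv
        have a1 := kn_eq_zero hr hv.le
        have a2 := kn_eq_zero one_pos (u := v) (by linarith)
        rw [kn, ks_one] at a2
        rw [kn] at a1
        linarith
      rw [(e.iteratedFDeriv ℝ j).eq_of_nhds, pker_scale hr hj, mul_comm]
      refine mul_le_mul (hC1 j hj _ ?_) (pow_le_pow_left₀ (by positivity) ?_ _) (by positivity)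
        (by linarith)
      · rw [norm_smul, Real.norm_eq_abs, abs_of_pos (inv_pos.2 hr)]
        field_simp
        rfl
      · rw [← div_eq_mul_inv, inv_div, div_le_div_iff₀ (by linarith) (by linarith)]
        linarith
  refine ⟨D * 3 ^ 5, by nlinarith, fun ς hς j hj u => ?_⟩
  have h0 := norm_nonneg u
  rw [pker_scale hς hj]
  refine (mul_le_mul_of_nonneg_left (key j hj _) (by positivity)).trans ?_
  have e : ς⁻¹ * (1 + ‖ς⁻¹ • u‖)⁻¹ = (ς + ‖u‖)⁻¹ := by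
    rw [norm_smul, Real.norm_eq_abs, abs_of_pos (inv_pos.2 hς)]
    field_simp
  have h3 : (3 : ℝ) ^ (j + 1) ≤ 3 ^ 5 := pow_le_pow_right₀ (by norm_num) (by omega)
  calc _ = D * 3 ^ (j + 1) * (ς⁻¹ * (1 + ‖ς⁻¹ • u‖)⁻¹) ^ (j + 1) := by
        rw [mul_pow, mul_pow]; ring
    _ ≤ _ := by rw [e]; gcongr

end Crest.Agent.R338
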