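import Crest.Agent.R338.Pot_Disc
import Crest.Agent.R338.Pot_Leib

/-! # Pot_NearA: fourth order error for compactly supported test functions
Keep the statements; auxiliary lemmas get the prefix `pna_`. -/

set_option autoImplicit false
set_option linter.dupNamespace false
set_option linter.unusedVariables false

noncomputable section

namespace Crest.Agent.R338

open MeasureTheory Set Filter Topology

variable {a : Atoms} {w : P2 → ℝ} {ℓ ω L τ Λ M Λg : ℝ}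

/-- contains the support -/
def pna_T (Λ : ℝ) : Set P3 := {u | ‖u.1‖ ≤ Λ + 1 ∧ |u.2| ≤ 3}

theorem pna_closed (Λ : ℝ) : IsClosed (pna_T Λ) :=
  (isClosed_le continuous_fst.norm continuous_const).inter (isClosed_le continuous_snd.abs continuous_const)

theorem pna_zero {G : P3 → ℝ} (hG : ∀ u, u ∉ pna_T Λ → G u = 0) (j : ℕ) {u : P3} (hu : u ∉ pna_T Λ) :
    iteratedFDeriv ℝ j G u = 0 := by
  have h : G =ᶠ[𝓝 u] fun _ => 0 := by
    filter_upwards [(pna_closed Λ).isOpen_compl.mem_nhds hu] with y hy using hG y hy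
  rw [(h.iteratedFDeriv ℝ j).eq_of_nhds, iteratedFDeriv_fun_zero]
  rfl

/-- the majorant -/
def pna_m (Λ c : ℝ) : P3 → ℝ := indicator (cell 0 (2 * Λ + 10) 14) fun _ => c

theorem pna_nonneg (Λ : ℝ) {c : ℝ} (hc : 0 ≤ c) (u : P3) : 0 ≤ pna_m Λ c u :=
  indicator_nonneg (fun _ _ => hc) u

theorem pna_int (Λ c : ℝ) : Integrable (pna_m Λ c) :=
  (integrable_indicator_iff (measurableSet_cell _ _ _)).2
    (integrableOn_of_bounded3 continuous_const (isBounded_cell _ _ _))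

theorem pna_le (hΛ : 2 ≤ Λ) {c : ℝ} (hc : 0 ≤ c) (S : Set P3) : ∫ u in S, pna_m Λ c u ≤ 686 * Λ ^ 2 * c := by
  refine (setIntegral_le_integral (pna_int Λ c) (Eventually.of_forall (pna_nonneg Λ hc))).trans ?_
  rw [pna_m, integral_indicator (measurableSet_cell _ _ _), setIntegral_const,
    volume_cell _ (by linarith) (by norm_num), smul_eq_mul]
  refine mul_le_mul_of_nonneg_right ?_ hc
  nlinarith

theorem pna_maj {f : P3 → ℝ} {c δ : ℝ} (hδ : δ ≤ 3) (hc : 0 ≤ c) (h1 : ∀ u, f u ≤ c)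
    (h2 : ∀ u, u ∉ pna_T Λ → f u ≤ 0) : Maj δ f (pna_m Λ c) := by
  intro u u' h
  by_cases hu : u ∈ pna_T Λ
  · have a1 : |u.1.1 - u'.1.1| ≤ 3 :=
      (((norm_fst_le (u - u').1).trans (norm_fst_le (u - u'))).trans h).trans hδ
    have a2 : |u.1.2 - u'.1.2| ≤ 3 :=
      (((norm_snd_le (u - u').1).trans (norm_fst_le (u - u'))).trans h).trans hδ
    have a3 : |u.2 - u'.2| ≤ 3 := ((norm_snd_le (u - u')).trans h).trans hδ
    have b1 : |u.1.1| ≤ Λ + 1 := (norm_fst_le u.1).trans hu.1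
    have b2 : |u.1.2| ≤ Λ + 1 := (norm_snd_le u.1).trans hu.1
    have b3 := hu.2
    rw [abs_le] at a1 a2 a3 b1 b2 b3
    rw [pna_m, indicator_of_mem]
    · exact h1 u
    · simp only [cell, iv, mem_prod, mem_Ioc, Prod.fst_zero, Prod.snd_zero]
      refine ⟨⟨⟨?_, ?_⟩, ?_, ?_⟩, ?_, ?_⟩ <;>
        linarith [a1.1, a1.2, a2.1, a2.2, a3.1, a3.2, b1.1, b1.2, b2.1, b2.2, b3.1, b3.2]
  · exact (h2 u hu).trans (pna_nonneg Λ hc u')

/-- `F = ρ (· + v)` is `Bd 4 M'` and vanishes off the closed set `box3 Λ - v ⊆ {‖u.1‖ ≤ Λ + 1, |u.2| ≤ 3}`, so do all derivatives of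
`F` and `G = mf μ F` (locally zero).  `disc0`, `disc4` with `m = c · indicator S`, `S = {‖u.1‖ ≤ Λ + 4, |u.2| ≤ 6}` (volume
`≤ (2Λ+8)² 12`), `K = 0`, `b = 0`; the integrands over `Mis` vanish (`L - 3 ≥ 5`). -/
theorem exists_near1 : ∃ C : ℝ, 1 ≤ C ∧ ∀ {a : Atoms} {w : P2 → ℝ} {ℓ ω L τ Λ M Λg : ℝ}, Hyp a w ℓ ω L τ Λ M Λg →
    ∀ (ρ : P3 → ℝ) (M' : ℝ), Bd 4 M' ρ → (∀ y, y ∉ box3 Λ → ρ y = 0) → ∀ v : P3, ‖v‖ ≤ 1 →
      |Err a (mu ω w) ℓ L fun u => ρ (u + v)| ≤ C * M * M' * Λ ^ 2 * (a.h ^ 4 + τ) := by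
  refine ⟨889056, by norm_num, fun {a w ℓ ω L τ Λ M Λg} H ρ M' hρ h0 v hv => ?_⟩
  obtain ⟨F, hF⟩ : ∃ F : P3 → ℝ, F = fun u => ρ (u + v) := ⟨_, rfl⟩
  rw [← hF]
  have hΛ := H.Λ2
  have hL := H.L8
  have hM := H.M1
  have hM' := hρ.nonneg
  have hτ := H.τ0
  have hh := H.ok.h_pos
  have hδ : 3 * a.h ≤ 3 := by linarith [H.ok.h_le]
  have bF : Bd 4 M' F := by
    rw [hF]
    simpa using hρ.comp_affine (ContinuousLinearMap.id ℝ P3) v (c := 1)
      ContinuousLinearMap.norm_id_le le_rfl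
  have zF : ∀ u, u ∉ pna_T Λ → F u = 0 := fun u hu => by
    rw [hF]
    refine h0 _ fun h => hu ?_
    have a1 : |v.1.1| ≤ 1 := ((norm_fst_le v.1).trans (norm_fst_le v)).trans hv
    have a2 : |v.1.2| ≤ 1 := ((norm_snd_le v.1).trans (norm_fst_le v)).trans hv
    have a3 : |v.2| ≤ 1 := (norm_snd_le v).trans hv
    rw [abs_le] at a1 a2 a3
    simp only [box3, box2, mem_prod, mem_Icc, Prod.fst_add, Prod.snd_add] at h
    obtain ⟨⟨⟨b1, b2⟩, b3, b4⟩, b5, b6⟩ := h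
    simp only [pna_T, mem_ofPred_eq, Prod.norm_def, Real.norm_eq_abs, max_le_iff, abs_le]
    refine ⟨⟨⟨?_, ?_⟩, ?_, ?_⟩, ?_, ?_⟩ <;> linarith [a1.1, a1.2, a2.1, a2.2, a3.1, a3.2]
  have zG : ∀ u, u ∉ pna_T Λ → mf (mu ω w) F u = 0 := fun u hu => by rw [mf, zF u hu, mul_zero]
  have cG := H.den.contDiff_mf bF.1
  have cG2 : ContDiff ℝ 2 (mf (mu ω w) F) := cG.of_le (by norm_num)
  have dG : ∀ u, u ∉ pna_T Λ → ‖fderiv ℝ (mf (mu ω w) F) u‖ ≤ 0 := fun u hu => by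
    rw [← norm_iteratedFDeriv_one, pna_zero zG 1 hu, norm_zero]
  have hc : 0 ≤ 16 * M * M' := by positivity
  have e0 := disc0 H.ok hτ (pna_nonneg Λ hM') (pna_int Λ M').integrableOn
    (pna_maj (f := fun u => |F u|) hδ hM' bF.abs_le fun u hu => by simp [zF u hu])
  have e4 := disc4 H.ok (by linarith) (b := fun _ => 0) (K := 0) cG (pna_nonneg Λ hc)
    (pna_int Λ _).integrableOn
    (pna_maj hδ hc (fun u => H.den.iteratedFDeriv_le bF.1 le_rfl fun i hi => bF.2 i hi u)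
      fun u hu => by simp [pna_zero zG 4 hu])
    (fun u hu => dG u fun h => by linarith [h.1, H.ΛL, H.LA]) (fun _ => le_rfl) integrableOn_zero
    fun u hu => (abs_d3_le _ u).trans (dG u fun h => by linarith [h.2])
  have hMis : ∀ u ∈ Mis L Λ, u ∉ pna_T Λ := fun u hu h => by linarith [h.2, hu.2.1]
  have m0 : ∫ u in Mis L Λ, |mf (mu ω w) F u| = 0 :=
    setIntegral_eq_zero_of_forall_eq_zero fun u hu => by rw [zG u (hMis u hu), abs_zero]
  have m1 : ∫ u in Mis L Λ, |d1 (d1 (mf (mu ω w) F)) u| = 0 :=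
    setIntegral_eq_zero_of_forall_eq_zero fun u hu => le_antisymm
      ((abs_d1_d1_le cG2 u).trans (by rw [pna_zero zG 2 (hMis u hu), norm_zero])) (abs_nonneg _)
  have m2 : ∫ u in Mis L Λ, |d2 (d2 (mf (mu ω w) F)) u| = 0 :=
    setIntegral_eq_zero_of_forall_eq_zero fun u hu => le_antisymm
      ((abs_d2_d2_le cG2 u).trans (by rw [pna_zero zG 2 (hMis u hu), norm_zero])) (abs_nonneg _)
  rw [m0, m1, m2, integral_zero] at e4
  have f0 := mul_le_mul_of_nonneg_left (pna_le hΛ hM' (bx a.A (L + 3))) hτ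
  have f4 := mul_le_mul_of_nonneg_left (pna_le hΛ hc (bx a.A (L + 3)))
    (show 0 ≤ 81 * a.h ^ 4 by positivity)
  have f1 : τ * (Λ ^ 2 * M') ≤ M * (τ * (Λ ^ 2 * M')) := le_mul_of_one_le_left (by positivity) hM
  have f2 : 0 ≤ τ * (Λ ^ 2 * M') := by positivity
  refine (abs_sub_le _ (Rs a (mf (mu ω w) F)) _).trans ?_
  linarith

end Crest.Agent.R338
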