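import Crest.Agent.R338.Pot_Rad
import Crest.Agent.R83.Newt

/-! # Pot_Newton: the fundamental solution on `P3`, potential of the modulation
Keep the statements; auxiliary lemmas get the prefix `pnew_`.
(copy `outputs/live/Crest/Agent/R83` to your tree; do not edit it) -/

set_option autoImplicit false
set_option linter.dupNamespace false
set_option linter.unusedVariables false

noncomputable section

namespace Crest.Agent.R338

open MeasureTheory Set Filter Topology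

theorem pnew_deriv (r : ℝ) : HasDerivAt (fun r : ℝ => r ^ 3 * (1 + r ^ 2) ^ (-(3 / 2) : ℝ))
    (r ^ 2 * (3 * (1 + r ^ 2) ^ (-(5 / 2) : ℝ))) r := by
  have h0 : (0 : ℝ) < 1 + r ^ 2 := by positivity
  have h1 : HasDerivAt (fun r : ℝ => 1 + r ^ 2) (2 * r) r := by
    simpa using (hasDerivAt_pow 2 r).const_add 1
  have h2 := (hasDerivAt_pow 3 r).mul (h1.rpow_const (p := -(3 / 2)) (Or.inl h0.ne'))
  have h3 : (1 + r ^ 2) ^ (-(3 / 2) : ℝ) = (1 + r ^ 2) * (1 + r ^ 2) ^ (-(5 / 2) : ℝ) := by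
    rw [show (-(3 / 2) : ℝ) = 1 + -(5 / 2) by norm_num, Real.rpow_add h0, Real.rpow_one]
  refine h2.congr_deriv ?_
  rw [show (-(3 / 2) - 1 : ℝ) = -(5 / 2) by norm_num, h3]
  push_cast
  ring

theorem pnew_lim : Tendsto (fun r : ℝ => r ^ 3 * (1 + r ^ 2) ^ (-(3 / 2) : ℝ)) atTop (𝓝 1) := by
  have h1 : Tendsto (fun r : ℝ => (r⁻¹) ^ 2 + 1) atTop (𝓝 (0 ^ 2 + 1)) :=
    (tendsto_inv_atTop_zero.pow 2).add_const 1
  have h2 := h1.rpow_const (p := -(3 / 2)) (Or.inl (by norm_num))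
  rw [show ((0 : ℝ) ^ 2 + 1) ^ (-(3 / 2) : ℝ) = 1 by norm_num] at h2
  refine h2.congr' ?_
  filter_upwards [eventually_gt_atTop 0] with r hr
  have e1 : 1 + r ^ 2 = r ^ 2 * ((r⁻¹) ^ 2 + 1) := by field_simp
  have e2 : (r ^ 2) ^ (-(3 / 2) : ℝ) = (r ^ 3)⁻¹ := by
    rw [← Real.rpow_natCast r 2, ← Real.rpow_mul hr.le, ← Real.rpow_natCast r 3, ← Real.rpow_neg hr.le]
    norm_num
  rw [e1, Real.mul_rpow (by positivity) (by positivity), e2, ← mul_assoc, mul_inv_cancel₀ (by positivity), one_mul]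

/-- `integral_fun_norm_addHaar`; `∫₀^∞ 3 r² (1 + r²)^(-5/2) dr = [r³ (1 + r²)^(-3/2)] = 1`
(`integral_Ioi_of_hasDerivAt_of_nonneg`). -/
theorem c0_eq : R83.c0 = 4 * Real.pi := by
  have h := integral_Ioi_of_hasDerivAt_of_nonneg' (a := 0) (fun r _ => pnew_deriv r)
    (fun r _ => by positivity) pnew_lim
  unfold R83.c0
  rw [integral_fun_norm_addHaar volume fun r : ℝ => 3 * (1 + r ^ 2) ^ (-(5 / 2) : ℝ)]
  simp only [finrank_euclideanSpace, Fintype.card_fin, Measure.real, EuclideanSpace.volume_ball_fin_three,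
    smul_eq_mul, nsmul_eq_mul]
  rw [ENNReal.toReal_mul, ENNReal.toReal_ofReal (by positivity), show 3 - 1 = 2 from rfl, h]
  simp
  ring

/-- `R83.newton`, `R83.newt_lap` for `g ∘ T.symm` (`exists_toE3`); `newtD i (f ∘ T.symm) = dᵢ f ∘ T.symm` for every `f`
(`ContinuousLinearEquiv.comp_right_fderiv`). -/
theorem newton3 {g : P3 → ℝ} (hg : ContDiff ℝ 2 g) (hc : HasCompactSupport g) (y : P3) :
    ∫ u, (d1 (d1 g) u + d2 (d2 g) u + d3 (d3 g) u) * (1 / nrm3 (y - u)) = -(4 * Real.pi * g y) := by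
  obtain ⟨T, hT, hTe, hn⟩ := exists_toE3
  have hD : ∀ (i : Fin 3) (v : P3), T v = R83.e i → ∀ f : P3 → ℝ,
      R83.newtD i (f ∘ T.symm) = (fun u => fderiv ℝ f u v) ∘ T.symm := by
    intro i v hv f
    funext x
    rw [R83.newtD, ContinuousLinearEquiv.comp_right_fderiv, ← hv]
    simp
  have e1 := hD 0 ((1, 0), 0) (by rw [hTe]; ext i; fin_cases i <;> simp [R83.e])
  have e2 := hD 1 ((0, 1), 0) (by rw [hTe]; ext i; fin_cases i <;> simp [R83.e])
  have e3 := hD 2 ((0, 0), 1) (by rw [hTe]; ext i; fin_cases i <;> simp [R83.e])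
  have hg' : ContDiff ℝ 2 (g ∘ T.symm) := hg.comp T.symm.contDiff
  have hc' : HasCompactSupport (g ∘ T.symm) := hc.comp_homeomorph T.symm.toHomeomorph
  have h := R83.newton hg' hc' (T y)
  rw [c0_eq, R83.pot, ← hT.integral_comp T.toHomeomorph.measurableEmbedding] at h
  simp only [Function.comp_apply, ContinuousLinearEquiv.symm_apply_apply] at h
  rw [← h]
  refine integral_congr_ae (.of_forall fun u => ?_)
  beta_reduce
  rw [R83.newt_lap hg', Fin.sum_univ_three, e1, e1, e2, e2, e3, e3, ← map_sub, hn, one_div]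
  simp only [Function.comp_apply, ContinuousLinearEquiv.symm_apply_apply]
  rfl

end Crest.Agent.R338
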