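import Crest.Agent.R338.Pot_Newton

/-! # Pot_Nw: potential of the modulation
Keep the statements; auxiliary lemmas get the prefix `pnw_`. -/

set_option autoImplicit false
set_option linter.dupNamespace false
set_option linter.unusedVariables false

noncomputable section

namespace Crest.Agent.R338

open MeasureTheory Set Filter Topology

theorem pnw_fderiv {a : P2 → ℝ} {b : ℝ → ℝ} (ha : Differentiable ℝ a) (hb : Differentiable ℝ b) (u v : P3) :
    fderiv ℝ (fun u : P3 => a u.1 * b u.2) u v =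
      fderiv ℝ a u.1 v.1 * b u.2 + a u.1 * (v.2 * deriv b u.2) := by
  have h1 : HasFDerivAt (fun u : P3 => a u.1) ((fderiv ℝ a u.1).comp (ContinuousLinearMap.fst ℝ P2 ℝ)) u :=
    (ha u.1).hasFDerivAt.comp u hasFDerivAt_fst
  have h2 : HasFDerivAt (fun u : P3 => b u.2) ((fderiv ℝ b u.2).comp (ContinuousLinearMap.snd ℝ P2 ℝ)) u :=
    (hb u.2).hasFDerivAt.comp u hasFDerivAt_snd
  have h3 : fderiv ℝ b u.2 v.2 = v.2 * deriv b u.2 := by
    rw [fderiv_eq_smul_deriv, smul_eq_mul]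
  have h4 := (h1.fun_mul h2).fderiv
  rw [h4]
  simp only [add_apply, smul_apply, ContinuousLinearMap.comp_apply,
    ContinuousLinearMap.coe_fst', ContinuousLinearMap.coe_snd', smul_eq_mul, h3]
  ring

theorem pnw_d1 {a : P2 → ℝ} {b : ℝ → ℝ} (ha : Differentiable ℝ a) (hb : Differentiable ℝ b) :
    d1 (fun u : P3 => a u.1 * b u.2) = fun u => dx a u.1 * b u.2 := by
  funext u
  simp only [d1, dx, pnw_fderiv ha hb]
  ring

theorem pnw_d2 {a : P2 → ℝ} {b : ℝ → ℝ} (ha : Differentiable ℝ a) (hb : Differentiable ℝ b) :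
    d2 (fun u : P3 => a u.1 * b u.2) = fun u => dy a u.1 * b u.2 := by
  funext u
  simp only [d2, dy, pnw_fderiv ha hb]
  ring

theorem pnw_d3 {a : P2 → ℝ} {b : ℝ → ℝ} (ha : Differentiable ℝ a) (hb : Differentiable ℝ b) :
    d3 (fun u : P3 => a u.1 * b u.2) = fun u => a u.1 * deriv b u.2 := by
  funext u
  have h0 : fderiv ℝ a u.1 ((0, 0) : P2) = 0 := map_zero (fderiv ℝ a u.1)
  simp only [d3, pnw_fderiv ha hb, h0]
  ring

theorem pnw_bd_deriv {k : ℕ} {M : ℝ} {b : ℝ → ℝ} (hb : Bd (k + 1) M b) : Bd k M (deriv b) :=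
  hb.fderiv_apply (e := 1) (by simp)

theorem pnw_lap {w : P2 → ℝ} {b : ℝ → ℝ} {M C : ℝ} (hw : Bd 2 M w) (hb : Bd 2 C b) (u : P3) :
    d1 (d1 fun u : P3 => (w u.1 - 1) * b u.2) u + d2 (d2 fun u : P3 => (w u.1 - 1) * b u.2) u +
      d3 (d3 fun u : P3 => (w u.1 - 1) * b u.2) u =
      lap2 w u.1 * b u.2 + (w u.1 - 1) * deriv (deriv b) u.2 := by
  have hw0 : Differentiable ℝ w := hw.1.differentiable (by simp)
  have ha : Differentiable ℝ fun p => w p - 1 := hw0.sub_const 1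
  have hx : dx (fun p => w p - 1) = dx w := by
    funext p; simp only [dx, fderiv_sub_const]
  have hy : dy (fun p => w p - 1) = dy w := by
    funext p; simp only [dy, fderiv_sub_const]
  have hb0 : Differentiable ℝ b := hb.1.differentiable (by simp)
  have hb1 : Differentiable ℝ (deriv b) := (pnw_bd_deriv (k := 1) hb).1.differentiable (by simp)
  have hx1 : Differentiable ℝ (dx w) := (Bd.dx (k := 1) hw).1.differentiable (by simp)
  have hy1 : Differentiable ℝ (dy w) := (Bd.dy (k := 1) hw).1.differentiable (by simp)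
  rw [pnw_d1 ha hb0, pnw_d2 ha hb0, pnw_d3 ha hb0, hx, hy, pnw_d1 hx1 hb0, pnw_d2 hy1 hb0, pnw_d3 ha hb1, lap2]
  ring

theorem pnw_lap2_zero {w : P2 → ℝ} {Λ : ℝ} (h : ∀ p, p ∉ box2 Λ → w p = 1) {p : P2} (hp : p ∉ box2 Λ) :
    lap2 w p = 0 := by
  have ho : IsOpen (box2 Λ)ᶜ := (isCompact_box2 Λ).isClosed.isOpen_compl
  have key : ∀ (f : P2 → ℝ) (c : ℝ), (∀ q, q ∉ box2 Λ → f q = c) → ∀ q, q ∉ box2 Λ → fderiv ℝ f q = 0 := by
    intro f c hf q hq
    have : f =ᶠ[𝓝 q] fun _ => c := by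
      filter_upwards [ho.mem_nhds hq] with r hr using hf r hr
    rw [this.fderiv_eq, fderiv_fun_const]; rfl
  have h1 : ∀ q, q ∉ box2 Λ → dx w q = 0 := fun q hq => by simp [dx, key w 1 h q hq]
  have h2 : ∀ q, q ∉ box2 Λ → dy w q = 0 := fun q hq => by simp [dy, key w 1 h q hq]
  have h3 := key _ 0 h1 p hp
  have h4 := key _ 0 h2 p hp
  rw [lap2, dx, dy, h3, h4]; simp

theorem pnw_dd_zero {b : ℝ → ℝ} {U : Set ℝ} (hU : IsOpen U) {c : ℝ} (h : ∀ z ∈ U, b z = c) {z : ℝ}
    (hz : z ∈ U) : deriv (deriv b) z = 0 := by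
  have key : ∀ (f : ℝ → ℝ) (c : ℝ), (∀ q ∈ U, f q = c) → ∀ q ∈ U, deriv f q = 0 := by
    intro f c hf q hq
    have : f =ᶠ[𝓝 q] fun _ => c := by
      filter_upwards [hU.mem_nhds hq] with r hr using hf r hr
    rw [this.deriv_eq, deriv_const]
  exact key _ 0 (key b c h) z hz

theorem pnw_vol {Λ L : ℝ} (hΛ : 2 ≤ Λ) :
    volume.real (box2 Λ ×ˢ (Icc (-L) (-L + 1) ∪ Icc (L - 1) L) : Set P3) ≤ 2 * Λ ^ 2 := by
  have h1 : volume.real (Icc (-L) (-L + 1) ∪ Icc (L - 1) L) ≤ 2 := by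
    refine (measureReal_union_le _ _).trans ?_
    rw [Real.volume_real_Icc_of_le (by linarith), Real.volume_real_Icc_of_le (by linarith)]
    linarith
  have h2 : volume.real (box2 Λ) = (Λ - 2) * (Λ - 2) := by
    rw [box2, Measure.volume_eq_prod, measureReal_prod_prod, Real.volume_real_Icc_of_le hΛ]
  rw [Measure.volume_eq_prod, measureReal_prod_prod, h2]
  have h3 : (Λ - 2) * (Λ - 2) ≤ Λ ^ 2 := by nlinarith
  have h4 : 0 ≤ volume.real (Icc (-L) (-L + 1) ∪ Icc (L - 1) L) := measureReal_nonneg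
  nlinarith [mul_self_nonneg (Λ - 2)]

/-- the representation `4π (Nw y + g y) = ∫ R / nrm3 (y - ·)` with its bound -/
theorem pnw_main {w : P2 → ℝ} {M C Λ A L : ℝ} (hw : Bd 2 M w) (ho : ∀ p, p ∉ box2 Λ → w p = 1)
    (hM : 1 ≤ M) (hC : 1 ≤ C) (hΛ : 2 ≤ Λ) (hL : 4 * Λ ≤ L) (hA : L ≤ A)
    (hb : Bd 2 C (bump 1 (-L + 1) (L - 1))) (y : P3) :
    |Nw w A L y + (w y.1 - 1) * bump 1 (-L + 1) (L - 1) y.2| ≤
      6 * C * M * ∫ u in (box2 Λ ×ˢ (Icc (-L) (-L + 1) ∪ Icc (L - 1) L) : Set P3), 1 / nrm3 (y - u) := by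
  set ζ : ℝ → ℝ := bump 1 (-L + 1) (L - 1) with hζ
  set S : Set P3 := box2 Λ ×ˢ (Icc (-L) (-L + 1) ∪ Icc (L - 1) L) with hS
  set k : P3 → ℝ := fun u => 1 / nrm3 (y - u) with hk
  set D : P3 → ℝ := fun u => lap2 w u.1 * ζ u.2 + (w u.1 - 1) * deriv (deriv ζ) u.2 with hD
  have hk0 : ∀ u, 0 ≤ k u := fun u => one_div_nonneg.2 (nrm3_nonneg _)
  have hζ1 : ∀ z, -L + 1 ≤ z → z ≤ L - 1 → ζ z = 1 := fun z h1 h2 => bump_eq_one one_pos h1 h2
  have hζ0 : ∀ z, z ≤ -L ∨ L ≤ z → ζ z = 0 := fun z h =>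
    bump_eq_zero one_pos (h.imp (fun h => by linarith) fun h => by linarith)
  have hζm : ∀ z, 0 ≤ ζ z ∧ ζ z ≤ 1 := fun z => bump_mem _ _ _ _
  have hdd1 : ∀ z, -L + 1 < z → z < L - 1 → deriv (deriv ζ) z = 0 := fun z h1 h2 =>
    pnw_dd_zero (isOpen_Ioo (a := -L + 1) (b := L - 1)) (fun q hq => hζ1 q hq.1.le hq.2.le) ⟨h1, h2⟩
  have hdd0 : ∀ z, z < -L ∨ L < z → deriv (deriv ζ) z = 0 := fun z h =>
    pnw_dd_zero ((isOpen_Iio (a := -L)).union (isOpen_Ioi (a := L)))
      (fun q hq => hζ0 q (hq.imp le_of_lt le_of_lt)) h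
  have hlap : Bd 0 (2 * M) (lap2 w) := Bd.lap2 (k := 0) hw
  have hdd : Bd 0 C (deriv (deriv ζ)) := pnw_bd_deriv (pnw_bd_deriv (k := 1) hb)
  have hw1 : ∀ p, |w p - 1| ≤ 2 * M := fun p => by
    have := hw.abs_le p
    have h2 := abs_sub (w p) 1
    rw [abs_one] at h2
    linarith
  have hDb : ∀ u, |D u| ≤ 4 * C * M := fun u => by
    have h1 : |lap2 w u.1 * ζ u.2| ≤ 2 * M * 1 := by
      rw [abs_mul]
      exact mul_le_mul (hlap.abs_le _) (by rw [abs_of_nonneg (hζm _).1]; exact (hζm _).2) (abs_nonneg _)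
        (by linarith)
    have h2 : |(w u.1 - 1) * deriv (deriv ζ) u.2| ≤ 2 * M * C := by
      rw [abs_mul]
      exact mul_le_mul (hw1 _) (hdd.abs_le _) (abs_nonneg _) (by linarith)
    have h3 := abs_add_le (lap2 w u.1 * ζ u.2) ((w u.1 - 1) * deriv (deriv ζ) u.2)
    have h4 : M ≤ C * M := le_mul_of_one_le_left (by linarith) hC
    simp only [hD]
    nlinarith
  have hDc : Continuous D :=
    ((hlap.1.continuous.comp continuous_fst).mul (hb.1.continuous.comp continuous_snd)).add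
      (((hw.1.continuous.comp continuous_fst).sub continuous_const).mul (hdd.1.continuous.comp continuous_snd))
  -- Newton's formula
  have hK : IsCompact (box2 Λ ×ˢ Icc (-L) L : Set P3) := (isCompact_box2 Λ).prod isCompact_Icc
  have hgc : ContDiff ℝ 2 fun u : P3 => (w u.1 - 1) * ζ u.2 :=
    ((hw.1.comp contDiff_fst).sub contDiff_const).mul (hb.1.comp contDiff_snd)
  have hout : ∀ u : P3, u ∉ (box2 Λ ×ˢ Icc (-L) L : Set P3) → u.1 ∉ box2 Λ ∨ (u.2 < -L ∨ L < u.2) := by
    intro u hu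
    by_contra hcon
    push Not at hcon
    exact hu ⟨hcon.1, hcon.2.1, hcon.2.2⟩
  have hgs : HasCompactSupport fun u : P3 => (w u.1 - 1) * ζ u.2 := by
    refine HasCompactSupport.intro hK fun u hu => ?_
    rcases hout u hu with h | h
    · rw [ho _ h]; ring
    · rw [hζ0 _ (h.imp le_of_lt le_of_lt)]; ring
  have hN := newton3 hgc hgs y
  simp only [pnw_lap hw hb] at hN
  have hDi : Integrable fun u => D u * k u := by
    refine IntegrableOn.integrable_of_forall_notMem_eq_zero (s := (box2 Λ ×ˢ Icc (-L) L : Set P3)) ?_ ?_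
    · exact Integrable.bdd_mul (c := 4 * C * M) (integrableOn_inv y hK.measure_lt_top.ne)
        hDc.aestronglyMeasurable (Eventually.of_forall hDb)
    · intro u hu
      have : D u = 0 := by
        rcases hout u hu with h | h
        · simp only [hD, ho _ h, pnw_lap2_zero ho h]; ring
        · simp only [hD, hζ0 _ (h.imp le_of_lt le_of_lt), hdd0 _ h]; ring
      rw [this, zero_mul]
  have hIi : Integrable (indicator (bx A L) fun u : P3 => lap2 w u.1 * k u) := by
    refine (integrable_indicator_iff (measurableSet_bx A L)).2 ?_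
    exact Integrable.bdd_mul (c := 2 * M) (integrableOn_inv y (volume_bx_ne_top A L))
      (hlap.1.continuous.comp continuous_fst).aestronglyMeasurable (Eventually.of_forall fun u => hlap.abs_le _)
  have hπ : 0 < 4 * Real.pi := by positivity
  have hNw : 4 * Real.pi * Nw w A L y = ∫ u, indicator (bx A L) (fun u : P3 => lap2 w u.1 * k u) u := by
    rw [integral_indicator (measurableSet_bx A L), Nw, ← integral_const_mul]
    refine integral_congr_ae (Eventually.of_forall fun u => ?_)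
    simp only [hk]
    field_simp
  have hSm : MeasurableSet S :=
    (isCompact_box2 Λ).isClosed.measurableSet.prod (measurableSet_Icc.union measurableSet_Icc)
  have hSf : volume S ≠ ⊤ :=
    ((isCompact_box2 Λ).prod (isCompact_Icc.union isCompact_Icc)).measure_lt_top.ne
  have hR : ‖∫ u, (indicator (bx A L) (fun u : P3 => lap2 w u.1 * k u) u - D u * k u)‖ ≤
      ∫ u, indicator S (fun u => 6 * C * M * k u) u := by
    refine norm_integral_le_of_norm_le
      ((integrable_indicator_iff hSm).2 ((integrableOn_inv y hSf).const_mul _)) (Eventually.of_forall fun u => ?_)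
    by_cases hu : u ∈ S
    · rw [indicator_of_mem hu, Real.norm_eq_abs]
      have h1 : |indicator (bx A L) (fun u : P3 => lap2 w u.1 * k u) u| ≤ 2 * M * k u := by
        by_cases h : u ∈ bx A L
        · rw [indicator_of_mem h, abs_mul, abs_of_nonneg (hk0 u)]
          exact mul_le_mul_of_nonneg_right (hlap.abs_le _) (hk0 u)
        · rw [indicator_of_notMem h, abs_zero]
          exact mul_nonneg (by linarith) (hk0 u)
      have h2 : |D u * k u| ≤ 4 * C * M * k u := by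
        rw [abs_mul, abs_of_nonneg (hk0 u)]
        exact mul_le_mul_of_nonneg_right (hDb u) (hk0 u)
      have h3 := abs_sub (indicator (bx A L) (fun u : P3 => lap2 w u.1 * k u) u) (D u * k u)
      have h4 : M * k u ≤ C * M * k u :=
        mul_le_mul_of_nonneg_right (le_mul_of_one_le_left (by linarith) hC) (hk0 u)
      linarith
    · rw [indicator_of_notMem hu, norm_le_zero_iff, sub_eq_zero]
      by_cases h1 : u.1 ∈ box2 Λ
      · have h2 : u.2 ∉ Icc (-L) (-L + 1) ∪ Icc (L - 1) L := fun h => hu ⟨h1, h⟩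
        simp only [mem_union, mem_Icc, not_or, not_and, not_le] at h2
        by_cases h3 : u.2 < -L ∨ L < u.2
        · have h4 : u ∉ bx A L := fun h => by
            rcases h3 with h3 | h3
            · exact absurd h.2.1 (by linarith)
            · exact absurd h.2.2 (by linarith)
          rw [indicator_of_notMem h4]
          simp only [hD, hζ0 _ (h3.imp le_of_lt le_of_lt), hdd0 _ h3]; ring
        · push Not at h3
          have h5 : -L + 1 < u.2 := h2.1 h3.1
          have h6 : u.2 < L - 1 := by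
            by_contra hc
            exact absurd (h2.2 (not_lt.1 hc)) (not_lt.2 h3.2)
          have h4 : u ∈ bx A L := by
            obtain ⟨⟨a1, a2⟩, a3, a4⟩ := h1
            exact ⟨⟨⟨by linarith, by linarith⟩, by linarith, by linarith⟩, by linarith, by linarith⟩
          rw [indicator_of_mem h4]
          simp only [hD, hζ1 _ h5.le h6.le, hdd1 _ h5 h6]; ring
      · have h2 := pnw_lap2_zero ho h1
        by_cases h : u ∈ bx A L
        · rw [indicator_of_mem h]; simp only [hD, h2, ho _ h1]; ring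
        · rw [indicator_of_notMem h]; simp only [hD, h2, ho _ h1]; ring
  rw [integral_sub hIi hDi, ← hNw, integral_indicator hSm, integral_const_mul, Real.norm_eq_abs] at hR
  have hN' : ∫ u, D u * k u = -(4 * Real.pi * ((w y.1 - 1) * ζ y.2)) := hN
  rw [hN', sub_neg_eq_add, ← mul_add, abs_mul, abs_of_pos hπ] at hR
  refine le_trans (le_mul_of_one_le_left (abs_nonneg _) ?_) hR
  linarith [Real.pi_gt_three]

/-- `ζ = bump 1 (-L+1) (L-1)` (`Bd 2 C ζ` by `exists_sig_bd`, `1` on `[-L+1, L-1]`, `0` for `|z| ≥ L`), `g u = (w u.1 - 1) ζ u.2`,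
`Δg u = lap2 w u.1 * ζ u.2 + (w u.1 - 1) * ζ'' u.2`.  `R = indicator (bx A L) (lap2 w ·.1) - Δg` vanishes off
`S = box2 Λ ×ˢ {L - 1 ≤ |z| ≤ L}` (`lap2 w = 0` off the closed set `box2 Λ ⊆ sq2 A`), `|R| ≤ C M`, `volume S ≤ 2Λ²`, and
`4π Nw y = -4π g y + ∫ R / nrm3 (y - ·)` (`newton3`).  If `|y.2| ≤ L/2`: `ζ y.2 = 1` and `1 / nrm3 (y - u) ≤ 4 / L` on `S`; always
`setIntegral_inv_le`. -/
theorem exists_nw : ∃ C : ℝ, 1 ≤ C ∧ ∀ (w : P2 → ℝ) (M Λ A L : ℝ), Bd 2 M w → (∀ p, p ∉ box2 Λ → w p = 1) →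
    1 ≤ M → 2 ≤ Λ → 4 * Λ ≤ L → L ≤ A → ∀ y : P3,
      (|y.2| ≤ L / 2 → |Nw w A L y + (w y.1 - 1)| ≤ C * M * Λ ^ 2 / L) ∧ |Nw w A L y| ≤ C * M * Λ ^ 2 := by
  obtain ⟨C, hC, -, hb⟩ := exists_sig_bd
  refine ⟨48 * C, by linarith, fun w M Λ A L hw ho hM hΛ hL hA y => ?_⟩
  have hb2 : Bd 2 C (bump 1 (-L + 1) (L - 1)) := by
    simpa using (hb 1 (-L + 1) (L - 1) one_pos le_rfl 2 (by norm_num)).2.2.1
  have hm := pnw_main hw ho hM hC hΛ hL hA hb2 y
  set S : Set P3 := box2 Λ ×ˢ (Icc (-L) (-L + 1) ∪ Icc (L - 1) L) with hS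
  have hv : volume.real S ≤ 2 * Λ ^ 2 := pnw_vol hΛ
  have hSm : MeasurableSet S :=
    (isCompact_box2 Λ).isClosed.measurableSet.prod (measurableSet_Icc.union measurableSet_Icc)
  have hSf : volume S ≠ ⊤ :=
    ((isCompact_box2 Λ).prod (isCompact_Icc.union isCompact_Icc)).measure_lt_top.ne
  have hCM : 0 ≤ 6 * C * M := by positivity
  have hL0 : 0 < L := by linarith
  refine ⟨fun hy => ?_, ?_⟩
  · have hy' := abs_le.1 hy
    rw [bump_eq_one one_pos (by linarith) (by linarith), mul_one] at hm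
    have h1 : ∫ u in S, 1 / nrm3 (y - u) ≤ ∫ u in S, 4 / L := by
      refine setIntegral_mono_on (integrableOn_inv y hSf) (integrableOn_const hSf) hSm fun u hu => ?_
      have h2 : |(y - u).2| ≤ nrm3 (y - u) := (norm_snd_le (y - u)).trans (norm_le_nrm3 _)
      have h3 : L / 4 ≤ |(y - u).2| := by
        rw [Prod.snd_sub]
        rcases hu.2 with h | h
        · exact le_abs.2 (Or.inl (by linarith [h.2]))
        · exact le_abs.2 (Or.inr (by linarith [h.1]))
      rw [div_le_div_iff₀ (by linarith) hL0]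
      linarith
    rw [setIntegral_const, smul_eq_mul] at h1
    have h2 : volume.real S * (4 / L) ≤ 2 * Λ ^ 2 * (4 / L) := mul_le_mul_of_nonneg_right hv (by positivity)
    refine hm.trans ((mul_le_mul_of_nonneg_left (h1.trans h2) hCM).trans_eq ?_)
    ring
  · have h1 := setIntegral_inv_le y hSf
    have h2 : 4 ≤ Λ ^ 2 := by nlinarith
    have h3 := mul_le_mul_of_nonneg_left (show ∫ u in S, 1 / nrm3 (y - u) ≤ 6 * Λ ^ 2 by linarith) hCM
    have h4 : |(w y.1 - 1) * bump 1 (-L + 1) (L - 1) y.2| ≤ 2 * M * 1 := by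
      have h5 := bump_mem 1 (-L + 1) (L - 1) y.2
      have h6 := hw.abs_le y.1
      have h7 := abs_sub (w y.1) 1
      rw [abs_one] at h7
      rw [abs_mul]
      exact mul_le_mul (by linarith) (by rw [abs_of_nonneg h5.1]; exact h5.2) (abs_nonneg _) (by linarith)
    have h5 := abs_sub (Nw w A L y + (w y.1 - 1) * bump 1 (-L + 1) (L - 1) y.2)
      ((w y.1 - 1) * bump 1 (-L + 1) (L - 1) y.2)
    rw [add_sub_cancel_right] at h5
    have h6 : M ≤ C * M := le_mul_of_one_le_left (by linarith) hC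
    have h7 : C * M ≤ C * M * Λ ^ 2 := le_mul_of_one_le_right (by positivity) (by linarith)
    nlinarith

end Crest.Agent.R338
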