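import Crest.Agent.R338.Pot_Ker

/-! # Pot_Rad: radial integrals on `P3`
Keep the statements; auxiliary lemmas get the prefix `prad_`. -/

set_option autoImplicit false
set_option linter.dupNamespace false
set_option linter.unusedVariables false

noncomputable section

namespace Crest.Agent.R338

open MeasureTheory Set Filter Topology

theorem prad_haar : Measure.IsAddHaarMeasure (volume : Measure P3) := Measure.prod.instIsAddHaarMeasure _ _

theorem prad_mp : MeasurePreserving (fun y : P3 => (![y.1.1, y.1.2, y.2] : Fin 3 → ℝ)) volume volume := by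
  have hm : Measurable (fun y : P3 => (![y.1.1, y.1.2, y.2] : Fin 3 → ℝ)) := by
    refine measurable_pi_lambda _ fun i => ?_
    fin_cases i
    · exact measurable_fst.fst
    · exact measurable_fst.snd
    · exact measurable_snd
  refine ⟨hm, ?_⟩
  symm
  rw [volume_pi]
  refine Measure.pi_eq fun s hs => ?_
  rw [Measure.map_apply hm (MeasurableSet.univ_pi hs)]
  have : (fun y : P3 => (![y.1.1, y.1.2, y.2] : Fin 3 → ℝ)) ⁻¹' (univ.pi s) = (s 0 ×ˢ s 1) ×ˢ s 2 := by
    ext y
    simp [Fin.forall_fin_succ, and_assoc]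
  rw [this, Fin.prod_univ_three]
  simp only [Measure.volume_eq_prod, Measure.prod_prod]

/-- `MeasurableEquiv.piFinSuccAbove`/`finTwoArrow`, or `volume_preserving_...`; `PiLp.volume_preserving_toLp`;
alternatively `LinearMap.det = 1` is not available (different spaces): compare on boxes with `Measure.pi_eq`. -/
theorem exists_toE3 : ∃ T : P3 ≃L[ℝ] EuclideanSpace ℝ (Fin 3), MeasurePreserving T volume volume ∧
    (∀ y : P3, T y = WithLp.toLp 2 ![y.1.1, y.1.2, y.2]) ∧ ∀ y, ‖T y‖ = nrm3 y := by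
  let L : P3 ≃ₗ[ℝ] EuclideanSpace ℝ (Fin 3) :=
    { toFun := fun y => WithLp.toLp 2 ![y.1.1, y.1.2, y.2]
      invFun := fun x => ((x 0, x 1), x 2)
      map_add' := fun y z => by ext i; fin_cases i <;> simp
      map_smul' := fun c y => by ext i; fin_cases i <;> simp
      left_inv := fun y => by simp
      right_inv := fun x => by ext i; fin_cases i <;> simp }
  refine ⟨L.toContinuousLinearEquiv, ?_, fun y => rfl, fun y => ?_⟩
  · exact (PiLp.volume_preserving_toLp (Fin 3)).comp prad_mp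
  · show ‖(WithLp.toLp 2 ![y.1.1, y.1.2, y.2] : EuclideanSpace ℝ (Fin 3))‖ = _
    rw [EuclideanSpace.norm_eq, nrm3, Fin.sum_univ_three]
    simp

/-- `integral_fun_norm_addHaar`, `EuclideanSpace.volume_ball_fin_three` -/
theorem integral_radial (f : ℝ → ℝ) :
    ∫ u : P3, f (nrm3 u) = 4 * Real.pi * ∫ r in Ioi (0 : ℝ), r ^ 2 * f r := by
  obtain ⟨T, hT, -, hn⟩ := exists_toE3
  have h1 : ∫ u : P3, f (nrm3 u) = ∫ x : EuclideanSpace ℝ (Fin 3), f ‖x‖ := by
    rw [← hT.integral_comp T.toHomeomorph.measurableEmbedding]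
    simp only [hn]
  rw [h1, integral_fun_norm_addHaar volume f]
  simp only [finrank_euclideanSpace, Fintype.card_fin, Measure.real, EuclideanSpace.volume_ball_fin_three,
    smul_eq_mul, nsmul_eq_mul]
  rw [ENNReal.toReal_mul, ENNReal.toReal_ofReal (by positivity)]
  simp
  ring

theorem prad_integrable_iff (f : ℝ → ℝ) :
    Integrable (fun u : P3 => f (nrm3 u)) ↔ IntegrableOn (fun r : ℝ => r ^ 2 * f r) (Ioi 0) := by
  obtain ⟨T, hT, -, hn⟩ := exists_toE3
  have h1 := hT.integrable_comp_emb (g := fun x : EuclideanSpace ℝ (Fin 3) => f ‖x‖)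
    T.toHomeomorph.measurableEmbedding
  have h2 := integrable_fun_norm_addHaar (volume : Measure (EuclideanSpace ℝ (Fin 3))) (f := f)
  simp only [finrank_euclideanSpace, Fintype.card_fin, smul_eq_mul] at h2
  rw [← h2, ← h1]
  simp only [Function.comp_def, hn]

/-- the radial profile of `kn` -/
def prad_g (ς r : ℝ) : ℝ := (1 - sig (2 * (r / ς) ^ 2 - 1)) / r

theorem prad_kn_eq {ς : ℝ} (hς : 0 < ς) (u : P3) : kn ς u = prad_g ς (nrm3 u) := by
  rw [kn, ks_eq hς, prad_g, sub_div]

theorem prad_sq_mul (ς r : ℝ) : r ^ 2 * prad_g ς r = r * (1 - sig (2 * (r / ς) ^ 2 - 1)) := by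
  rcases eq_or_ne r 0 with rfl | h
  · simp
  · rw [prad_g]; field_simp

theorem prad_cont (ς : ℝ) : Continuous fun r : ℝ => r * (1 - sig (2 * (r / ς) ^ 2 - 1)) := by
  have := contDiff_sig.continuous
  fun_prop

theorem prad_zero {ς : ℝ} (hς : 0 < ς) {r : ℝ} (hr : ς ≤ r) : r * (1 - sig (2 * (r / ς) ^ 2 - 1)) = 0 := by
  have h1 : 1 ≤ r / ς := by rw [le_div_iff₀ hς]; linarith
  rw [sig_of_one_le (by nlinarith), sub_self, mul_zero]

theorem prad_int {ς : ℝ} (hς : 0 < ς) : IntegrableOn (fun r : ℝ => r ^ 2 * prad_g ς r) (Ioi 0) := by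
  simp only [prad_sq_mul]
  rw [← Ioc_union_Ioi_eq_Ioi hς.le]
  refine ((prad_cont ς).integrableOn_Icc.mono_set Ioc_subset_Icc_self).union ?_
  exact (integrableOn_zero (s := Ioi ς)).congr_fun (fun r hr => (prad_zero hς (le_of_lt hr)).symm) measurableSet_Ioi

theorem prad_integral {ς : ℝ} (hς : 0 < ς) :
    ∫ u, kn ς u = 4 * Real.pi * ∫ r in (0 : ℝ)..ς, r * (1 - sig (2 * (r / ς) ^ 2 - 1)) := by
  simp only [prad_kn_eq hς]
  rw [integral_radial (prad_g ς), intervalIntegral.integral_of_le hς.le]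
  simp only [prad_sq_mul]
  congr 1
  refine setIntegral_eq_of_subset_of_forall_sdiff_eq_zero measurableSet_Ioi Ioc_subset_Ioi_self fun r hr => ?_
  refine prad_zero hς ?_
  by_contra h
  exact hr.2 ⟨hr.1, (not_le.1 h).le⟩

/-- `0 ≤ kn ς ≤ 1_{nrm3 < ς} / nrm3`; `integrable_fun_norm_addHaar` or `locallyIntegrable_of_norm_le_rpow` on `E3` -/
theorem integrable_kn {ς : ℝ} (hς : 0 < ς) : Integrable (kn ς) := by
  rw [show kn ς = fun u => prad_g ς (nrm3 u) from funext (prad_kn_eq hς), prad_integrable_iff]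
  exact prad_int hς

/-- `4π ∫₀¹ r (1 - sig (2r² - 1)) dr = π ∫_{-1}^{1} (1 - sig t) dt = π (2 - 1/2)` (`ks_eq`, `integral_sig`,
`intervalIntegral.integral_comp_mul_deriv`) -/
theorem integral_kn_one : ∫ u, kn 1 u = 3 * Real.pi / 2 := by
  rw [prad_integral one_pos]
  have hc := contDiff_sig.continuous
  have h1 := intervalIntegral.integral_comp_mul_deriv (a := (0 : ℝ)) (b := 1) (f := fun r : ℝ => 2 * r ^ 2 - 1)
    (f' := fun r : ℝ => 4 * r) (g := fun t : ℝ => 1 - sig t)
    (fun x _ => by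
      have := ((hasDerivAt_pow 2 x).const_mul 2).sub_const 1
      exact this.congr_deriv (by norm_num; ring))
    (by fun_prop) (by fun_prop)
  have h2 : ∫ r in (0 : ℝ)..1, r * (1 - sig (2 * (r / 1) ^ 2 - 1)) =
      (1 / 4) * ∫ r in (0 : ℝ)..1, ((fun t : ℝ => 1 - sig t) ∘ fun r : ℝ => 2 * r ^ 2 - 1) r * (4 * r) := by
    rw [← intervalIntegral.integral_const_mul]
    congr 1
    funext r
    simp only [Function.comp, div_one]
    ring
  have h3 : ∫ t in (-1 : ℝ)..0, (sig t : ℝ) = 0 := by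
    rw [intervalIntegral.integral_congr (g := fun _ => (0 : ℝ))]
    · simp
    · intro t ht
      rw [uIcc_of_le (by norm_num)] at ht
      exact sig_of_nonpos ht.2
  have h4 : ∫ t in (-1 : ℝ)..1, (sig t : ℝ) = 1 / 2 := by
    rw [← intervalIntegral.integral_add_adjacent_intervals (b := 0) (hc.intervalIntegrable _ _)
      (hc.intervalIntegrable _ _), h3, integral_sig, zero_add]
  rw [h2, h1]
  norm_num
  rw [intervalIntegral.integral_sub (by simp) (hc.intervalIntegrable _ _), h4]
  norm_num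
  ring

/-- `≤ 4π ∫₀^ς r dr = 2π ς²` -/
theorem integral_kn_le {ς : ℝ} (hς : 0 < ς) : ∫ u, kn ς u ≤ 7 * ς ^ 2 := by
  rw [prad_integral hς]
  have h1 : ∫ r in (0 : ℝ)..ς, r * (1 - sig (2 * (r / ς) ^ 2 - 1)) ≤ ∫ r in (0 : ℝ)..ς, r := by
    refine intervalIntegral.integral_mono_on hς.le ((prad_cont ς).intervalIntegrable _ _)
      (continuous_id.intervalIntegrable _ _) fun r hr => ?_
    have := sig_nonneg (2 * (r / ς) ^ 2 - 1)
    nlinarith [hr.1]
  rw [integral_id] at h1
  have h2 := Real.pi_lt_d2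
  have h3 := Real.pi_pos
  have h4 : 4 * Real.pi * ∫ r in (0 : ℝ)..ς, r * (1 - sig (2 * (r / ς) ^ 2 - 1)) ≤
      4 * Real.pi * ((ς ^ 2 - 0 ^ 2) / 2) := mul_le_mul_of_nonneg_left h1 (by positivity)
  nlinarith [sq_nonneg ς]

theorem prad_inv_eq (u : P3) : 1 / nrm3 u = kn 1 u + kfar u := by
  rw [kn, ks_one]; ring

theorem prad_kfar_nonneg (u : P3) : 0 ≤ kfar u := by
  rw [← ks_one]; exact ks_nonneg one_pos u

theorem prad_kfar (y : P3) {S : Set P3} (hS : volume S ≠ ⊤) : IntegrableOn (fun u => kfar (y - u)) S := by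
  have hc : Continuous fun u => kfar (y - u) := contDiff_kfar.continuous.comp (by fun_prop)
  refine Measure.integrableOn_of_bounded (M := 2) hS hc.aestronglyMeasurable (Eventually.of_forall fun u => ?_)
  rw [Real.norm_eq_abs, abs_of_nonneg (prad_kfar_nonneg _)]
  exact kfar_le _

/-- `1 / nrm3 = kn 1 + kfar`, `0 ≤ kfar ≤ 2`; `Integrable.comp_sub_left` -/
theorem integrableOn_inv (y : P3) {S : Set P3} (hS : volume S ≠ ⊤) :
    IntegrableOn (fun u => 1 / nrm3 (y - u)) S := by
  have := prad_haar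
  simp only [prad_inv_eq]
  exact ((integrable_kn one_pos).comp_sub_left y).integrableOn.add (prad_kfar y hS)

theorem setIntegral_inv_le (y : P3) {S : Set P3} (hS : volume S ≠ ⊤) :
    ∫ u in S, 1 / nrm3 (y - u) ≤ 2 * volume.real S + 7 := by
  have := prad_haar
  simp only [prad_inv_eq]
  have hi := (integrable_kn one_pos).comp_sub_left y
  rw [integral_add hi.integrableOn (prad_kfar y hS)]
  have h1 : ∫ u in S, kn 1 (y - u) ≤ 7 := by
    refine (setIntegral_le_integral hi (Eventually.of_forall fun u => kn_nonneg one_pos _)).trans ?_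
    rw [integral_sub_left_eq_self (kn 1) volume y]
    simpa using integral_kn_le one_pos
  have h2 : ∫ u in S, kfar (y - u) ≤ ∫ u in S, (2 : ℝ) :=
    integral_mono (prad_kfar y hS) (integrableOn_const hS) fun u => kfar_le _
  rw [setIntegral_const, smul_eq_mul] at h2
  linarith

theorem integrable_kn_mul {ς : ℝ} (hς : 0 < ς) (Y : P3) {F : P3 → ℝ} (hF : Continuous F)
    (hc : HasCompactSupport F) : Integrable fun y => kn ς (y - Y) * F y := by
  have := prad_haar
  obtain ⟨C, hC⟩ := hF.bounded_above_of_compact_support hc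
  exact ((integrable_kn hς).comp_sub_right Y).mul_bdd hF.aestronglyMeasurable (Eventually.of_forall hC)

theorem integrable_inv_mul (Y : P3) {F : P3 → ℝ} (hF : Continuous F) (hc : HasCompactSupport F) :
    Integrable fun y => 1 / nrm3 (y - Y) * F y := by
  simp only [prad_inv_eq, add_mul]
  refine (integrable_kn_mul one_pos Y hF hc).add ?_
  have hk : Continuous fun y => kfar (y - Y) := contDiff_kfar.continuous.comp (by fun_prop)
  exact (hk.mul hF).integrable_of_hasCompactSupport hc.mul_left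

end Crest.Agent.R338
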