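import Crest.Agent.R338.Q1_Reb

/-! # Stage Q1: verifier circuits → real circuits with at most two controls

Input `(u, vcode V)`, `V.N + #gates ≤ u`.  Parse the code (`Q1_Parse`: own parsers for
`Crest.Quantum.GateCircuit.natCode/listCode`; `Q1_Lad`: the ladder, one per reflection; `Q1_Reb`: the rebit) into
`(N, w, gates : List (ℕ × List ℕ × ℕ), out)`.  Clamp `N` by `u` to get `PB`.

New wires (`n = N + 1 + (|code| + 1)`): wire `0` = the REBIT (a witness wire, `w' = w + 1`), wire
`i + 1` = old wire `i`, wires `N + 1 + j` = ladder ancillas `a j`, `j ≤ |code|` (a control list is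
shorter than the code; it may contain repetitions, which is harmless).  A complex vector
`ψ : QVec N` corresponds to the real vector `real ψ σ = if (all ancillas of σ false) then
(if σ 0 then im else re) (ψ (σ restricted)) else 0`; this is a norm preserving bijection onto the
real vectors with ancillas `0`, multiplication by `i` is the rotation `(re, im) ↦ (-im, re)`
of the rebit, `= X * Z` (first Z then X), multiplication by `e^{iπ/4}` is the rotation by
`π/4`, a product of `Z` and `H` (check the order: `H * Z = (XZ + 1)/√2`), inverses in the reverse order.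
Gate `ctrl g cs t`:
* `g = x, h`: controls `cs' = cs.map (·+1)`, target `t+1`, reflections `[X]` resp. `[H]`;
* `g = s, sdg, t, tdg`: controls `cs' = (t :: cs).map (·+1)`, target `0`, two reflections.
Compile: `up = X(a 0) :: [Toffoli(a j, cs'[j] → a (j+1)) | j < k]`, then the reflections controlled by
the single wire `a k`, then `up.reverse`.  `up` acts on basis strings by a classical reversible map
that, on strings with ancillas `0`, writes the prefix conjunctions; the middle gates do not touch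
the controls or ancillas, so `up.reverse` erases them.  Lemma: on vectors with ancillas `0` the
compiled list acts as the multi-controlled reflection (`rgate_mulVec`), hence
`rrun (compile gs) *ᵥ real ψ = real (runGates gs ψ)`; `racc = acceptProb`; `Good` vectors are exactly
`real (startState ψ)`; for `No` normalise (or treat `ψ = 0`).  Output wire `out + 1`. -/

set_option autoImplicit false
set_option linter.dupNamespace false
set_option linter.unusedVariables false

noncomputable section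

namespace Crest.Agent.R338

open Crest.Agent.Lib.PT Matrix

open Crest.Quantum.GateCircuit Crest.Quantum.QMA

/-- The compiled instance from the parsed circuit. -/
def q1Out (u : ℕ) (c : ℕ × ℕ × List GD × ℕ) : RCI :=
  (Un.mk (u + (c.2.2.1.flatMap fun g => g.2.1).length + 3), c.2.1 + 1,
    q1Comp (c.1 + 1) (c.2.2.1.flatMap q1Reb), c.2.2.2 + 1)

theorem q1Map_pt : PT fun x : VI => q1Out x.1.n (q1Circ x.2) := by
  have h : PT fun x : VI => q1Circ x.2 := q1Circ_pt.comp (by fun_prop)
  have h2 : PT fun x : VI => (q1Circ x.2).2.2.1.flatMap fun g => g.2.1 :=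
    PT.flatMap h.snd.snd.fst (by fun_prop)
  have h3 : PT fun x : VI => (q1Circ x.2).2.2.1.flatMap q1Reb :=
    PT.flatMap (f := fun _ g => q1Reb g) h.snd.snd.fst (by fun_prop)
  unfold q1Out
  refine PT.pair (PT.un_mk ?_ ?_) (PT.pair (h.snd.fst.nat_add (PT.const 1))
    (PT.pair (q1Comp_pt (h.fst.nat_add (PT.const 1)) h3) (h.snd.snd.snd.nat_add (PT.const 1))))
  · exact (PT.nat_add (by fun_prop) h2.length).nat_add (PT.const 3)
  · exact (PB.add (by fun_prop) (PB.length h2)).add (PB.const 3)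

/-- Padding a witness string with zeros. -/
def q1Pad (N : ℕ) {w : ℕ} (ρ : Fin w → Bool) : Fin N → Bool := fun i => bit ρ i.val

theorem q1Pad_cast {N w : ℕ} (h : w ≤ N) (ρ : Fin w → Bool) :
    (fun j => q1Pad N ρ (Fin.castLE h j)) = ρ := by
  funext j
  exact q1_bit_val ρ j

theorem q1Pad_zero {N w : ℕ} (ρ : Fin w → Bool) (i : Fin N) (hi : w ≤ i.val) :
    q1Pad N ρ i = false := q1_bit_ge _ hi

theorem q1Pad_eq {N w : ℕ} (h : w ≤ N) {σ : Fin N → Bool}
    (hσ : ∀ i : Fin N, w ≤ i.val → σ i = false) : q1Pad N (fun j => σ (Fin.castLE h j)) = σ := by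
  funext i
  by_cases hi : i.val < w
  · rw [q1Pad, q1_bit_lt _ hi]
    rfl
  · rw [q1Pad_zero _ _ (by omega), hσ i (by omega)]

theorem q1_start_norm (V : VCirc) (h : V.w ≤ V.N) (ψ : QVec V.w) :
    ∑ σ, ‖startState V h ψ σ‖ ^ 2 = ∑ ρ, ‖ψ ρ‖ ^ 2 := by
  refine (Fintype.sum_of_injective (q1Pad V.N) (fun ρ ρ' e => ?_) _ _ (fun σ hσ => ?_)
    fun ρ => ?_).symm
  · rw [← q1Pad_cast h ρ, e, q1Pad_cast]
  · rw [startState, if_neg fun hz => hσ ⟨_, q1Pad_eq h hz⟩]
    simp
  · rw [startState, if_pos (q1Pad_zero ρ), q1Pad_cast]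

theorem q1_start_good {n : ℕ} (V : VCirc) (h : V.w ≤ V.N) (ψ : QVec V.w) :
    Good n (V.w + 1) (q1Rl n (startState V h ψ)) := by
  rintro τ ⟨i, hi, hs⟩
  by_cases h1 : V.N + 1 ≤ i.val
  · exact q1Rl_good _ τ ⟨i, h1, hs⟩
  · have e : q1Res V.N τ ⟨i.val - 1, by omega⟩ = true := by
      rw [q1Res]
      simp only
      rw [show i.val - 1 + 1 = i.val by omega, q1_bit_val, hs]
    have : startState V h ψ (q1Res V.N τ) = 0 := if_neg fun hz => by
      rw [hz _ (by simp only; omega)] at e
      exact Bool.false_ne_true e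
    rw [q1Rl, this]
    cases bit τ 0 <;> simp [q1Part]

theorem q1_good_start {n : ℕ} (V : VCirc) (h : V.w ≤ V.N) (hn : V.N < n)
    {φ : (Fin n → Bool) → ℝ} (hφ : Good n (V.w + 1) φ) :
    ∃ ψ : QVec V.w, φ = q1Rl n (startState V h ψ) := by
  refine ⟨fun ρ => ⟨φ (q1Emb n false (q1Pad V.N ρ)), φ (q1Emb n true (q1Pad V.N ρ))⟩, ?_⟩
  funext τ
  unfold q1Rl
  split_ifs with ha
  · unfold startState
    split_ifs with hz
    · simp only [q1Pad_eq h hz]
      have := q1Emb_res ha
      revert this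
      cases bit τ 0 <;> intro this <;> simp [q1Part, this]
    · push Not at hz
      obtain ⟨i, hi, hs⟩ := hz
      have hi' : i.val + 1 < n := by have := i.2; omega
      rw [hφ τ ⟨⟨i.val + 1, hi'⟩, by simpa using hi, by
        rw [← q1_bit_lt τ hi']; simpa [q1Res] using hs⟩]
      cases bit τ 0 <;> simp [q1Part]
  · unfold Q1Anc at ha
    push Not at ha
    obtain ⟨i, hi, hs⟩ := ha
    exact hφ τ ⟨i, by omega, by simpa using hs⟩

theorem q1_low (V : VCirc) (h : V.WellFormed) {u : ℕ} (hu : V.N ≤ u) :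
    ∀ r ∈ (V.gates.map gdata).flatMap q1Reb,
      Q1Low (u + ((V.gates.map gdata).flatMap fun g => g.2.1).length + 3) (V.N + 1) r := by
  intro r hr
  obtain ⟨d, hd, hr⟩ := List.mem_flatMap.1 hr
  have hl : d.2.1.length ≤ ((V.gates.map gdata).flatMap fun g => g.2.1).length :=
    (List.sublist_flatten_of_mem (List.mem_map_of_mem (f := fun g : GD => g.2.1) hd)).length_le
  obtain ⟨g, hg, rfl⟩ := List.mem_map.1 hd
  exact q1Reb_low g (h.2 g hg) (by omega) r hr

theorem q1_valid (V : VCirc) (h : V.WellFormed) {u : ℕ} (hu : V.N ≤ u) :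
    ValidRC (q1Out u (V.N, V.w, V.gates.map gdata, V.out.val)) := by
  have h1 := h.1
  have h2 := V.out.2
  exact ⟨by simp only [q1Out]; omega, by simp only [q1Out]; omega,
    q1Comp_valid _ (q1_low V h hu)⟩

theorem q1_racc (V : VCirc) (h : V.WellFormed) {n : ℕ} (hn : V.N < n)
    (hl : ∀ r ∈ (V.gates.map gdata).flatMap q1Reb, Q1Low n (V.N + 1) r) (ψ : QVec V.w) :
    racc n (q1Comp (V.N + 1) ((V.gates.map gdata).flatMap q1Reb)) (V.out.val + 1)
      (q1Rl n (startState V h.1 ψ)) = acceptProb V h.1 ψ := by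
  rw [racc, q1Comp_run _ hl _ (q1Rl_good _), q1Reb_runs hn _ h.2]
  exact q1_sum_sq hn _ fun σ => σ V.out = true

theorem q1_racc_smul (n : ℕ) (gs : List RGate) (out : ℕ) (c : ℝ) (φ : (Fin n → Bool) → ℝ) :
    racc n gs out (c • φ) = c ^ 2 * racc n gs out φ := by
  rw [racc, racc, Matrix.mulVec_smul, Finset.mul_sum]
  refine Finset.sum_congr rfl fun σ _ => ?_
  split_ifs
  · rw [Pi.smul_apply, smul_eq_mul, mul_pow]
  · simp

theorem q1_no (V : VCirc) (h : V.WellFormed) {n : ℕ} (hn : V.N < n)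
    (hl : ∀ r ∈ (V.gates.map gdata).flatMap q1Reb, Q1Low n (V.N + 1) r)
    (hno : ∀ ψ : QVec V.w, IsWitness ψ → acceptProb V h.1 ψ ≤ 1 / 3)
    (φ : (Fin n → Bool) → ℝ) (hφ : Good n (V.w + 1) φ) :
    racc n (q1Comp (V.N + 1) ((V.gates.map gdata).flatMap q1Reb)) (V.out.val + 1) φ ≤
      1 / 3 * (φ ⬝ᵥ φ) := by
  by_cases h0 : φ = 0
  · have := q1_racc_smul n (q1Comp (V.N + 1) ((V.gates.map gdata).flatMap q1Reb))
      (V.out.val + 1) 0 φ
    rw [zero_smul] at this
    rw [h0, this]
    simp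
  · have hp := dot_self_pos h0
    set c := (Real.sqrt (φ ⬝ᵥ φ))⁻¹ with hc
    have hc2 : c ^ 2 * (φ ⬝ᵥ φ) = 1 := by
      rw [hc, inv_pow, Real.sq_sqrt hp.le, inv_mul_cancel₀ hp.ne']
    obtain ⟨ψ, hψ⟩ := q1_good_start V h.1 hn (φ := c • φ) fun σ hσ => by
      rw [Pi.smul_apply, hφ σ hσ, smul_zero]
    have hw : IsWitness ψ := by
      refine (q1_start_norm V h.1 ψ).symm.trans ((q1Rl_dot hn _).symm.trans ?_)
      rw [← hψ, smul_dotProduct, dotProduct_smul, smul_eq_mul, smul_eq_mul, ← hc2]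
      ring
    have h1 := (q1_racc V h hn hl ψ).trans_le (hno ψ hw)
    rw [← hψ, q1_racc_smul] at h1
    have h2 := mul_le_mul_of_nonneg_right h1 hp.le
    rw [mul_right_comm, hc2, one_mul] at h2
    exact h2

theorem red_V_RC : Red YesV NoV YesRC NoRC := by
  refine ⟨fun x => q1Out x.1.n (q1Circ x.2), q1Map_pt, ?_, ?_⟩
  · rintro x ⟨V, h, e, hu, ψ, hψ, hacc⟩
    have hu' : V.N ≤ x.1.n := by omega
    simp only [e, q1Circ_code V h]
    have hn : V.N < x.1.n + ((V.gates.map gdata).flatMap fun g => g.2.1).length + 3 := by omega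
    refine ⟨q1_valid V h hu', q1Rl _ (startState V h.1 ψ), q1_start_good V h.1 ψ, ?_, ?_⟩
    · exact (q1Rl_dot hn _).trans ((q1_start_norm V h.1 ψ).trans hψ)
    · exact hacc.trans_eq (q1_racc V h hn (q1_low V h hu') ψ).symm
  · rintro x ⟨V, h, e, hu, hno⟩
    have hu' : V.N ≤ x.1.n := by omega
    simp only [e, q1Circ_code V h]
    have hn : V.N < x.1.n + ((V.gates.map gdata).flatMap fun g => g.2.1).length + 3 := by omega
    exact ⟨q1_valid V h hu', q1_no V h hn (q1_low V h hu') hno⟩

end Crest.Agent.R338
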