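import Crest.Agent.R338.Word

/-! # Stage Q1, part 2: the Toffoli ladder -/

set_option autoImplicit false
set_option linter.dupNamespace false
set_option linter.unusedVariables false

noncomputable section

namespace Crest.Agent.R338

open Crest.Agent.Lib.PT Matrix

theorem q1_bit_lt {n : ℕ} (σ : Fin n → Bool) {q : ℕ} (h : q < n) : bit σ q = σ ⟨q, h⟩ := dif_pos h

theorem q1_bit_val {n : ℕ} (σ : Fin n → Bool) (i : Fin n) : bit σ i.val = σ i := dif_pos i.2

theorem q1_bit_ge {n : ℕ} (σ : Fin n → Bool) {q : ℕ} (h : n ≤ q) : bit σ q = false :=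
  dif_neg (by omega)

theorem q1_bit_update {n : ℕ} (σ : Fin n → Bool) (i : Fin n) (b : Bool) (q : ℕ) :
    bit (Function.update σ i b) q = if q = i.val then b else bit σ q := by
  by_cases h : q < n
  · rw [q1_bit_lt _ h, q1_bit_lt _ h, Function.update_apply]
    simp [Fin.ext_iff]
  · have := i.2
    rw [q1_bit_ge _ (by omega), if_neg (by omega), q1_bit_ge _ (by omega)]

theorem q1_bit_update_ne {n : ℕ} (σ : Fin n → Bool) (i : Fin n) (b : Bool) {q : ℕ}
    (h : q ≠ i.val) : bit (Function.update σ i b) q = bit σ q := by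
  rw [q1_bit_update, if_neg h]

theorem q1_all_update {n : ℕ} (σ : Fin n → Bool) (i : Fin n) (b : Bool) {cs : List ℕ}
    (h : i.val ∉ cs) :
    (∀ q ∈ cs, bit (Function.update σ i b) q = true) ↔ ∀ q ∈ cs, bit σ q = true :=
  forall₂_congr fun q hq => by rw [q1_bit_update_ne _ _ _ fun e => h (e ▸ hq)]

theorem Good.mono {n w w' : ℕ} {φ : (Fin n → Bool) → ℝ} (h : Good n w φ) (hw : w ≤ w') :
    Good n w' φ := fun σ ⟨i, hi, hs⟩ => h σ ⟨i, hw.trans hi, hs⟩

/-- A gate whose target is below `m` preserves `Good n m`. -/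
theorem Good.rgate {n m : ℕ} {φ : (Fin n → Bool) → ℝ} (h : Good n m φ) (g : RGate)
    (ht : g.2.1 < n) (hc : ∀ q ∈ g.1, q < n) (hn : g.2.1 ∉ g.1) (hm : g.2.1 < m) :
    Good n m (rgate n g *ᵥ φ) := by
  rintro σ ⟨i, hi, hs⟩
  rw [rgate_mulVec g ht hc hn]
  split_ifs
  · refine Finset.sum_eq_zero fun b _ => ?_
    rw [h _ ⟨i, hi, ?_⟩, mul_zero]
    rw [Function.update_of_ne, hs]
    intro e
    have := congrArg Fin.val e
    simp only at this
    omega
  · exact h σ ⟨i, hi, hs⟩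

/-- A multi-controlled `X` permutes the basis strings. -/
theorem q1_cx {n a : ℕ} (ds : List ℕ) (ha : a < n) (hc : ∀ q ∈ ds, q < n) (hn : a ∉ ds)
    (φ : (Fin n → Bool) → ℝ) (σ : Fin n → Bool) :
    (rgate n (ds, a, 0) *ᵥ φ) σ =
      φ (if ∀ q ∈ ds, bit σ q = true then Function.update σ ⟨a, ha⟩ (!σ ⟨a, ha⟩) else σ) := by
  rw [rgate_mulVec (ds, a, 0) ha hc hn]
  split_ifs
  · cases σ ⟨a, ha⟩ <;> simp [refl, pX]
  · rfl

/-- Conjugation by a multi-controlled `X` onto a clean ancilla `a`. -/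
theorem q1_conj {n a t : ℕ} (k : ℕ) (ds cs : List ℕ) (ha : a < n) (ht : t < a)
    (hd : ∀ q ∈ ds, q < a) (hc : ∀ q ∈ cs, q < a) (htd : t ∉ ds) (htc : t ∉ cs)
    {φ : (Fin n → Bool) → ℝ} (hφ : Good n a φ) :
    rgate n (ds, a, 0) *ᵥ (rgate n (a :: cs, t, k) *ᵥ (rgate n (ds, a, 0) *ᵥ φ)) =
      rgate n (ds ++ cs, t, k) *ᵥ φ := by
  have hd' : ∀ q ∈ ds, q < n := fun q hq => (hd q hq).trans ha
  have hc' : ∀ q ∈ cs, q < n := fun q hq => (hc q hq).trans ha
  have had : a ∉ ds := fun h => lt_irrefl _ (hd a h)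
  have hac : a ∉ cs := fun h => lt_irrefl _ (hc a h)
  have htn : t < n := ht.trans ha
  have hne : (⟨t, htn⟩ : Fin n) ≠ ⟨a, ha⟩ := fun e => by
    have := congrArg Fin.val e
    simp only at this
    omega
  funext σ
  rw [q1_cx ds ha hd' had, rgate_mulVec (a :: cs, t, k) htn
    (by simpa [ha] using hc') (by simp only [List.mem_cons, not_or]; exact ⟨ht.ne, htc⟩),
    rgate_mulVec (ds ++ cs, t, k) htn
      (fun q hq => (List.mem_append.1 hq).elim (hd' q) (hc' q))
      (by simp only [List.mem_append, not_or]; exact ⟨htd, htc⟩)]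
  simp only [q1_cx ds ha hd' had, List.forall_mem_cons, List.forall_mem_append]
  have hz : σ ⟨a, ha⟩ = true → φ σ = 0 ∧ ∀ b, φ (Function.update σ ⟨t, htn⟩ b) = 0 := fun h =>
    ⟨hφ σ ⟨⟨a, ha⟩, le_rfl, h⟩, fun b => hφ _ ⟨⟨a, ha⟩, le_rfl, by
      rw [Function.update_of_ne hne.symm, h]⟩⟩
  by_cases h1 : ∀ q ∈ ds, bit σ q = true
  · have e1 : ∀ b, (if ∀ q ∈ ds, bit (Function.update (Function.update σ ⟨a, ha⟩ (!σ ⟨a, ha⟩))
          ⟨t, htn⟩ b) q = true then
        Function.update (Function.update (Function.update σ ⟨a, ha⟩ (!σ ⟨a, ha⟩)) ⟨t, htn⟩ b) ⟨a, ha⟩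
          (!(Function.update (Function.update σ ⟨a, ha⟩ (!σ ⟨a, ha⟩)) ⟨t, htn⟩ b ⟨a, ha⟩))
        else Function.update (Function.update σ ⟨a, ha⟩ (!σ ⟨a, ha⟩)) ⟨t, htn⟩ b) =
        Function.update σ ⟨t, htn⟩ b := fun b => by
      rw [if_pos ((q1_all_update _ _ _ htd).2 ((q1_all_update _ _ _ had).2 h1)),
        Function.update_of_ne hne.symm, Function.update_self, Bool.not_not,
        Function.update_comm hne, Function.update_idem, Function.update_eq_self]
    have e2 : (if ∀ q ∈ ds, bit (Function.update σ ⟨a, ha⟩ (!σ ⟨a, ha⟩)) q = true then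
        Function.update (Function.update σ ⟨a, ha⟩ (!σ ⟨a, ha⟩)) ⟨a, ha⟩
          (!(Function.update σ ⟨a, ha⟩ (!σ ⟨a, ha⟩) ⟨a, ha⟩))
        else Function.update σ ⟨a, ha⟩ (!σ ⟨a, ha⟩)) = σ := by
      rw [if_pos ((q1_all_update _ _ _ had).2 h1), Function.update_self, Bool.not_not,
        Function.update_idem, Function.update_eq_self]
    simp only [if_pos h1, e1, e2]
    simp only [q1_all_update σ ⟨a, ha⟩ _ hac, Function.update_of_ne hne,
      q1_bit_lt _ ha, Function.update_self]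
    cases h2 : σ ⟨a, ha⟩
    · simp only [Bool.not_false, true_and, and_iff_right h1]
    · simp [(hz h2).1, (hz h2).2]
  · have e1 : ∀ b, (if ∀ q ∈ ds, bit (Function.update σ ⟨t, htn⟩ b) q = true then
        Function.update (Function.update σ ⟨t, htn⟩ b) ⟨a, ha⟩
          (!(Function.update σ ⟨t, htn⟩ b ⟨a, ha⟩))
        else Function.update σ ⟨t, htn⟩ b) = Function.update σ ⟨t, htn⟩ b := fun b =>
      if_neg fun h => h1 ((q1_all_update _ _ _ htd).1 h)
    simp only [if_neg h1, e1, q1_bit_lt _ ha]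
    cases h2 : σ ⟨a, ha⟩
    · simp [h1]
    · simp [(hz h2).1, (hz h2).2]

/-- The computing half of the ladder. -/
def q1Up (ds : List ℕ) (a : ℕ) (cs : List ℕ) : List RGate :=
  (ds, a, 0) :: cs.mapIdx fun j c => ([a + j, c], a + j + 1, 0)

/-- The ladder for the reflection `k` on `t` controlled by `ds ++ cs`, ancillas from `a` on. -/
def q1Lad (ds : List ℕ) (a : ℕ) (cs : List ℕ) (t k : ℕ) : List RGate :=
  q1Up ds a cs ++ ([a + cs.length], t, k) :: (q1Up ds a cs).reverse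

theorem q1Up_cons (ds : List ℕ) (a c : ℕ) (cs : List ℕ) :
    q1Up ds a (c :: cs) = (ds, a, 0) :: q1Up [a, c] (a + 1) cs := by
  simp only [q1Up, List.mapIdx_cons, Nat.add_zero, List.cons.injEq, true_and]
  congr 1
  funext j c
  rw [show a + (j + 1) = a + 1 + j by omega]

theorem q1Lad_cons (ds : List ℕ) (a c : ℕ) (cs : List ℕ) (t k : ℕ) :
    q1Lad ds a (c :: cs) t k = (ds, a, 0) :: (q1Lad [a, c] (a + 1) cs t k ++ [(ds, a, 0)]) := by
  simp only [q1Lad, q1Up_cons, List.length_cons, List.cons_append, List.reverse_cons,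
    List.append_assoc, show a + (cs.length + 1) = a + 1 + cs.length by omega]

theorem q1Lad_run {n t : ℕ} (k : ℕ) (cs : List ℕ) : ∀ (ds : List ℕ) (a : ℕ), a + cs.length < n →
    t < a → (∀ q ∈ ds, q < a) → (∀ q ∈ cs, q < a) → t ∉ ds → t ∉ cs →
    ∀ φ : (Fin n → Bool) → ℝ, Good n a φ →
      rrun n (q1Lad ds a cs t k) *ᵥ φ = rgate n (ds ++ cs, t, k) *ᵥ φ := by
  induction cs with
  | nil =>
    intro ds a ha ht hd hc htd htc φ hφ
    have e : q1Lad ds a [] t k = [(ds, a, 0), ([a], t, k), (ds, a, 0)] := rfl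
    rw [e, ← q1_conj (a := a) k ds [] ha ht hd hc htd htc hφ]
    simp only [rrun_cons, rrun_nil, Matrix.one_mul, Matrix.mulVec_mulVec, Matrix.mul_assoc]
  | cons c cs ih =>
    intro ds a ha ht hd hc htd htc φ hφ
    rw [List.length_cons] at ha
    have ha' : a < n := by omega
    have hca : c < a := hc c (by simp)
    have htc' : t ≠ c ∧ t ∉ cs := by simpa using htc
    have hg : Good n (a + 1) (rgate n (ds, a, 0) *ᵥ φ) :=
      (hφ.mono (Nat.le_succ a)).rgate (ds, a, 0) ha' (fun q hq => (hd q hq).trans ha')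
        (fun h => lt_irrefl _ (hd a h)) (Nat.lt_succ_self a)
    have := ih [a, c] (a + 1) (by omega) (by omega)
      (by simp only [List.mem_cons, List.not_mem_nil, or_false]; rintro q (rfl | rfl) <;> omega)
      (fun q hq => (hc q (by simp [hq])).trans (Nat.lt_succ_self a))
      (by simp only [List.mem_cons, List.not_mem_nil, or_false, not_or]; exact ⟨ht.ne, htc'.1⟩)
      htc'.2 _ hg
    rw [q1Lad_cons, rrun_cons, rrun_append, ← q1_conj k ds (c :: cs) ha' ht hd hc htd htc hφ,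
      ← Matrix.mulVec_mulVec, ← Matrix.mulVec_mulVec, this, rrun_cons, rrun_nil, Matrix.one_mul]
    rfl

theorem q1Lad_valid {n t : ℕ} (k : ℕ) (cs : List ℕ) : ∀ (ds : List ℕ) (a : ℕ), a + cs.length < n →
    t < a → (∀ q ∈ ds, q < a) → (∀ q ∈ cs, q < a) → ds.length ≤ 2 → ds.Nodup →
    ∀ g ∈ q1Lad ds a cs t k, g.1.length ≤ 2 ∧ (g.2.1 :: g.1).Nodup ∧ ∀ q ∈ g.2.1 :: g.1, q < n := by
  have key : ∀ (ds : List ℕ) (a : ℕ), a < n → (∀ q ∈ ds, q < a) → ds.length ≤ 2 → ds.Nodup →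
      ds.length ≤ 2 ∧ (a :: ds).Nodup ∧ ∀ q ∈ a :: ds, q < n := fun ds a ha hd h2 hn =>
    ⟨h2, List.nodup_cons.2 ⟨fun h => lt_irrefl _ (hd a h), hn⟩,
      List.forall_mem_cons.2 ⟨ha, fun q hq => (hd q hq).trans ha⟩⟩
  induction cs with
  | nil =>
    intro ds a ha ht hd hc h2 hn g hg
    have e : q1Lad ds a [] t k = [(ds, a, 0), ([a], t, k), (ds, a, 0)] := rfl
    rw [e] at hg
    simp only [List.mem_cons, List.not_mem_nil, or_false] at hg
    rcases hg with rfl | rfl | rfl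
    · exact key ds a ha hd h2 hn
    · refine ⟨by simp, by simpa using ht.ne, ?_⟩
      simp only [List.length_nil, Nat.add_zero] at ha
      simp only [List.mem_cons, List.not_mem_nil, or_false]
      rintro q (rfl | rfl) <;> omega
    · exact key ds a ha hd h2 hn
  | cons c cs ih =>
    intro ds a ha ht hd hc h2 hn g hg
    rw [List.length_cons] at ha
    have hca : c < a := hc c (by simp)
    rw [q1Lad_cons] at hg
    simp only [List.mem_cons, List.mem_append, List.not_mem_nil, or_false] at hg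
    rcases hg with rfl | hg | rfl
    · exact key ds a (by omega) hd h2 hn
    · exact ih [a, c] (a + 1) (by omega) (by omega)
        (by simp only [List.mem_cons, List.not_mem_nil, or_false]; rintro q (rfl | rfl) <;> omega)
        (fun q hq => (hc q (by simp [hq])).trans (Nat.lt_succ_self a)) (by simp)
        (by simpa using hca.ne') g hg
    · exact key ds a (by omega) hd h2 hn

/-- Gates on the wires below `m`, with few controls. -/
def Q1Low (n m : ℕ) (g : RGate) : Prop :=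
  m + g.1.length < n ∧ g.2.1 < m ∧ (∀ q ∈ g.1, q < m) ∧ g.2.1 ∉ g.1

/-- Replace every gate by its ladder. -/
def q1Comp (m : ℕ) (gs : List RGate) : List RGate :=
  gs.flatMap fun g => q1Lad [] m g.1 g.2.1 g.2.2

theorem q1Comp_run {n m : ℕ} (gs : List RGate) (h : ∀ g ∈ gs, Q1Low n m g) :
    ∀ φ : (Fin n → Bool) → ℝ, Good n m φ → rrun n (q1Comp m gs) *ᵥ φ = rrun n gs *ᵥ φ := by
  induction gs with
  | nil => intro φ _; rfl
  | cons g gs ih =>
    intro φ hφ
    obtain ⟨h1, h2, h3, h4⟩ := h g (by simp)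
    have e : q1Comp m (g :: gs) = q1Lad [] m g.1 g.2.1 g.2.2 ++ q1Comp m gs := rfl
    rw [e, rrun_append, rrun_cons, ← Matrix.mulVec_mulVec, ← Matrix.mulVec_mulVec,
      q1Lad_run g.2.2 g.1 [] m h1 h2 (by simp) h3 (by simp) h4 φ hφ]
    exact ih (fun g' hg' => h g' (by simp [hg'])) _
      (hφ.rgate g (by omega) (fun q hq => by have := h3 q hq; omega) h4 h2)

theorem q1Comp_valid {n m : ℕ} (gs : List RGate) (h : ∀ g ∈ gs, Q1Low n m g) :
    ∀ g ∈ q1Comp m gs, g.1.length ≤ 2 ∧ (g.2.1 :: g.1).Nodup ∧ ∀ q ∈ g.2.1 :: g.1, q < n := by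
  intro g hg
  obtain ⟨g', hg', hm⟩ := List.mem_flatMap.1 hg
  obtain ⟨h1, h2, h3, h4⟩ := h g' hg'
  exact q1Lad_valid _ _ [] m h1 h2 (by simp) h3 (by simp) (by simp) g hm

@[fun_prop] theorem q1Comp_pt {α : Type} [Enc α] {m : α → ℕ} {gs : α → List RGate} (hm : PT m)
    (hg : PT gs) : PT fun a => q1Comp (m a) (gs a) := by
  unfold q1Comp q1Lad q1Up
  fun_prop

end Crest.Agent.R338
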