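import Crest.Agent.R338.Defs

/-! # Stage Q1, part 1: parsing the code of a verifier circuit -/

set_option autoImplicit false
set_option linter.dupNamespace false
set_option linter.unusedVariables false

noncomputable section

namespace Crest.Agent.R338

open Crest.Agent.Lib.PT Matrix
open Crest.Quantum.GateCircuit Crest.Quantum.QMA

/-- Read a number written by `GateCircuit.natCode`. -/
def q1Nat (l : List Bool) : ℕ × List Bool :=
  (ofBits (natBits l), l.drop (2 * (natBits l).length + 1))

/-- One optional element of a list code. -/
def q1Opt {β : Type} (p : List Bool → β × List Bool) (l : List Bool) : List β × List Bool :=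
  bif l.headD false then ([(p l.tail).1], (p l.tail).2) else ([], l)

/-- Read a list written by `GateCircuit.listCode`. -/
def q1List {β : Type} (p : List Bool → β × List Bool) (l : List Bool) : List β × List Bool :=
  ((parseMany (q1Opt p) l.length l).1.flatten, (parseMany (q1Opt p) l.length l).2.tail)

/-- Numeric data of a gate: (primitive, controls, target). -/
abbrev GD := ℕ × List ℕ × ℕ

def q1Gate (l : List Bool) : GD × List Bool :=
  parsePair q1Nat (parsePair (q1List q1Nat) q1Nat) l.tail

/-- (wires, witness wires, gates, output) -/
def q1Circ (l : List Bool) : ℕ × ℕ × List GD × ℕ :=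
  (parsePair q1Nat (parsePair q1Nat (parsePair (q1List q1Gate) q1Nat)) l).1

def pnum : Prim → ℕ
  | .x => 0 | .h => 1 | .s => 2 | .sdg => 3 | .t => 4 | .tdg => 5

def gdata {N : ℕ} : Gate N 0 → GD
  | .ctrl g cs t => (pnum g, cs.map Fin.val, t.val)
  | .oracle _ t => (0, [], t.val)

theorem q1_natBits (n : ℕ) (r : List Bool) : natBits (natCode n ++ r) = n.bits := by
  unfold natCode
  induction n.bits with
  | nil => rfl
  | cons b l ih => simpa [natBits] using ih

theorem q1_length_natCode (n : ℕ) : (natCode n).length = 2 * n.bits.length + 1 := by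
  unfold natCode
  induction n.bits with
  | nil => rfl
  | cons b l ih => simp at ih ⊢; omega

theorem q1Nat_code (n : ℕ) (r : List Bool) : q1Nat (natCode n ++ r) = (n, r) := by
  rw [q1Nat, q1_natBits, ofBits_bits, ← q1_length_natCode, List.drop_left]

theorem q1_many_stop {β : Type} (p : List Bool → β × List Bool) (r : List Bool) (k : ℕ) :
    (parseMany (q1Opt p) k (false :: r)).1.flatten = [] ∧
      (parseMany (q1Opt p) k (false :: r)).2 = false :: r := by
  induction k with
  | zero => simp [parseMany]
  | succ k ih =>
    have h : q1Opt p (false :: r) = ([], false :: r) := rfl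
    rw [parseMany, h]
    simpa using ih

theorem q1_many {β δ : Type} {p : List Bool → β × List Bool} {code : δ → List Bool}
    {val : δ → β} (xs : List δ) (h : ∀ x ∈ xs, ∀ r, p (code x ++ r) = (val x, r))
    (r : List Bool) : ∀ k, xs.length ≤ k →
    (parseMany (q1Opt p) k (listCode code xs ++ r)).1.flatten = xs.map val ∧
      (parseMany (q1Opt p) k (listCode code xs ++ r)).2 = false :: r := by
  induction xs with
  | nil => intro k _; simpa [listCode] using q1_many_stop p r k
  | cons x xs ih =>
    intro k hk
    obtain ⟨k, rfl⟩ : ∃ j, k = j + 1 := ⟨k - 1, by simp at hk; omega⟩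
    have e : listCode code (x :: xs) ++ r = true :: (code x ++ (listCode code xs ++ r)) := by
      simp [listCode]
    have h1 : q1Opt p (true :: (code x ++ (listCode code xs ++ r))) =
        ([val x], listCode code xs ++ r) := by
      simp [q1Opt, h x (by simp)]
    have h2 := ih (fun y hy => h y (by simp [hy])) k (by simpa using hk)
    rw [e, parseMany, h1]
    simp only [List.flatten_cons, List.map_cons, List.singleton_append, List.cons.injEq, true_and]
    exact h2

theorem q1_length_listCode {δ : Type} (code : δ → List Bool) (xs : List δ) :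
    xs.length ≤ (listCode code xs).length := by
  unfold listCode
  induction xs with
  | nil => simp
  | cons x xs ih => simp at ih ⊢; omega

theorem q1List_code {β δ : Type} {p : List Bool → β × List Bool} {code : δ → List Bool}
    {val : δ → β} (xs : List δ) (h : ∀ x ∈ xs, ∀ r, p (code x ++ r) = (val x, r))
    (r : List Bool) : q1List p (listCode code xs ++ r) = (xs.map val, r) := by
  have := q1_many xs h r (listCode code xs ++ r).length
    (by have := q1_length_listCode code xs; rw [List.length_append]; omega)
  rw [q1List, this.1, this.2, List.tail_cons]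

theorem q1_primCode (g : Prim) : primCode g = natCode (pnum g) := by cases g <;> rfl

theorem q1Gate_code {N : ℕ} (g : Gate N 0) (hg : IsCtrlGate g) (r : List Bool) :
    q1Gate (gateCode g ++ r) = (gdata g, r) := by
  cases g with
  | oracle q t => exact hg.elim
  | ctrl g cs t =>
    have h1 := q1List_code (p := q1Nat) (code := fun c : Fin N => natCode c) (val := Fin.val) cs
      (fun x _ r => q1Nat_code _ r) (natCode t ++ r)
    simp only [q1Gate, gateCode, gdata, List.cons_append, List.tail_cons, List.append_assoc,
      q1_primCode, parsePair, q1Nat_code, h1]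

theorem q1Circ_code (V : VCirc) (h : V.WellFormed) :
    q1Circ (vcode V) = (V.N, V.w, V.gates.map gdata, V.out.val) := by
  have h1 := q1List_code (p := q1Gate) (code := gateCode) (val := gdata) V.gates
    (fun g hg r => q1Gate_code g (h.2 g hg) r) (natCode V.out ++ [])
  have h2 := q1Nat_code V.out []
  rw [List.append_nil] at h1 h2
  simp only [q1Circ, vcode, List.append_assoc, parsePair, q1Nat_code, h1, h2]

theorem shrinks_q1Nat : Shrinks q1Nat := fun l => by simp [q1Nat]

theorem shrinks_q1Opt {β : Type} {p : List Bool → β × List Bool} (hp : Shrinks p) :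
    Shrinks (q1Opt p) := fun l => by
  unfold q1Opt
  cases l.headD false
  · exact le_rfl
  · exact (hp _).trans (by simp)

theorem shrinks_q1List {β : Type} {p : List Bool → β × List Bool} (hp : Shrinks p) :
    Shrinks (q1List p) := fun l =>
  le_trans (by simp [q1List]) ((shrinks_q1Opt hp).parseMany l.length l)

theorem shrinks_q1Gate : Shrinks q1Gate := fun l =>
  ((shrinks_q1Nat.parsePair ((shrinks_q1List shrinks_q1Nat).parsePair shrinks_q1Nat)) l.tail).trans
    (by simp)

theorem q1Nat_pt : PT q1Nat := by
  have := natBits_pt
  unfold q1Nat; fun_prop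

theorem q1List_pt {β : Type} [Enc β] {p : List Bool → β × List Bool} (hp : PT p)
    (hs : Shrinks p) : PT (q1List p) := by
  have h0 : PT fun l : List Bool => p l.tail := hp.comp (by fun_prop)
  have h1 : PT (q1Opt p) := by
    unfold q1Opt
    exact PT.cond (by fun_prop) ((PT.cons h0.fst (PT.const [])).pair h0.snd) (by fun_prop)
  have h2 : PT fun l : List Bool => parseMany (q1Opt p) l.length l :=
    PT.parseMany (p := fun _ => q1Opt p) (h1.comp (by fun_prop)) (fun _ => shrinks_q1Opt hs)
      (by fun_prop) (by fun_prop) (by fun_prop)
  unfold q1List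
  exact h2.fst.flatten.pair h2.snd.tail

theorem q1Pair_pt {β γ : Type} [Enc β] [Enc γ] {p : List Bool → β × List Bool}
    {q : List Bool → γ × List Bool} (hp : PT p) (hq : PT q) : PT (parsePair p q) :=
  PT.parsePair (p := fun _ => p) (q := fun _ => q) (l := fun l => l) (hp.comp (by fun_prop))
    (hq.comp (by fun_prop)) PT.id

theorem q1Gate_pt : PT q1Gate :=
  (q1Pair_pt q1Nat_pt (q1Pair_pt (q1List_pt q1Nat_pt shrinks_q1Nat) q1Nat_pt)).comp
    (f := fun l : List Bool => l.tail) (by fun_prop)

theorem q1Circ_pt : PT q1Circ :=
  (q1Pair_pt q1Nat_pt (q1Pair_pt q1Nat_pt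
    (q1Pair_pt (q1List_pt q1Gate_pt shrinks_q1Gate) q1Nat_pt))).fst

end Crest.Agent.R338
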