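import Crest.Agent.R338.Q1_Lad
import Crest.Agent.R338.Q1_Parse

/-! # Stage Q1, part 3: the rebit encoding of complex states -/

set_option autoImplicit false
set_option linter.dupNamespace false
set_option linter.unusedVariables false

noncomputable section

namespace Crest.Agent.R338

open Crest.Agent.Lib.PT Matrix
open Crest.Quantum.GateCircuit Crest.Quantum.QMA

/-- The old wires of a string. -/
def q1Res {n : ℕ} (N : ℕ) (τ : Fin n → Bool) : Fin N → Bool := fun i => bit τ (i.val + 1)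

/-- Rebit `b`, old wires `σ`, ancillas `0`. -/
def q1Emb (n : ℕ) {N : ℕ} (b : Bool) (σ : Fin N → Bool) : Fin n → Bool :=
  fun i => if i.val = 0 then b else bit σ (i.val - 1)

def Q1Anc {n : ℕ} (N : ℕ) (τ : Fin n → Bool) : Prop := ∀ i : Fin n, N + 1 ≤ i.val → τ i = false

instance {n : ℕ} (N : ℕ) (τ : Fin n → Bool) : Decidable (Q1Anc N τ) := by
  unfold Q1Anc; infer_instance

def q1Part (b : Bool) (z : ℂ) : ℝ := bif b then z.im else z.re

/-- The real vector of a complex state. -/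
def q1Rl (n : ℕ) {N : ℕ} (ψ : QVec N) : (Fin n → Bool) → ℝ :=
  fun τ => if Q1Anc N τ then q1Part (bit τ 0) (ψ (q1Res N τ)) else 0

variable {n N : ℕ}

theorem q1_bit_emb (hn : N < n) (b : Bool) (σ : Fin N → Bool) (q : ℕ) :
    bit (q1Emb n b σ) q = if q = 0 then b else bit σ (q - 1) := by
  by_cases h : q < n
  · rw [q1_bit_lt _ h]; rfl
  · rw [q1_bit_ge _ (by omega), if_neg (by omega), q1_bit_ge _ (by omega)]

theorem q1Res_emb (hn : N < n) (b : Bool) (σ : Fin N → Bool) : q1Res N (q1Emb n b σ) = σ := by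
  funext i
  rw [q1Res, q1_bit_emb hn, if_neg (by omega), Nat.add_sub_cancel, q1_bit_val]

theorem q1Anc_emb (b : Bool) (σ : Fin N → Bool) : Q1Anc N (q1Emb n b σ) := fun i hi => by
  rw [q1Emb, if_neg (by omega), q1_bit_ge _ (by omega)]

theorem q1Emb_res {τ : Fin n → Bool} (h : Q1Anc N τ) : q1Emb n (bit τ 0) (q1Res N τ) = τ := by
  funext i
  unfold q1Emb
  split_ifs with h0
  · rw [← h0, q1_bit_val]
  · by_cases h1 : i.val - 1 < N
    · rw [q1_bit_lt _ h1, q1Res]
      simp only
      rw [show i.val - 1 + 1 = i.val by omega, q1_bit_val]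
    · rw [q1_bit_ge _ (by omega), h i (by omega)]

theorem q1Rl_emb (hn : N < n) (ψ : QVec N) (b : Bool) (σ : Fin N → Bool) :
    q1Rl n ψ (q1Emb n b σ) = q1Part b (ψ σ) := by
  rw [q1Rl, if_pos (q1Anc_emb b σ), q1Res_emb hn, q1_bit_emb hn, if_pos rfl]

theorem q1Rl_good (ψ : QVec N) : Good n (N + 1) (q1Rl n ψ) := by
  rintro τ ⟨i, hi, hs⟩
  refine if_neg fun h => ?_
  rw [h i hi] at hs
  exact Bool.false_ne_true hs

theorem q1_sum (hn : N < n) (G : (Fin n → Bool) → ℝ) (hG : ∀ τ, ¬Q1Anc N τ → G τ = 0) :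
    ∑ τ, G τ = ∑ σ : Fin N → Bool, (G (q1Emb n false σ) + G (q1Emb n true σ)) := by
  have h := Fintype.sum_of_injective (fun p : (Fin N → Bool) × Bool => q1Emb n p.2 p.1)
    (fun p p' e => by
      have e1 := congrArg (q1Res N) e
      have e2 := congrArg (fun τ => bit τ 0) e
      simp only [q1Res_emb hn, q1_bit_emb hn, if_true] at e1 e2
      exact Prod.ext e1 e2)
    (fun p => G (q1Emb n p.2 p.1)) G
    (fun τ hτ => hG τ fun ha => hτ ⟨(q1Res N τ, bit τ 0), q1Emb_res ha⟩) fun _ => rfl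
  rw [← h, Fintype.sum_prod_type]
  exact Finset.sum_congr rfl fun σ _ => by rw [Fintype.sum_bool, add_comm]

theorem q1_sum_sq (hn : N < n) (ψ : QVec N) (P : (Fin N → Bool) → Prop) [DecidablePred P] :
    ∑ τ : Fin n → Bool, (if P (q1Res N τ) then q1Rl n ψ τ ^ 2 else 0) =
      ∑ σ, if P σ then ‖ψ σ‖ ^ 2 else 0 := by
  rw [q1_sum hn _ fun τ hτ => by simp [q1Rl, hτ]]
  refine Finset.sum_congr rfl fun σ _ => ?_
  simp only [q1Res_emb hn, q1Rl_emb hn]
  split_ifs
  · rw [Complex.sq_norm, Complex.normSq_apply]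
    simp only [q1Part, cond_false, cond_true]
    ring
  · simp

theorem q1Rl_dot (hn : N < n) (ψ : QVec N) : q1Rl n ψ ⬝ᵥ q1Rl n ψ = ∑ σ, ‖ψ σ‖ ^ 2 := by
  have := q1_sum_sq hn ψ fun _ => True
  simpa [dotProduct, sq] using this

theorem q1Anc_update {τ : Fin n → Bool} (i : Fin n) (hi : i.val ≤ N) (b : Bool) :
    Q1Anc N (Function.update τ i b) ↔ Q1Anc N τ :=
  forall₂_congr fun j hj => by
    rw [Function.update_of_ne fun e => by rw [e] at hj; omega]

theorem q1Res_update (τ : Fin n → Bool) (t : Fin N) (h : t.val + 1 < n) (b : Bool) :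
    q1Res N (Function.update τ ⟨t.val + 1, h⟩ b) = Function.update (q1Res N τ) t b := by
  funext i
  rw [q1Res, q1_bit_update, Function.update_apply]
  simp [Fin.ext_iff, q1Res]

theorem q1Res_update_zero (τ : Fin n → Bool) (h : 0 < n) (b : Bool) :
    q1Res N (Function.update τ ⟨0, h⟩ b) = q1Res N τ := by
  funext i
  rw [q1Res, q1_bit_update_ne _ _ _ (by simp), q1Res]

theorem q1_ctrl_iff (τ : Fin n → Bool) (cs : List (Fin N)) :
    (∀ q ∈ (cs.map Fin.val).map (· + 1), bit τ q = true) ↔ ∀ c ∈ cs, q1Res N τ c = true := by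
  simp [q1Res]

theorem q1_ctrl_lt (cs : List (Fin N)) : ∀ q ∈ (cs.map Fin.val).map (· + 1), q < N + 1 := by
  intro q hq
  simp only [List.map_map, List.mem_map, Function.comp] at hq
  obtain ⟨c, -, rfl⟩ := hq
  have := c.2
  omega

theorem q1_ctrl_zero (cs : List ℕ) : 0 ∉ cs.map (· + 1) := by simp

theorem q1_ctrl_notMem {cs : List (Fin N)} {t : Fin N} (h : t ∉ cs) :
    t.val + 1 ∉ (cs.map Fin.val).map (· + 1) := by
  intro hq
  simp only [List.map_map, List.mem_map, Function.comp] at hq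
  obtain ⟨c, hc, e⟩ := hq
  exact h ((Fin.ext (by omega) : c = t) ▸ hc)

theorem q1Part_mul (b : Bool) (r : ℝ) (z : ℂ) : q1Part b (r * z) = r * q1Part b z := by
  cases b <;> simp [q1Part]

theorem q1Part_add (b : Bool) (z z' : ℂ) : q1Part b (z + z') = q1Part b z + q1Part b z' := by
  cases b <;> simp [q1Part]

/-- Gates with a real matrix. -/
theorem q1_real (hn : N < n) (g : Prim) (k : ℕ) (hg : ∀ a b, g.mat a b = (refl k a b : ℝ))
    (cs : List (Fin N)) (t : Fin N) (h : t ∉ cs) (ψ : QVec N) :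
    rgate n ((cs.map Fin.val).map (· + 1), t.val + 1, k) *ᵥ q1Rl n ψ =
      q1Rl n ((Gate.ctrl g cs t : Gate N 0).apply (fun _ => false) ψ) := by
  have ht : t.val + 1 < n := by have := t.2; omega
  funext τ
  rw [rgate_mulVec _ ht (fun q hq => by have := q1_ctrl_lt cs q hq; omega) (q1_ctrl_notMem h)]
  simp only [q1_ctrl_iff, q1Rl, Gate.apply, q1Res_update,
    q1Anc_update (⟨t.val + 1, ht⟩ : Fin n) t.2,
    q1_bit_update_ne τ ⟨t.val + 1, ht⟩ _ (show 0 ≠ t.val + 1 by omega)]
  by_cases ha : Q1Anc N τ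
  · simp only [if_pos ha]
    split_ifs
    · have e : q1Res N τ t = τ ⟨t.val + 1, ht⟩ := q1_bit_lt _ ht
      simp only [Fintype.sum_bool, hg, q1Part_add, q1Part_mul, e]
    · rfl
  · simp [ha]

/-- Two reflections with the same controls and target. -/
theorem q1_two (ds : List ℕ) {t : ℕ} (k1 k2 : ℕ) (ht : t < n) (hc : ∀ q ∈ ds, q < n) (hd : t ∉ ds)
    (φ : (Fin n → Bool) → ℝ) (τ : Fin n → Bool) :
    (rrun n [(ds, t, k1), (ds, t, k2)] *ᵥ φ) τ =
      if ∀ q ∈ ds, bit τ q = true then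
        ∑ b : Bool, (refl k2 * refl k1) (τ ⟨t, ht⟩) b * φ (Function.update τ ⟨t, ht⟩ b)
      else φ τ := by
  rw [rrun_cons, rrun_cons, rrun_nil, Matrix.one_mul, ← Matrix.mulVec_mulVec,
    rgate_mulVec (ds, t, k2) ht hc hd]
  simp only [rgate_mulVec (ds, t, k1) ht hc hd, q1_all_update τ ⟨t, ht⟩ _ hd]
  split_ifs
  · simp only [Function.update_self, Function.update_idem, Matrix.mul_apply, Fintype.sum_bool]
    ring
  · rfl

/-- Phase gates `diag(1, z)`. -/
theorem q1_phase (hn : N < n) (g : Prim) (z : ℂ) (k1 k2 : ℕ)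
    (hg : ∀ a b, g.mat a b = if a = b then (if a = true then z else 1) else 0)
    (hz : ∀ a b, (refl k2 * refl k1) a b = if a = b then z.re else if a = true then z.im else -z.im)
    (cs : List (Fin N)) (t : Fin N) (ψ : QVec N) :
    rrun n [((t.val :: cs.map Fin.val).map (· + 1), 0, k1),
        ((t.val :: cs.map Fin.val).map (· + 1), 0, k2)] *ᵥ q1Rl n ψ =
      q1Rl n ((Gate.ctrl g cs t : Gate N 0).apply (fun _ => false) ψ) := by
  have h0 : 0 < n := by omega
  funext τ
  rw [← List.map_cons, q1_two _ k1 k2 h0 (fun q hq => by have := q1_ctrl_lt _ q hq; omega)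
    (q1_ctrl_zero _)]
  simp only [q1_ctrl_iff, q1Rl, Gate.apply, q1Res_update_zero,
    q1Anc_update (⟨0, h0⟩ : Fin n) (Nat.zero_le N), q1_bit_update, List.forall_mem_cons, hg, hz,
    if_true, q1_bit_lt τ h0]
  by_cases ha : Q1Anc N τ
  · simp only [if_pos ha]
    by_cases hc : ∀ c ∈ cs, q1Res N τ c = true
    · simp only [if_pos hc, and_iff_left hc]
      have e : Function.update (q1Res N τ) t (q1Res N τ t) = q1Res N τ := Function.update_eq_self _ _
      cases h1 : q1Res N τ t
      · rw [h1] at e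
        simp [e]
      · rw [h1] at e
        cases τ ⟨0, h0⟩ <;> simp [e, q1Part] <;> ring
    · simp [hc]
  · simp [ha]

/-- The reflections (with arbitrarily many controls) of a gate. -/
def q1Reb (g : GD) : List RGate :=
  if g.1 = 0 then [(g.2.1.map (· + 1), g.2.2 + 1, 0)]
  else if g.1 = 1 then [(g.2.1.map (· + 1), g.2.2 + 1, 2)]
  else [((g.2.2 :: g.2.1).map (· + 1), 0, if g.1 = 3 then 0 else if g.1 = 5 then 2 else 1),
    ((g.2.2 :: g.2.1).map (· + 1), 0, if g.1 = 2 then 0 else if g.1 = 4 then 2 else 1)]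

@[fun_prop] theorem q1Reb_pt {α : Type} [Enc α] {g : α → GD} (hg : PT g) :
    PT fun a => q1Reb (g a) := by
  unfold q1Reb
  fun_prop

theorem q1_exp_re : (Complex.exp (Real.pi / 4 * Complex.I)).re = (Real.sqrt 2)⁻¹ := by
  have e : (Real.pi / 4 * Complex.I : ℂ) = ((Real.pi / 4 : ℝ) : ℂ) * Complex.I := by push_cast; ring
  rw [e, Complex.exp_ofReal_mul_I_re, Real.cos_pi_div_four, eq_comm, inv_eq_one_div,
    div_eq_div_iff (by positivity) (by positivity), Real.mul_self_sqrt (by norm_num), one_mul]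

theorem q1_exp_im : (Complex.exp (Real.pi / 4 * Complex.I)).im = (Real.sqrt 2)⁻¹ := by
  have e : (Real.pi / 4 * Complex.I : ℂ) = ((Real.pi / 4 : ℝ) : ℂ) * Complex.I := by push_cast; ring
  rw [e, Complex.exp_ofReal_mul_I_im, Real.sin_pi_div_four, eq_comm, inv_eq_one_div,
    div_eq_div_iff (by positivity) (by positivity), Real.mul_self_sqrt (by norm_num), one_mul]

theorem q1_exp_re' : (Complex.exp (-(Real.pi / 4) * Complex.I)).re = (Real.sqrt 2)⁻¹ := by
  have e : (-(Real.pi / 4) * Complex.I : ℂ) = ((-(Real.pi / 4) : ℝ) : ℂ) * Complex.I := by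
    push_cast; ring
  rw [e, Complex.exp_ofReal_mul_I_re, Real.cos_neg, Real.cos_pi_div_four, eq_comm, inv_eq_one_div,
    div_eq_div_iff (by positivity) (by positivity), Real.mul_self_sqrt (by norm_num), one_mul]

theorem q1_exp_im' : (Complex.exp (-(Real.pi / 4) * Complex.I)).im = -(Real.sqrt 2)⁻¹ := by
  have e : (-(Real.pi / 4) * Complex.I : ℂ) = ((-(Real.pi / 4) : ℝ) : ℂ) * Complex.I := by
    push_cast; ring
  rw [e, Complex.exp_ofReal_mul_I_im, Real.sin_neg, Real.sin_pi_div_four, neg_inj, eq_comm,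
    inv_eq_one_div, div_eq_div_iff (by positivity) (by positivity),
    Real.mul_self_sqrt (by norm_num), one_mul]

theorem q1Reb_run (hn : N < n) (g : Gate N 0) (hg : IsCtrlGate g) (ψ : QVec N) :
    rrun n (q1Reb (gdata g)) *ᵥ q1Rl n ψ = q1Rl n (g.apply (fun _ => false) ψ) := by
  cases g with
  | oracle q t => exact hg.elim
  | ctrl g cs t =>
    cases g with
    | x =>
      rw [← q1_real hn .x 0 (fun a b => by cases a <;> cases b <;> simp [Prim.mat, refl, pX])
        cs t hg ψ]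
      simp [q1Reb, gdata, pnum, rrun_cons, rrun_nil]
    | h =>
      rw [← q1_real hn .h 2 (fun a b => by
        cases a <;> cases b <;> simp [Prim.mat, refl, pX, pZ]) cs t hg ψ]
      simp [q1Reb, gdata, pnum, rrun_cons, rrun_nil]
    | s =>
      exact q1_phase hn .s Complex.I 1 0 (fun a b => rfl) (fun a b => by
        cases a <;> cases b <;> simp [Matrix.mul_apply, refl, pX, pZ]) cs t ψ
    | sdg =>
      exact q1_phase hn .sdg (-Complex.I) 0 1 (fun a b => rfl) (fun a b => by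
        cases a <;> cases b <;> simp [Matrix.mul_apply, refl, pX, pZ]) cs t ψ
    | t =>
      exact q1_phase hn .t _ 1 2 (fun a b => rfl) (fun a b => by
        rw [q1_exp_re, q1_exp_im]
        cases a <;> cases b <;> simp [Matrix.mul_apply, refl, pX, pZ]) cs t ψ
    | tdg =>
      exact q1_phase hn .tdg _ 2 1 (fun a b => rfl) (fun a b => by
        rw [q1_exp_re', q1_exp_im']
        cases a <;> cases b <;> simp [Matrix.mul_apply, refl, pX, pZ]) cs t ψ

theorem q1Reb_low (g : Gate N 0) (hg : IsCtrlGate g) (hn : N + (gdata g).2.1.length + 2 < n) :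
    ∀ r ∈ q1Reb (gdata g), Q1Low n (N + 1) r := by
  cases g with
  | oracle q t => exact hg.elim
  | ctrl g cs t =>
    have h1 : ∀ k, Q1Low n (N + 1) ((cs.map Fin.val).map (· + 1), t.val + 1, k) := fun k =>
      ⟨by simp only [gdata, List.length_map] at hn ⊢; omega, by have := t.2; simp only; omega,
        q1_ctrl_lt cs, q1_ctrl_notMem hg⟩
    have h2 : ∀ k, Q1Low n (N + 1) ((t.val :: cs.map Fin.val).map (· + 1), 0, k) := fun k =>
      ⟨by simp only [gdata, List.length_map, List.length_cons] at hn ⊢; omega, Nat.succ_pos _,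
        q1_ctrl_lt (t :: cs), q1_ctrl_zero _⟩
    intro r hr
    unfold q1Reb at hr
    split_ifs at hr <;>
      simp only [gdata, List.mem_cons, List.not_mem_nil, or_false] at hr <;>
      rcases hr with rfl | rfl <;> first | exact h1 _ | exact h2 _

theorem q1Reb_runs (hn : N < n) (gs : List (Gate N 0)) (hg : ∀ g ∈ gs, IsCtrlGate g) :
    ∀ ψ : QVec N, rrun n ((gs.map gdata).flatMap q1Reb) *ᵥ q1Rl n ψ =
      q1Rl n (runGates (fun _ => false) gs ψ) := by
  induction gs with
  | nil => intro ψ; simp [rrun_nil, runGates]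
  | cons g gs ih =>
    intro ψ
    rw [List.map_cons, List.flatMap_cons, rrun_append, ← Matrix.mulVec_mulVec,
      q1Reb_run hn g (hg g (by simp)), ih fun g' hg' => hg g' (by simp [hg'])]
    rfl

end Crest.Agent.R338
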