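import Crest.Agent.R338.Q2_Kron

/-! # Q2 / Form: the quadratic form of `Hm`; the error made by the rational gates -/

set_option autoImplicit false
set_option linter.dupNamespace false
set_option linter.unusedVariables false

noncomputable section

namespace Crest.Agent.R338.Q2

open Crest.Agent.Lib.PT Matrix Finset

theorem fm_diag {n m : ℕ} (A : Mat n) (d : St m → ℝ) (x : St (n + m) → ℝ) :
    x ⬝ᵥ kron A (diagonal d) *ᵥ x = ∑ κ, d κ * (sl x κ ⬝ᵥ A *ᵥ sl x κ) := by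
  rw [kron_form]
  refine Finset.sum_congr rfl fun κ _ => ?_
  rw [Finset.sum_eq_single κ, diagonal_apply_eq]
  · intro κ' _ h
    rw [diagonal_apply_ne _ (Ne.symm h), zero_mul]
  · simp

theorem fm_dX {n m : ℕ} (A : Mat n) (d : St m → ℝ) (j : ℕ) (x : St (n + m) → ℝ) :
    x ⬝ᵥ kron A (diagonal d * Xm m j) *ᵥ x = ∑ κ, d κ * (sl x κ ⬝ᵥ A *ᵥ sl x (flp κ j)) := by
  rw [kron_form]
  refine Finset.sum_congr rfl fun κ _ => ?_
  rw [Finset.sum_eq_single (flp κ j)]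
  · simp [diagonal_mul, Xm]
  · intro κ' _ h
    simp [diagonal_mul, Xm, h]
  · simp

theorem fm_wq {n : ℕ} (f ψ : St n → ℝ) : ψ ⬝ᵥ diagonal f *ᵥ ψ = wq f ψ := by
  simp only [dotProduct, mulVec_diagonal, wq]
  exact Finset.sum_congr rfl fun σ _ => by ring

theorem fm_dd_flp {m : ℕ} (t : ℕ) (κ : St m) : dd t (flp κ (t + 1)) = dd t κ := by
  unfold dd
  rw [bit_flp_ne κ (by omega), bit_flp_ne κ (by omega)]

theorem fm_prop {n m : ℕ} (t : ℕ) {U : Mat n} (hU : Uᵀ * U = 1) (φ : St m → St n → ℝ) :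
    ∑ κ, 1 / 4 * dd t κ * ((φ κ - U *ᵥ φ (flp κ (t + 1))) ⬝ᵥ (φ κ - U *ᵥ φ (flp κ (t + 1)))) =
      1 / 2 * ∑ κ, dd t κ * (φ κ ⬝ᵥ φ κ) +
        -(1 / 2) * ∑ κ, dd t κ * (φ κ ⬝ᵥ U *ᵥ φ (flp κ (t + 1))) := by
  have h1 : ∑ κ, dd t κ * (φ (flp κ (t + 1)) ⬝ᵥ φ (flp κ (t + 1))) = ∑ κ, dd t κ * (φ κ ⬝ᵥ φ κ) := by
    rw [← Equiv.sum_comp (Function.Involutive.toPerm (fun κ : St m => flp κ (t + 1))
      fun κ => flp_flp κ _) fun κ => dd t κ * (φ κ ⬝ᵥ φ κ)]
    exact Finset.sum_congr rfl fun κ _ => by rw [← fm_dd_flp t κ]; rfl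
  have h2 : ∀ κ, 1 / 4 * dd t κ *
      ((φ κ - U *ᵥ φ (flp κ (t + 1))) ⬝ᵥ (φ κ - U *ᵥ φ (flp κ (t + 1)))) =
      1 / 4 * (dd t κ * (φ κ ⬝ᵥ φ κ)) +
        1 / 4 * (dd t κ * (φ (flp κ (t + 1)) ⬝ᵥ φ (flp κ (t + 1)))) +
        -(1 / 2) * (dd t κ * (φ κ ⬝ᵥ U *ᵥ φ (flp κ (t + 1)))) := fun κ => by
    rw [sub_dotProduct, dotProduct_sub, dotProduct_sub, op_mulVec_dot_self, hU, one_mulVec,
      dotProduct_comm (U *ᵥ _) (φ κ)]
    ring
  simp only [h2, Finset.sum_add_distrib, ← Finset.mul_sum, h1]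
  ring

theorem fm_gate {n : ℕ} {g : RGate} (h : GOK n g) (R : Matrix Bool Bool ℝ) :
    tens (fun q : Fin n => if q.val ∈ g.1 then p1 else if q.val = g.2.1 then R else 1) =
      tens (fun q : Fin n => if q.val ∈ g.1 then p1 else 1) *
        loc (⟨g.2.1, h.2.2 _ List.mem_cons_self⟩ : Fin n) R := by
  have hn : g.2.1 ∉ g.1 := (List.nodup_cons.1 h.2.1).1
  rw [tens_mul_loc]
  congr 1
  funext q
  rw [Function.update_apply]
  by_cases hq : q = ⟨g.2.1, h.2.2 _ List.mem_cons_self⟩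
  · subst hq
    simp [hn]
  · have : q.val ≠ g.2.1 := fun e => hq (Fin.ext e)
    simp [hq, this]

theorem fm_ctl (n : ℕ) (c : List ℕ) : OpLe (tens fun q : Fin n => if q.val ∈ c then p1 else 1) 1 := by
  refine OpLe.of_proj ?_ ?_
  · rw [tens_transpose]
    congr 1
    funext q
    split_ifs
    · exact p1_transpose
    · exact transpose_one
  · rw [tens_mul]
    congr 1
    funext q
    split_ifs
    · exact p1_mul_self
    · exact Matrix.mul_one _

theorem fm_refl (r : ℝ) (k : ℕ) : OpLe (arefl r k - refl k) (2 * |r - (Real.sqrt 2)⁻¹|) := by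
  match k with
  | 0 => simpa [arefl, refl] using OpLe.zero _
  | 1 => simpa [arefl, refl] using OpLe.zero _
  | k + 2 =>
    have e : arefl r (k + 2) - refl (k + 2) = (r - (Real.sqrt 2)⁻¹) • (pX + pZ) := by
      rw [sub_smul]
      simp [arefl, refl]
    have h1 : OpLe pX 1 := OpLe.of_orth (by rw [pX_transpose, pX_mul_self])
    have h2 : OpLe pZ 1 := OpLe.of_orth (by rw [pZ_transpose, pZ_mul_self])
    rw [e]
    exact ((h1.add h2 zero_le_one zero_le_one).smul _).mono (by positivity) (le_of_eq (by ring))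

theorem fm_dd_sq {m : ℕ} (t : ℕ) (κ : St m) : dd t κ * dd t κ = dd t κ := by
  unfold dd ind
  split_ifs <;> simp

theorem fm_kron {n m : ℕ} {A : Mat n} {e : ℝ} (h : OpLe A e) (t j : ℕ) :
    OpLe (kron A (diagonal (dd t) * Xm m j)) e := by
  have e1 : kron A (diagonal (dd t) * Xm m j) =
      kron A 1 * kron 1 (diagonal (dd t)) * kron 1 (Xm m j) := by
    simp only [kron_mul, Matrix.mul_one, Matrix.one_mul]
  have h1 : OpLe (kron (1 : Mat n) (diagonal (dd t) : Mat m)) 1 :=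
    OpLe.of_proj (by rw [kron_transpose, transpose_one, diagonal_transpose])
      (by simp only [kron_mul, Matrix.mul_one, diagonal_mul_diagonal, fm_dd_sq])
  have h2 : OpLe (kron (1 : Mat n) (Xm m j)) 1 :=
    OpLe.of_orth (by rw [kron_transpose, transpose_one, Xm_transpose, kron_mul, Matrix.mul_one,
      Xm_mul_self, kron_one])
  rw [e1]
  simpa using ((opLe_kron_one h).mul h1).mul h2

/-- `kron_form` for every term (`diagonal` kills the second sum; `(diagonal d * Xm) κ κ' =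
if κ' = flp κ j then d κ else 0`).  For the propagation term expand the square:
`|a - U b|² = |a|² - 2 a⬝Ub + |b|²` (`Uᵀ U = 1`), and `∑ κ, dd t κ |φ (flp κ (t+1))|² = ∑ κ, dd t κ |φ κ|²`
by the involution `flp · (t+1)` (`flp_flp`, `bit_flp_ne`, `Function.Involutive.toPerm`, `Equiv.sum_comp`). -/
theorem form_Hm (n w out T : ℕ) (J : ℝ) {U : ℕ → Mat n} (hU : ∀ t, (U t)ᵀ * U t = 1)
    (x : St (n + (T + 2)) → ℝ) :
    x ⬝ᵥ Hm n w out T J U *ᵥ x = En n w out T J U (sl x) := by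
  unfold Hm En
  simp only [add_mulVec, smul_mulVec, sum_mulVec, dotProduct_add, dotProduct_smul, dotProduct_sum,
    smul_eq_mul, fm_diag, fm_dX, one_mulVec, fm_wq, fm_prop _ (hU _)]

/-- both gates are `1 - Π + Π * loc target R` (`tens_mul_loc`); `Π` is a projection (`OpLe.of_proj`,
`tens_mul`, `tens_transpose`), `arefl r k - refl k` is `0` or `(r - (√2)⁻¹) • (pX + pZ)`. -/
theorem opLe_agate (r : ℝ) {n : ℕ} {g : RGate} (h : GOK n g) :
    OpLe (agate r n g - rgate n g) (2 * |r - (Real.sqrt 2)⁻¹|) := by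
  have e : agate r n g - rgate n g = tens (fun q : Fin n => if q.val ∈ g.1 then p1 else 1) *
      loc (⟨g.2.1, h.2.2 _ List.mem_cons_self⟩ : Fin n) (arefl r g.2.2 - refl g.2.2) := by
    unfold agate rgate
    rw [fm_gate h, fm_gate h, loc_sub, Matrix.mul_sub]
    abel
  rw [e]
  simpa using (fm_ctl n g.1).mul ((fm_refl r g.2.2).loc _)

/-- the difference is `J • ∑ t, (-(1/2)) • kron (U t - U' t) (D * X)`, and
`kron A (D * X) = kron A 1 * kron 1 D * kron 1 X` (projection, orthogonal matrix). -/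
theorem opLe_Hm (n w out T : ℕ) {J e : ℝ} (hJ : 0 ≤ J) (he : 0 ≤ e) {U U' : ℕ → Mat n}
    (h : ∀ t < T, OpLe (U t - U' t) e) :
    OpLe (Hm n w out T J U - Hm n w out T J U') (J * T * e / 2) := by
  have e1 : Hm n w out T J U - Hm n w out T J U' = J • ∑ t ∈ range T,
      (-(1 / 2) : ℝ) • kron (U t - U' t) (diagonal (dd t) * Xm (T + 2) (t + 1)) := by
    unfold Hm
    simp only [kron_sub_left, smul_sub, Finset.sum_sub_distrib, Finset.sum_add_distrib, smul_add]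
    abel
  rw [e1]
  have h1 := (OpLe.sum (range T) (v := fun _ => |(-(1 / 2) : ℝ)| * e)
    (fun t ht => (fm_kron (m := T + 2) (h t (mem_range.1 ht)) t (t + 1)).smul (-(1 / 2) : ℝ))
    (fun _ _ => by positivity)).smul J
  refine h1.mono (by positivity) (le_of_eq ?_)
  rw [abs_of_nonneg hJ, abs_neg, abs_of_pos (by norm_num : (0 : ℝ) < 1 / 2), Finset.sum_const,
    card_range, nsmul_eq_mul]
  ring

/-- `s = Nat.sqrt (2K²)`: `s ≤ √2 K < s + 1` (`Nat.sqrt_le'`, `Nat.lt_succ_sqrt'`), `(√2)⁻¹ = √2 K / (2K)`. -/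
theorem rr_approx (T : ℕ) : |(rr T : ℝ) - (Real.sqrt 2)⁻¹| ≤ 1 / Kw T := by
  have hK : (0 : ℝ) < Kw T := by
    unfold Kw Jw
    positivity
  have h2 : (0 : ℝ) < Real.sqrt 2 := by positivity
  have h3 : Real.sqrt 2 * Real.sqrt 2 = 2 := Real.mul_self_sqrt (by norm_num)
  have h4 : ((Nat.sqrt (2 * Kw T ^ 2) : ℕ) : ℝ) ≤ Real.sqrt 2 * Kw T := by
    refine abs_le_of_sq_le_sq' ?_ (by positivity) |>.2
    have : ((Nat.sqrt (2 * Kw T ^ 2) ^ 2 : ℕ) : ℝ) ≤ (2 * Kw T ^ 2 : ℕ) := by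
      exact_mod_cast Nat.sqrt_le' _
    push_cast at this
    rw [mul_pow, Real.sq_sqrt (by norm_num)]
    exact this
  have h5 : Real.sqrt 2 * Kw T ≤ ((Nat.sqrt (2 * Kw T ^ 2) : ℕ) : ℝ) + 1 := by
    refine abs_le_of_sq_le_sq' ?_ (by positivity) |>.2
    have : ((2 * Kw T ^ 2 : ℕ) : ℝ) ≤ ((Nat.sqrt (2 * Kw T ^ 2) + 1) ^ 2 : ℕ) := by
      exact_mod_cast (Nat.lt_succ_sqrt' _).le
    push_cast at this
    rw [mul_pow, Real.sq_sqrt (by norm_num)]
    exact this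
  have e : (rr T : ℝ) - (Real.sqrt 2)⁻¹ =
      (((Nat.sqrt (2 * Kw T ^ 2) : ℕ) : ℝ) - Real.sqrt 2 * Kw T) / (2 * Kw T) := by
    have e2 : (Real.sqrt 2)⁻¹ = Real.sqrt 2 * Kw T / (2 * Kw T) := by
      field_simp
      linarith
    rw [e2, sub_div, rr]
    push_cast
    rfl
  rw [e, abs_div, abs_of_pos (by positivity : (0 : ℝ) < 2 * Kw T), div_le_div_iff₀ (by positivity) hK]
  have h6 : |((Nat.sqrt (2 * Kw T ^ 2) : ℕ) : ℝ) - Real.sqrt 2 * Kw T| ≤ 1 :=
    abs_le.2 ⟨by linarith, by linarith⟩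
  nlinarith

end Crest.Agent.R338.Q2
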