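import Crest.Agent.R338.Q2_Yes

/-! # Q2 / No: the lower bound -/

set_option autoImplicit false
set_option linter.dupNamespace false
set_option linter.unusedVariables false

noncomputable section

namespace Crest.Agent.R338.Q2

open Crest.Agent.Lib.PT Matrix Finset

theorem no_add {n : ℕ} {a b : St n → ℝ} {p q A : ℝ} (hp : 0 ≤ p) (hq : 0 ≤ q) (hA : 0 ≤ A)
    (ha : a ⬝ᵥ a ≤ p ^ 2 * A) (hb : b ⬝ᵥ b ≤ q ^ 2 * A) :
    (a + b) ⬝ᵥ (a + b) ≤ (p + q) ^ 2 * A := by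
  have h1 : (a ⬝ᵥ b) ^ 2 ≤ (p * q * A) ^ 2 := by
    calc _ ≤ (a ⬝ᵥ a) * (b ⬝ᵥ b) := dot_sq_le a b
      _ ≤ (p ^ 2 * A) * (q ^ 2 * A) :=
        mul_le_mul ha hb (dot_self_nonneg b) (by positivity)
      _ = _ := by ring
  have h2 : a ⬝ᵥ b ≤ p * q * A := (abs_le.1 (abs_le_of_sq_le_sq h1 (by positivity))).2
  rw [add_dotProduct, dotProduct_add, dotProduct_add, dotProduct_comm b a]
  nlinarith

theorem no_inw_nonneg (n w : ℕ) (σ : St n) : 0 ≤ inw n w σ :=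
  Finset.sum_nonneg fun i _ => by
    split_ifs
    · exact ind_nonneg _
    · exact le_rfl

theorem no_one_le_inw {n w : ℕ} {σ : St n} (h : ∃ i : Fin n, w ≤ i.val ∧ σ i = true) :
    1 ≤ inw n w σ := by
  obtain ⟨i, hi, hσ⟩ := h
  have h1 : (if w ≤ i.val then ind (bit σ i.val) else 0) = 1 := by
    rw [if_pos hi]
    simp [bit, hσ, ind]
  rw [← h1]
  refine Finset.single_le_sum (f := fun i => if w ≤ i then ind (bit σ i) else 0) (fun j _ => ?_)
    (Finset.mem_range.2 i.isLt)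
  split_ifs
  · exact ind_nonneg _
  · exact le_rfl

theorem no_wq_nonneg {n : ℕ} {f : St n → ℝ} (hf : ∀ σ, 0 ≤ f σ) (ψ : St n → ℝ) : 0 ≤ wq f ψ :=
  Finset.sum_nonneg fun σ _ => mul_nonneg (hf σ) (sq_nonneg _)

theorem no_ind_le_one (b : Bool) : ind b ≤ 1 := by
  unfold ind; split_ifs <;> norm_num

theorem no_up {n : ℕ} (u v : St n → ℝ) :
    (u + v) ⬝ᵥ (u + v) ≤ 21 / 20 * (u ⬝ᵥ u) + 21 * (v ⬝ᵥ v) := by
  simp only [dotProduct, Finset.mul_sum, ← Finset.sum_add_distrib, Pi.add_apply]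
  refine Finset.sum_le_sum fun σ _ => ?_
  nlinarith [sq_nonneg (u σ - 20 * v σ)]

theorem no_low {n : ℕ} {f : St n → ℝ} (h0 : ∀ σ, 0 ≤ f σ) (h1 : ∀ σ, f σ ≤ 1) (u v : St n → ℝ) :
    19 / 20 * wq f u - 20 * (v ⬝ᵥ v) ≤ wq f (u + v) := by
  simp only [dotProduct, wq, Finset.mul_sum, ← Finset.sum_sub_distrib, Pi.add_apply]
  refine Finset.sum_le_sum fun σ _ => ?_
  have e1 : 19 / 20 * u σ ^ 2 - 20 * v σ ^ 2 ≤ (u σ + v σ) ^ 2 := by
    nlinarith [sq_nonneg (u σ + 20 * v σ), sq_nonneg (v σ)]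
  have e2 := mul_le_mul_of_nonneg_left e1 (h0 σ)
  have e3 := mul_le_mul_of_nonneg_right (h1 σ) (sq_nonneg (v σ))
  nlinarith

/-- Let `g σ = if (∃ i, w ≤ i ∧ σ i) then 0 else ψ 0 σ` (`Good`), `A` = the bracket, `δ t = ψ t - rrun (take t) g`.
`|δ 0|² ≤ wq (inw n w) (ψ 0) ≤ A`, `δ (t+1) = (ψ (t+1) - U t ψ t) + U t (δ t)`, so by induction
`|δ t|² ≤ (2t+1)² A` (`two_dot_le` or `dot_sq_le`; the first summand has square `≤ 4A`); `D = 4 (T+1)² A`.
`|ψ t|² ≤ (21/20)|g|² + 21 D`, `wq out (ψ T) ≥ (19/20) wq out (rrun gs g) - 20 D` (pointwise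
`(u+v)² ≥ (19/20) u² - 20 v²`, weights in `[0,1]`), `wq out (rrun gs g) ≥ (2/3)|g|²` (`wq_out`). -/
theorem chain_no {n w out : ℕ} {gs : List RGate}
    (hn : ∀ ψ, Good n w ψ → racc n gs out ψ ≤ 1 / 3 * (ψ ⬝ᵥ ψ)) (ψ : ℕ → St n → ℝ) :
    7 / 2 * ∑ t ∈ range (gs.length + 1), ψ t ⬝ᵥ ψ t ≤
      Jw gs.length * (∑ t ∈ range gs.length, 1 / 4 *
          ((ψ (t + 1) - rgate n (gt gs t) *ᵥ ψ t) ⬝ᵥ (ψ (t + 1) - rgate n (gt gs t) *ᵥ ψ t)) +
        wq (inw n w) (ψ 0)) +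
      6 * (gs.length + 1) * wq (fun σ => ind (!bit σ out)) (ψ gs.length) := by
  classical
  set T := gs.length with hT
  set E : ℕ → ℝ := fun t => 1 / 4 *
    ((ψ (t + 1) - rgate n (gt gs t) *ᵥ ψ t) ⬝ᵥ (ψ (t + 1) - rgate n (gt gs t) *ᵥ ψ t)) with hE
  have hE0 : ∀ t, 0 ≤ E t := fun t => mul_nonneg (by norm_num) (dot_self_nonneg _)
  have hS0 : 0 ≤ ∑ t ∈ range T, E t := Finset.sum_nonneg fun t _ => hE0 t
  have hW0 : 0 ≤ wq (inw n w) (ψ 0) := no_wq_nonneg (no_inw_nonneg n w) _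
  set A : ℝ := ∑ t ∈ range T, E t + wq (inw n w) (ψ 0) with hA
  have hA0 : 0 ≤ A := add_nonneg hS0 hW0
  set g : St n → ℝ := fun σ => if ∃ i : Fin n, w ≤ i.val ∧ σ i = true then 0 else ψ 0 σ with hg
  have hgood : Good n w g := fun σ hσ => if_pos hσ
  set δ : ℕ → St n → ℝ := fun t => ψ t - rrun n (gs.take t) *ᵥ g with hδ
  have hind : ∀ t ≤ T, δ t ⬝ᵥ δ t ≤ (2 * t + 1 : ℝ) ^ 2 * A := by
    intro t ht
    induction t with
    | zero =>
      have h1 : δ 0 ⬝ᵥ δ 0 ≤ wq (inw n w) (ψ 0) := by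
        simp only [hδ, List.take_zero, rrun_nil, Matrix.one_mulVec, dotProduct, wq, Pi.sub_apply]
        refine Finset.sum_le_sum fun σ _ => ?_
        by_cases hσ : ∃ i : Fin n, w ≤ i.val ∧ σ i = true
        · have := mul_le_mul_of_nonneg_right (no_one_le_inw hσ) (sq_nonneg (ψ 0 σ))
          simp only [hg, if_pos hσ]
          nlinarith
        · simp only [hg, if_neg hσ, sub_self, mul_zero]
          exact mul_nonneg (no_inw_nonneg n w σ) (sq_nonneg _)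
      simp only [Nat.cast_zero, mul_zero, zero_add, one_pow, one_mul]
      linarith
    | succ t ih =>
      have ht' : t < T := ht
      have h1 := ih ht'.le
      have h2 : δ (t + 1) = (ψ (t + 1) - rgate n (gt gs t) *ᵥ ψ t) + rgate n (gt gs t) *ᵥ δ t := by
        simp only [hδ]
        rw [rrun_take_succ n ht', Matrix.mulVec_sub, Matrix.mulVec_mulVec]
        abel
      have h3 : (rgate n (gt gs t) *ᵥ δ t) ⬝ᵥ (rgate n (gt gs t) *ᵥ δ t) = δ t ⬝ᵥ δ t := by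
        rw [op_mulVec_dot_self, rgate_transpose, rgate_mul_self, Matrix.one_mulVec]
      have h4 : E t ≤ ∑ t ∈ range T, E t :=
        Finset.single_le_sum (fun s _ => hE0 s) (Finset.mem_range.2 ht')
      have h5 : (ψ (t + 1) - rgate n (gt gs t) *ᵥ ψ t) ⬝ᵥ (ψ (t + 1) - rgate n (gt gs t) *ᵥ ψ t) ≤
          (2 : ℝ) ^ 2 * A := by
        simp only [hE] at h4
        linarith
      have h6 := no_add (by norm_num) (by positivity) hA0 h5 (h3.le.trans h1)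
      rw [h2]
      refine h6.trans (le_of_eq ?_)
      push_cast
      ring
  have hD : ∀ t ≤ T, δ t ⬝ᵥ δ t ≤ 4 * (T + 1 : ℝ) ^ 2 * A := by
    intro t ht
    refine (hind t ht).trans (mul_le_mul_of_nonneg_right ?_ hA0)
    have : (t : ℝ) ≤ T := by exact_mod_cast ht
    have h0 : (0 : ℝ) ≤ t := Nat.cast_nonneg t
    nlinarith
  have hψ : ∀ t, ψ t = rrun n (gs.take t) *ᵥ g + δ t := fun t => by simp [hδ]
  have hup : ∑ t ∈ range (T + 1), ψ t ⬝ᵥ ψ t ≤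
      (T + 1 : ℝ) * (21 / 20 * (g ⬝ᵥ g) + 21 * (4 * (T + 1 : ℝ) ^ 2 * A)) := by
    have := Finset.sum_le_card_nsmul (range (T + 1)) (fun t => ψ t ⬝ᵥ ψ t)
      (21 / 20 * (g ⬝ᵥ g) + 21 * (4 * (T + 1 : ℝ) ^ 2 * A)) (fun t ht => by
        have h1 := no_up (rrun n (gs.take t) *ᵥ g) (δ t)
        rw [← hψ, dot_rrun] at h1
        have h2 := hD t (Nat.lt_succ_iff.1 (Finset.mem_range.1 ht))
        show ψ t ⬝ᵥ ψ t ≤ _
        linarith)
    rw [Finset.card_range, nsmul_eq_mul] at this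
    push_cast at this
    exact this
  have hlow : 19 / 20 * (2 / 3 * (g ⬝ᵥ g)) - 20 * (4 * (T + 1 : ℝ) ^ 2 * A) ≤
      wq (fun σ => ind (!bit σ out)) (ψ T) := by
    have h1 := no_low (f := fun σ : St n => ind (!bit σ out)) (fun σ => ind_nonneg _)
      (fun σ => no_ind_le_one _) (rrun n (gs.take T) *ᵥ g) (δ T)
    rw [← hψ, hT, List.take_length, wq_out, ← hT] at h1
    have h2 := hn g hgood
    have h3 := hD T le_rfl
    linarith
  have hJ : (Jw T : ℝ) = 1000 * (T + 1 : ℝ) ^ 3 := by simp [Jw]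
  have hT0 : (0 : ℝ) ≤ T + 1 := by positivity
  have h1 := mul_le_mul_of_nonneg_left hlow hT0
  have h2 : 0 ≤ (T + 1 : ℝ) * (g ⬝ᵥ g) := mul_nonneg hT0 (dot_self_nonneg g)
  have h3 : 0 ≤ (T + 1 : ℝ) ^ 3 * A := by positivity
  rw [hJ]
  nlinarith

/-- `ψ t = φ (leg T t)`.  All summands of `En` are `≥ 0`; keep (`Finset.single_le_sum`) `κ = leg T (t+1)` in
the propagation term `t`, `κ = leg T 0` in the input term, `κ = leg T T` in the output term; split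
`∑ κ` into the image of `leg T` on `range (T+1)` (`Finset.sum_image`, `leg_inj`) and the rest, where
`one_le_cl` and `7/2 ≤ Jw T` are used. -/
theorem en_no {n w out : ℕ} {gs : List RGate}
    (hn : ∀ ψ, Good n w ψ → racc n gs out ψ ≤ 1 / 3 * (ψ ⬝ᵥ ψ)) (φ : St (gs.length + 2) → St n → ℝ) :
    7 / 2 * ∑ κ, φ κ ⬝ᵥ φ κ ≤
      En n w out gs.length (Jw gs.length) (fun t => rgate n (gt gs t)) φ := by
  classical
  have hc := chain_no (out := out) hn fun t => φ (leg gs.length t)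
  unfold En
  revert φ
  generalize gs.length = T
  intro φ hc
  have hJ : (7 / 2 : ℝ) ≤ Jw T := by
    have h1 : 1 ≤ (T + 1) ^ 3 := Nat.one_le_pow _ _ (by omega)
    have h2 : 4 ≤ Jw T := by unfold Jw; omega
    have h3 : (4 : ℝ) ≤ Jw T := by exact_mod_cast h2
    linarith
  have hdd : ∀ (t : ℕ) (κ : St (T + 2)), 0 ≤ dd t κ := fun t κ =>
    mul_nonneg (ind_nonneg _) (ind_nonneg _)
  have hcl : ∀ κ : St (T + 2), 0 ≤ cl T κ := fun κ =>
    add_nonneg (add_nonneg (ind_nonneg _) (ind_nonneg _))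
      (Finset.sum_nonneg fun j _ => mul_nonneg (ind_nonneg _) (ind_nonneg _))
  have h1 : ∑ κ, φ κ ⬝ᵥ φ κ ≤ ∑ t ∈ range (T + 1), φ (leg T t) ⬝ᵥ φ (leg T t) +
      ∑ κ, cl T κ * (φ κ ⬝ᵥ φ κ) := by
    have e := ys_sum_leg T (fun κ => if ∃ t ≤ T, κ = leg T t then φ κ ⬝ᵥ φ κ else 0)
      (fun κ h => if_neg fun ⟨t, ht, e⟩ => h t ht e)
    have e2 : ∑ t ∈ range (T + 1), (if ∃ s ≤ T, leg T t = leg T s then φ (leg T t) ⬝ᵥ φ (leg T t)
        else 0) = ∑ t ∈ range (T + 1), φ (leg T t) ⬝ᵥ φ (leg T t) :=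
      Finset.sum_congr rfl fun t ht =>
        if_pos ⟨t, Nat.lt_succ_iff.1 (Finset.mem_range.1 ht), rfl⟩
    rw [← e2, ← e, ← Finset.sum_add_distrib]
    refine Finset.sum_le_sum fun κ _ => ?_
    have h0 := dot_self_nonneg (φ κ)
    split_ifs with h
    · linarith [mul_nonneg (hcl κ) h0]
    · push Not at h
      linarith [mul_le_mul_of_nonneg_right (one_le_cl h) h0]
  have h2 : ∑ t ∈ range T, 1 / 4 *
      ((φ (leg T (t + 1)) - rgate n (gt gs t) *ᵥ φ (leg T t)) ⬝ᵥ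
        (φ (leg T (t + 1)) - rgate n (gt gs t) *ᵥ φ (leg T t))) ≤
      ∑ t ∈ range T, ∑ κ, 1 / 4 * dd t κ *
        ((φ κ - rgate n (gt gs t) *ᵥ φ (flp κ (t + 1))) ⬝ᵥ
          (φ κ - rgate n (gt gs t) *ᵥ φ (flp κ (t + 1)))) := by
    refine Finset.sum_le_sum fun t ht => ?_
    have ht' : t < T := Finset.mem_range.1 ht
    refine le_trans (le_of_eq ?_) (Finset.single_le_sum (f := fun κ => 1 / 4 * dd t κ *
        ((φ κ - rgate n (gt gs t) *ᵥ φ (flp κ (t + 1))) ⬝ᵥ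
          (φ κ - rgate n (gt gs t) *ᵥ φ (flp κ (t + 1)))))
      (fun κ _ => mul_nonneg (mul_nonneg (by norm_num) (hdd t κ)) (dot_self_nonneg _))
      (Finset.mem_univ (leg T (t + 1))))
    have : dd t (leg T (t + 1)) = 1 := by
      unfold dd
      rw [bit_leg ht', bit_leg ht']
      simp [ind]
    simp only [flp_leg ht', this, mul_one]
  have h3 : wq (inw n w) (φ (leg T 0)) ≤ ∑ κ, ind (!bit κ 1) * wq (inw n w) (φ κ) := by
    refine le_trans (le_of_eq ?_) (Finset.single_le_sum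
      (f := fun κ => ind (!bit κ 1) * wq (inw n w) (φ κ))
      (fun κ _ => mul_nonneg (ind_nonneg _) (no_wq_nonneg (no_inw_nonneg n w) _))
      (Finset.mem_univ (leg T 0)))
    simp [bit_leg (Nat.zero_le T), ind]
  have h4 : wq (fun σ => ind (!bit σ out)) (φ (leg T T)) ≤
      ∑ κ, ind (bit κ T) * wq (fun σ => ind (!bit σ out)) (φ κ) := by
    refine le_trans (le_of_eq ?_) (Finset.single_le_sum
      (f := fun κ => ind (bit κ T) * wq (fun σ => ind (!bit σ out)) (φ κ))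
      (fun κ _ => mul_nonneg (ind_nonneg _) (no_wq_nonneg (fun _ => ind_nonneg _) _))
      (Finset.mem_univ (leg T T)))
    simp [bit_leg (le_refl T), ind]
  have h5 : 0 ≤ ∑ κ, cl T κ * (φ κ ⬝ᵥ φ κ) :=
    Finset.sum_nonneg fun κ _ => mul_nonneg (hcl κ) (dot_self_nonneg _)
  have hJ0 : (0 : ℝ) ≤ Jw T := by linarith
  have h6 := mul_le_mul_of_nonneg_left (add_le_add h2 h3) hJ0
  have h7 := mul_le_mul_of_nonneg_left h4 (by positivity : (0 : ℝ) ≤ 6 * (T + 1))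
  have h8 := mul_le_mul_of_nonneg_right hJ h5
  rw [add_assoc (∑ κ, cl T κ * (φ κ ⬝ᵥ φ κ)), mul_add (Jw T : ℝ) (∑ κ, cl T κ * (φ κ ⬝ᵥ φ κ))]
  linarith

end Crest.Agent.R338.Q2
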