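import Crest.Agent.R338.Q2_Pauli
import Crest.Agent.R338.Q2_Form
import Crest.Agent.R338.Q2_No

/-! # Stage Q2: Kitaev's clock Hamiltonian, 6-local, X/Z words only

Circuit on `n` wires, gates `U 1 … U T` (real symmetric involutions, `rgate_mul_self`).  Qubits
`0 … n-1` = register, `c j = n + j`, `j = 0 … T+1` = clock; legal clock strings `1^{t+1} 0^{T+1-t}`,
`t = 0 … T`.  With `P1 q = (1 - Z q)/2`, `P0 q = (1 + Z q)/2`:
* `Hclock = P0 (c 0) + P1 (c (T+1)) + ∑_{j ≤ T} P0 (c j) P1 (c (j+1))`  (diagonal, `0` on legal strings, `≥ 1` else)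
* `Hprop t = (1/2) P1 (c (t-1)) P0 (c (t+1)) (1 - U t * X (c t))`  (a projection, `≥ 0`; it preserves legality)
* `Hin = ∑_{w ≤ i < n} P1 i * P0 (c 1)`,  `Hout = P0 out * P1 (c T)`
* `H = Jw (Hclock + ∑ Hprop + Hin) + 6 (T+1) Hout`, `Jw = 10^4 (T+1)^3` (any large polynomial).
YES: history state `∑_t U t … U 1 ψ ⊗ |t⟩` has norm² `T+1` and energy `6(T+1)(1 - acc) ≤ 2 (T+1)`, so
`MYes H 2`.  NO: split `x = legal + illegal` (all terms are block diagonal); illegal part has energy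
`≥ Jw`; on the legal part with components `ψ t` the energy is
`Jw (∑ ½|ψ t - U t ψ (t-1)|² + ∑ |P1 i ψ 0|²) + 6(T+1)|P0 out ψ T|²`; let `Jw ε²` be the first part,
`ψ 0 = good + bad`, `|bad|² ≤ ε²`, `|ψ t - U t…U 1 good| ≤ (1 + √(2T)) ε`, `|P0 out U…U good|² ≥ (2/3)|good|²`;
conclude `MNo H (7/2)` with Young's inequality.
Pauli expansion with `pmul`/`hamMat_pmul`: `U = 1 - Π + Π R`, `Π = ∏ P1 (control)`, `R = X, Z` or
`r (X + Z)` with a rational `r`, `|r - 1/√2| ≤ 1/K` (`r = Nat.sqrt (2K²) / (2K)`), `K = 100 Jw (T+1)`;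
the error has operator norm `≤ 1/4` (`MYes.perturb`, `MNo.perturb`).  Thresholds `a = 9/4`, `b = 13/4`.
Words have at most `2 + 1 + 3 = 6` letters.  It may be convenient to identify
`Fin (n + (T+2)) → Bool` with `(Fin n → Bool) × (Fin (T+2) → Bool)` (`Fin.append`, `tens_sum_apply`,
`finSumFinEquiv`). -/

set_option autoImplicit false
set_option linter.dupNamespace false
set_option linter.unusedVariables false

noncomputable section

namespace Crest.Agent.R338

open Crest.Agent.Lib.PT Matrix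

open Q2 in
theorem q2_err {x : RCI} (h : ValidRC x) :
    OpLe (hamMat (x.1.n + (x.2.2.1.length + 2)) (terms x.1.n x.2.1 x.2.2.1 x.2.2.2) -
      Hm x.1.n x.2.1 x.2.2.2 x.2.2.1.length (Jw x.2.2.1.length)
        (fun t => rgate x.1.n (gt x.2.2.1 t))) (1 / 4) := by
  rw [ham_terms h]
  set T := x.2.2.1.length
  have hJ : (0 : ℝ) < Jw T := by unfold Jw; positivity
  refine (opLe_Hm _ _ _ _ hJ.le (e := 2 * |(rr T : ℝ) - (Real.sqrt 2)⁻¹|) (by positivity)
    fun t ht => opLe_agate _ (gok_gt h ht)).mono (by positivity) ?_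
  have h1 := rr_approx T
  have h2 : (Kw T : ℝ) = 4 * Jw T * (T + 1) := by unfold Kw; push_cast; ring
  have h3 : (Jw T : ℝ) * T * (1 / Kw T) ≤ 1 / 4 := by
    rw [h2, mul_one_div, div_le_iff₀ (by positivity)]
    nlinarith
  have h4 : (Jw T : ℝ) * T * |(rr T : ℝ) - (Real.sqrt 2)⁻¹| ≤ Jw T * T * (1 / Kw T) := by gcongr
  linarith

open Q2 in
theorem red_RC_PH : Red YesRC NoRC (YesPH 6) (NoPH 6) := by
  have hU : ∀ (n : ℕ) (gs : List RGate) (t : ℕ), (rgate n (gt gs t))ᵀ * rgate n (gt gs t) = 1 :=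
    fun n gs t => by rw [rgate_transpose, rgate_mul_self]
  refine ⟨red, red_pt, ?_, ?_⟩
  · rintro x ⟨hv, ψ, hg, h1, ha⟩
    refine ⟨valid_red hv, ?_⟩
    obtain ⟨φ, hφ, hE⟩ := en_yes (w := x.2.1) (Jw x.2.2.1.length) hg h1 ha
    obtain ⟨z, hz⟩ := exists_sl φ
    have hz' : sl z = φ := funext hz
    have hn : z ⬝ᵥ z = x.2.2.1.length + 1 := by rw [dot_sl, hz', hφ]
    have hy : MYes (Hm x.1.n x.2.1 x.2.2.2 x.2.2.1.length (Jw x.2.2.1.length)
        (fun t => rgate x.1.n (gt x.2.2.1 t))) 2 := by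
      refine ⟨z, ?_, ?_⟩
      · rintro rfl
        have : (0 : ℝ) < x.2.2.1.length + 1 := by positivity
        rw [← hn] at this
        simp at this
      · rw [form_Hm _ _ _ _ _ (hU _ _), hz', hn]
        exact hE
    refine (hy.perturb (q2_err hv) (by norm_num)).mono ?_
    norm_num [red]
  · rintro x ⟨hv, hn⟩
    refine ⟨valid_red hv, ?_⟩
    have hy : MNo (Hm x.1.n x.2.1 x.2.2.2 x.2.2.1.length (Jw x.2.2.1.length)
        (fun t => rgate x.1.n (gt x.2.2.1 t))) (7 / 2) := by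
      intro z
      rw [form_Hm _ _ _ _ _ (hU _ _), dot_sl]
      exact en_no hn _
    refine (hy.perturb (q2_err hv) (by norm_num)).mono ?_
    norm_num [red]

end Crest.Agent.R338
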