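import Crest.Agent.R338.Word

/-! # Stage Q2 (Kitaev clock Hamiltonian): definitions (sub-lead helper3; DO NOT EDIT)

Register `Fin n → Bool`, clock `Fin (T+2) → Bool`, glued by `Fin.append`.  Gate number `t < T` is driven
by the clock bit `t + 1` (conditioned on bit `t` = 1, bit `t + 2` = 0); legal clock strings are `leg T t`,
`t ≤ T`.  `Hm` is the Hamiltonian as a matrix (for any family of gates `U`), `En` its quadratic form
written as a sum of squares, `terms` its Pauli expansion with the rational gates `agate`.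

Files: `Q2_Kron` (API of `kron`), `Q2_POK` (validity, PT), `Q2_Pauli` (`hamMat terms = Hm`),
`Q2_Form` (form of `Hm` = `En`; error of the rational gates), `Q2_Yes`, `Q2_No`, `Q2` (assembly). -/

set_option autoImplicit false
set_option linter.dupNamespace false
set_option linter.unusedVariables false

noncomputable section

namespace Crest.Agent.R338.Q2

open Crest.Agent.Lib.PT Matrix Finset

abbrev St (n : ℕ) : Type := Fin n → Bool
abbrev Mat (n : ℕ) : Type := Matrix (St n) (St n) ℝ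
abbrev PL : Type := List (ℚ × Word)

def ind (b : Bool) : ℝ := if b = true then 1 else 0

/-- Kronecker product: register ⊗ clock. -/
def kron {n m : ℕ} (A : Mat n) (B : Mat m) : Mat (n + m) :=
  Matrix.of fun z z' => A (fun i => z (Fin.castAdd m i)) (fun i => z' (Fin.castAdd m i)) *
    B (fun j => z (Fin.natAdd n j)) (fun j => z' (Fin.natAdd n j))

/-- The register state belonging to the clock string `κ`. -/
def sl {n m : ℕ} (x : St (n + m) → ℝ) (κ : St m) : St n → ℝ := fun σ => x (Fin.append σ κ)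

/-- Flip bit `j`. -/
def flp {m : ℕ} (κ : St m) (j : ℕ) : St m := fun q => if q.val = j then !κ q else κ q

def Xm (m j : ℕ) : Mat m := Matrix.of fun κ κ' => if κ' = flp κ j then 1 else 0

/-- clock penalty -/
def cl (T : ℕ) (κ : St (T + 2)) : ℝ :=
  ind (!bit κ 0) + ind (bit κ (T + 1)) + ∑ j ∈ range (T + 1), ind (!bit κ j) * ind (bit κ (j + 1))

/-- condition for gate `t` -/
def dd {m : ℕ} (t : ℕ) (κ : St m) : ℝ := ind (bit κ t) * ind (!bit κ (t + 2))

/-- input penalty -/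
def inw (n w : ℕ) (σ : St n) : ℝ := ∑ i ∈ range n, if w ≤ i then ind (bit σ i) else 0

/-- legal clock strings -/
def leg (T t : ℕ) : St (T + 2) := fun q => decide (q.val ≤ t)

/-- weighted square norm -/
def wq {n : ℕ} (f ψ : St n → ℝ) : ℝ := ∑ σ, f σ * ψ σ ^ 2

def Hm (n w out T : ℕ) (J : ℝ) (U : ℕ → Mat n) : Mat (n + (T + 2)) :=
  J • (kron 1 (diagonal (cl T)) +
      ∑ t ∈ range T, ((1 / 2 : ℝ) • kron 1 (diagonal (dd t)) +
        (-(1 / 2) : ℝ) • kron (U t) (diagonal (dd t) * Xm (T + 2) (t + 1))) +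
      kron (diagonal (inw n w)) (diagonal fun κ => ind (!bit κ 1))) +
    (6 * (T + 1) : ℝ) • kron (diagonal fun σ => ind (!bit σ out)) (diagonal fun κ => ind (bit κ T))

def En (n w out T : ℕ) (J : ℝ) (U : ℕ → Mat n) (φ : St (T + 2) → St n → ℝ) : ℝ :=
  J * (∑ κ, cl T κ * (φ κ ⬝ᵥ φ κ) +
      ∑ t ∈ range T, ∑ κ, 1 / 4 * dd t κ *
        ((φ κ - U t *ᵥ φ (flp κ (t + 1))) ⬝ᵥ (φ κ - U t *ᵥ φ (flp κ (t + 1)))) +
      ∑ κ, ind (!bit κ 1) * wq (inw n w) (φ κ)) +
    6 * (T + 1) * ∑ κ, ind (bit κ T) * wq (fun σ => ind (!bit σ out)) (φ κ)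

/-- gate number `t` -/
def gt (gs : List RGate) (t : ℕ) : RGate := gs.getD t ([], 0, 0)

/-- valid gates -/
def GOK (n : ℕ) (g : RGate) : Prop :=
  g.1.length ≤ 2 ∧ (g.2.1 :: g.1).Nodup ∧ ∀ q ∈ g.2.1 :: g.1, q < n

/-- reflections with `r` in place of `1/√2` -/
def arefl (r : ℝ) (k : ℕ) : Matrix Bool Bool ℝ :=
  if k = 0 then pX else if k = 1 then pZ else r • (pX + pZ)

def agate (r : ℝ) (n : ℕ) (g : RGate) : Mat n :=
  1 - tens (fun q : Fin n => if q.val ∈ g.1 then p1 else 1) +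
    tens (fun q : Fin n => if q.val ∈ g.1 then p1 else if q.val = g.2.1 then arefl r g.2.2 else 1)

/-! ### Pauli lists -/

def oneL : PL := [(1, [])]
def p0L (q : ℕ) : PL := [(1 / 2, []), (1 / 2, [(q, false)])]
def p1L (q : ℕ) : PL := [(1 / 2, []), (-(1 / 2), [(q, false)])]
def xL (q : ℕ) : PL := [(1, [(q, true)])]
def sc (c : ℚ) (ts : PL) : PL := ts.map fun t => (c * t.1, t.2)
def shW (n : ℕ) (w : Word) : Word := w.map fun l => (n + l.1, l.2)
def sh (n : ℕ) (ts : PL) : PL := ts.map fun t => (t.1, shW n t.2)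
def kmul (n : ℕ) (ts ts' : PL) : PL := pmul ts (sh n ts')
def clL (T : ℕ) : PL :=
  p0L 0 ++ p1L (T + 1) ++ ((List.range (T + 1)).map fun j => pmul (p0L j) (p1L (j + 1))).flatten
def ddL (t : ℕ) : PL := pmul (p1L t) (p0L (t + 2))
def optL (cs : List ℕ) (i : ℕ) : PL := if i < cs.length then p1L (cs.getD i 0) else oneL
def ctlL (cs : List ℕ) : PL := pmul (optL cs 0) (optL cs 1)
def reflL (r : ℚ) (q k : ℕ) : PL :=
  if k = 0 then [(1, [(q, true)])] else if k = 1 then [(1, [(q, false)])]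
  else [(r, [(q, true)]), (r, [(q, false)])]
def gateL (r : ℚ) (g : RGate) : PL :=
  oneL ++ sc (-1) (ctlL g.1) ++ pmul (ctlL g.1) (reflL r g.2.1 g.2.2)
def propL (r : ℚ) (n t : ℕ) (g : RGate) : PL :=
  sc (1 / 2) (kmul n oneL (ddL t)) ++ sc (-(1 / 2)) (kmul n (gateL r g) (pmul (ddL t) (xL (t + 1))))
def inL (n w : ℕ) : PL := ((List.range n).map fun i => if w ≤ i then p1L i else []).flatten

def Jw (T : ℕ) : ℕ := 1000 * (T + 1) ^ 3
def Kw (T : ℕ) : ℕ := 4 * Jw T * (T + 1)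
/-- rational approximation of `1/√2` -/
def rr (T : ℕ) : ℚ := (Nat.sqrt (2 * Kw T ^ 2) : ℚ) / (2 * Kw T : ℕ)

def penL (n w : ℕ) (gs : List RGate) : PL :=
  kmul n oneL (clL gs.length) ++
    ((List.range gs.length).map fun t => propL (rr gs.length) n t (gt gs t)).flatten ++
    kmul n (inL n w) (p0L 1)

def terms (n w : ℕ) (gs : List RGate) (out : ℕ) : PL :=
  sc (Jw gs.length) (penL n w gs) ++ sc (6 * (gs.length + 1) : ℕ) (kmul n (p0L out) (p1L gs.length))

/-- the reduction -/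
def red (x : RCI) : PHI :=
  (⟨(terms x.1.n x.2.1 x.2.2.1 x.2.2.2).length + Jw x.2.2.1.length + 6 * (x.2.2.1.length + 1) +
      (x.1.n + (x.2.2.1.length + 2)) + 4⟩,
    x.1.n + (x.2.2.1.length + 2), terms x.1.n x.2.1 x.2.2.1 x.2.2.2, 9 / 4, 13 / 4)

/-- all coefficients `≤ 1`, words on distinct qubits in `S`, of length `≤ k` -/
def POK (S : Set ℕ) (k : ℕ) (ts : PL) : Prop :=
  ∀ t ∈ ts, |t.1| ≤ 1 ∧ (t.2.map Prod.fst).Nodup ∧ (∀ l ∈ t.2, l.1 ∈ S) ∧ t.2.length ≤ k

end Crest.Agent.R338.Q2
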