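import Crest.Agent.R338.Q2_Defs

/-! # Q2 / Kron: API of `kron`, `sl`
Use the equivalence `Fin.appendEquiv n m : (Fin n → α) × (Fin m → α) ≃ (Fin (n+m) → α)`
(`Equiv.sum_comp`, `Fintype.sum_prod_type`, `Fin.append_left`, `Fin.append_right`). -/

set_option autoImplicit false
set_option linter.dupNamespace false
set_option linter.unusedVariables false

noncomputable section

namespace Crest.Agent.R338.Q2

open Crest.Agent.Lib.PT Matrix Finset

variable {n m : ℕ}

theorem kron_append (A : Mat n) (B : Mat m) (σ σ' : St n) (κ κ' : St m) :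
    kron A B (Fin.append σ κ) (Fin.append σ' κ') = A σ σ' * B κ κ' := by
  simp only [kron, Matrix.of_apply, Fin.append_left, Fin.append_right]

theorem sum_append (f : St (n + m) → ℝ) : ∑ z, f z = ∑ κ : St m, ∑ σ : St n, f (Fin.append σ κ) := by
  rw [← Equiv.sum_comp (Fin.appendEquiv n m) f, Fintype.sum_prod_type, Finset.sum_comm]
  rfl

theorem kron_add_left (A A' : Mat n) (B : Mat m) : kron (A + A') B = kron A B + kron A' B := by
  ext z z'; simp only [kron, Matrix.of_apply, Matrix.add_apply, add_mul]

theorem kron_add_right (A : Mat n) (B B' : Mat m) : kron A (B + B') = kron A B + kron A B' := by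
  ext z z'; simp only [kron, Matrix.of_apply, Matrix.add_apply, mul_add]

theorem kron_sub_left (A A' : Mat n) (B : Mat m) : kron (A - A') B = kron A B - kron A' B := by
  ext z z'; simp only [kron, Matrix.of_apply, Matrix.sub_apply, sub_mul]

theorem kron_smul_left (c : ℝ) (A : Mat n) (B : Mat m) : kron (c • A) B = c • kron A B := by
  ext z z'; simp only [kron, Matrix.of_apply, Matrix.smul_apply, smul_eq_mul, mul_assoc]

theorem kron_smul_right (c : ℝ) (A : Mat n) (B : Mat m) : kron A (c • B) = c • kron A B := by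
  ext z z'; simp only [kron, Matrix.of_apply, Matrix.smul_apply, smul_eq_mul]; ring

theorem kron_zero_left (B : Mat m) : kron (0 : Mat n) B = 0 := by
  ext z z'; simp only [kron, Matrix.of_apply, Matrix.zero_apply, zero_mul]

theorem kron_zero_right (A : Mat n) : kron A (0 : Mat m) = 0 := by
  ext z z'; simp only [kron, Matrix.of_apply, Matrix.zero_apply, mul_zero]

theorem kr_exists (z : St (n + m)) : ∃ (σ : St n) (κ : St m), z = Fin.append σ κ :=
  ⟨_, _, (Fin.append_castAdd_natAdd (f := z)).symm⟩

theorem kr_append_inj (σ σ' : St n) (κ κ' : St m) :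
    (Fin.append σ κ : St (n + m)) = Fin.append σ' κ' ↔ σ = σ' ∧ κ = κ' := by
  constructor
  · intro h
    refine ⟨funext fun i => ?_, funext fun j => ?_⟩
    · simpa only [Fin.append_left] using congrFun h (Fin.castAdd m i)
    · simpa only [Fin.append_right] using congrFun h (Fin.natAdd n j)
  · rintro ⟨rfl, rfl⟩; rfl

theorem kron_mul (A A' : Mat n) (B B' : Mat m) : kron A B * kron A' B' = kron (A * A') (B * B') := by
  ext z z'
  obtain ⟨σ, κ, rfl⟩ := kr_exists z
  obtain ⟨σ', κ', rfl⟩ := kr_exists z'
  rw [Matrix.mul_apply, sum_append, kron_append, Matrix.mul_apply, Matrix.mul_apply,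
    Finset.sum_mul_sum, Finset.sum_comm]
  refine Finset.sum_congr rfl fun a _ => Finset.sum_congr rfl fun b _ => ?_
  rw [kron_append, kron_append]; ring

theorem kron_transpose (A : Mat n) (B : Mat m) : (kron A B)ᵀ = kron Aᵀ Bᵀ := by
  ext z z'; simp only [kron, Matrix.of_apply, Matrix.transpose_apply]

theorem kron_one : kron (1 : Mat n) (1 : Mat m) = 1 := by
  ext z z'
  obtain ⟨σ, κ, rfl⟩ := kr_exists z
  obtain ⟨σ', κ', rfl⟩ := kr_exists z'
  rw [kron_append]
  simp only [Matrix.one_apply, kr_append_inj]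
  by_cases h1 : σ = σ' <;> by_cases h2 : κ = κ' <;> simp [h1, h2]

/-- `Fin.prod_univ_add` -/
theorem tens_eq_kron (A : Fin (n + m) → Matrix Bool Bool ℝ) :
    tens A = kron (tens fun i => A (Fin.castAdd m i)) (tens fun j => A (Fin.natAdd n j)) := by
  ext z z'
  simp only [kron, tens, Matrix.of_apply, Fin.prod_univ_add]

theorem kr_lookup_shW (w : Word) (j : ℕ) : (shW n w).lookup (n + j) = w.lookup j := by
  induction w with
  | nil => simp [shW]
  | cons l w ih =>
    obtain ⟨q, b⟩ := l
    simp only [shW, List.map_cons, List.lookup_cons] at ih ⊢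
    by_cases h : j = q
    · subst h; simp
    · have h1 : (n + j == n + q) = false := by simpa using h
      have h2 : (j == q) = false := by simpa using h
      rw [h1, h2]
      exact ih

/-- `List.lookup_append`; for `q < n` the shifted word has no entry, for `q = n + j` the word `w` has none. -/
theorem wordMat_shW {w : Word} (hw : ∀ l ∈ w, l.1 < n) (w' : Word) :
    wordMat (n + m) (w ++ shW n w') = kron (wordMat n w) (wordMat m w') := by
  unfold wordMat
  rw [tens_eq_kron]
  congr 2
  · funext i
    have : (shW n w').lookup (i : ℕ) = none := by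
      apply wd_lookup_none
      simp only [shW, List.map_map, List.mem_map, Function.comp_apply, not_exists, not_and]
      intro l _
      have := i.isLt
      omega
    rw [List.lookup_append, Fin.val_castAdd, this]
    simp
  · funext j
    have : w.lookup (n + (j : ℕ)) = none := by
      apply wd_lookup_none
      simp only [List.mem_map, not_exists, not_and]
      intro l hl
      have := hw l hl
      omega
    rw [List.lookup_append, Fin.val_natAdd, this, kr_lookup_shW]
    simp

theorem kr_ham_one (t : ℚ × Word) (h : ∀ l ∈ t.2, l.1 < n) (ts' : PL) :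
    hamMat (n + m) ((sh n ts').map fun t' => (t.1 * t'.1, t.2 ++ t'.2)) =
      kron ((t.1 : ℝ) • wordMat n t.2) (hamMat m ts') := by
  induction ts' with
  | nil => simp [sh, hamMat_nil, kron_zero_right]
  | cons s ts ih =>
    have e : sh n (s :: ts) = (s.1, shW n s.2) :: sh n ts := rfl
    rw [e, List.map_cons, hamMat_cons, hamMat_cons, ih, kron_add_right, wordMat_shW h,
      kron_smul_left, kron_smul_left, kron_smul_right, smul_smul]
    push_cast
    rfl

/-- double induction on the lists (or unfold `pmul`, `hamMat_flatten`) -/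
theorem hamMat_kmul {ts : PL} (h : ∀ t ∈ ts, ∀ l ∈ t.2, l.1 < n) (ts' : PL) :
    hamMat (n + m) (kmul n ts ts') = kron (hamMat n ts) (hamMat m ts') := by
  induction ts with
  | nil => simp [kmul, pmul, hamMat_nil, kron_zero_left]
  | cons t ts ih =>
    have e : kmul n (t :: ts) ts' =
        ((sh n ts').map fun t' => (t.1 * t'.1, t.2 ++ t'.2)) ++ kmul n ts ts' := by
      simp [kmul, pmul]
    rw [e, hamMat_append, ih fun s hs => h s (List.mem_cons_of_mem _ hs), hamMat_cons,
      kron_add_left, kr_ham_one t (h t List.mem_cons_self)]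

theorem dot_sl (x y : St (n + m) → ℝ) : x ⬝ᵥ y = ∑ κ, sl x κ ⬝ᵥ sl y κ := by
  simp only [dotProduct, sl]
  exact sum_append _

theorem sl_kron (A : Mat n) (B : Mat m) (x : St (n + m) → ℝ) (κ : St m) :
    sl (kron A B *ᵥ x) κ = ∑ κ', B κ κ' • (A *ᵥ sl x κ') := by
  funext σ
  simp only [sl, Matrix.mulVec, dotProduct, Finset.sum_apply, Pi.smul_apply, smul_eq_mul]
  rw [sum_append]
  refine Finset.sum_congr rfl fun κ' _ => ?_
  rw [Finset.mul_sum]
  refine Finset.sum_congr rfl fun σ' _ => ?_
  rw [kron_append]; ring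

theorem kron_form (A : Mat n) (B : Mat m) (x : St (n + m) → ℝ) :
    x ⬝ᵥ kron A B *ᵥ x = ∑ κ, ∑ κ', B κ κ' * (sl x κ ⬝ᵥ A *ᵥ sl x κ') := by
  rw [dot_sl]
  refine Finset.sum_congr rfl fun κ _ => ?_
  rw [sl_kron, dotProduct_sum]
  refine Finset.sum_congr rfl fun κ' _ => ?_
  rw [dotProduct_smul, smul_eq_mul]

theorem exists_sl (φ : St m → St n → ℝ) : ∃ x : St (n + m) → ℝ, ∀ κ, sl x κ = φ κ := by
  refine ⟨fun z => φ (fun j => z (Fin.natAdd n j)) (fun i => z (Fin.castAdd m i)), fun κ => ?_⟩
  funext σ
  simp only [sl, Fin.append_left, Fin.append_right]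

/-- `dot_sl`, `sl_kron` -/
theorem opLe_kron_one {A : Mat n} {v : ℝ} (h : OpLe A v) : OpLe (kron A (1 : Mat m)) v := by
  intro x
  rw [dot_sl, dot_sl x, Finset.mul_sum]
  refine Finset.sum_le_sum fun κ _ => ?_
  have : sl (kron A (1 : Mat m) *ᵥ x) κ = A *ᵥ sl x κ := by
    rw [sl_kron, Finset.sum_eq_single κ]
    · simp
    · intro κ' _ h'
      rw [Matrix.one_apply_ne (Ne.symm h'), zero_smul]
    · simp
  rw [this]
  exact h _

theorem flp_flp (κ : St m) (j : ℕ) : flp (flp κ j) j = κ := by
  funext q
  simp only [flp]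
  split_ifs <;> simp

theorem bit_flp_ne (κ : St m) {j q : ℕ} (h : q ≠ j) : bit (flp κ j) q = bit κ q := by
  unfold bit
  split_ifs with hq
  · simp only [flp, if_neg h]
  · rfl

theorem Xm_transpose (j : ℕ) : (Xm m j)ᵀ = Xm m j := by
  ext κ κ'
  simp only [Xm, Matrix.transpose_apply, Matrix.of_apply]
  congr 1
  apply propext
  constructor
  · rintro rfl; rw [flp_flp]
  · rintro rfl; rw [flp_flp]

theorem Xm_mul_self (j : ℕ) : Xm m j * Xm m j = 1 := by
  ext κ κ'
  simp only [Xm, Matrix.mul_apply, Matrix.of_apply, ite_mul, one_mul, zero_mul,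
    Finset.sum_ite_eq', Finset.mem_univ, if_true, flp_flp, Matrix.one_apply, eq_comm]

end Crest.Agent.R338.Q2
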