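import Crest.Agent.R338.Q2_Defs

/-! # Q2 / POK: validity of the Pauli lists and polynomial time -/

set_option autoImplicit false
set_option linter.dupNamespace false
set_option linter.unusedVariables false

noncomputable section

namespace Crest.Agent.R338.Q2

open Crest.Agent.Lib.PT Matrix Finset

variable {S S' : Set ℕ} {k k' : ℕ} {ts ts' : PL}

theorem POK.mono (h : POK S k ts) (hS : S ⊆ S') (hk : k ≤ k') : POK S' k' ts := by
  intro t ht
  obtain ⟨h1, h2, h3, h4⟩ := h t ht
  exact ⟨h1, h2, fun l hl => hS (h3 l hl), h4.trans hk⟩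

theorem POK.nil : POK S k [] := by
  intro t ht
  simp at ht

theorem POK.append (h : POK S k ts) (h' : POK S k ts') : POK S k (ts ++ ts') := by
  intro t ht
  rcases List.mem_append.1 ht with ht | ht
  · exact h t ht
  · exact h' t ht

theorem POK.flatten {L : List PL} (h : ∀ ts ∈ L, POK S k ts) : POK S k L.flatten := by
  intro t ht
  obtain ⟨l, hl, ht⟩ := List.mem_flatten.1 ht
  exact h l hl t ht

theorem POK.sc (h : POK S k ts) {c : ℚ} (hc : |c| ≤ 1) : POK S k (sc c ts) := by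
  intro t ht
  obtain ⟨u, hu, rfl⟩ := List.mem_map.1 ht
  obtain ⟨h1, h2, h3, h4⟩ := h u hu
  refine ⟨?_, h2, h3, h4⟩
  rw [abs_mul]
  exact mul_le_one₀ hc (abs_nonneg _) h1

theorem pok_disj (h : POK S k ts) (h' : POK S' k' ts') (hd : Disjoint S S') :
    ∀ t ∈ ts, ∀ t' ∈ ts', ∀ q, q ∈ t.2.map Prod.fst → q ∉ t'.2.map Prod.fst := by
  intro t ht t' ht' q hq hq'
  obtain ⟨l, hl, rfl⟩ := List.mem_map.1 hq
  obtain ⟨l', hl', e⟩ := List.mem_map.1 hq'
  exact Set.disjoint_left.1 hd ((h t ht).2.2.1 l hl) (e ▸ (h' t' ht').2.2.1 l' hl')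

theorem POK.pmul (h : POK S k ts) (h' : POK S' k' ts') (hd : Disjoint S S') :
    POK (S ∪ S') (k + k') (pmul ts ts') := by
  intro t ht
  obtain ⟨L, hL, ht⟩ := List.mem_flatten.1 ht
  obtain ⟨u, hu, rfl⟩ := List.mem_map.1 hL
  obtain ⟨u', hu', rfl⟩ := List.mem_map.1 ht
  obtain ⟨h1, h2, h3, h4⟩ := h u hu
  obtain ⟨h1', h2', h3', h4'⟩ := h' u' hu'
  refine ⟨?_, ?_, fun l hl => ?_, ?_⟩
  · rw [abs_mul]
    exact mul_le_one₀ h1 (abs_nonneg _) h1'
  · rw [List.map_append]
    exact List.Nodup.append h2 h2' fun q hq hq' => pok_disj h h' hd u hu u' hu' q hq hq'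
  · rcases List.mem_append.1 hl with hl | hl
    · exact Or.inl (h3 l hl)
    · exact Or.inr (h3' l hl)
  · rw [List.length_append]
    exact Nat.add_le_add h4 h4'

theorem POK.hamMat_pmul (n : ℕ) (h : POK S k ts) (h' : POK S' k' ts') (hd : Disjoint S S') :
    hamMat n (Crest.Agent.R338.pmul ts ts') = hamMat n ts * hamMat n ts' := by
  exact Crest.Agent.R338.hamMat_pmul n (pok_disj h h' hd)

theorem pok_sh (n : ℕ) {m : ℕ} (h : POK (Set.Iio m) k ts) : POK (Set.Ico n (n + m)) k (sh n ts) := by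
  intro t ht
  obtain ⟨u, hu, rfl⟩ := List.mem_map.1 ht
  obtain ⟨h1, h2, h3, h4⟩ := h u hu
  refine ⟨h1, ?_, fun l hl => ?_, ?_⟩
  · have e : (shW n u.2).map Prod.fst = (u.2.map Prod.fst).map fun q => n + q := by
      simp [shW, List.map_map, Function.comp_def]
    rw [e]
    exact h2.map fun a b hab => Nat.add_left_cancel hab
  · obtain ⟨l', hl', rfl⟩ := List.mem_map.1 hl
    have := h3 l' hl'
    simp only [Set.mem_Iio, Set.mem_Ico] at this ⊢
    omega
  · simpa [shW] using h4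

theorem POK.kmul {n m : ℕ} (h : POK (Set.Iio n) k ts) (h' : POK (Set.Iio m) k' ts') :
    POK (Set.Iio (n + m)) (k + k') (kmul n ts ts') := by
  refine (h.pmul (pok_sh n h') ?_).mono ?_ le_rfl
  · exact Set.disjoint_left.2 fun q hq hq' => by
      simp only [Set.mem_Iio, Set.mem_Ico] at hq hq'
      omega
  · rintro q (hq | hq) <;> simp only [Set.mem_Iio, Set.mem_Ico] at hq ⊢ <;> omega

theorem pok_one : POK S k oneL := by
  simp [POK, oneL]

theorem pok_p0 (q : ℕ) : POK {q} 1 (p0L q) := by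
  simp only [POK, p0L, List.forall_mem_cons]
  norm_num [abs_le]

theorem pok_p1 (q : ℕ) : POK {q} 1 (p1L q) := by
  simp only [POK, p1L, List.forall_mem_cons]
  norm_num [abs_le]

theorem pok_x (q : ℕ) : POK {q} 1 (xL q) := by
  simp [POK, xL]

theorem pok_dd (t : ℕ) : POK {t, t + 2} 2 (ddL t) := by
  exact (pok_p1 t).pmul (pok_p0 (t + 2)) (by simp)

theorem pok_cl (T : ℕ) : POK (Set.Iio (T + 2)) 2 (clL T) := by
  refine (((pok_p0 0).mono (by simp) (by norm_num)).append
    ((pok_p1 (T + 1)).mono (by simp) (by norm_num))).append (POK.flatten fun l hl => ?_)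
  obtain ⟨j, hj, rfl⟩ := List.mem_map.1 hl
  rw [List.mem_range] at hj
  refine ((pok_p0 j).pmul (pok_p1 (j + 1)) (by simp)).mono ?_ le_rfl
  rintro q (hq | hq) <;> simp only [Set.mem_Iio, Set.mem_singleton_iff] at hq ⊢ <;> omega

theorem pok_in (n w : ℕ) : POK (Set.Iio n) 1 (inL n w) := by
  refine POK.flatten fun l hl => ?_
  obtain ⟨j, hj, rfl⟩ := List.mem_map.1 hl
  rw [List.mem_range] at hj
  split_ifs
  · exact (pok_p1 j).mono (by simpa using hj) le_rfl
  · exact POK.nil

/-- cases `cs = [], [a], [a, b], …` -/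
theorem pok_ctl {cs : List ℕ} (h : cs.Nodup) : POK {q | q ∈ cs} 2 (ctlL cs) := by
  match cs, h with
  | [], _ => exact ((pok_one (S := ∅) (k := 1)).pmul (pok_one (S := ∅) (k := 1)) (by simp)).mono (by simp) le_rfl
  | [a], _ => exact ((pok_p1 a).pmul (pok_one (S := ∅) (k := 1)) (by simp)).mono (by simp) le_rfl
  | a :: b :: l, h =>
    have hab : a ≠ b := fun e => by simp [e] at h
    refine ((pok_p1 a).pmul (pok_p1 b) (by simpa using hab)).mono ?_ le_rfl
    rintro q (hq | hq) <;> simp only [Set.mem_singleton_iff] at hq <;> simp [hq]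

theorem pok_refl {r : ℚ} (hr : |r| ≤ 1) (q k : ℕ) : POK {q} 1 (reflL r q k) := by
  unfold reflL
  split_ifs <;> simp [POK, hr]

theorem pok_gate {r : ℚ} (hr : |r| ≤ 1) {n : ℕ} {g : RGate} (h : GOK n g) :
    POK (Set.Iio n) 3 (gateL r g) := by
  obtain ⟨-, h2, h3⟩ := h
  rw [List.nodup_cons] at h2
  have hS : {q | q ∈ g.1} ⊆ Set.Iio n := fun q hq => h3 q (List.mem_cons_of_mem _ hq)
  refine (pok_one.append (((pok_ctl h2.2).sc (by norm_num)).mono hS (by norm_num))).append
    (((pok_ctl h2.2).pmul (pok_refl hr _ _) (by simpa using h2.1)).mono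
      (Set.union_subset hS ?_) le_rfl)
  simpa using h3 g.2.1 List.mem_cons_self

theorem abs_rr_le (T : ℕ) : |rr T| ≤ 1 := by
  unfold rr
  rw [abs_of_nonneg (by positivity)]
  refine div_le_one_of_le₀ (Nat.cast_le.2 ?_) (by positivity)
  calc Nat.sqrt (2 * Kw T ^ 2) ≤ Nat.sqrt ((2 * Kw T) ^ 2) := Nat.sqrt_le_sqrt (by nlinarith)
    _ = 2 * Kw T := Nat.sqrt_eq' _

theorem gok_gt {x : RCI} (h : ValidRC x) {t : ℕ} (ht : t < x.2.2.1.length) :
    GOK x.1.n (gt x.2.2.1 t) := by
  have hm : gt x.2.2.1 t ∈ x.2.2.1 := by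
    unfold gt
    rw [List.getD_eq_getElem _ _ ht]
    exact List.getElem_mem ht
  exact h.2.2 _ hm

theorem pok_pen {x : RCI} (h : ValidRC x) :
    POK (Set.Iio (x.1.n + (x.2.2.1.length + 2))) 6 (penL x.1.n x.2.1 x.2.2.1) := by
  refine ((((pok_one (k := 0)).kmul (pok_cl _)).mono le_rfl (by norm_num)).append
    (POK.flatten fun l hl => ?_)).append
    (((pok_in _ _).kmul ((pok_p0 1).mono (by simp) le_rfl)).mono le_rfl (by norm_num))
  obtain ⟨t, ht, rfl⟩ := List.mem_map.1 hl
  rw [List.mem_range] at ht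
  have h1 : ({t, t + 2} : Set ℕ) ⊆ Set.Iio (x.2.2.1.length + 2) := by
    rintro q (hq | hq) <;> simp only [Set.mem_Iio, Set.mem_singleton_iff] at hq ⊢ <;> omega
  have h2 : ({t + 1} : Set ℕ) ⊆ Set.Iio (x.2.2.1.length + 2) := by
    simp only [Set.singleton_subset_iff, Set.mem_Iio]
    omega
  refine POK.append (POK.sc ?_ (by norm_num [abs_le])) (POK.sc ?_ (by norm_num [abs_le]))
  · exact ((pok_one (k := 0)).kmul ((pok_dd t).mono h1 le_rfl)).mono le_rfl (by norm_num)
  · exact (pok_gate (abs_rr_le _) (gok_gt h ht)).kmul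
      (((pok_dd t).pmul (pok_x (t + 1)) (by simp)).mono (Set.union_subset h1 h2) le_rfl)

theorem pok_sc_nat {N B c : ℕ} (h : POK (Set.Iio N) k ts) (hc : c ≤ B) :
    ∀ t ∈ sc (c : ℚ) ts, |t.1| ≤ (B : ℚ) ∧ WordOK N k t.2 := by
  intro t ht
  obtain ⟨u, hu, rfl⟩ := List.mem_map.1 ht
  obtain ⟨h1, h2, h3, h4⟩ := h u hu
  refine ⟨?_, h2, h3, h4⟩
  rw [abs_mul, Nat.abs_cast]
  exact (mul_le_of_le_one_right (Nat.cast_nonneg _) h1).trans (Nat.cast_le.2 hc)

theorem valid_red {x : RCI} (h : ValidRC x) : ValidPH 6 (red x) := by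
  refine ⟨?_, ?_, ?_, fun t ht => ?_, ?_⟩
  · simp only [red]
    omega
  · simp only [red]
    omega
  · simp only [red]
    omega
  · rcases List.mem_append.1 ht with ht | ht
    · exact pok_sc_nat (pok_pen h) (by simp only [red]; omega) t ht
    · refine pok_sc_nat (POK.mono (POK.kmul ((pok_p0 _).mono (by simpa using h.2.1) le_rfl)
        ((pok_p1 _).mono (by simp) le_rfl)) le_rfl (by norm_num)) (by simp only [red]; omega) t ht
  · have h4 : (4 : ℚ) ≤ ((red x).1.n : ℚ) := by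
      have : 4 ≤ (red x).1.n := by
        simp only [red]
        omega
      exact_mod_cast this
    refine ⟨?_, ?_, ?_⟩
    · show |(9 / 4 : ℚ)| ≤ _
      rw [abs_of_pos (by norm_num)]
      linarith
    · show |(13 / 4 : ℚ)| ≤ _
      rw [abs_of_pos (by norm_num)]
      linarith
    · show (9 / 4 : ℚ) + 1 ≤ 13 / 4
      norm_num

theorem pok_sqrt_eq (M : ℕ) :
    (List.range M).countP (fun i => decide ((i + 1) * (i + 1) ≤ M)) = Nat.sqrt M := by
  have h1 : ∀ N, (List.range N).countP (fun i => decide (i < Nat.sqrt M)) = min N (Nat.sqrt M) := by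
    intro N
    induction N with
    | zero => simp
    | succ N ih =>
      rw [List.range_succ, List.countP_append, ih]
      by_cases hN : N < Nat.sqrt M
      · simp only [List.countP_singleton, hN, decide_true, if_true]
        omega
      · simp only [List.countP_singleton, hN, decide_false, Bool.false_eq_true, if_false]
        omega
  have h2 : (fun i => decide ((i + 1) * (i + 1) ≤ M)) = fun i => decide (i < Nat.sqrt M) := by
    funext i
    rw [decide_eq_decide, ← Nat.le_sqrt]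
    rfl
  rw [h2, h1, min_eq_right (Nat.sqrt_le_self M)]

/-- `Nat.sqrt M = (List.range M).countP fun i => decide ((i + 1) * (i + 1) ≤ M)` -/
theorem sqrt_pt {α : Type} [Enc α] {f : α → ℕ} (hf : PT f) (hb : PB f) :
    PT fun a => Nat.sqrt (f a) := by
  have h : PT fun a => (List.range (f a)).countP fun i => decide ((i + 1) * (i + 1) ≤ f a) := by
    fun_prop
  exact h.of_eq fun a => pok_sqrt_eq _

section pt

variable {α : Type} [Enc α]

@[fun_prop] theorem pok_p0L_pt {q : α → ℕ} (hq : PT q) : PT fun a => p0L (q a) := by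
  unfold p0L
  fun_prop

@[fun_prop] theorem pok_p1L_pt {q : α → ℕ} (hq : PT q) : PT fun a => p1L (q a) := by
  unfold p1L
  fun_prop

@[fun_prop] theorem pok_xL_pt {q : α → ℕ} (hq : PT q) : PT fun a => xL (q a) := by
  unfold xL
  fun_prop

@[fun_prop] theorem pok_sc_pt {c : α → ℚ} {f : α → PL} (hc : PT c) (hf : PT f) :
    PT fun a => sc (c a) (f a) := by
  unfold sc
  fun_prop

@[fun_prop] theorem pok_shW_pt {n : α → ℕ} {f : α → Word} (hn : PT n) (hf : PT f) :
    PT fun a => shW (n a) (f a) := by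
  unfold shW
  fun_prop

@[fun_prop] theorem pok_sh_pt {n : α → ℕ} {f : α → PL} (hn : PT n) (hf : PT f) :
    PT fun a => sh (n a) (f a) := by
  unfold sh
  fun_prop

@[fun_prop] theorem pok_kmul_pt {n : α → ℕ} {f g : α → PL} (hn : PT n) (hf : PT f) (hg : PT g) :
    PT fun a => kmul (n a) (f a) (g a) := by
  unfold kmul
  fun_prop

@[fun_prop] theorem pok_clL_pt {n : α → ℕ} (hn : PT n) (hb : PB n) : PT fun a => clL (n a) := by
  unfold clL
  fun_prop

@[fun_prop] theorem pok_ddL_pt {n : α → ℕ} (hn : PT n) : PT fun a => ddL (n a) := by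
  unfold ddL
  fun_prop

@[fun_prop] theorem pok_optL_pt {cs : α → List ℕ} {n : α → ℕ} (hc : PT cs) (hn : PT n) :
    PT fun a => optL (cs a) (n a) := by
  unfold optL
  fun_prop

@[fun_prop] theorem pok_ctlL_pt {cs : α → List ℕ} (hc : PT cs) : PT fun a => ctlL (cs a) := by
  unfold ctlL
  fun_prop

@[fun_prop] theorem pok_reflL_pt {r : α → ℚ} {q k : α → ℕ} (hr : PT r) (hq : PT q) (hk : PT k) :
    PT fun a => reflL (r a) (q a) (k a) := by
  unfold reflL
  fun_prop

@[fun_prop] theorem pok_gateL_pt {r : α → ℚ} {g : α → RGate} (hr : PT r) (hg : PT g) :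
    PT fun a => gateL (r a) (g a) := by
  unfold gateL
  fun_prop

@[fun_prop] theorem pok_propL_pt {r : α → ℚ} {n t : α → ℕ} {g : α → RGate} (hr : PT r) (hn : PT n)
    (ht : PT t) (hg : PT g) : PT fun a => propL (r a) (n a) (t a) (g a) := by
  unfold propL
  fun_prop

@[fun_prop] theorem pok_inL_pt {n w : α → ℕ} (hn : PT n) (hb : PB n) (hw : PT w) :
    PT fun a => inL (n a) (w a) := by
  unfold inL
  fun_prop

@[fun_prop] theorem pok_Jw_pt {n : α → ℕ} (hn : PT n) : PT fun a => Jw (n a) := by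
  unfold Jw
  fun_prop

@[fun_prop] theorem pok_Jw_pb {n : α → ℕ} (hn : PB n) : PB fun a => Jw (n a) := by
  unfold Jw
  fun_prop

@[fun_prop] theorem pok_Kw_pt {n : α → ℕ} (hn : PT n) : PT fun a => Kw (n a) :=
  ((PT.const 4).nat_mul (pok_Jw_pt hn)).nat_mul (hn.nat_add (PT.const 1))

@[fun_prop] theorem pok_Kw_pb {n : α → ℕ} (hn : PB n) : PB fun a => Kw (n a) := by
  unfold Kw
  fun_prop

@[fun_prop] theorem pok_rr_pt {n : α → ℕ} (hn : PT n) (hb : PB n) : PT fun a => rr (n a) := by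
  have h0 := pok_Kw_pt hn
  have h0' := pok_Kw_pb hb
  unfold rr
  generalize hK : (fun a => Kw (n a)) = K at h0 h0'
  have h1 : PT fun a => Nat.sqrt (2 * K a ^ 2) := sqrt_pt (by fun_prop) (by fun_prop)
  have h2 : PT fun a => (Nat.sqrt (2 * K a ^ 2) : ℚ) / (2 * K a : ℕ) := by fun_prop
  subst hK
  exact h2

@[fun_prop] theorem pok_gt_pt {gs : α → List RGate} {n : α → ℕ} (hg : PT gs) (hn : PT n) :
    PT fun a => gt (gs a) (n a) := by
  unfold gt
  fun_prop

@[fun_prop] theorem pok_penL_pt {n w : α → ℕ} {gs : α → List RGate} (hn : PT n) (hb : PB n)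
    (hw : PT w) (hg : PT gs) : PT fun a => penL (n a) (w a) (gs a) := by
  unfold penL
  fun_prop

@[fun_prop] theorem pok_terms_pt {n w o : α → ℕ} {gs : α → List RGate} (hn : PT n) (hb : PB n)
    (hw : PT w) (hg : PT gs) (ho : PT o) : PT fun a => terms (n a) (w a) (gs a) (o a) := by
  unfold terms
  fun_prop

end pt

/-- one `@[fun_prop]` lemma per list definition (`unfold; fun_prop`) -/
theorem red_pt : PT red := by
  unfold red
  fun_prop

end Crest.Agent.R338.Q2
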