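import Crest.Agent.R338.Q2_Kron
import Crest.Agent.R338.Q2_POK

/-! # Q2 / Pauli: the Pauli expansion represents `Hm` with the rational gates -/

set_option autoImplicit false
set_option linter.dupNamespace false
set_option linter.unusedVariables false

noncomputable section

namespace Crest.Agent.R338.Q2

open Crest.Agent.Lib.PT Matrix Finset

variable {n : ℕ}

theorem ham_one : hamMat n oneL = 1 := by
  simp [oneL, hamMat_cons, hamMat_nil, wordMat_nil]

theorem ham_sc (c : ℚ) (ts : PL) : hamMat n (sc c ts) = (c : ℝ) • hamMat n ts := by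
  exact hamMat_scale n c ts

/-- `wordMat_single`, `p1_eq`, `loc_sub`, `loc_smul` -/
theorem ham_p1_loc {q : ℕ} (hq : q < n) : hamMat n (p1L q) = loc (⟨q, hq⟩ : Fin n) p1 := by
  rw [p1_eq, loc_smul, loc_sub, loc_one]
  simp only [p1L, hamMat_cons, hamMat_nil, wordMat_nil, wordMat_single hq, letter, add_zero]
  push_cast
  module

/-- `loc_apply` -/
theorem ham_p1 {q : ℕ} (hq : q < n) : hamMat n (p1L q) = diagonal fun σ => ind (bit σ q) := by
  rw [ham_p1_loc hq]
  have h := wd_ctrl_diag (n := n) [q] (by simpa using hq)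
  have e : loc (⟨q, hq⟩ : Fin n) p1 = tens (fun i : Fin n => if i.val ∈ [q] then p1 else 1) := by
    unfold loc
    congr 1
    funext i
    simp [Fin.ext_iff]
  rw [e, h]
  simp [ind]

theorem ham_p0 {q : ℕ} (hq : q < n) : hamMat n (p0L q) = diagonal fun σ => ind (!bit σ q) := by
  have e : hamMat n (p0L q) = 1 - hamMat n (p1L q) := by
    simp only [p0L, p1L, hamMat_cons, hamMat_nil, wordMat_nil, add_zero]
    push_cast
    module
  rw [e, ham_p1 hq, ← Matrix.diagonal_one, Matrix.diagonal_sub]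
  congr 1
  funext σ
  cases bit σ q <;> simp [ind]

theorem ham_x {q : ℕ} (hq : q < n) : hamMat n (xL q) = Xm n q := by
  simp only [xL, hamMat_cons, hamMat_nil, wordMat_single hq, letter, add_zero]
  ext κ κ'
  simp only [Rat.cast_one, one_smul, loc_apply, Xm, Matrix.of_apply, pX]
  by_cases h : κ' = flp κ q
  · subst h
    rw [if_pos rfl, if_pos, if_neg]
    · simp [flp]
    · intro j hj
      have : j.val ≠ q := fun h' => hj (Fin.ext h')
      simp [flp, this]
  · rw [if_neg h]
    split_ifs with h1 h2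
    · rfl
    · exfalso
      apply h
      funext j
      by_cases hj : j = ⟨q, hq⟩
      · subst hj
        simp only [flp, if_true]
        revert h2
        cases κ ⟨q, hq⟩ <;> cases κ' ⟨q, hq⟩ <;> simp
      · have : j.val ≠ q := fun h' => hj (Fin.ext h')
        simp only [flp, if_neg this]
        exact (h1 j hj).symm
    · rfl

theorem ham_dd {t : ℕ} (ht : t + 2 < n) : hamMat n (ddL t) = diagonal (dd t) := by
  unfold ddL
  rw [POK.hamMat_pmul n (pok_p1 t) (pok_p0 (t + 2)) (by simp), ham_p1 (by omega), ham_p0 ht,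
    Matrix.diagonal_mul_diagonal]
  rfl

theorem pa_flatten (m : ℕ) (f : ℕ → PL) :
    hamMat n ((List.range m).map f).flatten = ∑ j ∈ range m, hamMat n (f j) := by
  induction m with
  | zero => simp [hamMat_nil]
  | succ m ih =>
    rw [List.range_succ, List.map_append, List.flatten_append, hamMat_append, ih, Finset.sum_range_succ]
    simp

theorem pa_diag_sum (s : Finset ℕ) (f : ℕ → St n → ℝ) :
    ∑ j ∈ s, diagonal (f j) = diagonal fun σ => ∑ j ∈ s, f j σ := by
  ext σ τ
  simp only [Matrix.sum_apply, Matrix.diagonal_apply]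
  split_ifs <;> simp

theorem ham_cl (T : ℕ) : hamMat (T + 2) (clL T) = diagonal (cl T) := by
  unfold clL
  rw [hamMat_append, hamMat_append, pa_flatten, ham_p0 (by omega), ham_p1 (by omega)]
  have e : ∀ j ∈ range (T + 1), hamMat (T + 2) (pmul (p0L j) (p1L (j + 1))) =
      diagonal fun κ => ind (!bit κ j) * ind (bit κ (j + 1)) := fun j hj => by
    have := Finset.mem_range.1 hj
    rw [POK.hamMat_pmul _ (pok_p0 j) (pok_p1 (j + 1)) (by simp), ham_p0 (by omega), ham_p1 (by omega),
      Matrix.diagonal_mul_diagonal]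
  rw [Finset.sum_congr rfl e, pa_diag_sum, Matrix.diagonal_add, Matrix.diagonal_add]
  rfl

theorem ham_in (n w : ℕ) : hamMat n (inL n w) = diagonal (inw n w) := by
  unfold inL
  rw [pa_flatten]
  have e : ∀ i ∈ range n, hamMat n (if w ≤ i then p1L i else []) =
      diagonal fun σ => if w ≤ i then ind (bit σ i) else 0 := fun i hi => by
    split_ifs
    · exact ham_p1 (Finset.mem_range.1 hi)
    · rw [hamMat_nil, Matrix.diagonal_zero]
  rw [Finset.sum_congr rfl e, pa_diag_sum]
  rfl

/-- cases `cs = [], [a], [a, b]`; `tens_one`, `loc_mul_tens` / `tens_mul` -/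
theorem ham_ctl {cs : List ℕ} (h2 : cs.length ≤ 2) (hn : cs.Nodup) (hc : ∀ q ∈ cs, q < n) :
    hamMat n (ctlL cs) = tens (fun q : Fin n => if q.val ∈ cs then p1 else 1) := by
  rw [wd_ctrl_diag cs hc]
  unfold ctlL
  match cs, h2, hn, hc with
  | [], _, _, _ =>
    have e : ∀ i, optL [] i = oneL := fun i => by simp [optL]
    rw [e, e, POK.hamMat_pmul n (pok_one (S := ∅) (k := 0)) (pok_one (S := ∅) (k := 0)) (by simp),
      ham_one]
    simp
  | [a], _, _, hc =>
    have e0 : optL [a] 0 = p1L a := by simp [optL]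
    have e1 : optL [a] 1 = oneL := by simp [optL]
    rw [e0, e1, POK.hamMat_pmul n (pok_p1 a) (pok_one (S := ∅) (k := 0)) (by simp), ham_one,
      ham_p1 (hc a (by simp)), mul_one]
    simp [ind]
  | [a, b], _, hn, hc =>
    have e0 : optL [a, b] 0 = p1L a := by simp [optL]
    have e1 : optL [a, b] 1 = p1L b := by simp [optL]
    rw [e0, e1, POK.hamMat_pmul n (pok_p1 a) (pok_p1 b) (by simpa using hn),
      ham_p1 (hc a (by simp)), ham_p1 (hc b (by simp)), Matrix.diagonal_mul_diagonal]
    congr 1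
    funext σ
    cases h1 : bit σ a <;> cases h2 : bit σ b <;> simp [ind, h1, h2]
  | _ :: _ :: _ :: _, h2, _, _ => simp at h2

theorem ham_refl (r : ℚ) {q : ℕ} (hq : q < n) (k : ℕ) :
    hamMat n (reflL r q k) = loc (⟨q, hq⟩ : Fin n) (arefl r k) := by
  unfold reflL arefl
  split_ifs
  · simp [hamMat_cons, hamMat_nil, wordMat_single hq, letter]
  · simp [hamMat_cons, hamMat_nil, wordMat_single hq, letter]
  · rw [loc_smul, loc_add]
    simp [hamMat_cons, hamMat_nil, wordMat_single hq, letter]

/-- `tens_mul_loc` -/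
theorem ham_gate {r : ℚ} (hr : |r| ≤ 1) {g : RGate} (h : GOK n g) :
    hamMat n (gateL r g) = agate r n g := by
  obtain ⟨h1, h2, h3⟩ := h
  have hn : g.2.1 ∉ g.1 := (List.nodup_cons.1 h2).1
  have hd : g.1.Nodup := (List.nodup_cons.1 h2).2
  have ht : g.2.1 < n := h3 _ List.mem_cons_self
  have hc : ∀ q ∈ g.1, q < n := fun q hq => h3 q (List.mem_cons_of_mem _ hq)
  unfold gateL agate
  rw [hamMat_append, hamMat_append, ham_one, ham_sc,
    POK.hamMat_pmul n (pok_ctl hd) (pok_refl hr _ _) (by simpa using hn), ham_ctl h1 hd hc,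
    ham_refl r ht, tens_mul_loc]
  congr 1
  · push_cast
    module
  · congr 1
    funext i
    by_cases hi : i = ⟨g.2.1, ht⟩
    · subst hi
      simp [hn]
    · rw [Function.update_of_ne hi]
      have : i.val ≠ g.2.1 := fun h' => hi (Fin.ext h')
      simp [this]

theorem ham_terms {x : RCI} (h : ValidRC x) :
    hamMat (x.1.n + (x.2.2.1.length + 2)) (terms x.1.n x.2.1 x.2.2.1 x.2.2.2) =
      Hm x.1.n x.2.1 x.2.2.2 x.2.2.1.length (Jw x.2.2.1.length)
        (fun t => agate (rr x.2.2.1.length) x.1.n (gt x.2.2.1 t)) := by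
  have hk : ∀ {k : ℕ} {ts : PL}, POK (Set.Iio x.1.n) k ts → ∀ ts' : PL,
      hamMat (x.1.n + (x.2.2.1.length + 2)) (kmul x.1.n ts ts') =
        kron (hamMat x.1.n ts) (hamMat (x.2.2.1.length + 2) ts') :=
    fun h ts' => hamMat_kmul (fun t ht l hl => (h t ht).2.2.1 l hl) ts'
  have ho : x.2.2.2 < x.1.n := h.2.1
  have e : ∀ t ∈ range x.2.2.1.length, hamMat (x.1.n + (x.2.2.1.length + 2))
      (propL (rr x.2.2.1.length) x.1.n t (gt x.2.2.1 t)) =
      (1 / 2 : ℝ) • kron 1 (diagonal (dd t)) +
        (-(1 / 2) : ℝ) • kron (agate (rr x.2.2.1.length) x.1.n (gt x.2.2.1 t))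
          (diagonal (dd t) * Xm (x.2.2.1.length + 2) (t + 1)) := fun t ht => by
    have ht' := Finset.mem_range.1 ht
    have hg := gok_gt h ht'
    unfold propL
    rw [hamMat_append, ham_sc, ham_sc, hk (pok_one (k := 0)), hk (pok_gate (abs_rr_le _) hg), ham_one,
      ham_gate (abs_rr_le _) hg, POK.hamMat_pmul _ (pok_dd t) (pok_x (t + 1)) (by simp),
      ham_dd (by omega), ham_x (by omega)]
    push_cast
    rfl
  unfold terms Hm penL
  rw [hamMat_append, ham_sc, ham_sc, hamMat_append, hamMat_append, pa_flatten, Finset.sum_congr rfl e,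
    hk (pok_one (k := 0)), hk (pok_in _ _), hk ((pok_p0 _).mono (by simpa using ho) le_rfl), ham_one,
    ham_cl, ham_in, ham_p0 ho, ham_p0 (by omega), ham_p1 (by omega)]
  push_cast
  rfl

end Crest.Agent.R338.Q2
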