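import Crest.Agent.R338.Q2_Kron

/-! # Q2 / Yes: legal clock strings, the history state -/

set_option autoImplicit false
set_option linter.dupNamespace false
set_option linter.unusedVariables false

noncomputable section

namespace Crest.Agent.R338.Q2

open Crest.Agent.Lib.PT Matrix Finset

theorem ind_nonneg (b : Bool) : 0 ≤ ind b := by
  unfold ind; split_ifs <;> norm_num

theorem ys_ind_true : ind true = 1 := by simp [ind]

theorem ys_ind_false : ind false = 0 := by simp [ind]

theorem bit_leg {T t q : ℕ} (ht : t ≤ T) : bit (leg T t) q = decide (q ≤ t) := by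
  unfold bit leg
  split_ifs with h
  · rfl
  · exact (decide_eq_false (by omega)).symm

theorem leg_inj {T s t : ℕ} (hs : s ≤ T) (ht : t ≤ T) (h : leg T s = leg T t) : s = t := by
  have h1 := bit_leg (q := s) ht
  have h2 := bit_leg (q := t) hs
  rw [← h, bit_leg hs] at h1
  rw [h, bit_leg ht] at h2
  simp only [le_refl, decide_true, true_eq_decide_iff] at h1 h2
  omega

theorem flp_leg {T t : ℕ} (ht : t < T) : flp (leg T (t + 1)) (t + 1) = leg T t := by
  funext q
  unfold flp leg
  split_ifs with h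
  · simp [h]
  · exact decide_eq_decide.2 (by omega)

theorem cl_leg {T t : ℕ} (ht : t ≤ T) : cl T (leg T t) = 0 := by
  unfold cl
  simp only [bit_leg ht]
  have h1 : ¬ T + 1 ≤ t := by omega
  rw [Finset.sum_eq_zero]
  · simp [ind, h1]
  · intro j _
    by_cases h : j + 1 ≤ t
    · have : j ≤ t := by omega
      simp [ind, this]
    · simp [ind, h]

/-- If bit `0` is set and bit `T+1` is not and there is no pattern `01`, take the largest set bit `t`. -/
theorem one_le_cl {T : ℕ} {κ : St (T + 2)} (h : ∀ t ≤ T, κ ≠ leg T t) : 1 ≤ cl T κ := by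
  have hs : 0 ≤ ∑ j ∈ range (T + 1), ind (!bit κ j) * ind (bit κ (j + 1)) :=
    Finset.sum_nonneg fun j _ => mul_nonneg (ind_nonneg _) (ind_nonneg _)
  have n1 := ind_nonneg (!bit κ 0)
  have n2 := ind_nonneg (bit κ (T + 1))
  unfold cl
  by_cases h0 : bit κ 0 = true
  swap
  · have : ind (!bit κ 0) = 1 := by simp [ind, h0]
    linarith
  by_cases h1 : bit κ (T + 1) = true
  · have : ind (bit κ (T + 1)) = 1 := by simp [ind, h1]
    linarith
  by_cases h2 : ∃ j ∈ range (T + 1), bit κ j = false ∧ bit κ (j + 1) = true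
  · obtain ⟨j, hj, a, b⟩ := h2
    have := Finset.single_le_sum (f := fun j => ind (!bit κ j) * ind (bit κ (j + 1)))
      (fun j _ => mul_nonneg (ind_nonneg _) (ind_nonneg _)) hj
    simp only [a, b, Bool.not_false, ys_ind_true, mul_one] at this
    linarith
  exfalso
  have hex : ∃ j, bit κ (j + 1) = false := ⟨T, by simpa using h1⟩
  classical
  have ht : Nat.find hex ≤ T := Nat.find_min' hex (by simpa using h1)
  have hup : ∀ j, Nat.find hex + 1 + j ≤ T + 1 → bit κ (Nat.find hex + 1 + j) = false := by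
    intro j
    induction j with
    | zero => exact fun _ => Nat.find_spec hex
    | succ j ih =>
      intro hj
      by_contra hc
      exact h2 ⟨Nat.find hex + 1 + j, Finset.mem_range.2 (by omega), ih (by omega), by
        simpa [Nat.add_assoc] using hc⟩
  refine h _ ht (funext fun q => ?_)
  have hq : κ q = bit κ q := by simp [bit, q.2]
  rw [hq]
  unfold leg
  by_cases hle : q.val ≤ Nat.find hex
  · rw [decide_eq_true hle]
    rcases Nat.eq_zero_or_pos q.val with h3 | h3
    · rw [h3]; exact h0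
    · have := Nat.find_min hex (m := q.val - 1) (by omega)
      rw [show q.val - 1 + 1 = q.val by omega] at this
      simpa using this
  · rw [decide_eq_false hle]
    have := hup (q.val - (Nat.find hex + 1)) (by omega)
    rwa [show Nat.find hex + 1 + (q.val - (Nat.find hex + 1)) = q.val by omega] at this

theorem rrun_take_succ (n : ℕ) {gs : List RGate} {t : ℕ} (ht : t < gs.length) :
    rrun n (gs.take (t + 1)) = rgate n (gt gs t) * rrun n (gs.take t) := by
  rw [List.take_add_one, rrun_append, List.getElem?_eq_getElem ht, Option.toList_some, rrun_cons,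
    rrun_nil, Matrix.one_mul, gt, List.getD_eq_getElem _ _ ht]

theorem dot_rrun (n : ℕ) (gs : List RGate) (ψ : St n → ℝ) :
    (rrun n gs *ᵥ ψ) ⬝ᵥ (rrun n gs *ᵥ ψ) = ψ ⬝ᵥ ψ := by
  rw [dotProduct_mulVec, vecMul_mulVec, rrun_orth, vecMul_one]

theorem wq_out (n out : ℕ) (gs : List RGate) (ψ : St n → ℝ) :
    wq (fun σ => ind (!bit σ out)) (rrun n gs *ᵥ ψ) = ψ ⬝ᵥ ψ - racc n gs out ψ := by
  rw [← dot_rrun n gs ψ, wq, racc, dotProduct, ← Finset.sum_sub_distrib]
  refine Finset.sum_congr rfl fun σ _ => ?_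
  cases bit σ out <;> simp [ind, sq]

theorem wq_in_good {n w : ℕ} {ψ : St n → ℝ} (h : Good n w ψ) : wq (inw n w) ψ = 0 := by
  refine Finset.sum_eq_zero fun σ _ => ?_
  by_cases hσ : ∃ i : Fin n, w ≤ i.val ∧ σ i = true
  · simp [h σ hσ]
  · rw [inw, Finset.sum_eq_zero, zero_mul]
    intro i hi
    have hi' := Finset.mem_range.1 hi
    split_ifs with hw
    · have : σ ⟨i, hi'⟩ = false := by
        by_contra hc
        exact hσ ⟨⟨i, hi'⟩, hw, by simpa using hc⟩
      simp [bit, hi', this, ind]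
    · rfl

/-- sums over clock strings of quantities supported on the legal strings -/
theorem ys_sum_leg (T : ℕ) (F : St (T + 2) → ℝ) (h : ∀ κ, (∀ t ≤ T, κ ≠ leg T t) → F κ = 0) :
    ∑ κ, F κ = ∑ t ∈ range (T + 1), F (leg T t) := by
  rw [← Finset.sum_image (s := range (T + 1)) (g := leg T) (f := F)]
  · refine (Finset.sum_subset (Finset.subset_univ _) fun κ _ hκ => h κ fun t ht e => hκ ?_).symm
    exact Finset.mem_image.2 ⟨t, Finset.mem_range.2 (by omega), e.symm⟩
  · intro s hs t ht e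
    exact leg_inj (by simpa [Nat.lt_succ_iff] using hs) (by simpa [Nat.lt_succ_iff] using ht) e

theorem ys_dd_leg {T t s : ℕ} (hs : s ≤ T) (h : dd t (leg T s) ≠ 0) : s = t ∨ s = t + 1 := by
  unfold dd at h
  rw [bit_leg hs, bit_leg hs] at h
  by_contra hc
  rcases Nat.lt_or_ge s t with h1 | h1
  · exact h (by simp [ind, Nat.not_le.2 h1])
  · exact h (by simp [ind, show t + 2 ≤ s by omega])

theorem ys_dd_flp {m : ℕ} (t : ℕ) (κ : St m) : dd t (flp κ (t + 1)) = dd t κ := by
  unfold dd
  rw [bit_flp_ne κ (by omega), bit_flp_ne κ (by omega)]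

/-- `φ κ = ∑ t ∈ range (T+1), if κ = leg T t then rrun n (gs.take t) *ᵥ ψ else 0`, so
`φ (leg T t) = rrun n (gs.take t) *ᵥ ψ` and `φ κ = 0` for illegal `κ`; hence
`∑ κ, F κ (φ κ) = ∑ t ∈ range (T+1), F (leg T t) (…)` when `F κ 0 = 0`.  Propagation term: if `dd t κ ≠ 0`
and `κ = leg T s` then `s = t` or `s = t + 1` and the difference vanishes (`flp_leg`, `flp_flp`,
`rrun_take_succ`, `rgate_mul_self`); if `κ` is illegal so is `flp κ (t+1)` (`dd` does not see the flipped bit). -/
theorem en_yes {n w out : ℕ} {gs : List RGate} (J : ℝ) {ψ : St n → ℝ} (hg : Good n w ψ)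
    (h1 : ψ ⬝ᵥ ψ = 1) (ha : 2 / 3 ≤ racc n gs out ψ) :
    ∃ φ : St (gs.length + 2) → St n → ℝ, ∑ κ, φ κ ⬝ᵥ φ κ = gs.length + 1 ∧
      En n w out gs.length J (fun t => rgate n (gt gs t)) φ ≤ 2 * (gs.length + 1) := by
  classical
  set T := gs.length with hT
  set φ : St (T + 2) → St n → ℝ := fun κ =>
    ∑ t ∈ range (T + 1), if κ = leg T t then rrun n (gs.take t) *ᵥ ψ else 0 with hφ
  have hleg : ∀ t ≤ T, φ (leg T t) = rrun n (gs.take t) *ᵥ ψ := by
    intro t ht
    simp only [hφ]
    rw [Finset.sum_eq_single t]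
    · simp
    · intro s hs hst
      rw [if_neg]
      exact fun e => hst (leg_inj ht (by simpa [Nat.lt_succ_iff] using hs) e).symm
    · intro h
      exact absurd (Finset.mem_range.2 (by omega)) h
  have hill : ∀ κ, (∀ t ≤ T, κ ≠ leg T t) → φ κ = 0 := by
    intro κ hκ
    refine Finset.sum_eq_zero fun t ht => if_neg (hκ t ?_)
    simpa [Nat.lt_succ_iff] using ht
  have hle : ∀ t ∈ range (T + 1), t ≤ T := fun t ht => by simpa [Nat.lt_succ_iff] using ht
  have hwq : ∀ f : St n → ℝ, wq f 0 = 0 := fun f => by simp [wq]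
  refine ⟨φ, ?_, ?_⟩
  · rw [ys_sum_leg T _ fun κ hκ => by simp [hill κ hκ],
      Finset.sum_congr rfl fun t ht => by rw [hleg t (hle t ht), dot_rrun, h1]]
    simp
  have e1 : ∑ κ, cl T κ * (φ κ ⬝ᵥ φ κ) = 0 := by
    rw [ys_sum_leg T _ fun κ hκ => by simp [hill κ hκ]]
    exact Finset.sum_eq_zero fun t ht => by rw [cl_leg (hle t ht), zero_mul]
  have e2 : ∀ t ∈ range T, ∀ κ, dd t κ ≠ 0 →
      φ κ - rgate n (gt gs t) *ᵥ φ (flp κ (t + 1)) = 0 := by
    intro t ht κ hd
    have ht' : t < T := Finset.mem_range.1 ht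
    have hf : flp (leg T t) (t + 1) = leg T (t + 1) := by rw [← flp_leg ht', flp_flp]
    by_cases hκ : ∃ s ≤ T, κ = leg T s
    · obtain ⟨s, hs, rfl⟩ := hκ
      rcases ys_dd_leg hs hd with rfl | rfl
      · rw [hf, hleg _ hs, hleg _ ht', rrun_take_succ n ht', mulVec_mulVec, ← Matrix.mul_assoc,
          rgate_mul_self, Matrix.one_mul, sub_self]
      · rw [flp_leg ht', hleg _ hs, hleg _ ht'.le, rrun_take_succ n ht', mulVec_mulVec, sub_self]
    · have h1 : φ κ = 0 := hill κ fun s hs e => hκ ⟨s, hs, e⟩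
      have h2 : φ (flp κ (t + 1)) = 0 := by
        refine hill _ fun s hs e => hκ ?_
        have hd' : dd t (leg T s) ≠ 0 := by rwa [← e, ys_dd_flp]
        have e' : κ = flp (leg T s) (t + 1) := by rw [← e, flp_flp]
        rcases ys_dd_leg hs hd' with rfl | rfl
        · exact ⟨s + 1, ht', e'.trans hf⟩
        · exact ⟨t, ht'.le, e'.trans (flp_leg ht')⟩
      rw [h1, h2, mulVec_zero, sub_self]
  have e3 : ∑ κ, ind (!bit κ 1) * wq (inw n w) (φ κ) = 0 := by
    rw [ys_sum_leg T _ fun κ hκ => by rw [hill κ hκ, hwq, mul_zero]]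
    refine Finset.sum_eq_zero fun t ht => ?_
    rw [bit_leg (hle t ht), hleg t (hle t ht)]
    rcases Nat.eq_zero_or_pos t with rfl | h0
    · rw [List.take_zero, rrun_nil, one_mulVec, wq_in_good hg, mul_zero]
    · simp [ind, show 1 ≤ t from h0]
  have e4 : ∑ κ, ind (bit κ T) * wq (fun σ => ind (!bit σ out)) (φ κ) = 1 - racc n gs out ψ := by
    rw [ys_sum_leg T _ fun κ hκ => by rw [hill κ hκ, hwq, mul_zero], Finset.sum_range_succ,
      Finset.sum_eq_zero, bit_leg le_rfl, hleg T le_rfl, hT, List.take_length, wq_out, h1]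
    · simp [ind]
    · intro t ht
      have ht' : t < T := Finset.mem_range.1 ht
      rw [bit_leg ht'.le]
      simp [ind, Nat.not_le.2 ht']
  have e2' : ∑ t ∈ range T, ∑ κ, 1 / 4 * dd t κ *
      ((φ κ - rgate n (gt gs t) *ᵥ φ (flp κ (t + 1))) ⬝ᵥ
        (φ κ - rgate n (gt gs t) *ᵥ φ (flp κ (t + 1)))) = 0 := by
    refine Finset.sum_eq_zero fun t ht => Finset.sum_eq_zero fun κ _ => ?_
    by_cases hd : dd t κ = 0
    · rw [hd, mul_zero, zero_mul]
    · rw [e2 t ht κ hd, dotProduct_zero, mul_zero]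
  unfold En
  rw [e1, e2', e3, e4]
  have : (0 : ℝ) ≤ T := Nat.cast_nonneg _
  nlinarith

end Crest.Agent.R338.Q2
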