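/-!
# rid 338 (S0529): QMA-hardness of the Coulomb ground energy problem — map of the files

Owner: helper74.  `S0529.lean` composes the stages; definitions in `Defs` (discrete) and `CDefs`
(continuum).  Do not change stated theorems (msg helper74 if one looks false); add your own
helper lemmas / files freely (`R338/<Stage>_*.lean`).

* API: `Tens` (tensor products of matrices), `Op` (norm bounds, `MYes/MNo`), `Word` (Pauli words,
  gates, tables), `Pert` (third order perturbation lemma), `PTof`, `FBasic`, `FTrans`, `FSector` (fermions).
* stages: `Q1` (compile), `Q2` (Kitaev), `Peel`, `K4`, `Ring`, `Bar`, `Cont`.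
* continuum: `Kin` (Fourier kinetic energy ↔ C¹ states), `Many*` (one-body package ⇒ N-body energy),
  `Scale`, `Bd` (C^k bounds), `Plane*`, `Line`, `Ideal`, `Pot*`, `Pert3`, `Alg*`.

PT hints: read the docstring of `Crest/Agent/Lib/PT/All.lean`; define the map on tuples with ordinary
list functions, `unfold; fun_prop`; the unary bound `x.1.n` is `PB`; clamp counters with `min _ x.1.n`.
-/
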