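import Crest.Agent.R338.FBasic
import Crest.Agent.R338.Pert

/-! # Ring exchange of hard-core fermions: the abstract computation

Sites `Option ι` (`none` = mediator), particles `ι`. -/

set_option autoImplicit false
set_option linter.dupNamespace false
set_option linter.unusedVariables false
set_option linter.unusedSectionVars false

noncomputable section

namespace Crest.Agent.R338

open Crest.Agent.Lib.PT Matrix

variable {ι : Type} [Fintype ι] [DecidableEq ι]

/-- Hopping matrix. -/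
def rgH (T : ι → ι → ℝ) (τ : ℝ) : Matrix (Option ι) (Option ι) ℝ :=
  Matrix.of fun u v => u.elim (v.elim 0 fun _ => -τ) fun i => v.elim (-τ) fun j => -T i j

/-- Indicator of the mediator. -/
def rgE : Option ι → ℝ := fun u => u.elim 1 fun _ => 0

/-- Spin of a bit. -/
def rgS (b : Bool) : Fin 2 := finTwoEquiv.symm b

/-- Everybody at a home. -/
def rgC (π : Equiv.Perm ι) (s : ι → Bool) : ι → Option ι × Fin 2 :=
  fun k => (some (π k), rgS (s (π k)))

/-- Particle `k` on the mediator. -/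
def rgM (π : Equiv.Perm ι) (s : ι → Bool) (k : ι) : ι → Option ι × Fin 2 :=
  Function.update (rgC π s) k (none, rgS (s (π k)))

/-- Pairwise different sites. -/
def RgD (x : ι → Option ι × Fin 2) : Prop := ∀ i j, i ≠ j → (x i).1 ≠ (x j).1

/-- The mediator is occupied. -/
def RgO (x : ι → Option ι × Fin 2) : Prop := ∃ k, (x k).1 = none

theorem rgS_inj : Function.Injective rgS := finTwoEquiv.symm.injective

theorem rgS_apply (a : Fin 2) : rgS (finTwoEquiv a) = a := finTwoEquiv.symm_apply_apply a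

theorem rgC_eq (π : Equiv.Perm ι) (s : ι → Bool) : rgC π s = rgC 1 s ∘ π := rfl

theorem rgC_inj : Function.Injective fun p : Equiv.Perm ι × (ι → Bool) => rgC p.1 p.2 := by
  rintro ⟨π, s⟩ ⟨π', s'⟩ h
  have h1 : π = π' := by
    ext k
    have := congrArg (fun x => (x k).1) h
    simpa [rgC] using this
  subst h1
  have h2 : s = s' := by
    funext k
    have := congrArg (fun x => (x (π.symm k)).2) h
    simp only [rgC, Equiv.apply_symm_apply] at this
    exact rgS_inj this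
  rw [h2]

theorem rgC_surj {x : ι → Option ι × Fin 2} (hD : RgD x) (hO : ¬ RgO x) :
    ∃ π s, x = rgC π s := by
  have h1 : ∀ k, ∃ j, (x k).1 = some j := fun k => by
    rcases h : (x k).1 with _ | j
    · exact absurd ⟨k, h⟩ hO
    · exact ⟨j, rfl⟩
  choose f hf using h1
  have h2 : Function.Injective f := fun i j hij => by
    by_contra h
    exact hD i j h (by rw [hf, hf, hij])
  let π : Equiv.Perm ι := Equiv.ofBijective f (Finite.injective_iff_bijective.1 h2)
  refine ⟨π, fun j => finTwoEquiv (x (π.symm j)).2, funext fun k => ?_⟩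
  simp only [rgC, Equiv.symm_apply_apply, rgS_apply]
  exact Prod.ext (hf k) rfl

theorem rgC_D (π : Equiv.Perm ι) (s : ι → Bool) : RgD (rgC π s) := fun i j hij h =>
  hij (π.injective (Option.some.inj h))

theorem rgC_O (π : Equiv.Perm ι) (s : ι → Bool) : ¬ RgO (rgC π s) := by
  rintro ⟨k, hk⟩
  simp [rgC] at hk

theorem rgM_self (π : Equiv.Perm ι) (s : ι → Bool) (k : ι) :
    rgM π s k k = (none, rgS (s (π k))) := by
  simp [rgM]

theorem rgM_ne (π : Equiv.Perm ι) (s : ι → Bool) {k i : ι} (h : i ≠ k) :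
    rgM π s k i = (some (π i), rgS (s (π i))) := by
  simp [rgM, Function.update_of_ne h, rgC]

theorem rgM_snd (π : Equiv.Perm ι) (s : ι → Bool) (k i : ι) :
    (rgM π s k i).2 = rgS (s (π i)) := by
  by_cases h : i = k
  · subst h; rw [rgM_self]
  · rw [rgM_ne π s h]

theorem rgM_D (π : Equiv.Perm ι) (s : ι → Bool) (k : ι) : RgD (rgM π s k) := by
  intro i j hij h
  by_cases hi : i = k
  · subst hi
    rw [rgM_self, rgM_ne π s hij.symm] at h
    simp at h
  · by_cases hj : j = k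
    · subst hj
      rw [rgM_self, rgM_ne π s hij] at h
      simp at h
    · rw [rgM_ne π s hi, rgM_ne π s hj] at h
      exact hij (π.injective (Option.some.inj h))

theorem rgM_O (π : Equiv.Perm ι) (s : ι → Bool) (k : ι) : RgO (rgM π s k) :=
  ⟨k, by rw [rgM_self]⟩

theorem rgM_back (π : Equiv.Perm ι) (s : ι → Bool) (k : ι) :
    Function.update (rgM π s k) k (some (π k), rgS (s (π k))) = rgC π s := by
  unfold rgM
  rw [Function.update_idem]
  exact Function.update_eq_self k (rgC π s)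

theorem rgM_inj :
    Function.Injective fun p : Equiv.Perm ι × (ι → Bool) × ι => rgM p.1 p.2.1 p.2.2 := by
  rintro ⟨π, s, k⟩ ⟨π', s', k'⟩ h
  simp only at h
  have h0 : k = k' := by
    by_contra hk
    have := congrArg (fun x => (x k).1) h
    simp only [rgM_self, rgM_ne π' s' hk] at this
    simp at this
  subst h0
  have h1 : ∀ i, i ≠ k → π i = π' i := fun i hi => by
    have := congrArg (fun x => (x i).1) h
    simpa only [rgM_ne _ _ hi, Option.some.injEq] using this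
  have h2 : π k = π' k := by
    by_contra hk
    have h3 : π'.symm (π k) ≠ k := fun h4 => hk (by rw [← h4]; simp [h4]; exact (Equiv.symm_apply_eq _).1 h4)
    have h5 := h1 _ h3
    rw [Equiv.apply_symm_apply] at h5
    exact h3 (π.injective h5)
  have h3 : π = π' := by
    ext i
    by_cases hi : i = k
    · rw [hi, h2]
    · exact h1 i hi
  subst h3
  have h4 : s = s' := by
    funext j
    have := congrArg (fun x => (x (π.symm j)).2) h
    simp only [rgM_snd, Equiv.apply_symm_apply] at this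
    exact rgS_inj this
  rw [h4]

theorem rgM_surj {x : ι → Option ι × Fin 2} (hD : RgD x) (hO : RgO x) :
    ∃ π s k, x = rgM π s k := by
  obtain ⟨k, hk⟩ := hO
  -- an empty home
  have h1 : ∃ j, ∀ i, (x i).1 ≠ some j := by
    by_contra h
    push Not at h
    choose g hg using h
    have h2 : Function.Injective g := fun a b hab => by
      have := hg a
      rw [hab, hg b] at this
      exact (Option.some.inj this).symm
    obtain ⟨a, ha⟩ := (Finite.injective_iff_surjective.1 h2) k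
    have := hg a
    rw [ha, hk] at this
    simp at this
  obtain ⟨j, hj⟩ := h1
  have h2 : RgD (Function.update x k (some j, (x k).2)) := by
    intro a b hab
    by_cases ha : a = k
    · subst ha
      rw [Function.update_self, Function.update_of_ne hab.symm]
      exact (hj b).symm
    · by_cases hb : b = k
      · subst hb
        rw [Function.update_self, Function.update_of_ne hab]
        exact hj a
      · rw [Function.update_of_ne ha, Function.update_of_ne hb]
        exact hD a b hab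
  have h3 : ¬ RgO (Function.update x k (some j, (x k).2)) := by
    rintro ⟨a, ha⟩
    by_cases h : a = k
    · subst h
      simp at ha
    · rw [Function.update_of_ne h] at ha
      exact hD a k h (by rw [ha, hk])
  obtain ⟨π, s, h4⟩ := rgC_surj h2 h3
  refine ⟨π, s, k, ?_⟩
  have h5 : (x k).2 = rgS (s (π k)) := by
    have := congrArg (fun y => (y k).2) h4
    simpa [rgC] using this
  unfold rgM
  rw [← h4, Function.update_idem, ← h5, ← hk]
  exact (Function.update_eq_self k x).symm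

theorem rg_sumC (F : (ι → Option ι × Fin 2) → ℝ) (h : ∀ x, ¬ RgD x ∨ RgO x → F x = 0) :
    ∑ x, F x = ∑ π : Equiv.Perm ι, ∑ s : ι → Bool, F (rgC π s) := by
  rw [← Fintype.sum_prod_type']
  refine (Fintype.sum_of_injective _ rgC_inj _ _ (fun x hx => h x ?_) fun _ => rfl).symm
  by_contra h1
  push Not at h1
  obtain ⟨π, s, rfl⟩ := rgC_surj h1.1 h1.2
  exact hx ⟨(π, s), rfl⟩

theorem rg_sumM (F : (ι → Option ι × Fin 2) → ℝ) (h : ∀ x, ¬ RgD x ∨ ¬ RgO x → F x = 0) :
    ∑ x, F x = ∑ π : Equiv.Perm ι, ∑ s : ι → Bool, ∑ k, F (rgM π s k) := by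
  have e : ∑ π : Equiv.Perm ι, ∑ s : ι → Bool, ∑ k, F (rgM π s k) =
      ∑ p : Equiv.Perm ι × (ι → Bool) × ι, F (rgM p.1 p.2.1 p.2.2) := by
    rw [Fintype.sum_prod_type]
    simp only [Fintype.sum_prod_type]
  rw [e]
  refine (Fintype.sum_of_injective _ rgM_inj _ _ (fun x hx => h x ?_) fun _ => rfl).symm
  by_contra h1
  push Not at h1
  obtain ⟨π, s, k, rfl⟩ := rgM_surj h1.1 h1.2
  exact hx ⟨(π, s, k), rfl⟩

theorem rg_hcok {A : FSt ι (Option ι)} :
    HCok (fun _ => True) A ↔ ∀ x, ¬ RgD x → A x = 0 := by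
  constructor
  · intro h x hx
    unfold RgD at hx
    push Not at hx
    obtain ⟨i, j, hij, h1⟩ := hx
    exact h x i j hij h1 trivial
  · intro h x i j hij h1 _
    exact h x fun hD => hD i j hij h1

theorem RgD.comp_iff (x : ι → Option ι × Fin 2) (σ : Equiv.Perm ι) : RgD (x ∘ σ) ↔ RgD x := by
  constructor
  · intro h i j hij
    simpa using h (σ.symm i) (σ.symm j) (σ.symm.injective.ne hij)
  · intro h i j hij
    exact h (σ i) (σ j) (σ.injective.ne hij)

theorem RgO.comp_iff (x : ι → Option ι × Fin 2) (σ : Equiv.Perm ι) : RgO (x ∘ σ) ↔ RgO x := by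
  constructor
  · rintro ⟨k, hk⟩
    exact ⟨σ k, hk⟩
  · rintro ⟨k, hk⟩
    exact ⟨σ.symm k, by simpa using hk⟩

/-- Antisymmetric hard-core states with the mediator empty. -/
def rgK (ι : Type) [Fintype ι] [DecidableEq ι] : Submodule ℝ (FSt ι (Option ι)) where
  carrier := {A | Anti A ∧ ∀ x, ¬ RgD x ∨ RgO x → A x = 0}
  add_mem' := by
    rintro A B ⟨h1, h2⟩ ⟨h3, h4⟩
    refine ⟨fun σ x => ?_, fun x hx => ?_⟩
    · simp only [Pi.add_apply, h1 σ x, h3 σ x]; ring
    · simp only [Pi.add_apply, h2 x hx, h4 x hx, add_zero]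
  zero_mem' := ⟨fun σ x => by simp, fun x _ => rfl⟩
  smul_mem' := by
    rintro c A ⟨h1, h2⟩
    refine ⟨fun σ x => ?_, fun x hx => ?_⟩
    · simp only [Pi.smul_apply, h1 σ x, smul_eq_mul]; ring
    · simp only [Pi.smul_apply, h2 x hx, smul_zero]

/-- Hard-core states with the mediator occupied. -/
def rgQ (ι : Type) [Fintype ι] [DecidableEq ι] : Submodule ℝ (FSt ι (Option ι)) where
  carrier := {A | ∀ x, ¬ RgD x ∨ ¬ RgO x → A x = 0}
  add_mem' := by
    intro A B h2 h4 x hx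
    simp only [Pi.add_apply, h2 x hx, h4 x hx, add_zero]
  zero_mem' := fun x _ => rfl
  smul_mem' := by
    intro c A h2 x hx
    simp only [Pi.smul_apply, h2 x hx, smul_zero]

theorem rg_sign_sq (π : Equiv.Perm ι) :
    ((Equiv.Perm.sign π : ℤ) : ℝ) * ((Equiv.Perm.sign π : ℤ) : ℝ) = 1 := by
  rw [← Int.cast_mul, ← Units.val_mul, Int.units_mul_self]
  simp

theorem rg_anti_fmat {V : Type} [Fintype V] [DecidableEq V] (h : Matrix V V ℝ) {A : FSt ι V}
    (hA : Anti A) : Anti (fmat ι h *ᵥ A : FSt ι V) := by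
  intro σ x
  rw [fmat_mulVec, fmat_mulVec, Finset.mul_sum]
  refine Eq.trans (Finset.sum_congr rfl fun i _ => ?_) (Equiv.sum_comp σ _)
  rw [Finset.mul_sum]
  refine Finset.sum_congr rfl fun v _ => ?_
  have e : Function.update (x ∘ σ) i (v, ((x ∘ σ) i).2) =
      Function.update x (σ i) (v, (x (σ i)).2) ∘ σ := by
    rw [Function.update_comp_eq_of_injective _ σ.injective]
    rfl
  rw [e, hA σ]
  simp only [Function.comp_apply]
  ring

theorem rg_H0_C (A : FSt ι (Option ι)) (x : ι → Option ι × Fin 2) (hx : ¬ RgO x) :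
    (fmat ι (Matrix.diagonal rgE) *ᵥ A) x = 0 := by
  rw [fmat_diagonal_mulVec, Finset.sum_eq_zero, zero_mul]
  intro i _
  rcases h : (x i).1 with _ | j
  · exact absurd ⟨i, h⟩ hx
  · rfl

theorem rg_H0_M (A : FSt ι (Option ι)) (π : Equiv.Perm ι) (s : ι → Bool) (k : ι) :
    (fmat ι (Matrix.diagonal rgE) *ᵥ A) (rgM π s k) = A (rgM π s k) := by
  rw [fmat_diagonal_mulVec, Finset.sum_eq_single k]
  · rw [rgM_self]; simp [rgE]
  · intro i _ hi
    rw [rgM_ne π s hi]; rfl
  · simp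

theorem rg_H0_Q {q d : FSt ι (Option ι)} (hq : q ∈ rgQ ι) :
    q ⬝ᵥ fmat ι (Matrix.diagonal rgE) *ᵥ d = q ⬝ᵥ d := by
  unfold dotProduct
  rw [rg_sumM _ fun x hx => by rw [hq x hx, zero_mul],
    rg_sumM _ fun x hx => by rw [hq x hx, zero_mul]]
  simp only [rg_H0_M]

theorem rgH_transpose {T : ι → ι → ℝ} (hT : ∀ i j, T i j = T j i) (τ : ℝ) :
    (rgH T τ)ᵀ = rgH T τ := by
  ext u v
  rcases u with _ | i <;> rcases v with _ | j
  · rfl
  · rfl
  · rfl
  · simp [rgH, hT j i]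

theorem rg_pertData {T : ι → ι → ℝ} (hT : ∀ i j, T i j = T j i) {τ c Δ v : ℝ} (hc0 : 0 ≤ c)
    (hc : ∀ i j, |T i j| ≤ c) (hτ : |τ| ≤ c)
    (hv : Fintype.card ι * ((Fintype.card ι + 1) * c) ≤ v) (hΔ : 0 < Δ) (hb : 4 * v ≤ Δ) :
    PertData (fmat ι (Matrix.diagonal rgE)) (fmat ι (rgH T τ)) (rgK ι) (rgQ ι) Δ v where
  symm0 := by rw [fmat_transpose, Matrix.diagonal_transpose]
  symmV := by rw [fmat_transpose, rgH_transpose hT]
  orth := by
    intro p hp q hq
    refine Finset.sum_eq_zero fun x _ => ?_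
    by_cases h : RgO x
    · rw [hp.2 x (Or.inr h), zero_mul]
    · rw [hq x (Or.inr h), mul_zero]
  ker := by
    intro p hp
    funext x
    by_cases h : RgO x
    · rw [fmat_diagonal_mulVec, hp.2 x (Or.inr h), mul_zero]; rfl
    · exact rg_H0_C p x h
  gap := fun q hq => (rg_H0_Q hq).ge
  bd := by
    have h1 : OpLe (rgH T τ) (Fintype.card (Option ι) * c) := by
      refine OpLe.of_entry fun u v => ?_
      rcases u with _ | i <;> rcases v with _ | j <;> simp [rgH, hc0, hτ, hc]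
    rw [Fintype.card_option] at h1
    push_cast at h1
    exact (h1.fmat (by positivity)).mono (by positivity) hv
  v_nonneg := le_trans (by positivity) hv
  Δ_pos := hΔ
  big := hb

/-- A hop from the all-at-home configurations is blocked or leaves `K`. -/
theorem rg_Vp_C {T : ι → ι → ℝ} (hT0 : ∀ i, T i i = 0) (τ : ℝ) {p : FSt ι (Option ι)}
    (hp : p ∈ rgK ι) (π : Equiv.Perm ι) (s : ι → Bool) :
    (fmat ι (rgH T τ) *ᵥ p) (rgC π s) = 0 := by
  rw [fmat_mulVec]
  refine Finset.sum_eq_zero fun i _ => Finset.sum_eq_zero fun v _ => ?_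
  rcases v with _ | j
  · rw [hp.2 _ (Or.inr ⟨i, by simp⟩), mul_zero]
  · by_cases h : j = π i
    · subst h
      simp [rgH, rgC, hT0]
    · rw [hp.2 _ (Or.inl fun hD => ?_), mul_zero]
      have h1 : π.symm j ≠ i := fun h2 => h (by rw [← h2]; simp)
      refine hD _ _ h1 ?_
      rw [Function.update_of_ne h1, Function.update_self]
      simp [rgC]

theorem rg_Vp_M (T : ι → ι → ℝ) (τ : ℝ) {p : FSt ι (Option ι)}
    (hp : p ∈ rgK ι) (π : Equiv.Perm ι) (s : ι → Bool) (k : ι) :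
    (fmat ι (rgH T τ) *ᵥ p) (rgM π s k) = -τ * p (rgC π s) := by
  rw [fmat_mulVec, Finset.sum_eq_single k, Finset.sum_eq_single (some (π k))]
  · rw [rgM_snd, rgM_back, rgM_self]
    simp [rgH]
  · intro v _ hv
    rcases v with _ | j
    · rw [hp.2 _ (Or.inr ⟨k, by simp⟩), mul_zero]
    · rw [hp.2 _ (Or.inl fun hD => ?_), mul_zero]
      have h1 : π.symm j ≠ k := fun h2 => hv (by rw [← h2]; simp)
      refine hD _ _ h1 ?_
      rw [Function.update_of_ne h1, Function.update_self, rgM_ne π s h1]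
      simp
  · simp
  · intro i _ hi
    refine Finset.sum_eq_zero fun v _ => ?_
    rw [hp.2 _ (Or.inr ⟨k, ?_⟩), mul_zero]
    rw [Function.update_of_ne hi.symm, rgM_self]
  · simp

theorem rgM_hop (π : Equiv.Perm ι) (s : ι → Bool) {k i : ι} (hi : i ≠ k) :
    Function.update (rgM π s k) i (some (π k), rgS (s (π i))) =
      rgM (π * Equiv.swap i k) (s ∘ Equiv.swap (π i) (π k)) k := by
  funext l
  by_cases h1 : l = i
  · subst h1
    rw [Function.update_self, rgM_ne _ _ hi]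
    simp
  · rw [Function.update_of_ne h1]
    by_cases h2 : l = k
    · subst h2
      rw [rgM_self, rgM_self]
      simp
    · rw [rgM_ne _ _ h2, rgM_ne _ _ h2]
      simp [Equiv.swap_apply_of_ne_of_ne h1 h2,
        Equiv.swap_apply_of_ne_of_ne (π.injective.ne h1) (π.injective.ne h2)]

theorem rg_Vd_M {T : ι → ι → ℝ} (hT0 : ∀ i, T i i = 0) (τ : ℝ) {d : FSt ι (Option ι)}
    (hd : d ∈ rgQ ι) (π : Equiv.Perm ι) (s : ι → Bool) (k : ι) :
    (fmat ι (rgH T τ) *ᵥ d) (rgM π s k) =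
      ∑ i, -T (π i) (π k) * d (rgM (π * Equiv.swap i k) (s ∘ Equiv.swap (π i) (π k)) k) := by
  rw [fmat_mulVec]
  refine Finset.sum_congr rfl fun i _ => ?_
  by_cases hi : i = k
  · subst hi
    rw [hT0, neg_zero, zero_mul]
    refine Finset.sum_eq_zero fun v _ => ?_
    rcases v with _ | j
    · rw [rgM_self]; simp [rgH]
    · rw [hd _ (Or.inr ?_), mul_zero]
      rintro ⟨l, hl⟩
      by_cases h : l = i
      · subst h
        simp at hl
      · rw [Function.update_of_ne h, rgM_ne π s h] at hl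
        simp at hl
  · rw [Finset.sum_eq_single (some (π k))]
    · rw [rgM_snd, rgM_hop π s hi, rgM_ne π s hi]
      simp [rgH]
    · intro v _ hv
      rcases v with _ | j
      · rw [hd _ (Or.inl fun hD => hD i k hi ?_), mul_zero]
        rw [Function.update_self, Function.update_of_ne (Ne.symm hi), rgM_self]
      · by_cases h : j = π i
        · subst h
          rw [rgM_ne π s hi]
          simp [rgH, hT0]
        · rw [hd _ (Or.inl fun hD => ?_), mul_zero]
          have h1 : π.symm j ≠ i := fun h2 => h (by rw [← h2]; simp)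
          have h3 : π.symm j ≠ k := fun h2 => hv (by rw [← h2]; simp)
          refine hD _ _ h1 ?_
          rw [Function.update_of_ne h1, Function.update_self, rgM_ne π s h3]
          simp
    · simp

open Classical in
/-- The first order correction. -/
def rgD (T : ι → ι → ℝ) (τ Δ : ℝ) (p : FSt ι (Option ι)) : FSt ι (Option ι) :=
  fun x => if RgD x ∧ RgO x then (fmat ι (rgH T τ) *ᵥ p) x / Δ else 0

theorem rgD_mem (T : ι → ι → ℝ) (τ Δ : ℝ) (p : FSt ι (Option ι)) : rgD T τ Δ p ∈ rgQ ι := by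
  intro x hx
  exact if_neg (by tauto)

theorem rgD_anti (T : ι → ι → ℝ) (τ Δ : ℝ) {p : FSt ι (Option ι)} (hp : Anti p) :
    Anti (rgD T τ Δ p) := by
  intro σ x
  unfold rgD
  rw [RgD.comp_iff, RgO.comp_iff, rg_anti_fmat _ hp σ x]
  split_ifs <;> ring

theorem rgD_M (T : ι → ι → ℝ) (τ Δ : ℝ) {p : FSt ι (Option ι)}
    (hp : p ∈ rgK ι) (π : Equiv.Perm ι) (s : ι → Bool) (k : ι) :
    rgD T τ Δ p (rgM π s k) = -τ / Δ * p (rgC π s) := by
  unfold rgD
  rw [if_pos ⟨rgM_D π s k, rgM_O π s k⟩, rg_Vp_M T τ hp]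
  ring

theorem rgD_corr (T : ι → ι → ℝ) (τ : ℝ) {Δ : ℝ} (hΔ : 0 < Δ) {p : FSt ι (Option ι)}
    (hp : p ∈ rgK ι) :
    IsCorr (fmat ι (Matrix.diagonal rgE)) (fmat ι (rgH T τ)) (rgQ ι) Δ p (rgD T τ Δ p) := by
  refine ⟨rgD_mem T τ Δ p, fun q hq => ?_⟩
  rw [rg_H0_Q hq]
  unfold dotProduct
  rw [rg_sumM _ fun x hx => by rw [hq x hx, zero_mul],
    rg_sumM _ fun x hx => by rw [hq x hx, zero_mul]]
  simp only [Finset.mul_sum, rgD_M T τ Δ hp, rg_Vp_M T τ hp]
  refine Finset.sum_congr rfl fun π _ => Finset.sum_congr rfl fun s _ =>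
    Finset.sum_congr rfl fun k _ => ?_
  field_simp

theorem rg_norm {p : FSt ι (Option ι)} (hp : p ∈ rgK ι) :
    p ⬝ᵥ p = Fintype.card (Equiv.Perm ι) *
      ((fun s => p (rgC 1 s)) ⬝ᵥ fun s => p (rgC 1 s)) := by
  unfold dotProduct
  rw [rg_sumC _ fun x hx => by rw [hp.2 x hx, zero_mul], ← nsmul_eq_mul, ← Finset.card_univ,
    ← Finset.sum_const]
  refine Finset.sum_congr rfl fun π _ => Finset.sum_congr rfl fun s _ => ?_
  rw [rgC_eq, hp.1]
  linear_combination (p (rgC 1 s) * p (rgC 1 s)) * rg_sign_sq π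

theorem rg_eff {T : ι → ι → ℝ} (hT0 : ∀ i, T i i = 0) (τ Δ : ℝ) {p : FSt ι (Option ι)}
    (hp : p ∈ rgK ι) :
    effForm (fmat ι (rgH T τ)) p (rgD T τ Δ p) =
      Fintype.card (Equiv.Perm ι) * ((fun s => p (rgC 1 s)) ⬝ᵥ
        ((τ / Δ) ^ 2 • ∑ i, ∑ j, T i j • swapMat i j) *ᵥ fun s => p (rgC 1 s)) -
      Fintype.card ι * (τ ^ 2 / Δ) * (p ⬝ᵥ p) := by
  have hd := rgD_mem T τ Δ p
  have e1 : p ⬝ᵥ fmat ι (rgH T τ) *ᵥ p = 0 := by
    unfold dotProduct
    rw [rg_sumC _ fun x hx => by rw [hp.2 x hx, zero_mul]]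
    simp only [rg_Vp_C hT0 τ hp, mul_zero, Finset.sum_const_zero]
  have e2 : rgD T τ Δ p ⬝ᵥ fmat ι (rgH T τ) *ᵥ p = Fintype.card ι * (τ ^ 2 / Δ) * (p ⬝ᵥ p) := by
    unfold dotProduct
    rw [rg_sumM _ fun x hx => by rw [hd x hx, zero_mul],
      rg_sumC _ fun x hx => by rw [hp.2 x hx, zero_mul]]
    simp only [Finset.mul_sum, rgD_M T τ Δ hp, rg_Vp_M T τ hp, Finset.sum_const, Finset.card_univ,
      nsmul_eq_mul]
    refine Finset.sum_congr rfl fun π _ => Finset.sum_congr rfl fun s _ => ?_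
    ring
  have e3 : rgD T τ Δ p ⬝ᵥ fmat ι (rgH T τ) *ᵥ rgD T τ Δ p =
      Fintype.card (Equiv.Perm ι) * ((fun s => p (rgC 1 s)) ⬝ᵥ
        ((τ / Δ) ^ 2 • ∑ i, ∑ j, T i j • swapMat i j) *ᵥ fun s => p (rgC 1 s)) := by
    unfold dotProduct
    rw [rg_sumM _ fun x hx => by rw [hd x hx, zero_mul], ← nsmul_eq_mul, ← Finset.card_univ,
      ← Finset.sum_const]
    refine Finset.sum_congr rfl fun π _ => Finset.sum_congr rfl fun s _ => ?_
    simp only [Matrix.smul_mulVec, Matrix.sum_mulVec, Pi.smul_apply, Finset.sum_apply,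
      swapMat_mulVec, smul_eq_mul, rg_Vd_M hT0 τ hd, rgD_M T τ Δ hp, Finset.mul_sum]
    rw [Finset.sum_comm]
    refine Eq.trans (Finset.sum_congr rfl fun i _ => ?_) (Equiv.sum_comp π _)
    refine Eq.trans (Finset.sum_congr rfl fun k _ => ?_) (Equiv.sum_comp π _)
    by_cases h : i = k
    · subst h
      simp [hT0]
    · rw [rgC_eq π, rgC_eq (π * Equiv.swap i k), hp.1, hp.1, Equiv.Perm.sign_mul,
        Equiv.Perm.sign_swap h]
      push_cast
      linear_combination (p (rgC 1 s) * ((τ / Δ) ^ 2 *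
        (T (π i) (π k) * p (rgC 1 (s ∘ Equiv.swap (π i) (π k)))))) * rg_sign_sq π
  unfold effForm
  rw [e1, e2, e3]
  ring

open Classical in
/-- The fermionic state of a spin function. -/
def rgEmb (p₀ : (ι → Bool) → ℝ) : FSt ι (Option ι) :=
  fun x => ∑ π : Equiv.Perm ι, ∑ s : ι → Bool,
    if x = rgC π s then ((Equiv.Perm.sign π : ℤ) : ℝ) * p₀ s else 0

theorem rgEmb_C (p₀ : (ι → Bool) → ℝ) (π : Equiv.Perm ι) (s : ι → Bool) :
    rgEmb p₀ (rgC π s) = ((Equiv.Perm.sign π : ℤ) : ℝ) * p₀ s := by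
  unfold rgEmb
  rw [Finset.sum_eq_single π, Finset.sum_eq_single s, if_pos rfl]
  · intro s' _ hs
    refine if_neg fun h => hs ?_
    exact (congrArg Prod.snd (rgC_inj (a₁ := (π, s)) (a₂ := (π, s')) h)).symm
  · simp
  · intro π' _ hπ
    refine Finset.sum_eq_zero fun s' _ => if_neg fun h => hπ ?_
    exact (congrArg Prod.fst (rgC_inj (a₁ := (π, s)) (a₂ := (π', s')) h)).symm
  · simp

theorem rgEmb_zero (p₀ : (ι → Bool) → ℝ) (x : ι → Option ι × Fin 2) (hx : ¬ RgD x ∨ RgO x) :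
    rgEmb p₀ x = 0 := by
  refine Finset.sum_eq_zero fun π _ => Finset.sum_eq_zero fun s _ => if_neg ?_
  rintro rfl
  rcases hx with h | h
  · exact h (rgC_D π s)
  · exact rgC_O π s h

theorem rgEmb_mem (p₀ : (ι → Bool) → ℝ) : rgEmb p₀ ∈ rgK ι := by
  refine ⟨fun σ x => ?_, rgEmb_zero p₀⟩
  by_cases hx : ¬ RgD x ∨ RgO x
  · rw [rgEmb_zero p₀ x hx, rgEmb_zero p₀ _ (by rwa [RgD.comp_iff, RgO.comp_iff]), mul_zero]
  · push Not at hx
    obtain ⟨π, s, rfl⟩ := rgC_surj hx.1 hx.2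
    have e : rgC π s ∘ σ = rgC (π * σ) s := rfl
    rw [e, rgEmb_C, rgEmb_C, Equiv.Perm.sign_mul]
    push_cast
    ring

theorem ring_yes {T : ι → ι → ℝ} (hT : ∀ i j, T i j = T j i) (hT0 : ∀ i, T i i = 0)
    {τ c Δ v a : ℝ} (hc0 : 0 ≤ c) (hc : ∀ i j, |T i j| ≤ c) (hτ : |τ| ≤ c)
    (hv : Fintype.card ι * ((Fintype.card ι + 1) * c) ≤ v) (hΔ : 0 < Δ) (hb : 4 * v ≤ Δ)
    (h : MYes ((τ / Δ) ^ 2 • ∑ i, ∑ j, T i j • swapMat i j : Matrix (ι → Bool) (ι → Bool) ℝ) a) :
    FYes ι (fun _ => True) (Δ • Matrix.diagonal rgE + rgH T τ)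
      (a - Fintype.card ι * (τ ^ 2 / Δ) +
        |a - Fintype.card ι * (τ ^ 2 / Δ)| * v ^ 2 / Δ ^ 2) := by
  obtain ⟨p₀, h0, h1⟩ := h
  have hP := rg_pertData hT hc0 hc hτ hv hΔ hb
  have hp := rgEmb_mem p₀
  have e : (fun s => rgEmb p₀ (rgC 1 s)) = p₀ := by
    funext s
    rw [rgEmb_C]
    simp
  have hp0 : rgEmb p₀ ≠ 0 := by
    intro h2
    rw [h2] at e
    exact h0 e.symm
  have he : effForm (fmat ι (rgH T τ)) (rgEmb p₀) (rgD T τ Δ (rgEmb p₀)) ≤
      (a - Fintype.card ι * (τ ^ 2 / Δ)) * (rgEmb p₀ ⬝ᵥ rgEmb p₀) := by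
    rw [rg_eff hT0 τ Δ hp, sub_mul, e]
    refine sub_le_sub_right ?_ _
    rw [rg_norm hp, e, mul_left_comm]
    exact mul_le_mul_of_nonneg_left h1 (Nat.cast_nonneg _)
  obtain ⟨h2, h3⟩ := pert_yes hP hp hp0 (rgD_corr T τ hΔ hp) he
  refine ⟨_, fun σ x => ?_, rg_hcok.2 fun x hx => ?_, h2, ?_⟩
  · simp only [Pi.sub_apply, hp.1 σ x, rgD_anti T τ Δ hp.1 σ x]
    ring
  · simp only [Pi.sub_apply, hp.2 x (Or.inl hx), rgD_mem T τ Δ _ x (Or.inl hx), sub_zero]
  · rwa [fmat_add, fmat_smul]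

theorem ring_no {T : ι → ι → ℝ} (hT : ∀ i j, T i j = T j i) (hT0 : ∀ i, T i i = 0)
    {τ c Δ v b : ℝ} (hc0 : 0 ≤ c) (hc : ∀ i j, |T i j| ≤ c) (hτ : |τ| ≤ c)
    (hv : Fintype.card ι * ((Fintype.card ι + 1) * c) ≤ v) (hΔ : 0 < Δ) (hb : 4 * v ≤ Δ)
    (hl : |b - Fintype.card ι * (τ ^ 2 / Δ)| ≤ v)
    (h : MNo ((τ / Δ) ^ 2 • ∑ i, ∑ j, T i j • swapMat i j : Matrix (ι → Bool) (ι → Bool) ℝ) b) :
    FNo ι (fun _ => True) (Δ • Matrix.diagonal rgE + rgH T τ)
      (b - Fintype.card ι * (τ ^ 2 / Δ) -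
        (|b - Fintype.card ι * (τ ^ 2 / Δ)| * v ^ 2 / Δ ^ 2 + 16 * v ^ 4 / Δ ^ 3)) := by
  classical
  intro A hA hH
  have hP := rg_pertData hT hc0 hc hτ hv hΔ hb
  rw [rg_hcok] at hH
  let p : FSt ι (Option ι) := fun x => if RgO x then 0 else A x
  let q : FSt ι (Option ι) := fun x => if RgO x then A x else 0
  have hp : p ∈ rgK ι := by
    refine ⟨fun σ x => ?_, fun x hx => ?_⟩
    · simp only [p, RgO.comp_iff, hA σ x]
      split_ifs <;> simp
    · rcases hx with hx | hx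
      · simp only [p, hH x hx, ite_self]
      · exact if_pos hx
  have hq : q ∈ rgQ ι := by
    intro x hx
    rcases hx with hx | hx
    · simp only [q, hH x hx, ite_self]
    · exact if_neg hx
  have e : p + q = A := by
    funext x
    simp only [p, q, Pi.add_apply]
    split_ifs <;> simp
  have he : (b - Fintype.card ι * (τ ^ 2 / Δ)) * (p ⬝ᵥ p) ≤
      effForm (fmat ι (rgH T τ)) p (rgD T τ Δ p) := by
    rw [rg_eff hT0 τ Δ hp, sub_mul]
    refine sub_le_sub_right ?_ _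
    rw [rg_norm hp, mul_left_comm]
    exact mul_le_mul_of_nonneg_left (h _) (Nat.cast_nonneg _)
  have h3 := pert_no hP hl hp hq (rgD_corr T τ hΔ hp) he
  rwa [e, ← fmat_smul, ← fmat_add] at h3

end Crest.Agent.R338
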