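import Crest.Agent.R338.FBasic
import Crest.Agent.R338.Word
import Crest.Agent.R338.Pert
import Crest.Agent.R338.Ring_Core

/-! # Stage A: swaps from ring exchange of hard-core fermions

Instance `(B, N, J, a, b)`.  Sites `0 … N-1` (homes) and `N` (the mediator), `N` particles, all sites
hard-core.  `r = 100 (B+1)^{12}` (any large polynomial), `Δ = r³`, `τ = r²`.  Table `t`:
`t i N = τ` (`i < N`), `t i j = J i j · r²/2` for `i < j < N`, `0` otherwise (so that
`2 (t i j) τ²/Δ² = J i j`); `ε N = Δ`, and `ε i = 0`.  One-body matrix `= Δ • diagonal 1_N + h₁`,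
`H0 = fmat (diagonal 1_N)`, `V = fmat h₁`, `‖V‖ ≤ v = N (N+1)(B+1) r²`.
`S` = antisymmetric hard-core states, `K` = those with the mediator empty, `Q` = those supported on
configurations with the mediator occupied (exactly once, so `H0 q = q`).  `K ≅` spin functions:
for `p₀ : (Fin N → Bool) → ℝ` let `E p₀ x = sign π * p₀ (spin ∘ x ∘ π⁻¹)` if `π = site ∘ x` is a bijection
onto the homes, else `0`; every element of `K` is of this form (pigeonhole), `|E p₀|² = N! |p₀|²`.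
`d x = (V p) x / Δ` for the configurations `x` with pairwise different sites and the mediator occupied,
`0` otherwise.  Then `p⬝Vp = 0` (a hop home → home is blocked), `d⬝Vp = Δ|d|² = N τ²/Δ |p|² = N r |p|²`,
and `d⬝Vd = (τ²/Δ²) ∑_{i≠j} (t i j + t j i) N! p₀⬝swap i j p₀ = N! p₀⬝ swMat p₀` (sign: hop amplitude
`-t` times the sign `-1` of the transposition).  A convenient normalisation: for antisymmetric `A, A'`
supported on configurations with pairwise different sites, `A⬝A' = N! ∑` over one representative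
per orbit (for `d`: particle `i` on the mediator, particle `j ≠ i` at home `j`).
So thresholds shift by `-N r`; error `≤ 1/4` (`lam = a - N r`, `|lam| v²/Δ²` and `16 v⁴/Δ³` are
`O(poly(B)/r)`); multiply everything by `2` (`FYes.smul`). -/

set_option autoImplicit false
set_option linter.dupNamespace false
set_option linter.unusedVariables false

noncomputable section

namespace Crest.Agent.R338

open Crest.Agent.Lib.PT Matrix

/-- The large parameter. -/
def rgR (B : ℕ) : ℕ := 100 * (B + 1) ^ 12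

@[fun_prop] theorem rgR_pt {α : Type} [Enc α] {B : α → ℕ} (h : PT B) : PT fun a => rgR (B a) :=
  (PT.const 100).nat_mul ((h.nat_add (PT.const 1)).nat_pow (PT.const 12) (PB.const 12))

theorem rgR_pb {α : Type} [Enc α] {B : α → ℕ} (h : PB B) : PB fun a => rgR (B a) :=
  (PB.const 100).mul ((h.add (PB.const 1)).pow 12)

theorem rgR_ge (B : ℕ) : 100 * (B + 1) ≤ rgR B :=
  Nat.mul_le_mul_left _ (Nat.le_self_pow (by norm_num) _)

theorem rgR_cast (B : ℕ) : (rgR B : ℝ) = 100 * (B + 1) ^ 12 := by simp [rgR]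

attribute [irreducible] rgR

/-- The (doubled) table of hoppings. -/
def rgTab (N r : ℕ) (J : List (List ℚ)) : List (List ℚ) :=
  (List.range N).map fun i => (List.range (N + 1)).map fun j =>
    if j = N then 2 * (r : ℚ) ^ 2 else if i < j then ent J i j * (r : ℚ) ^ 2 else 0

/-- The (doubled) site energies. -/
def rgEps (N r : ℕ) : List ℚ :=
  (List.range (N + 1)).map fun i => if i = N then 2 * (r : ℚ) ^ 3 else 0

/-- The reduction. -/
def rgMap (x : SWI) : HCI :=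
  (⟨2 * rgR x.1.n ^ 3⟩, x.2.1 + 1, x.2.1, rgTab (min x.2.1 x.1.n) (rgR x.1.n) x.2.2.1,
    rgEps (min x.2.1 x.1.n) (rgR x.1.n),
    2 * x.2.2.2.1 - 2 * (x.2.1 : ℚ) * (rgR x.1.n : ℚ) + 1 / 2,
    2 * x.2.2.2.2 - 2 * (x.2.1 : ℚ) * (rgR x.1.n : ℚ) - 1 / 2)

theorem rgTab_pt {α : Type} [Enc α] {N r : α → ℕ} {J : α → List (List ℚ)} (hN : PT N)
    (hN' : PB N) (hr : PT r) (hJ : PT J) : PT fun a => rgTab (N a) (r a) (J a) := by
  unfold rgTab
  fun_prop

theorem rgEps_pt {α : Type} [Enc α] {N r : α → ℕ} (hN : PT N)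
    (hN' : PB N) (hr : PT r) : PT fun a => rgEps (N a) (r a) := by
  unfold rgEps
  fun_prop

theorem rgMap_pt : PT rgMap := by
  have h1 : PB fun x : SWI => x.1.n := by fun_prop
  have h2 : PB fun x : SWI => min x.2.1 x.1.n := h1.mono fun x => min_le_right _ _
  have h3 : PT fun x : SWI => Un.mk (2 * rgR x.1.n ^ 3) :=
    PT.un_mk (by fun_prop) ((PB.const 2).mul ((rgR_pb h1).pow 3))
  have h4 : PT fun x : SWI => rgTab (min x.2.1 x.1.n) (rgR x.1.n) x.2.2.1 :=
    rgTab_pt (by fun_prop) h2 (by fun_prop) (by fun_prop)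
  have h5 : PT fun x : SWI => rgEps (min x.2.1 x.1.n) (rgR x.1.n) :=
    rgEps_pt (by fun_prop) h2 (by fun_prop)
  unfold rgMap
  exact h3.pair (PT.pair (by fun_prop) (PT.pair (by fun_prop) (h4.pair (h5.pair
    (PT.pair (by fun_prop) (by fun_prop))))))

theorem ent_rgTab (N r : ℕ) (J : List (List ℚ)) (i j : ℕ) :
    ent (rgTab N r J) i j = if i < N ∧ j < N + 1 then
      (if j = N then 2 * (r : ℚ) ^ 2 else if i < j then ent J i j * (r : ℚ) ^ 2 else 0) else 0 :=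
  ent_table N (N + 1) _ i j

theorem getD_rgEps (N r i : ℕ) :
    (rgEps N r).getD i 0 = if i = N then 2 * (r : ℚ) ^ 3 else 0 := by
  unfold rgEps
  by_cases h : i < N + 1
  · simp [List.getD_eq_getElem?_getD, h]
  · have h1 : i ≠ N := by omega
    simp [List.getD_eq_getElem?_getD, h, h1]

/-- Hoppings between the homes. -/
def rgT (N r : ℕ) (J : List (List ℚ)) (i j : Fin N) : ℝ :=
  (if i < j then (ent J i j : ℝ) * (r : ℝ) ^ 2 / 2 else 0) +
    if j < i then (ent J j i : ℝ) * (r : ℝ) ^ 2 / 2 else 0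

theorem rg_hcMat (N r : ℕ) (J : List (List ℚ)) :
    hcMat (N + 1) (rgTab N r J) (rgEps N r) =
      ((2 : ℝ) • ((r : ℝ) ^ 3 • Matrix.diagonal rgE + rgH (rgT N r J) ((r : ℝ) ^ 2))).submatrix
        finSuccEquivLast finSuccEquivLast := by
  ext u v
  simp only [hcMat, Matrix.of_apply, Matrix.submatrix_apply, ent_rgTab, getD_rgEps,
    Matrix.smul_apply, Matrix.add_apply, smul_eq_mul]
  induction u using Fin.lastCases with
  | last =>
    induction v using Fin.lastCases with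
    | last => simp [rgE, rgH]
    | cast j =>
      have h1 : Fin.last N ≠ j.castSucc := (Fin.castSucc_lt_last j).ne'
      simp [rgH, h1]
  | cast i =>
    induction v using Fin.lastCases with
    | last =>
      have h1 : i.castSucc ≠ Fin.last N := (Fin.castSucc_lt_last i).ne
      simp [rgH, h1]
    | cast j =>
      have hi := i.2
      have hj := j.2
      have hi' : i.val < N + 1 := by omega
      have hj' : j.val < N + 1 := by omega
      by_cases h : i = j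
      · subst h
        simp [rgE, rgH, rgT, hi.ne]
      · simp only [Fin.castSucc_inj, h, if_false, Fin.val_castSucc, hi, hj, hi', hj', hi.ne, hj.ne,
          and_self, if_true, finSuccEquivLast_castSucc, rgH, rgT, Matrix.of_apply, Option.elim,
          Fin.val_fin_lt]
        rw [Matrix.diagonal_apply_ne _ (by simpa using h)]
        split_ifs <;> push_cast <;> ring

theorem rg_swMat (N : ℕ) {r : ℕ} (hr : 0 < r) (J : List (List ℚ)) :
    ((((r : ℝ) ^ 2) / (r : ℝ) ^ 3) ^ 2 • ∑ i, ∑ j, rgT N r J i j • swapMat i j :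
      Matrix (Fin N → Bool) (Fin N → Bool) ℝ) = swMat N J := by
  have hr' : (r : ℝ) ≠ 0 := by positivity
  have e : (∑ i : Fin N, ∑ j : Fin N,
      (if j < i then (ent J j i : ℝ) * (r : ℝ) ^ 2 / 2 else 0) • swapMat i j :
        Matrix (Fin N → Bool) (Fin N → Bool) ℝ) =
      ∑ i : Fin N, ∑ j : Fin N,
        (if i < j then (ent J i j : ℝ) * (r : ℝ) ^ 2 / 2 else 0) • swapMat i j := by
    rw [Finset.sum_comm]
    refine Finset.sum_congr rfl fun i _ => Finset.sum_congr rfl fun j _ => ?_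
    rw [swapMat_comm]
  simp only [rgT, add_smul, Finset.sum_add_distrib, e]
  rw [← two_smul ℝ, smul_smul, swMat, Finset.smul_sum]
  refine Finset.sum_congr rfl fun i _ => ?_
  rw [Finset.smul_sum]
  refine Finset.sum_congr rfl fun j _ => ?_
  split_ifs
  · rw [smul_smul]
    congr 1
    field_simp
  · simp

theorem rgMap_valid {x : SWI} (hx : ValidSW x) : ValidHC (rgMap x) := by
  obtain ⟨⟨B⟩, N, J, a, b⟩ := x
  obtain ⟨h1, h2, h3, h4, h5, h6⟩ := hx
  simp only at h1 h2 h3 h4 h5 h6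
  have hr := rgR_ge B
  simp only [ValidHC, rgMap, Thr, min_eq_left h2, ent_rgTab, getD_rgEps]
  generalize rgR B = r at hr
  have hr3 : r ≤ r ^ 3 := Nat.le_self_pow (by norm_num) _
  have hq : (100 : ℚ) * (B + 1) ≤ r := by exact_mod_cast hr
  have hN : (N : ℚ) ≤ B := by exact_mod_cast h2
  have hB : (0 : ℚ) ≤ B := Nat.cast_nonneg _
  have hN0 : (0 : ℚ) ≤ N := Nat.cast_nonneg _
  have hr1 : (1 : ℚ) ≤ r := by linarith
  have hr2 : (r : ℚ) ≤ r ^ 2 := by nlinarith
  have hr4 : (100 : ℚ) * (B + 1) * r ^ 2 ≤ r ^ 3 := by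
    rw [pow_succ' (r : ℚ) 2]
    exact mul_le_mul_of_nonneg_right hq (by positivity)
  have hr5 : (N : ℚ) * r ≤ B * r ^ 2 := mul_le_mul hN hr2 (by positivity) hB
  have hr6 : (B : ℚ) * 1 ≤ B * r ^ 2 := mul_le_mul_of_nonneg_left (by linarith) hB
  have hr7 : (0 : ℚ) ≤ N * r := by positivity
  have ha := abs_le.1 h4
  have hb := abs_le.1 h5
  refine ⟨by omega, by omega, h1, by omega, fun i j => ?_, fun i => ?_, ?_, ?_, by linarith⟩
  · have h7 := h3 i j
    have h8 : ent J i j * r ^ 2 ≤ B * r ^ 2 := mul_le_mul_of_nonneg_right h7.2 (by positivity)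
    have h9 : 0 ≤ ent J i j * r ^ 2 := mul_nonneg h7.1 (by positivity)
    push_cast
    split_ifs
    · exact ⟨by positivity, by nlinarith⟩
    · exact ⟨h9, by nlinarith⟩
    · exact ⟨le_rfl, by positivity⟩
    · exact ⟨le_rfl, by positivity⟩
  · push_cast
    split_ifs
    · rw [abs_of_nonneg (by positivity)]
    · rw [abs_zero]; positivity
  · push_cast
    rw [abs_le]
    constructor <;> nlinarith
  · push_cast
    rw [abs_le]
    constructor <;> nlinarith

theorem rg_err {B N : ℕ} (h2 : N ≤ B) {a : ℝ} (ha : |a| ≤ B) :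
    |a - N * (((rgR B : ℝ) ^ 2) ^ 2 / (rgR B : ℝ) ^ 3)| ≤ (B + 1) ^ 3 * (rgR B : ℝ) ^ 2 ∧
    |a - N * (((rgR B : ℝ) ^ 2) ^ 2 / (rgR B : ℝ) ^ 3)| * ((B + 1) ^ 3 * (rgR B : ℝ) ^ 2) ^ 2 /
        ((rgR B : ℝ) ^ 3) ^ 2 +
      16 * ((B + 1) ^ 3 * (rgR B : ℝ) ^ 2) ^ 4 / ((rgR B : ℝ) ^ 3) ^ 3 ≤ 1 / 4 := by
  have hq : (100 : ℝ) * (B + 1) ≤ rgR B := by exact_mod_cast rgR_ge B
  have he := rgR_cast B
  have hN : (N : ℝ) ≤ B := by exact_mod_cast h2
  have hB : (0 : ℝ) ≤ B := Nat.cast_nonneg _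
  have hN0 : (0 : ℝ) ≤ N := Nat.cast_nonneg _
  generalize (rgR B : ℝ) = r at hq he
  have hr0 : 0 < r := by linarith
  have e1 : (r ^ 2) ^ 2 / r ^ 3 = r := by field_simp
  rw [e1]
  have h3 : |a - N * r| ≤ (B + 1) * r := by
    have h4 := abs_le.1 ha
    have h5 : N * r ≤ B * r := mul_le_mul_of_nonneg_right hN hr0.le
    have h6 : 0 ≤ N * r := by positivity
    have h7 : 0 ≤ B * r := by positivity
    rw [abs_le]
    constructor <;> nlinarith
  have h1 : (1 : ℝ) ≤ B + 1 := by linarith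
  refine ⟨h3.trans (mul_le_mul (le_self_pow₀ h1 (by norm_num))
    (le_self_pow₀ (by linarith) (by norm_num)) hr0.le (by positivity)), ?_⟩
  have h4 : |a - N * r| * ((B + 1) ^ 3 * r ^ 2) ^ 2 / (r ^ 3) ^ 2 ≤ 1 / 100 := by
    calc _ ≤ (B + 1) * r * ((B + 1) ^ 3 * r ^ 2) ^ 2 / (r ^ 3) ^ 2 := by gcongr
      _ = (B + 1) ^ 7 / r := by field_simp
      _ ≤ (B + 1) ^ 12 / r :=
          div_le_div_of_nonneg_right (pow_le_pow_right₀ h1 (by norm_num)) hr0.le
      _ = 1 / 100 := by rw [he]; field_simp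
  have h5 : 16 * ((B + 1) ^ 3 * r ^ 2) ^ 4 / (r ^ 3) ^ 3 = 16 / 100 := by
    calc _ = 16 * (B + 1) ^ 12 / r := by field_simp
      _ = _ := by rw [he]; field_simp
  linarith

theorem rg_params {B N : ℕ} (h2 : N ≤ B) {J : List (List ℚ)}
    (h3 : ∀ i j, 0 ≤ ent J i j ∧ ent J i j ≤ B) :
    (∀ i j, rgT N (rgR B) J i j = rgT N (rgR B) J j i) ∧ (∀ i, rgT N (rgR B) J i i = 0) ∧
    (0 : ℝ) ≤ (B + 1) * (rgR B : ℝ) ^ 2 ∧
    (∀ i j, |rgT N (rgR B) J i j| ≤ (B + 1) * (rgR B : ℝ) ^ 2) ∧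
    |(rgR B : ℝ) ^ 2| ≤ (B + 1) * (rgR B : ℝ) ^ 2 ∧
    (Fintype.card (Fin N) : ℝ) * ((Fintype.card (Fin N) + 1) * ((B + 1) * (rgR B : ℝ) ^ 2)) ≤
      (B + 1) ^ 3 * (rgR B : ℝ) ^ 2 ∧
    (0 : ℝ) < (rgR B : ℝ) ^ 3 ∧ 4 * ((B + 1) ^ 3 * (rgR B : ℝ) ^ 2) ≤ (rgR B : ℝ) ^ 3 := by
  have hq : (100 : ℝ) * (B + 1) ≤ rgR B := by exact_mod_cast rgR_ge B
  have he := rgR_cast B
  have hN : (N : ℝ) ≤ B := by exact_mod_cast h2
  have hB : (0 : ℝ) ≤ B := Nat.cast_nonneg _
  have hN0 : (0 : ℝ) ≤ N := Nat.cast_nonneg _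
  have hJ : ∀ i j, (0 : ℝ) ≤ ent J i j ∧ (ent J i j : ℝ) ≤ B := fun i j => by
    exact_mod_cast h3 i j
  have hr0 : (0 : ℝ) < rgR B := by linarith
  have hr2 : (0 : ℝ) < (rgR B : ℝ) ^ 2 := by positivity
  have h1 : (1 : ℝ) ≤ B + 1 := by linarith
  refine ⟨fun i j => add_comm _ _, fun i => by simp [rgT], by positivity, fun i j => ?_, ?_, ?_,
    by positivity, ?_⟩
  · have h4 := mul_le_mul_of_nonneg_right (hJ i j).2 hr2.le
    have h5 := mul_le_mul_of_nonneg_right (hJ j i).2 hr2.le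
    have h6 := mul_nonneg (hJ i j).1 hr2.le
    have h7 := mul_nonneg (hJ j i).1 hr2.le
    have h8 := mul_nonneg hB hr2.le
    unfold rgT
    rw [abs_le]
    split_ifs <;> constructor <;> nlinarith
  · rw [abs_of_pos hr2]
    nlinarith
  · rw [Fintype.card_fin]
    calc _ ≤ ((B : ℝ) + 1) * ((B + 1) * ((B + 1) * (rgR B : ℝ) ^ 2)) := by gcongr; linarith
      _ = _ := by ring
  · have h4 : 4 * ((B : ℝ) + 1) ^ 3 ≤ rgR B := by
      have := pow_le_pow_right₀ h1 (show 3 ≤ 12 by norm_num)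
      have h5 : (0 : ℝ) ≤ (B + 1) ^ 12 := by positivity
      rw [he]
      linarith
    calc _ = 4 * ((B : ℝ) + 1) ^ 3 * (rgR B : ℝ) ^ 2 := by ring
      _ ≤ rgR B * (rgR B : ℝ) ^ 2 := mul_le_mul_of_nonneg_right h4 hr2.le
      _ = _ := by ring

theorem red_SW_HC : Red YesSW NoSW YesHC NoHC := by
  refine ⟨rgMap, rgMap_pt, fun x hx => ⟨rgMap_valid hx.1, ?_⟩, fun x hx => ⟨rgMap_valid hx.1, ?_⟩⟩
  · obtain ⟨⟨B⟩, N, J, a, b⟩ := x
    obtain ⟨⟨h1, h2, h3, h4, h5, h6⟩, h⟩ := hx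
    simp only at h1 h2 h3 h4 h5 h6 h
    have hr : 0 < rgR B := by have := rgR_ge B; omega
    have hr' : (0 : ℝ) < rgR B := by exact_mod_cast hr
    obtain ⟨p1, p2, p3, p4, p5, p6, p7, p8⟩ := rg_params h2 h3
    rw [← rg_swMat N hr J] at h
    have h7 := (ring_yes p1 p2 p3 p4 p5 p6 p7 p8 h).smul (c := 2) (by norm_num)
    have h8 := (rg_err h2 (a := (a : ℝ)) (by exact_mod_cast h4)).2
    show FYes (Fin N) (fun _ => True)
      (hcMat (N + 1) (rgTab (min N B) (rgR B) J) (rgEps (min N B) (rgR B)))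
      ((2 * a - 2 * (N : ℚ) * (rgR B : ℚ) + 1 / 2 : ℚ) : ℝ)
    rw [min_eq_left h2, rg_hcMat]
    refine ((fYes_submatrix finSuccEquivLast (fun _ => True) _ _).2 h7).mono ?_
    rw [Fintype.card_fin]
    have e1 : (((rgR B : ℝ)) ^ 2) ^ 2 / (rgR B : ℝ) ^ 3 = rgR B := by field_simp
    have h9 : 0 ≤ 16 * ((B + 1) ^ 3 * (rgR B : ℝ) ^ 2) ^ 4 / ((rgR B : ℝ) ^ 3) ^ 3 := by
      positivity
    rw [e1] at h8 ⊢
    push_cast
    linarith
  · obtain ⟨⟨B⟩, N, J, a, b⟩ := x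
    obtain ⟨⟨h1, h2, h3, h4, h5, h6⟩, h⟩ := hx
    simp only at h1 h2 h3 h4 h5 h6 h
    have hr : 0 < rgR B := by have := rgR_ge B; omega
    have hr' : (0 : ℝ) < rgR B := by exact_mod_cast hr
    obtain ⟨p1, p2, p3, p4, p5, p6, p7, p8⟩ := rg_params h2 h3
    rw [← rg_swMat N hr J] at h
    obtain ⟨h10, h8⟩ := rg_err h2 (a := (b : ℝ)) (by exact_mod_cast h5)
    have h7 := (ring_no p1 p2 p3 p4 p5 p6 p7 p8 (by rwa [Fintype.card_fin]) h).smul (c := 2)
      (by norm_num)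
    show FNo (Fin N) (fun _ => True)
      (hcMat (N + 1) (rgTab (min N B) (rgR B) J) (rgEps (min N B) (rgR B)))
      ((2 * b - 2 * (N : ℚ) * (rgR B : ℚ) - 1 / 2 : ℚ) : ℝ)
    rw [min_eq_left h2, rg_hcMat]
    refine ((fNo_submatrix finSuccEquivLast (fun _ => True) _ _).2 h7).mono ?_
    rw [Fintype.card_fin]
    have e1 : (((rgR B : ℝ)) ^ 2) ^ 2 / (rgR B : ℝ) ^ 3 = rgR B := by field_simp
    rw [e1] at h8 ⊢
    push_cast
    linarith

end Crest.Agent.R338
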