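import Crest.Agent.R338.Bd

/-! # The step function `sig` and the bumps
`u ↦ (max u 0)^(n+1)` is `C^n` (induction: its derivative is `(n+1) (max u 0)^n`); the denominator of
`sig` is positive. -/

set_option autoImplicit false
set_option linter.dupNamespace false
set_option linter.unusedVariables false

noncomputable section

namespace Crest.Agent.R338

open Matrix MeasureTheory Set
open Crest.MathPhysics.ElectronicCoulomb

section
variable {𝕜 : Type} [Field 𝕜] [LinearOrder 𝕜] [IsStrictOrderedRing 𝕜]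

theorem sg_den_pos (u : 𝕜) : 0 < max u 0 ^ 10 + max (1 - u) 0 ^ 10 := by
  rcases le_or_gt u 0 with h | h
  · have : 0 < max (1 - u) 0 := lt_max_of_lt_left (by linarith)
    have h2 : 0 ≤ max u 0 := le_max_right _ _
    positivity
  · have : 0 < max u 0 := lt_max_of_lt_left h
    have h2 : 0 ≤ max (1 - u) 0 := le_max_right _ _
    positivity

theorem sig_of_nonpos {u : 𝕜} (h : u ≤ 0) : sig u = 0 := by
  simp [sig, max_eq_right h]
theorem sig_of_one_le {u : 𝕜} (h : 1 ≤ u) : sig u = 1 := by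
  have h1 := sg_den_pos u
  rw [sig, div_eq_one_iff_eq h1.ne', max_eq_right (sub_nonpos.2 h)]
  simp
theorem sig_nonneg (u : 𝕜) : 0 ≤ sig u := by
  exact div_nonneg (pow_nonneg (le_max_right _ _) _) (sg_den_pos u).le
theorem sig_le_one (u : 𝕜) : sig u ≤ 1 := by
  rw [sig, div_le_one (sg_den_pos u)]
  exact le_add_of_nonneg_right (pow_nonneg (le_max_right _ _) _)
theorem sig_mono : Monotone (sig : 𝕜 → 𝕜) := by
  intro u v h
  rw [sig, sig, div_le_div_iff₀ (sg_den_pos u) (sg_den_pos v)]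
  have h1 : max u 0 ^ 10 ≤ max v 0 ^ 10 :=
    pow_le_pow_left₀ (le_max_right _ _) (max_le_max_right _ h) _
  have h2 : max (1 - v) 0 ^ 10 ≤ max (1 - u) 0 ^ 10 :=
    pow_le_pow_left₀ (le_max_right _ _) (max_le_max_right _ (by linarith)) _
  have h3 := mul_le_mul h1 h2 (pow_nonneg (le_max_right _ _) _) (pow_nonneg (le_max_right _ _) _)
  linarith
theorem sig_add_sig (u : 𝕜) : sig u + sig (1 - u) = 1 := by
  rw [sig, sig, sub_sub_cancel, add_comm (max (1 - u) 0 ^ 10), ← add_div, div_self (sg_den_pos u).ne']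
theorem stepUp_eq_zero {a α x : 𝕜} (ha : 0 < a) (h : x ≤ α - a) : stepUp a α x = 0 := by
  refine sig_of_nonpos ?_
  have : (x - α) / a ≤ -1 := by rw [div_le_iff₀ ha]; linarith
  linarith
theorem stepUp_eq_one {a α x : 𝕜} (ha : 0 < a) (h : α ≤ x) : stepUp a α x = 1 := by
  exact sig_of_one_le (le_add_of_nonneg_left (div_nonneg (sub_nonneg.2 h) ha.le))
theorem stepDn_eq_zero {a β x : 𝕜} (ha : 0 < a) (h : β + a ≤ x) : stepDn a β x = 0 := by
  refine sig_of_nonpos ?_
  have : (β - x) / a ≤ -1 := by rw [div_le_iff₀ ha]; linarith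
  linarith
theorem stepDn_eq_one {a β x : 𝕜} (ha : 0 < a) (h : x ≤ β) : stepDn a β x = 1 := by
  exact sig_of_one_le (le_add_of_nonneg_left (div_nonneg (sub_nonneg.2 h) ha.le))
theorem stepUp_mono {a α : 𝕜} (ha : 0 < a) : Monotone (stepUp a α) := by
  intro x y h
  exact sig_mono (by gcongr)
theorem stepDn_anti {a β : 𝕜} (ha : 0 < a) : Antitone (stepDn a β) := by
  intro x y h
  exact sig_mono (by gcongr)
theorem stepUp_mem (a α x : 𝕜) : 0 ≤ stepUp a α x ∧ stepUp a α x ≤ 1 := by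
  exact ⟨sig_nonneg _, sig_le_one _⟩
theorem stepDn_mem (a β x : 𝕜) : 0 ≤ stepDn a β x ∧ stepDn a β x ≤ 1 := by
  exact ⟨sig_nonneg _, sig_le_one _⟩
theorem bump_mem (a α β x : 𝕜) : 0 ≤ bump a α β x ∧ bump a α β x ≤ 1 := by
  exact ⟨mul_nonneg (sig_nonneg _) (sig_nonneg _),
    mul_le_one₀ (sig_le_one _) (sig_nonneg _) (sig_le_one _)⟩
theorem gap_mem (a β α x : 𝕜) : 0 ≤ gap a β α x ∧ gap a β α x ≤ 1 := by
  have h1 := stepDn_mem a β x
  have h2 := stepUp_mem a α x
  exact ⟨mul_nonneg (sub_nonneg.2 h1.2) (sub_nonneg.2 h2.2),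
    mul_le_one₀ (by linarith [h1.1]) (sub_nonneg.2 h2.2) (by linarith [h2.1])⟩
theorem bump_eq_one {a α β x : 𝕜} (ha : 0 < a) (h1 : α ≤ x) (h2 : x ≤ β) : bump a α β x = 1 := by
  rw [bump, stepUp_eq_one ha h1, stepDn_eq_one ha h2, mul_one]
theorem bump_eq_zero {a α β x : 𝕜} (ha : 0 < a) (h : x ≤ α - a ∨ β + a ≤ x) :
    bump a α β x = 0 := by
  rcases h with h | h
  · rw [bump, stepUp_eq_zero ha h, zero_mul]
  · rw [bump, stepDn_eq_zero ha h, mul_zero]
theorem gap_eq_one {a β α x : 𝕜} (ha : 0 < a) (h1 : β + a ≤ x) (h2 : x ≤ α - a) :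
    gap a β α x = 1 := by
  simp [gap, stepDn_eq_zero ha h1, stepUp_eq_zero ha h2]
theorem gap_eq_zero {a β α x : 𝕜} (ha : 0 < a) (h : x ≤ β ∨ α ≤ x) : gap a β α x = 0 := by
  rcases h with h | h
  · simp [gap, stepDn_eq_one ha h]
  · simp [gap, stepUp_eq_one ha h]
end

theorem sig_cast (u : ℚ) : ((sig u : ℚ) : ℝ) = sig (u : ℝ) := by
  simp only [sig]; push_cast; rfl
theorem bump_cast (a α β x : ℚ) : ((bump a α β x : ℚ) : ℝ) = bump (a : ℝ) α β x := by
  simp only [bump, stepUp, stepDn, Rat.cast_mul, sig_cast]; push_cast; rfl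
theorem gap_cast (a β α x : ℚ) : ((gap a β α x : ℚ) : ℝ) = gap (a : ℝ) β α x := by
  simp only [gap, stepUp, stepDn, Rat.cast_mul, Rat.cast_sub, sig_cast]; push_cast; rfl

/-- The geometry with rational data, read in `ℝ`. -/
def Geo.toReal (g : Geo ℚ) : Geo ℝ :=
  ⟨g.K, g.D, g.a, g.Ssea, fun i j => g.sd i j, fun i j => g.lvH i j, fun i j => g.lvV i j,
    fun i j => g.ep i j⟩

theorem Geo.S_cast (g : Geo ℚ) (p : ℚ × ℚ) : ((g.S p : ℚ) : ℝ) = g.toReal.S (p.1, p.2) := by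
  simp only [Geo.S, Geo.toReal, cen]
  push_cast [bump_cast, gap_cast]
  rfl
theorem Geo.v_cast (g : Geo ℚ) (p : ℚ × ℚ) : ((g.v p : ℚ) : ℝ) = g.toReal.v (p.1, p.2) := by
  simp only [Geo.v, Geo.toReal]
  push_cast [bump_cast]
  rfl
theorem Geo.ε_cast (g : Geo ℚ) (p : ℚ × ℚ) : ((g.ε p : ℚ) : ℝ) = g.toReal.ε (p.1, p.2) := by
  simp only [Geo.ε, Geo.toReal, cen]
  push_cast [bump_cast]
  rfl

theorem sg_hasDerivAt (n : ℕ) (u : ℝ) :
    HasDerivAt (fun u : ℝ => max u 0 ^ (n + 2)) ((n + 2 : ℕ) * max u 0 ^ (n + 1)) u := by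
  rcases lt_trichotomy u 0 with h | rfl | h
  · rw [max_eq_right h.le, zero_pow (by omega), mul_zero]
    refine (hasDerivAt_const u (0 : ℝ)).congr_of_eventuallyEq ?_
    filter_upwards [gt_mem_nhds h] with v hv
    rw [max_eq_right hv.le, zero_pow (by omega)]
  · rw [hasDerivAt_iff_tendsto_slope_zero]
    have hc : Continuous fun u : ℝ => max u 0 ^ (n + 1) := by fun_prop
    have h1 := (hc.tendsto 0).mono_left (nhdsWithin_le_nhds (s := {0}ᶜ))
    simp only [max_self, zero_pow (Nat.succ_ne_zero _), mul_zero, zero_add, sub_zero,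
      smul_eq_mul] at h1 ⊢
    refine h1.congr' ?_
    filter_upwards [self_mem_nhdsWithin] with t ht
    rcases le_total t 0 with h | h
    · simp [max_eq_right h]
    · rw [max_eq_left h, pow_succ' t (n + 1), inv_mul_cancel_left₀ ht]
  · rw [max_eq_left h.le]
    refine (hasDerivAt_pow (n + 2) u).congr_of_eventuallyEq ?_
    filter_upwards [lt_mem_nhds h] with v hv
    rw [max_eq_left hv.le]

theorem sg_contDiff (n : ℕ) : ContDiff ℝ n fun u : ℝ => max u 0 ^ (n + 1) := by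
  induction n with
  | zero => exact contDiff_zero.2 (by fun_prop)
  | succ n ih =>
    rw [Nat.cast_succ, contDiff_succ_iff_deriv]
    refine ⟨fun u => (sg_hasDerivAt n u).differentiableAt, by simp, ?_⟩
    have : deriv (fun u : ℝ => max u 0 ^ (n + 1 + 1)) =
        fun u : ℝ => ((n + 2 : ℕ) : ℝ) * max u 0 ^ (n + 1) :=
      funext fun u => (sg_hasDerivAt n u).deriv
    rw [this]
    exact contDiff_const.mul ih

theorem contDiff_sig : ContDiff ℝ 9 (sig : ℝ → ℝ) := by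
  have h : ContDiff ℝ 9 fun u : ℝ => max u 0 ^ 10 := sg_contDiff 9
  exact h.div (h.add (h.comp (contDiff_const.sub contDiff_id))) fun u => (sg_den_pos u).ne'

theorem integral_sig : ∫ u in (0 : ℝ)..1, sig u = 1 / 2 := by
  have hc := contDiff_sig.continuous
  have h1 : ∫ u in (0 : ℝ)..1, sig (1 - u) = ∫ u in (0 : ℝ)..1, sig u := by
    simp [intervalIntegral.integral_comp_sub_left (fun u => (sig u : ℝ)) 1]
  have hc' : Continuous fun u : ℝ => sig (1 - u) := hc.comp (continuous_const.sub continuous_id)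
  have h2 := intervalIntegral.integral_add (μ := volume) (hc.intervalIntegrable 0 1)
    (hc'.intervalIntegrable 0 1)
  simp only [sig_add_sig, h1] at h2
  simp at h2
  linarith

/-- Derivative bounds, with an absolute constant. -/
theorem exists_sig_bd : ∃ C : ℝ, 1 ≤ C ∧ Bd 9 C (sig : ℝ → ℝ) ∧
    ∀ a α β : ℝ, 0 < a → a ≤ 1 → ∀ k ≤ 9, Bd k (C / a ^ k) (stepUp a α) ∧
      Bd k (C / a ^ k) (stepDn a β) ∧ Bd k (C / a ^ (2 * k)) (bump a α β) ∧
      Bd k (C / a ^ (2 * k)) (gap a β α) := by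
  obtain ⟨M, hM, hb⟩ := exists_bd (k := 9) contDiff_sig (isCompact_Icc (a := (0 : ℝ)) (b := 1))
    (fun x hx => by
      rcases not_and_or.1 hx with h | h
      · filter_upwards [gt_mem_nhds (not_le.1 h)] with y hy
        rw [sig_of_nonpos hy.le, sig_of_nonpos (not_le.1 h).le]
      · filter_upwards [lt_mem_nhds (not_le.1 h)] with y hy
        rw [sig_of_one_le hy.le, sig_of_one_le (not_le.1 h).le])
    (c := 1) (fun x => by rw [abs_of_nonneg (sig_nonneg x)]; exact sig_le_one x)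
  have hC : M ≤ 2048 * M ^ 2 := by nlinarith
  refine ⟨2048 * M ^ 2, hM.trans hC, hb.mono le_rfl hC, fun a α β ha ha1 k hk => ?_⟩
  have hi : 1 ≤ a⁻¹ := (one_le_inv₀ ha).2 ha1
  have hP : 1 ≤ a⁻¹ ^ k := one_le_pow₀ hi
  have hU : Bd k (a⁻¹ ^ k * M) (stepUp a α) := by
    have := (hb.mono hk le_rfl).comp_affine (a⁻¹ • ContinuousLinearMap.id ℝ ℝ) (1 - α / a)
      (c := a⁻¹) (by rw [norm_smul]; simp [abs_of_pos ha]) hi
    convert this using 2 with x
    simp only [stepUp, _root_.smul_apply, ContinuousLinearMap.id_apply, smul_eq_mul]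
    congr 1; ring
  have hD : Bd k (a⁻¹ ^ k * M) (stepDn a β) := by
    have := (hb.mono hk le_rfl).comp_affine ((-a⁻¹) • ContinuousLinearMap.id ℝ ℝ) (1 + β / a)
      (c := a⁻¹) (by rw [norm_smul]; simp [abs_of_pos ha]) hi
    convert this using 2 with x
    simp only [stepDn, _root_.smul_apply, ContinuousLinearMap.id_apply, smul_eq_mul]
    congr 1; ring
  have e1 : 2048 * M ^ 2 / a ^ k = a⁻¹ ^ k * (2048 * M ^ 2) := by rw [inv_pow]; ring
  have e2 : 2048 * M ^ 2 / a ^ (2 * k) = 512 * (2 * (a⁻¹ ^ k * M)) * (2 * (a⁻¹ ^ k * M)) := by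
    rw [inv_pow, pow_mul']; field_simp; ring
  have h2 : (2 : ℝ) ^ k ≤ 512 := (pow_le_pow_right₀ one_le_two hk).trans (by norm_num)
  have hQ : 1 ≤ a⁻¹ ^ k * M := one_le_mul_of_one_le_of_one_le hP hM
  rw [e1, e2]
  refine ⟨hU.mono le_rfl (by gcongr), hD.mono le_rfl (by gcongr), (hU.mul hD).mono le_rfl ?_,
    (((Bd.const k 1).sub hD).mul ((Bd.const k 1).sub hU)).mono le_rfl ?_⟩
  · generalize a⁻¹ ^ k * M = Q at *
    gcongr <;> linarith
  · generalize a⁻¹ ^ k * M = Q at *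
    rw [abs_one]
    gcongr <;> linarith

end Crest.Agent.R338
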