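import Crest.Agent.R338.Defs

/-! # Algebra of `tens` and `loc`
All proofs are by `ext`, `Matrix.mul_apply`, `Finset.prod_univ_sum` / `Fintype.piFinset_univ`,
`Finset.prod_update_of_mem`, `Finset.mul_prod_erase`. -/

set_option autoImplicit false
set_option linter.dupNamespace false
set_option linter.unusedVariables false

noncomputable section

namespace Crest.Agent.R338

open Crest.Agent.Lib.PT Matrix

variable {ι β γ δ : Type} [Fintype ι] [DecidableEq ι]

omit [DecidableEq ι] in
theorem tn_tens_apply (A : ι → Matrix β γ ℝ) (x : ι → β) (y : ι → γ) :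
    tens A x y = ∏ i, A i (x i) (y i) := rfl

theorem tn_tens_update_apply (A : ι → Matrix β γ ℝ) (i : ι) (B : Matrix β γ ℝ) (x : ι → β)
    (y : ι → γ) :
    tens (Function.update A i B) x y =
      B (x i) (y i) * ∏ j ∈ Finset.univ.erase i, A j (x j) (y j) := by
  rw [tn_tens_apply, ← Finset.mul_prod_erase _ _ (Finset.mem_univ i), Function.update_self]
  congr 1
  exact Finset.prod_congr rfl fun j hj => by
    rw [Function.update_of_ne (Finset.ne_of_mem_erase hj)]

theorem tens_mul [Fintype γ] (A : ι → Matrix β γ ℝ) (B : ι → Matrix γ δ ℝ) :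
    tens A * tens B = tens fun i => A i * B i := by
  ext x z
  simp only [Matrix.mul_apply, tn_tens_apply, ← Finset.prod_mul_distrib]
  rw [Finset.prod_univ_sum, Fintype.piFinset_univ]

omit [DecidableEq ι] in
theorem tens_transpose (A : ι → Matrix β γ ℝ) : (tens A)ᵀ = tens fun i => (A i)ᵀ := by
  ext x y
  rfl

theorem tens_one [DecidableEq β] : tens (fun _ : ι => (1 : Matrix β β ℝ)) = 1 := by
  ext x y
  rw [tn_tens_apply]
  by_cases h : x = y
  · subst h
    simp
  · rw [Matrix.one_apply_ne h]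
    obtain ⟨i, hi⟩ := Function.ne_iff.1 h
    exact Finset.prod_eq_zero (Finset.mem_univ i) (Matrix.one_apply_ne hi)

theorem tens_update_add (A : ι → Matrix β γ ℝ) (i : ι) (B C : Matrix β γ ℝ) :
    tens (Function.update A i (B + C)) =
      tens (Function.update A i B) + tens (Function.update A i C) := by
  ext x y
  simp only [Matrix.add_apply, tn_tens_update_apply, add_mul]

theorem tens_update_smul (A : ι → Matrix β γ ℝ) (i : ι) (c : ℝ) (B : Matrix β γ ℝ) :
    tens (Function.update A i (c • B)) = c • tens (Function.update A i B) := by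
  ext x y
  simp only [Matrix.smul_apply, tn_tens_update_apply, smul_eq_mul, mul_assoc]

theorem tens_update_sum {κ : Type} (s : Finset κ) (A : ι → Matrix β γ ℝ) (i : ι)
    (B : κ → Matrix β γ ℝ) :
    tens (Function.update A i (∑ k ∈ s, B k)) = ∑ k ∈ s, tens (Function.update A i (B k)) := by
  ext x y
  simp only [Matrix.sum_apply, tn_tens_update_apply, Finset.sum_mul]

omit [DecidableEq ι] in
theorem tens_eq_zero (A : ι → Matrix β γ ℝ) (i : ι) (h : A i = 0) : tens A = 0 := by
  ext x y
  rw [tn_tens_apply, Matrix.zero_apply]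
  exact Finset.prod_eq_zero (Finset.mem_univ i) (by rw [h, Matrix.zero_apply])

omit [DecidableEq ι] in
theorem tens_smul (c : ι → ℝ) (A : ι → Matrix β γ ℝ) :
    tens (fun i => c i • A i) = (∏ i, c i) • tens A := by
  ext x y
  simp only [Matrix.smul_apply, tn_tens_apply, smul_eq_mul, Finset.prod_mul_distrib]

/-- Tensor products over a sum of index types. -/
theorem tens_sum_apply {ι' : Type} [Fintype ι'] (A : ι ⊕ ι' → Matrix β γ ℝ) (x : ι ⊕ ι' → β)
    (y : ι ⊕ ι' → γ) :
    tens A x y = tens (fun i => A (Sum.inl i)) (fun i => x (Sum.inl i)) (fun i => y (Sum.inl i)) *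
      tens (fun i => A (Sum.inr i)) (fun i => x (Sum.inr i)) (fun i => y (Sum.inr i)) := by
  simp only [tn_tens_apply, Fintype.prod_sum_type]

omit [DecidableEq ι] in
/-- Relabelling the factors. -/
theorem tens_comp_equiv {ι' : Type} [Fintype ι'] (e : ι' ≃ ι) (A : ι → Matrix β γ ℝ) (x : ι → β)
    (y : ι → γ) : tens (fun i => A (e i)) (x ∘ e) (y ∘ e) = tens A x y := by
  simp only [tn_tens_apply, Function.comp_apply]
  exact Equiv.prod_comp e fun i => A i (x i) (y i)

variable [DecidableEq β]

theorem loc_eq_update (i : ι) (A : Matrix β β ℝ) :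
    loc i A = tens (Function.update (fun _ => (1 : Matrix β β ℝ)) i A) := by
  unfold loc
  congr 1
  funext j
  rw [Function.update_apply]

theorem loc_apply (i : ι) (A : Matrix β β ℝ) (x y : ι → β) :
    loc i A x y = if ∀ j, j ≠ i → x j = y j then A (x i) (y i) else 0 := by
  rw [loc_eq_update, tn_tens_update_apply]
  split_ifs with h
  · rw [Finset.prod_eq_one, mul_one]
    intro j hj
    rw [h j (Finset.ne_of_mem_erase hj), Matrix.one_apply_eq]
  · push Not at h
    obtain ⟨j, hj, hxy⟩ := h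
    exact mul_eq_zero_of_right _ (Finset.prod_eq_zero (Finset.mem_erase.2 ⟨hj, Finset.mem_univ j⟩)
      (Matrix.one_apply_ne hxy))

theorem loc_mulVec [Fintype β] (i : ι) (A : Matrix β β ℝ) (ψ : (ι → β) → ℝ) (x : ι → β) :
    (loc i A *ᵥ ψ) x = ∑ b, A (x i) b * ψ (Function.update x i b) := by
  simp only [Matrix.mulVec, dotProduct, loc_apply]
  symm
  refine Finset.sum_of_injOn (fun b => Function.update x i b) ?_ (fun _ _ => Finset.mem_univ _) ?_ ?_
  · intro b _ b' _ hb
    exact Function.update_injective x i hb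
  · intro y _ hy
    rw [if_neg, zero_mul]
    intro h
    refine hy ⟨y i, Finset.mem_coe.2 (Finset.mem_univ _), ?_⟩
    funext j
    by_cases hj : j = i
    · subst hj
      simp
    · simp only [Function.update_of_ne hj]
      exact h j hj
  · intro b _
    rw [if_pos fun j hj => (Function.update_of_ne hj _ _).symm, Function.update_self]

theorem loc_one (i : ι) : loc i (1 : Matrix β β ℝ) = 1 := by
  rw [loc_eq_update, Function.update_eq_self, tens_one]

theorem loc_zero (i : ι) : loc i (0 : Matrix β β ℝ) = 0 := by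
  exact tens_eq_zero _ i (if_pos rfl)

theorem loc_add (i : ι) (A B : Matrix β β ℝ) : loc i (A + B) = loc i A + loc i B := by
  simp only [loc_eq_update, tens_update_add]

theorem loc_sub (i : ι) (A B : Matrix β β ℝ) : loc i (A - B) = loc i A - loc i B := by
  rw [eq_sub_iff_add_eq, ← loc_add, sub_add_cancel]

theorem loc_smul (i : ι) (c : ℝ) (A : Matrix β β ℝ) : loc i (c • A) = c • loc i A := by
  simp only [loc_eq_update, tens_update_smul]

theorem loc_sum {κ : Type} (s : Finset κ) (i : ι) (A : κ → Matrix β β ℝ) :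
    loc i (∑ k ∈ s, A k) = ∑ k ∈ s, loc i (A k) := by
  simp only [loc_eq_update, tens_update_sum]

theorem loc_transpose (i : ι) (A : Matrix β β ℝ) : (loc i A)ᵀ = loc i Aᵀ := by
  unfold loc
  rw [tens_transpose]
  congr 1
  funext j
  split_ifs
  · rfl
  · exact Matrix.transpose_one

theorem loc_mul [Fintype β] (i : ι) (A B : Matrix β β ℝ) : loc i A * loc i B = loc i (A * B) := by
  unfold loc
  rw [tens_mul]
  congr 1
  funext j
  split_ifs
  · rfl
  · exact Matrix.one_mul _

theorem loc_comm [Fintype β] {i j : ι} (h : i ≠ j) (A B : Matrix β β ℝ) :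
    loc i A * loc j B = loc j B * loc i A := by
  unfold loc
  rw [tens_mul, tens_mul]
  congr 1
  funext k
  by_cases h1 : k = i
  · subst h1
    simp [h]
  · simp [h1]

theorem loc_mul_tens [Fintype β] (i : ι) (A : Matrix β β ℝ) (B : ι → Matrix β γ ℝ) :
    loc i A * tens B = tens (Function.update B i (A * B i)) := by
  unfold loc
  rw [tens_mul]
  congr 1
  funext k
  by_cases h1 : k = i
  · subst h1
    simp
  · simp [h1]

theorem tens_mul_loc [Fintype β] (i : ι) (B : ι → Matrix γ β ℝ) (A : Matrix β β ℝ) :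
    tens B * loc i A = tens (Function.update B i (B i * A)) := by
  unfold loc
  rw [tens_mul]
  congr 1
  funext k
  by_cases h1 : k = i
  · subst h1
    simp
  · simp [h1]

theorem tn_proj_le {κ : Type} [Fintype κ] [DecidableEq κ] {P Q : Matrix κ κ ℝ} (hP : Pᵀ = P)
    (hQ : Qᵀ = Q) (hPP : P * P = P) (hQQ : Q * Q = Q) (hPQ : P * Q = Q * P) (x : κ → ℝ) :
    x ⬝ᵥ (P * Q) *ᵥ x ≤ x ⬝ᵥ Q *ᵥ x := by
  have h1 : (Q - P * Q)ᵀ = Q - P * Q := by
    rw [Matrix.transpose_sub, Matrix.transpose_mul, hP, hQ, hPQ]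
  have h2 : (Q - P * Q) * (Q - P * Q) = Q - P * Q := by
    have e1 : Q * (P * Q) = P * Q := by rw [← Matrix.mul_assoc, ← hPQ, Matrix.mul_assoc, hQQ]
    have e2 : P * Q * Q = P * Q := by rw [Matrix.mul_assoc, hQQ]
    have e3 : P * Q * (P * Q) = P * Q := by
      rw [Matrix.mul_assoc, e1, ← Matrix.mul_assoc, hPP]
    rw [Matrix.sub_mul, Matrix.mul_sub, Matrix.mul_sub, hQQ, e1, e2, e3, sub_self, sub_zero]
  have h3 : x ⬝ᵥ (Q - P * Q) *ᵥ x = ((Q - P * Q) *ᵥ x) ⬝ᵥ ((Q - P * Q) *ᵥ x) := by
    conv_lhs => rw [← h2, ← Matrix.mulVec_mulVec, Matrix.dotProduct_mulVec, ← h1,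
      Matrix.vecMul_transpose, h1]
  have h4 : 0 ≤ ((Q - P * Q) *ᵥ x) ⬝ᵥ ((Q - P * Q) *ᵥ x) :=
    Finset.sum_nonneg fun k _ => mul_self_nonneg _
  rw [← h3, Matrix.sub_mulVec, dotProduct_sub] at h4
  linarith

/-- Commuting projections: `1 - ∏ πᵢ ≤ ∑ (1 - πᵢ)`.  Induction over a finset `s` for
`P s = tens (fun i => if i ∈ s then π i else 1)`: `P s - P (insert i s) = P s * loc i (1 - π i)` and
`x ⬝ P s * Q x = |P s Q x|² ≤ |Q x|² = x ⬝ Q x` for commuting symmetric idempotents `P s`, `Q`. -/
theorem proj_sum [Fintype β] (π : ι → Matrix β β ℝ) (hs : ∀ i, (π i)ᵀ = π i)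
    (hi : ∀ i, π i * π i = π i) (x : (ι → β) → ℝ) :
    x ⬝ᵥ x - x ⬝ᵥ tens π *ᵥ x ≤ ∑ i, x ⬝ᵥ loc i (1 - π i) *ᵥ x := by
  have key : ∀ s : Finset ι, x ⬝ᵥ x - x ⬝ᵥ (tens fun i => if i ∈ s then π i else 1) *ᵥ x ≤
      ∑ i ∈ s, x ⬝ᵥ loc i (1 - π i) *ᵥ x := by
    intro s
    induction s using Finset.induction_on with
    | empty => simp [tens_one]
    | insert i s his ih =>
      set P : Matrix (ι → β) (ι → β) ℝ := tens fun i => if i ∈ s then π i else 1 with hP
      have h1 : (tens fun j => if j ∈ insert i s then π j else 1) = P * loc i (π i) := by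
        rw [hP, tens_mul_loc]
        congr 1
        funext k
        by_cases h1 : k = i
        · subst h1
          simp [his]
        · simp [h1]
      have hPt : Pᵀ = P := by
        rw [hP, tens_transpose]
        congr 1
        funext k
        split_ifs
        · exact hs k
        · exact Matrix.transpose_one
      have hPP : P * P = P := by
        rw [hP, tens_mul]
        congr 1
        funext k
        split_ifs
        · exact hi k
        · exact Matrix.one_mul _
      have hQt : (loc i (1 - π i))ᵀ = loc i (1 - π i) := by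
        rw [loc_transpose, Matrix.transpose_sub, Matrix.transpose_one, hs]
      have hQQ : loc i (1 - π i) * loc i (1 - π i) = loc i (1 - π i) := by
        rw [loc_mul, Matrix.sub_mul, Matrix.mul_sub, Matrix.mul_sub, hi]
        simp
      have hPQ : P * loc i (1 - π i) = loc i (1 - π i) * P := by
        rw [hP, tens_mul_loc, loc_mul_tens]
        simp [his]
      have h2 := tn_proj_le hPt hQt hPP hQQ hPQ x
      have h3 : P * loc i (1 - π i) = P - P * loc i (π i) := by
        rw [loc_sub, loc_one, Matrix.mul_sub, Matrix.mul_one]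
      rw [h3, Matrix.sub_mulVec, dotProduct_sub] at h2
      rw [Finset.sum_insert his, h1]
      linarith
  simpa using key Finset.univ

theorem tn_loc_form_slice [Fintype β] (i : ι) (A : Matrix β β ℝ) (x : (ι → β) → ℝ) :
    x ⬝ᵥ loc i A *ᵥ x = ∑ z : {j // j ≠ i} → β,
      (fun a => x ((Equiv.funSplitAt i β).symm (a, z))) ⬝ᵥ
        A *ᵥ fun a => x ((Equiv.funSplitAt i β).symm (a, z)) := by
  have h1 : ∀ (a : β) (z : {j // j ≠ i} → β), (Equiv.funSplitAt i β).symm (a, z) i = a := by
    intro a z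
    simp [Equiv.funSplitAt, Equiv.piSplitAt]
  have h2 : ∀ (a b : β) (z : {j // j ≠ i} → β),
      Function.update ((Equiv.funSplitAt i β).symm (a, z)) i b =
        (Equiv.funSplitAt i β).symm (b, z) := by
    intro a b z
    funext j
    by_cases hj : j = i
    · subst hj
      rw [Function.update_self, h1]
    · rw [Function.update_of_ne hj]
      simp [Equiv.funSplitAt, Equiv.piSplitAt, hj]
  rw [dotProduct, ← Equiv.sum_comp (Equiv.funSplitAt i β).symm, Fintype.sum_prod_type,
    Finset.sum_comm]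
  refine Finset.sum_congr rfl fun z _ => Finset.sum_congr rfl fun a _ => ?_
  rw [loc_mulVec, h1]
  simp only [h2]
  rfl

/-- The form of `loc` slice by slice is monotone. -/
theorem loc_form_mono [Fintype β] (i : ι) {A B : Matrix β β ℝ}
    (h : ∀ u : β → ℝ, u ⬝ᵥ A *ᵥ u ≤ u ⬝ᵥ B *ᵥ u) (x : (ι → β) → ℝ) :
    x ⬝ᵥ loc i A *ᵥ x ≤ x ⬝ᵥ loc i B *ᵥ x := by
  rw [tn_loc_form_slice, tn_loc_form_slice]
  exact Finset.sum_le_sum fun z _ => h _

theorem swapMat_mulVec [Fintype β] (i j : ι) (ψ : (ι → β) → ℝ) (x : ι → β) :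
    (swapMat i j *ᵥ ψ) x = ψ (x ∘ Equiv.swap i j) := by
  simp [swapMat, Matrix.mulVec, dotProduct]

theorem swapMat_transpose (i j : ι) : (swapMat i j : Matrix (ι → β) (ι → β) ℝ)ᵀ = swapMat i j := by
  ext x y
  simp only [swapMat, Matrix.transpose_apply, Matrix.of_apply]
  refine if_congr ⟨?_, ?_⟩ rfl rfl <;>
  · rintro rfl
    funext k
    simp

theorem swapMat_comm (i j : ι) : (swapMat i j : Matrix (ι → β) (ι → β) ℝ) = swapMat j i := by
  unfold swapMat
  rw [Equiv.swap_comm]

theorem swapMat_mul_self [Fintype β] (i j : ι) :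
    (swapMat i j : Matrix (ι → β) (ι → β) ℝ) * swapMat i j = 1 := by
  ext x y
  have h1 : (swapMat i j * swapMat i j : Matrix (ι → β) (ι → β) ℝ) x y =
      (swapMat i j *ᵥ fun z => (swapMat i j : Matrix (ι → β) (ι → β) ℝ) z y) x := rfl
  rw [h1, swapMat_mulVec]
  have h2 : (x ∘ Equiv.swap i j) ∘ Equiv.swap i j = x := by
    funext k
    simp
  simp only [swapMat, Matrix.of_apply, h2, Matrix.one_apply, eq_comm]

theorem tn_loc_mul_loc_apply [Fintype β] {i j : ι} (h : i ≠ j) (A B : Matrix β β ℝ) (x y : ι → β) :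
    (loc i A * loc j B) x y =
      if ∀ k, k ≠ i → k ≠ j → x k = y k then A (x i) (y i) * B (x j) (y j) else 0 := by
  rw [loc_eq_update j, loc_mul_tens, Function.update_of_ne h, Matrix.mul_one, tn_tens_update_apply,
    ← Finset.mul_prod_erase _ _ (Finset.mem_erase.2 ⟨h.symm, Finset.mem_univ j⟩),
    Function.update_self]
  split_ifs with h1
  · rw [Finset.prod_eq_one, mul_one]
    intro k hk
    have hkj := Finset.ne_of_mem_erase hk
    have hki := Finset.ne_of_mem_erase (Finset.mem_of_mem_erase hk)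
    rw [Function.update_of_ne hkj, h1 k hki hkj, Matrix.one_apply_eq]
  · push Not at h1
    obtain ⟨k, hki, hkj, hxy⟩ := h1
    rw [Finset.prod_eq_zero (Finset.mem_erase.2 ⟨hkj, Finset.mem_erase.2 ⟨hki, Finset.mem_univ k⟩⟩)
      (by rw [Function.update_of_ne hkj, Matrix.one_apply_ne hxy]), mul_zero, mul_zero]

theorem tn_swapMat_apply {i j : ι} (x y : ι → β) :
    (swapMat i j : Matrix (ι → β) (ι → β) ℝ) x y =
      if ∀ k, k ≠ i → k ≠ j → x k = y k then (if y i = x j ∧ y j = x i then 1 else 0) else 0 := by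
  rw [← ite_and]
  simp only [swapMat, Matrix.of_apply]
  refine if_congr ⟨?_, ?_⟩ rfl rfl
  · rintro rfl
    refine ⟨fun k hki hkj => ?_, by simp, by simp⟩
    rw [Function.comp_apply, Equiv.swap_apply_of_ne_of_ne hki hkj]
  · rintro ⟨h1, h2, h3⟩
    funext k
    by_cases hki : k = i
    · subst hki
      simpa using h2
    by_cases hkj : k = j
    · subst hkj
      simpa using h3
    rw [Function.comp_apply, Equiv.swap_apply_of_ne_of_ne hki hkj, h1 k hki hkj]

/-- `SWAP = (1 + XX + ZZ - WW)/2` with `W = XZ`, for two different qubits. -/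
theorem swapMat_eq {i j : ι} (h : i ≠ j) :
    (swapMat i j : Matrix (ι → Bool) (ι → Bool) ℝ) =
      (1 / 2 : ℝ) • (1 + loc i pX * loc j pX + loc i pZ * loc j pZ -
        loc i (pX * pZ) * loc j (pX * pZ)) := by
  have h1 : (1 : Matrix (ι → Bool) (ι → Bool) ℝ) = loc i 1 * loc j 1 := by
    rw [loc_one, loc_one, Matrix.one_mul]
  rw [h1]
  ext x y
  simp only [Matrix.smul_apply, Matrix.sub_apply, Matrix.add_apply, tn_loc_mul_loc_apply h,
    tn_swapMat_apply, smul_eq_mul]
  by_cases h2 : ∀ k, k ≠ i → k ≠ j → x k = y k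
  · simp only [if_pos h2]
    generalize x i = a
    generalize x j = b
    generalize y i = c
    generalize y j = d
    cases a <;> cases b <;> cases c <;> cases d <;>
      simp [pX, pZ, Matrix.mul_apply] <;> norm_num
  · simp only [if_neg h2]
    norm_num

end Crest.Agent.R338
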